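import Crest.Agent.R182.EDefs

/-! Row 182, block E: the level sets of a homomorphism onto `ℤ^k` with finitely generated kernel are
coarsely connected inside balls of comparable radius. -/

set_option autoImplicit false
set_option linter.dupNamespace false

namespace Crest.Agent.R182

open Crest.GroupTheory

variable {G H P : Type*} [Group G] [Group H] [Group P] {k : ℕ}

/-- change of generators along a link: every `X`-step is an `S`-geodesic of length `c`
(`Reach.of_ball`, `Link.chain`) -/
theorem Link.change {X S A A' : Set G} {c : ℕ} (hX : ∀ t ∈ X, t ∈ Ball S c)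
    (hA : ∀ z ∈ A, BallAt S z c ⊆ A') {x y : G} (h : Link X A x y) : Link S A' x y := by
  obtain ⟨n, p, rfl, rfl, p2, p3⟩ := h
  refine Link.chain p n (hA _ (p3 0 (Nat.zero_le _)) (BallAt.self _ _ _)) fun i hi => ?_
  have h1 := Ball.subset_of hX 1 (p2 i hi)
  rw [one_mul] at h1
  exact ⟨c, (Reach.of_ball h1).mono (hA _ (p3 i hi.le))⟩

theorem h31_unif {α : Type*} {F : Set α} (hF : F.Finite) {Q : α → ℕ → Prop}
    (hm : ∀ a m n, m ≤ n → Q a m → Q a n) (h : ∀ a ∈ F, ∃ n, Q a n) : ∃ n, ∀ a ∈ F, Q a n := by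
  choose! r hr using h
  obtain ⟨B, hB⟩ := (hF.image r).bddAbove
  exact ⟨B, fun a ha => hm a _ _ (hB (Set.mem_image_of_mem r ha)) (hr a ha)⟩

theorem h31_gen_ball {X S : Set G} (hX : X.Finite) (hS' : Subgroup.closure S = ⊤) :
    ∃ c, ∀ t ∈ X, t ∈ Ball S c :=
  h31_unif hX (fun _ _ _ h ha => Ball.mono subset_rfl h ha) fun a _ =>
    Ball.exists_of_mem_closure (hS' ▸ Subgroup.mem_top a)

theorem h31_letter_mem {S : Set G} {s : G} (hs : s ∈ S ∨ s⁻¹ ∈ S) : s ∈ Ball S 1 := by
  rcases hs with hs | hs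
  · exact Ball.mem_of_mem hs
  · exact inv_inv s ▸ Ball.inv_mem (Ball.mem_of_mem hs)

/-- conjugation by one letter. `X` generates the normal subgroup `N`; choose `c` with
`s * t * s⁻¹ ∈ Ball X c` for `s ∈ Ball S 1`, `t ∈ Ball X 1` and `X ⊆ Ball S c`; the points `s * p i * s⁻¹`
are joined by `X`-geodesics of length `c`. -/
theorem link_conj_one {X S : Set G} (hX : X.Finite) (hS : S.Finite)
    (hS' : Subgroup.closure S = ⊤) (hN : (Subgroup.closure X).Normal) :
    ∃ C : ℕ, ∀ s ∈ Ball S 1, ∀ (n : G) (R : ℕ), Link X (Ball S R) 1 n →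
      Link X (Ball S (R + C)) 1 (s * n * s⁻¹) := by
  obtain ⟨c₂, h2⟩ := h31_gen_ball hX hS'
  obtain ⟨c₁, h1⟩ := h31_unif ((Ball.finite hS 1).prod (Ball.finite hX 1))
    (Q := fun a n => a.1 * a.2 * a.1⁻¹ ∈ Ball X n) (fun _ _ _ h ha => Ball.mono subset_rfl h ha)
    fun a ha => Ball.exists_of_mem_closure (hN.conj_mem _ (Ball.mem_closure ha.2) _)
  refine ⟨2 + c₁ * c₂, fun s hs n R ⟨m, p, p0, p1, p2, p3⟩ => ?_⟩
  have key := Link.chain (T := X) (A := Ball S (R + (2 + c₁ * c₂))) (fun i => s * p i * s⁻¹) m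
    (by simp only [p0, mul_one, mul_inv_cancel]; exact Ball.one_mem _ _) fun i hi => by
      have h3 : (s * p i * s⁻¹)⁻¹ * (s * p (i + 1) * s⁻¹) ∈ Ball X c₁ := by
        have h4 := h1 (s, (p i)⁻¹ * p (i + 1)) ⟨hs, p2 i hi⟩
        rwa [show (s * p i * s⁻¹)⁻¹ * (s * p (i + 1) * s⁻¹) = s * ((p i)⁻¹ * p (i + 1)) * s⁻¹ by
          group]
      refine ⟨c₁, (Reach.of_ball h3).mono fun z hz => ?_⟩
      have h5 := Ball.mul_mem (Ball.mul_mem (Ball.mul_mem hs (p3 i hi.le)) (Ball.inv_mem hs))
        (Ball.subset_of h2 c₁ hz)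
      rw [mul_inv_cancel_left] at h5
      exact Ball.mono subset_rfl (by omega) h5
  simpa only [p0, p1, mul_one, mul_inv_cancel] using key

/-- iterate `link_conj_one`; the finitely many `n ∈ N ∩ Ball S c₀` are linked to `1` in one ball -/
theorem link_conj {X S : Set G} (hX : X.Finite) (hS : S.Finite)
    (hS' : Subgroup.closure S = ⊤) (hN : (Subgroup.closure X).Normal) (c₀ : ℕ) :
    ∃ C : ℕ, ∀ n ∈ Ball S c₀, n ∈ Subgroup.closure X → ∀ (L : ℕ), ∀ q ∈ Ball S L,
      Link X (Ball S (C * L + C)) 1 (q * n * q⁻¹) := by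
  obtain ⟨C₁, h1⟩ := link_conj_one hX hS hS' hN
  obtain ⟨c₂, h2⟩ := h31_gen_ball hX hS'
  obtain ⟨R₀, h0⟩ := h31_unif
    ((Ball.finite hS c₀).inter_of_left (Subgroup.closure X : Set G))
    (Q := fun n R => Link X (Ball S R) 1 n) (fun _ _ _ h ha => ha.mono (Ball.mono subset_rfl h))
    fun n hn => by
      obtain ⟨r, hr⟩ := Ball.exists_of_mem_closure hn.2
      refine ⟨r * c₂, r, (Reach.of_ball (by rwa [inv_one, one_mul])).mono fun z hz => ?_⟩
      have h3 := Ball.subset_of h2 r hz
      rwa [inv_one, one_mul] at h3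
  refine ⟨R₀ + C₁, fun n hn hnX L q hq => ?_⟩
  have key : Link X (Ball S (R₀ + C₁ * L)) 1 (q * n * q⁻¹) := by
    induction L generalizing q with
    | zero =>
      rw [h31_ball_zero, Set.mem_singleton_iff] at hq
      rw [hq, one_mul, inv_one, mul_one]
      exact h0 n ⟨hn, hnX⟩
    | succ L ih =>
      rcases h31_ball_succ hq with rfl | ⟨x, hx, b, hb, rfl⟩
      · rw [one_mul, inv_one, mul_one]
        exact (h0 n ⟨hn, hnX⟩).mono (Ball.mono subset_rfl (Nat.le_add_right _ _))
      · have h3 := h1 x (h31_letter_mem hx) _ _ (ih b hb)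
        rwa [show x * (b * n * b⁻¹) * x⁻¹ = x * b * n * (x * b)⁻¹ by group, add_assoc,
          ← Nat.mul_succ] at h3
  exact key.mono (Ball.mono subset_rfl (by nlinarith [Nat.zero_le (R₀ * L)]))

/-- replace a bounded prefix: `b * q = a * q * (q⁻¹ * (a⁻¹ * b) * q)`, `Link.mul_left` -/
theorem link_replace {X S : Set G} (hX : X.Finite) (hS : S.Finite)
    (hS' : Subgroup.closure S = ⊤) (hN : (Subgroup.closure X).Normal) (c₀ : ℕ) :
    ∃ C : ℕ, ∀ a ∈ Ball S c₀, ∀ b ∈ Ball S c₀, a⁻¹ * b ∈ Subgroup.closure X → ∀ (L : ℕ),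
      ∀ q ∈ Ball S L, Link X (Ball S (C * L + C)) (a * q) (b * q) := by
  obtain ⟨C, h⟩ := link_conj hX hS hS' hN (c₀ + c₀)
  refine ⟨C + c₀ + 1, fun a ha b hb hab L q hq => ?_⟩
  have h1 := (h _ (Ball.mul_mem (Ball.inv_mem ha) hb) hab L _ (Ball.inv_mem hq)).mul_left
    (A' := Ball S ((C + c₀ + 1) * L + (C + c₀ + 1))) (a * q) fun z hz =>
      Ball.mono subset_rfl (by nlinarith [Nat.zero_le (c₀ * L)])
        (Ball.mul_mem (Ball.mul_mem ha hq) hz)
  rwa [mul_one, show a * q * (q⁻¹ * (a⁻¹ * b) * q⁻¹⁻¹) = b * q by group] at h1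

theorem h17_prod_mem {S : Set G} {c : ℕ} (l : List G) (hl : ∀ a ∈ l, a ∈ Ball S c) :
    l.prod ∈ Ball S (c * l.length) := by
  induction l with
  | nil => exact Ball.one_mem _ _
  | cons x l ih =>
    rw [List.prod_cons, List.length_cons, Nat.mul_succ, add_comm]
    exact Ball.mul_mem (hl x List.mem_cons_self) (ih fun a ha => hl a (List.mem_cons_of_mem _ ha))

/-- permuting letters: induction on `List.Perm` (`cons`: `Link.mul_left`; `swap`: `link_replace`) -/
theorem link_perm {X S : Set G} (hX : X.Finite) (hS : S.Finite)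
    (hS' : Subgroup.closure S = ⊤) (hN : (Subgroup.closure X).Normal)
    (hc : ∀ a b : G, a * b * a⁻¹ * b⁻¹ ∈ Subgroup.closure X) (c₀ : ℕ) :
    ∃ C : ℕ, ∀ l l' : List G, l.Perm l' → (∀ a ∈ l, a ∈ Ball S c₀) →
      Link X (Ball S (C * l.length)) l.prod l'.prod := by
  obtain ⟨C1, h1⟩ := link_replace hX hS hS' hN (c₀ + c₀)
  refine ⟨C1 * c₀ + C1 + c₀, fun l l' hp => ?_⟩
  induction hp with
  | nil => intro _; exact Link.refl X (Ball.one_mem _ _)
  | @cons x l₁ l₂ _ ih =>
    intro hl
    have h2 := ih fun a ha => hl a (List.mem_cons_of_mem _ ha)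
    rw [List.prod_cons, List.prod_cons]
    refine h2.mul_left x fun z hz => ?_
    refine Ball.mono subset_rfl ?_ (Ball.mul_mem (hl x List.mem_cons_self) hz)
    rw [List.length_cons, Nat.mul_succ]
    omega
  | swap x y m =>
    intro hl
    have hy := hl y (by simp)
    have hx := hl x (by simp)
    have hm := h17_prod_mem m fun a ha => hl a (by simp [ha])
    have hcom : (y * x)⁻¹ * (x * y) ∈ Subgroup.closure X := by
      have := hc x⁻¹ y⁻¹
      rwa [show x⁻¹ * y⁻¹ * x⁻¹⁻¹ * y⁻¹⁻¹ = (y * x)⁻¹ * (x * y) by group] at this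
    have h2 := h1 _ (Ball.mul_mem hy hx) _ (Ball.mul_mem hx hy) hcom _ _ hm
    simp only [List.prod_cons, ← mul_assoc]
    refine h2.mono (Ball.mono subset_rfl ?_)
    simp only [List.length_cons]
    nlinarith [Nat.zero_le (C1 * m.length), Nat.zero_le (c₀ * m.length), Nat.zero_le (C1 * c₀)]
  | trans p₁ _ ih₁ ih₂ =>
    intro hl
    have h2 := ih₂ fun a ha => hl a (p₁.mem_iff.2 ha)
    rw [← p₁.length_eq] at h2
    exact (ih₁ hl).trans h2

/-- the letter `τ j` or its inverse -/
def letter (τ : Fin k → G) (a : Fin k × Bool) : G := if a.2 then τ a.1 else (τ a.1)⁻¹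

/-- no letter occurs together with its inverse -/
def Reduced (l : List (Fin k × Bool)) : Prop := ∀ j, ¬ ((j, true) ∈ l ∧ (j, false) ∈ l)

/-- cancel: strong induction on the length; if `(j, true), (j, false) ∈ l` then `l` is a permutation of
`(j, true) :: (j, false) :: l₀` (`List.perm_cons_erase` twice), `link_perm` -/
theorem link_reduce {X S : Set G} (hX : X.Finite) (hS : S.Finite)
    (hS' : Subgroup.closure S = ⊤) (hN : (Subgroup.closure X).Normal)
    (hc : ∀ a b : G, a * b * a⁻¹ * b⁻¹ ∈ Subgroup.closure X) (τ : Fin k → G) :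
    ∃ C : ℕ, ∀ l : List (Fin k × Bool), ∃ l' : List (Fin k × Bool), Reduced l' ∧
      l'.length ≤ l.length ∧
      Link X (Ball S (C * l.length)) (l.map (letter τ)).prod (l'.map (letter τ)).prod := by
  have hr : ∀ a : Fin k × Bool, ∃ r, letter τ a ∈ Ball S r := fun a =>
    Ball.exists_of_mem_closure (hS' ▸ Subgroup.mem_top _)
  choose r hr using hr
  obtain ⟨C, hC⟩ := link_perm hX hS hS' hN hc (Finset.univ.sup r)
  have hC' : ∀ l l' : List (Fin k × Bool), l.Perm l' →
      Link X (Ball S (C * l.length)) (l.map (letter τ)).prod (l'.map (letter τ)).prod := by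
    intro l l' hp
    have := hC _ _ (hp.map (letter τ)) fun a ha => by
      obtain ⟨b, -, rfl⟩ := List.mem_map.1 ha
      exact Ball.mono subset_rfl (Finset.le_sup (f := r) (Finset.mem_univ b)) (hr b)
    rwa [List.length_map] at this
  refine ⟨C, fun l => ?_⟩
  induction hn : l.length using Nat.strong_induction_on generalizing l with
  | _ n ih =>
    subst hn
    by_cases hl : Reduced l
    · exact ⟨l, hl, le_rfl, hC' l l (List.Perm.refl l)⟩
    · obtain ⟨j, h1, h2⟩ : ∃ j, (j, true) ∈ l ∧ (j, false) ∈ l := by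
        by_contra h
        exact hl fun j hj => h ⟨j, hj⟩
      have h3 : (j, false) ∈ l.erase (j, true) := (List.mem_erase_of_ne (by simp)).2 h2
      have hp : l.Perm ((j, true) :: (j, false) :: (l.erase (j, true)).erase (j, false)) :=
        (List.perm_cons_erase h1).trans ((List.perm_cons_erase h3).cons _)
      have hlen := hp.length_eq
      simp only [List.length_cons] at hlen
      obtain ⟨l', a1, a2, a3⟩ := ih _ (by omega) ((l.erase (j, true)).erase (j, false)) rfl
      refine ⟨l', a1, by omega, ?_⟩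
      have h4 := hC' _ _ hp
      have h5 : (((j, true) :: (j, false) :: (l.erase (j, true)).erase (j, false)).map
          (letter τ)).prod = (((l.erase (j, true)).erase (j, false)).map (letter τ)).prod := by
        simp [letter]
      rw [h5] at h4
      exact h4.trans (a3.mono (Ball.mono subset_rfl (Nat.mul_le_mul_left _ (by omega))))

/-- the `j`-th coordinate of the height is `count (j, true) - count (j, false)`, one of them vanishes, and
the length is the sum of all counts -/
theorem Reduced.length_le {π : G → Fin k → ℝ} (hπ : AHom π) (τ : Fin k → G)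
    (hτ : ∀ j, π (τ j) = Pi.single j 1) {l : List (Fin k × Bool)} (hl : Reduced l) :
    (l.length : ℝ) ≤ k * ‖π (l.map (letter τ)).prod‖ := by
  have h1 : ∀ (l : List (Fin k × Bool)) (j : Fin k), π (l.map (letter τ)).prod j =
      (l.count (j, true) : ℝ) - (l.count (j, false) : ℝ) := by
    intro l j
    induction l with
    | nil => simp [hπ.one]
    | cons a l ih =>
      obtain ⟨i, b⟩ := a
      rw [List.map_cons, List.prod_cons, hπ, Pi.add_apply, ih, List.count_cons, List.count_cons]
      cases b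
      · have : π (letter τ (i, false)) = -Pi.single i 1 := by
          simp only [letter]; rw [← hτ, ← hπ.inv]; simp
        rw [this]
        by_cases hij : i = j
        · subst hij; simp; ring
        · simp [hij, Ne.symm hij]
      · have : π (letter τ (i, true)) = Pi.single i 1 := by
          simp only [letter]; rw [← hτ]; simp
        rw [this]
        by_cases hij : i = j
        · subst hij; simp; ring
        · simp [hij, Ne.symm hij]
  have h2 : ∀ l : List (Fin k × Bool),
      l.length = ∑ j : Fin k, (l.count (j, true) + l.count (j, false)) := by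
    intro l
    induction l with
    | nil => simp
    | cons a l ih =>
      obtain ⟨i, b⟩ := a
      have h3 : ∀ j : Fin k, ((i, b) :: l).count (j, true) + ((i, b) :: l).count (j, false) =
          (l.count (j, true) + l.count (j, false)) + if i = j then 1 else 0 := by
        intro j
        rw [List.count_cons, List.count_cons]
        by_cases hij : i = j
        · subst hij; cases b <;> simp <;> omega
        · simp [hij]
      rw [List.length_cons, Finset.sum_congr rfl fun j _ => h3 j, Finset.sum_add_distrib, ← ih]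
      simp
  have h4 : ∀ j : Fin k, ((l.count (j, true) + l.count (j, false) : ℕ) : ℝ) ≤
      ‖π (l.map (letter τ)).prod‖ := by
    intro j
    refine le_trans ?_ (norm_le_pi_norm _ j)
    rw [h1, Real.norm_eq_abs]
    by_cases ht : (j, true) ∈ l
    · have : l.count (j, false) = 0 := List.count_eq_zero.2 fun hf => hl j ⟨ht, hf⟩
      rw [this]; simp
    · have : l.count (j, true) = 0 := List.count_eq_zero.2 ht
      rw [this]; simp
  rw [h2, Nat.cast_sum]
  refine (Finset.sum_le_sum fun j _ => h4 j).trans ?_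
  simp

/-- every element has the height of a word in the letters -/
theorem exists_letters {π : G → Fin k → ℝ} (hπ : AHom π) (τ : Fin k → G)
    (hτ : ∀ j, π (τ j) = Pi.single j 1) (hint : ∀ g j, ∃ z : ℤ, π g j = z) (g : G) :
    ∃ l : List (Fin k × Bool), π (l.map (letter τ)).prod = π g := by
  let Q : (Fin k → ℝ) → Prop := fun v => ∃ l : List (Fin k × Bool), π (l.map (letter τ)).prod = v
  have h0 : Q 0 := ⟨[], by simp [hπ.one]⟩
  have hadd : ∀ a b, Q a → Q b → Q (a + b) := by
    rintro _ _ ⟨l, rfl⟩ ⟨l', rfl⟩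
    exact ⟨l ++ l', by rw [List.map_append, List.prod_append, hπ]⟩
  have hs : ∀ (j : Fin k) (z : ℤ), Q (Pi.single j (z : ℝ)) := by
    intro j z
    induction z using Int.induction_on with
    | zero => simpa using h0
    | succ n ih =>
      have h1 : Q (Pi.single j 1) := ⟨[(j, true)], by simp [letter, hτ]⟩
      have := hadd _ _ ih h1
      rw [← Pi.single_add] at this
      simpa using this
    | pred n ih =>
      have h1 : Q (Pi.single j (-1)) := ⟨[(j, false)], by
        simp [letter, hπ.inv, hτ, Pi.single_neg]⟩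
      have := hadd _ _ ih h1
      rw [← Pi.single_add] at this
      simpa [sub_eq_add_neg] using this
  have : Q (∑ j, Pi.single j (π g j)) := by
    refine Finset.sum_induction _ Q hadd h0 fun j _ => ?_
    obtain ⟨z, hz⟩ := hint g j
    rw [hz]
    exact hs j z
  rwa [Finset.univ_sum_single] at this

theorem h24_letter_ball {S : Set G} (hS' : Subgroup.closure S = ⊤) (τ : Fin k → G) :
    ∃ c : ℕ, ∀ l : List (Fin k × Bool), (l.map (letter τ)).prod ∈ Ball S (l.length * c) := by
  have h1 : ∀ t : G, ∃ s, t ∈ Ball S s := fun t =>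
    Ball.exists_of_mem_closure (hS' ▸ Subgroup.mem_top t)
  choose s hs using h1
  refine ⟨Finset.univ.sup fun a : Fin k × Bool => s (letter τ a), fun l => ?_⟩
  induction l with
  | nil => exact Ball.one_mem _ _
  | cons a l ih =>
    rw [List.map_cons, List.prod_cons, List.length_cons, Nat.succ_mul, add_comm]
    exact Ball.mul_mem (Ball.mono subset_rfl
      (Finset.le_sup (f := fun a : Fin k × Bool => s (letter τ a)) (Finset.mem_univ a)) (hs _)) ih

theorem h24_finite_ball {X S : Set G} (hX : X.Finite) (hS' : Subgroup.closure S = ⊤) :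
    ∃ c : ℕ, ∀ t ∈ X, t ∈ Ball S c := by
  have h1 : ∀ t : G, ∃ s, t ∈ Ball S s := fun t =>
    Ball.exists_of_mem_closure (hS' ▸ Subgroup.mem_top t)
  choose s hs using h1
  obtain ⟨c, hc⟩ := (hX.image s).bddAbove
  exact ⟨c, fun t ht => Ball.mono subset_rfl (hc (Set.mem_image_of_mem s ht)) (hs t)⟩

theorem h24_link_level {X A : Set G} {π : G → Fin k → ℝ} (hπ : AHom π)
    (hN : Subgroup.closure X = hπ.ker) {x y : G} (h : Link X A x y) :
    Link X (A ∩ {z | π z = π x}) x y := by
  obtain ⟨n, p, p0, p1, p2, p3⟩ := h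
  refine ⟨n, p, p0, p1, p2, fun i hi => ⟨p3 i hi, ?_⟩⟩
  induction i with
  | zero => exact congrArg π p0
  | succ i ih =>
    have h1 : (p i)⁻¹ * p (i + 1) ∈ hπ.ker := hN ▸ Ball.mem_closure (p2 i (by omega))
    rw [hπ.mem_ker, hπ.inv_mul, sub_eq_zero] at h1
    exact h1.trans (ih (by omega))

/-- replace the letters of an `S`-word one by one by bounded words in `τ` (`exists_letters` for the finitely
many `s ∈ Ball S 1`; induction on `L` with `h31_ball_succ`, `Link.mul_left`, `link_replace`;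
use two constants in the induction: length `≤ C₀ L`, radius `C L` with `C` much larger than `C₀`) -/
theorem link_letters {X S : Set G} (hX : X.Finite) (hS : S.Finite)
    (hS' : Subgroup.closure S = ⊤) {π : G → Fin k → ℝ} (hπ : AHom π)
    (hN : Subgroup.closure X = hπ.ker) (τ : Fin k → G) (hτ : ∀ j, π (τ j) = Pi.single j 1)
    (hint : ∀ g j, ∃ z : ℤ, π g j = z) :
    ∃ C : ℕ, ∀ (L : ℕ), ∀ g ∈ Ball S L, ∃ l : List (Fin k × Bool), l.length ≤ C * L ∧
      Link X (Ball S (C * L)) g (l.map (letter τ)).prod := by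
  choose w hw using exists_letters hπ τ hτ hint
  obtain ⟨C₀, hC₀⟩ := ((Ball.finite hS 1).image fun s => (w s).length).bddAbove
  obtain ⟨c, hc⟩ := h24_letter_ball hS' τ
  obtain ⟨C₁, hC₁⟩ := link_replace hX hS hS' (hN ▸ hπ.ker_normal) (C₀ * c + 1)
  have key : ∀ (L : ℕ), ∀ g ∈ Ball S L, ∃ l : List (Fin k × Bool), l.length ≤ C₀ * L ∧
      Link X (Ball S ((C₁ * C₀ * c + C₁ + 1 + C₀) * L)) g (l.map (letter τ)).prod := by
    intro L
    induction L with
    | zero =>
      intro g hg
      rw [h31_ball_zero, Set.mem_singleton_iff] at hg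
      subst hg
      exact ⟨[], Nat.zero_le _, Link.refl _ (Ball.one_mem _ _)⟩
    | succ L ih =>
      intro g hg
      rcases h31_ball_succ hg with rfl | ⟨x, hx, b, hb, rfl⟩
      · exact ⟨[], Nat.zero_le _, Link.refl _ (Ball.one_mem _ _)⟩
      · have hx1 : x ∈ Ball S 1 := by
          rcases hx with hx | hx
          · exact Ball.mem_of_mem hx
          · exact inv_inv x ▸ Ball.inv_mem (Ball.mem_of_mem hx)
        obtain ⟨l, hl, hlink⟩ := ih b hb
        have hwx : (w x).length ≤ C₀ := hC₀ (Set.mem_image_of_mem _ hx1)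
        refine ⟨w x ++ l, by rw [List.length_append, Nat.mul_succ]; omega, ?_⟩
        have h1 : Link X (Ball S ((C₁ * C₀ * c + C₁ + 1 + C₀) * (L + 1))) (x * b)
            (x * (l.map (letter τ)).prod) :=
          hlink.mul_left x fun z hz =>
            Ball.mono subset_rfl (by rw [Nat.mul_succ]; omega) (Ball.mul_mem hx1 hz)
        have hq : (l.map (letter τ)).prod ∈ Ball S (C₀ * L * c) :=
          Ball.mono subset_rfl (Nat.mul_le_mul_right c hl) (hc l)
        have h2 := hC₁ x (Ball.mono subset_rfl (by omega) hx1) ((w x).map (letter τ)).prod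
          (Ball.mono subset_rfl ((Nat.mul_le_mul_right c hwx).trans (Nat.le_succ _)) (hc _))
          (by rw [hN, hπ.mem_ker, hπ.inv_mul, hw, sub_self]) _ _ hq
        rw [List.map_append, List.prod_append]
        refine h1.trans (h2.mono (Ball.mono subset_rfl ?_))
        nlinarith [Nat.zero_le (C₁ * C₀ * c), Nat.zero_le (C₁ * L), Nat.zero_le (C₀ * L),
          Nat.zero_le C₀, Nat.zero_le L]
  refine ⟨C₁ * C₀ * c + C₁ + 1 + C₀, fun L g hg => ?_⟩
  obtain ⟨l, hl, hlink⟩ := key L g hg
  exact ⟨l, hl.trans (Nat.mul_le_mul_right L (by omega)), hlink⟩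

/-- translate to `x = 1`; `g = x⁻¹ * y` is `X`-linked (heights constant: an `X`-link from `g` stays in
`{π = π g}`, `Reach.induction` or directly) to a reduced word `w` of length `≤ k ‖π g‖` and `≤ C L`; join `1`
to `w` by an `S`-geodesic; `Link.change` -/
theorem conn_of_ker_fg {S : Set G} (hS : S.Finite) (hS' : Subgroup.closure S = ⊤)
    {π : G → Fin k → ℝ} (hπ : AHom π) (hN : hπ.ker.FG) (hint : ∀ g j, ∃ z : ℤ, π g j = z)
    (hsurj : ∀ j, ∃ t, π t = Pi.single j 1) : Conn S π := by
  obtain ⟨X, hX⟩ := hN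
  choose τ hτ using hsurj
  obtain ⟨C₁, hC₁⟩ := link_letters X.finite_toSet hS hS' hπ hX τ hτ hint
  obtain ⟨C₂, hC₂⟩ := link_reduce X.finite_toSet hS hS' (hX ▸ hπ.ker_normal)
    (fun a b => hX ▸ hπ.comm_mem a b) τ
  obtain ⟨cτ, hcτ⟩ := h24_letter_ball hS' τ
  obtain ⟨c, hc⟩ := h24_finite_ball X.finite_toSet hS'
  obtain ⟨Lp, hLp⟩ := hπ.lip hS
  obtain ⟨N, hNL⟩ := exists_nat_ge Lp
  set C : ℕ := C₁ + C₂ * C₁ + C₁ * cτ + c + 1 + N * cτ * k + N * c with hC
  refine ⟨C, fun x y L hxy => ?_⟩
  obtain ⟨l, hl, h1⟩ := hC₁ L _ hxy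
  obtain ⟨l', hred, hl', h2⟩ := hC₂ l
  set g := x⁻¹ * y with hg
  set w := (l'.map (letter τ)).prod with hw
  have h3 : Link (X : Set G) (Ball S (C₁ * L + C₂ * C₁ * L)) g w := by
    refine (h1.mono (Ball.mono subset_rfl (Nat.le_add_right _ _))).trans
      (h2.mono (Ball.mono subset_rfl ?_))
    have := Nat.mul_le_mul_left C₂ hl
    rw [mul_assoc]
    omega
  have h4 := h24_link_level hπ hX h3
  have hπw : π w = π g := by
    obtain ⟨n, hn⟩ := h4
    exact hn.right.2
  have hg0 : (0 : ℝ) ≤ ‖π g‖ := norm_nonneg _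
  have hCL : C₁ * L + C₂ * C₁ * L + C₁ * cτ * L + c ≤ C * L + C := by
    rw [hC]
    nlinarith [Nat.zero_le (c * L), Nat.zero_le L, Nat.zero_le (N * cτ * k * L),
      Nat.zero_le (N * c * L), Nat.zero_le C₁, Nat.zero_le (C₂ * C₁), Nat.zero_le (C₁ * cτ),
      Nat.zero_le (N * cτ * k), Nat.zero_le (N * c)]
  have hC1 : (1 : ℝ) ≤ C := by exact_mod_cast (show 1 ≤ C by omega)
  have hC2 : ((N * c : ℕ) : ℝ) ≤ C := by exact_mod_cast (show N * c ≤ C by omega)
  have hC3 : ((N * cτ * k : ℕ) : ℝ) ≤ C := by exact_mod_cast (show N * cτ * k ≤ C by omega)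
  push_cast at hC2 hC3
  have h5 : Link S (Ball S (C * L + C) ∩ {z | ‖π z‖ ≤ C * ‖π g‖ + C}) g w := by
    refine Link.change hc (fun z hz v hv => Set.mem_inter ?_ ?_) h4
    · have := Ball.mul_mem hz.1 hv
      rw [mul_inv_cancel_left] at this
      exact Ball.mono subset_rfl (by omega) this
    · have e1 := hLp.ball hv
      have e2 : π z = π g := hz.2
      have e3 := norm_add_le (π v - π z) (π z)
      rw [sub_add_cancel, e2] at e3
      rw [e2] at e1
      have e4 : Lp * c ≤ N * c := mul_le_mul_of_nonneg_right hNL (Nat.cast_nonneg _)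
      change ‖π v‖ ≤ _
      nlinarith
  have h6 : Link S (Ball S (C * L + C) ∩ {z | ‖π z‖ ≤ C * ‖π g‖ + C}) 1 w := by
    have e0 : (1 : G)⁻¹ * w ∈ Ball S (l'.length * cτ) := by
      rw [inv_one, one_mul]; exact hcτ l'
    refine ⟨_, (Reach.of_ball e0).mono fun z hz => ⟨?_, ?_⟩⟩
    · have e1 : (1 : G)⁻¹ * z ∈ Ball S (l'.length * cτ) := hz
      rw [inv_one, one_mul] at e1
      refine Ball.mono subset_rfl ?_ e1
      have := Nat.mul_le_mul_right cτ (hl'.trans hl)
      have e : C₁ * L * cτ = C₁ * cτ * L := by ring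
      omega
    · have e1 := hLp.ball hz
      rw [hπ.one, sub_zero] at e1
      have e2 := hred.length_le hπ τ hτ
      rw [← hw, hπw] at e2
      have e3 : Lp * ((l'.length * cτ : ℕ) : ℝ) ≤ N * ((k * ‖π g‖) * cτ) := by
        push_cast
        exact mul_le_mul hNL (mul_le_mul_of_nonneg_right e2 (Nat.cast_nonneg _))
          (by positivity) (Nat.cast_nonneg _)
      change ‖π z‖ ≤ _
      nlinarith
  have h7 := (h6.trans h5.symm).mul_left
    (A' := BallAt S x (C * L + C) ∩ Slab π x (C * ‖π y - π x‖ + C)) x fun z hz => ⟨?_, ?_⟩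
  · rwa [mul_one, hg, mul_inv_cancel_left] at h7
  · change x⁻¹ * (x * z) ∈ Ball S (C * L + C)
    rw [inv_mul_cancel_left]
    exact hz.1
  · change ‖π (x * z) - π x‖ ≤ _
    rw [hπ, add_sub_cancel_left, ← hπ.inv_mul]
    exact hz.2

end Crest.Agent.R182
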