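import Crest.Agent.R182.EQI

/-! Row 182, block E: from slopes of self-quasi-isometries of `P` to `U0` on `H`. -/

set_option autoImplicit false
set_option linter.dupNamespace false

namespace Crest.Agent.R182

open Crest.GroupTheory

variable {G H P : Type*} [Group G] [Group H] [Group P] {k : ℕ}

/-- `ψ` acts on height differences by `w` -/
def Slope (S : Set P) (ht : P → Fin k → ℝ) (ψ : P → P) (w : Module.End ℝ (Fin k → ℝ)) (ε C : ℝ) :
    Prop :=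
  ∀ (x y : P) (n : ℕ) (ρ : ℝ), Reach S (Slab ht x ρ) x n y →
    ‖ht (ψ y) - ht (ψ x) - w (ht y - ht x)‖ ≤ ε * ρ + C * lg n

theorem Slope.mono {S : Set P} {ht : P → Fin k → ℝ} {ψ : P → P} {w : Module.End ℝ (Fin k → ℝ)}
    {ε C ε' C' : ℝ} (h : Slope S ht ψ w ε C) (hε : ε ≤ ε') (hC : C ≤ C') :
    Slope S ht ψ w ε' C' := by
  intro x y n ρ hr
  have h1 := mul_le_mul_of_nonneg_right hε hr.nonneg
  have h2 := mul_le_mul_of_nonneg_right hC (zero_le_one.trans (one_le_lg n))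
  linarith [h x y n ρ hr]

/-- `t j ∈ Ball S c₀` of height `Pi.single j 1`; `Lip.reach` from `1` to `t j ^ m` (`n = m * c₀`,
`A = L * c₀`), `lg_le_lin`, divide by `m → ∞` -/
theorem slope_sep {S : Set P} (hS : S.Finite) (hS' : Subgroup.closure S = ⊤) {ht : P → Fin k → ℝ}
    (hht : AHom ht) (hsurj : ∀ j, ∃ t, ht t = Pi.single j 1) :
    ∃ A : ℝ, 0 ≤ A ∧ ∀ (ψ : P → P) (w w' : Module.End ℝ (Fin k → ℝ)) (ε C ε' C' : ℝ),
      Slope S ht ψ w ε C → Slope S ht ψ w' ε' C' →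
        ∀ j, ‖w (Pi.single j 1) - w' (Pi.single j 1)‖ ≤ A * (|ε| + |ε'|) := by
  choose t ht' using hsurj
  have h1 : ∀ j, ∃ r, t j ∈ Ball S r := fun j =>
    Ball.exists_of_mem_closure (hS' ▸ Subgroup.mem_top (t j))
  choose r hr using h1
  obtain ⟨L, hL⟩ := hht.lip hS
  set c₀ : ℕ := Finset.univ.sup r with hc₀
  have hL0 := hL.1
  refine ⟨L * c₀, by positivity, fun ψ w w' ε C ε' C' h h' j => ?_⟩
  have h2 : t j ∈ Ball S c₀ := Ball.mono subset_rfl (Finset.le_sup (Finset.mem_univ j)) (hr j)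
  set d := ‖w (Pi.single j 1) - w' (Pi.single j 1)‖ with hd
  set K := |C| + |C'| with hK
  have hK0 : 0 ≤ K := by positivity
  have key : ∀ m : ℕ, m * d ≤ m * (L * c₀ * (|ε| + |ε'|)) + K * lg (m * c₀) := by
    intro m
    have h3 : (1 : P)⁻¹ * t j ^ m ∈ Ball S (m * c₀) := by
      rw [inv_one, one_mul]; exact Ball.pow_mem h2 m
    have h4 := h _ _ _ _ (hL.reach h3)
    have h5 := h' _ _ _ _ (hL.reach h3)
    rw [hht.one, sub_zero, hht.pow, ht', map_smul] at h4 h5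
    have h6 : (m : ℝ) * d = ‖(ht (ψ (t j ^ m)) - ht (ψ 1) - (m : ℝ) • w' (Pi.single j 1)) -
        (ht (ψ (t j ^ m)) - ht (ψ 1) - (m : ℝ) • w (Pi.single j 1))‖ := by
      rw [sub_sub_sub_cancel_left, ← smul_sub, norm_smul, Real.norm_natCast]
    have h7 := norm_sub_le (ht (ψ (t j ^ m)) - ht (ψ 1) - (m : ℝ) • w' (Pi.single j 1))
      (ht (ψ (t j ^ m)) - ht (ψ 1) - (m : ℝ) • w (Pi.single j 1))
    have hl : 0 ≤ lg (m * c₀) := zero_le_one.trans (one_le_lg _)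
    have hρ : 0 ≤ L * ((m * c₀ : ℕ) : ℝ) := by positivity
    have h8 := mul_le_mul_of_nonneg_right (le_abs_self ε) hρ
    have h9 := mul_le_mul_of_nonneg_right (le_abs_self ε') hρ
    have h10 := mul_le_mul_of_nonneg_right (le_abs_self C) hl
    have h11 := mul_le_mul_of_nonneg_right (le_abs_self C') hl
    rw [h6, hK]
    push_cast at h4 h5 h8 h9
    linarith
  refine le_of_forall_pos_le_add fun η hη => ?_
  obtain ⟨B, hB0, hB⟩ := lg_le_lin (δ := η / 2 / (K * c₀ + 1)) (by positivity)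
  obtain ⟨m, hm⟩ := exists_nat_gt (2 * K * B / η)
  have hm0 : (0 : ℝ) < m := lt_of_le_of_lt (by positivity) hm
  rw [div_lt_iff₀ hη] at hm
  have h3 := mul_le_mul_of_nonneg_left (hB (m * c₀)) hK0
  have h4 : K * (η / 2 / (K * c₀ + 1) * ((m * c₀ : ℕ) : ℝ)) ≤ m * (η / 2) := by
    have h5 : K * c₀ / (K * c₀ + 1) ≤ 1 := by
      rw [div_le_one (by positivity)]; linarith
    calc _ = m * (η / 2) * (K * c₀ / (K * c₀ + 1)) := by push_cast; ring
      _ ≤ m * (η / 2) * 1 := by gcongr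
      _ = _ := mul_one _
  refine le_of_mul_le_mul_left ?_ hm0
  linarith [key m]

theorem h32_end_ext {w w' : Module.End ℝ (Fin k → ℝ)}
    (h : ∀ j, w (Pi.single j 1) = w' (Pi.single j 1)) : w = w' :=
  (Pi.basisFun ℝ (Fin k)).ext fun j => by simpa using h j

/-- `slope_sep`, `LinearMap.pi_ext'` or `Pi.basisFun` -/
theorem slope_unique {S : Set P} (hS : S.Finite) (hS' : Subgroup.closure S = ⊤)
    {ht : P → Fin k → ℝ} (hht : AHom ht) (hsurj : ∀ j, ∃ t, ht t = Pi.single j 1) {ψ : P → P}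
    {w w' : Module.End ℝ (Fin k → ℝ)} (h : ∀ ε, 0 < ε → ∃ C, Slope S ht ψ w ε C)
    (h' : ∀ ε, 0 < ε → ∃ C, Slope S ht ψ w' ε C) : w = w' := by
  obtain ⟨A, hA, hsep⟩ := slope_sep hS hS' hht hsurj
  refine h32_end_ext fun j => ?_
  rw [← sub_eq_zero, ← norm_le_zero_iff]
  refine le_of_forall_pos_le_add fun η hη => ?_
  have hε : 0 < η / (2 * A + 1) := by positivity
  obtain ⟨C, hC⟩ := h _ hε
  obtain ⟨C', hC'⟩ := h' _ hε
  refine (hsep ψ w w' _ C _ C' hC hC' j).trans ?_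
  rw [abs_of_pos hε, zero_add, ← two_mul, ← mul_assoc, ← mul_div_assoc,
    div_le_iff₀ (by positivity)]
  linarith

/-- the slope does not depend on `ε`: distinct elements of `Wf` differ by more than `δ > 0` on some
`Pi.single j 1`; take `sl ψ` from `ε₀` with `2 A ε₀ < δ`, `slope_sep`, `Slope.mono` -/
theorem SelfU.strong {S : Set P} (hS : S.Finite) (hS' : Subgroup.closure S = ⊤)
    {ht : P → Fin k → ℝ} (hht : AHom ht) (hsurj : ∀ j, ∃ t, ht t = Pi.single j 1)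
    (h : SelfU S ht) (c : ℕ) : ∃ (Wf : Finset (Module.End ℝ (Fin k → ℝ)))
      (sl : (P → P) → Module.End ℝ (Fin k → ℝ)), (∀ ψ, QI S S ψ c → sl ψ ∈ Wf) ∧
      ∀ ε, 0 < ε → ∃ C, 0 ≤ C ∧ ∀ ψ, QI S S ψ c → Slope S ht ψ (sl ψ) ε C := by
  classical
  obtain ⟨A, hA, hsep⟩ := slope_sep hS hS' hht hsurj
  obtain ⟨Wf, hW⟩ := h c
  have h1 : ∀ᶠ δ in nhdsWithin (0 : ℝ) (Set.Ioi 0), ∀ w ∈ Wf, ∀ w' ∈ Wf,
      (∀ j, ‖w (Pi.single j 1) - w' (Pi.single j 1)‖ ≤ δ) → w = w' := by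
    rw [Filter.eventually_all_finset]
    intro w _
    rw [Filter.eventually_all_finset]
    intro w' _
    by_cases hw : w = w'
    · exact Filter.Eventually.of_forall fun _ _ => hw
    · obtain ⟨j, hj⟩ := not_forall.1 (mt h32_end_ext hw)
      have h2 : 0 < ‖w (Pi.single j 1) - w' (Pi.single j 1)‖ := norm_pos_iff.2 (sub_ne_zero.2 hj)
      filter_upwards [nhdsWithin_le_nhds (gt_mem_nhds h2)] with δ hδ h3
      exact absurd (h3 j) (not_le.2 hδ)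
  obtain ⟨δ, hδ, hδ0⟩ := (h1.and self_mem_nhdsWithin).exists
  have hδ0 : 0 < δ := hδ0
  have hε₀ : 0 < δ / (2 * A + 1) := by positivity
  obtain ⟨C₀, hC₀⟩ := hW _ hε₀
  choose! sl hsl hsl' using hC₀
  refine ⟨Wf, sl, hsl, fun ε hε => ?_⟩
  have hε₁ : 0 < min ε (δ / (2 * A + 1)) := lt_min hε hε₀
  obtain ⟨C, hC⟩ := hW _ hε₁
  refine ⟨max C 0, le_max_right _ _, fun ψ hψ => ?_⟩
  obtain ⟨w, hw, hw'⟩ := hC ψ hψ
  have h2 : sl ψ = w := by
    refine hδ _ (hsl ψ hψ) _ hw fun j => (hsep ψ _ _ _ C₀ _ C (hsl' ψ hψ) hw' j).trans ?_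
    rw [abs_of_pos hε₀, abs_of_pos hε₁]
    calc _ ≤ A * (δ / (2 * A + 1) + δ / (2 * A + 1)) := by
          gcongr
          exact min_le_right _ _
      _ ≤ δ := by
          rw [← two_mul, ← mul_assoc, ← mul_div_assoc, div_le_iff₀ (by positivity)]
          linarith
  rw [h2]
  exact Slope.mono hw' (min_le_left _ _) (le_max_left _ _)

theorem Slope.near {S : Set P} {ht : P → Fin k → ℝ} {L : ℝ} (hL : Lip S ht L) {ψ ψ' : P → P}
    {w : Module.End ℝ (Fin k → ℝ)} {ε C : ℝ} (h : Slope S ht ψ w ε C) {D : ℕ}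
    (hD : ∀ x, (ψ x)⁻¹ * ψ' x ∈ Ball S D) : Slope S ht ψ' w ε (C + 2 * (L * D)) := by
  intro x y n ρ hr
  have h1 := h x y n ρ hr
  have h2 := hL.ball (hD x)
  have h3 := hL.ball (hD y)
  have h4 : 0 ≤ L * D := mul_nonneg hL.1 (Nat.cast_nonneg _)
  have h5 := one_le_lg n
  have e : ht (ψ' y) - ht (ψ' x) - w (ht y - ht x) = (ht (ψ y) - ht (ψ x) - w (ht y - ht x)) +
      (ht (ψ' y) - ht (ψ y)) - (ht (ψ' x) - ht (ψ x)) := by abel
  rw [e]
  have h6 := norm_sub_le ((ht (ψ y) - ht (ψ x) - w (ht y - ht x)) + (ht (ψ' y) - ht (ψ y)))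
    (ht (ψ' x) - ht (ψ x))
  have h7 := norm_add_le (ht (ψ y) - ht (ψ x) - w (ht y - ht x)) (ht (ψ' y) - ht (ψ y))
  nlinarith [mul_le_mul_of_nonneg_left h5 h4]

/-- `‖w v‖, ‖w' v‖ ≤ A ‖v‖` (`LinearMap.toContinuousLinearMap`); a path in `Slab ht x ρ` lies in
`Slab (ht ∘ ψ') x ((A + 1) ρ + C₁ lg n)` (apply `h'` with `ε = 1` to the prefixes), `QI.reach`, `lg_mul_le` -/
theorem slope_comp {S : Set P} {ht : P → Fin k → ℝ} {L : ℝ} (hL : Lip S ht L) {ψ ψ' : P → P}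
    {c : ℕ} (hq : QI S S ψ' c) {w w' : Module.End ℝ (Fin k → ℝ)}
    (h : ∀ ε, 0 < ε → ∃ C, Slope S ht ψ w ε C) (h' : ∀ ε, 0 < ε → ∃ C, Slope S ht ψ' w' ε C) :
    ∀ ε, 0 < ε → ∃ C, Slope S ht (ψ ∘ ψ') (w * w') ε C := by
  intro ε hε
  obtain ⟨A, hA0, hA⟩ : ∃ A : ℝ, 0 ≤ A ∧ ∀ v, ‖w v‖ ≤ A * ‖v‖ :=
    ⟨‖LinearMap.toContinuousLinearMap w‖, norm_nonneg _,
      fun v => (LinearMap.toContinuousLinearMap w).le_opNorm v⟩
  obtain ⟨A', hA0', hA'⟩ : ∃ A : ℝ, 0 ≤ A ∧ ∀ v, ‖w' v‖ ≤ A * ‖v‖ :=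
    ⟨‖LinearMap.toContinuousLinearMap w'‖, norm_nonneg _,
      fun v => (LinearMap.toContinuousLinearMap w').le_opNorm v⟩
  obtain ⟨C₁, hC₁⟩ := h' 1 one_pos
  set ε₁ : ℝ := ε / (2 * (A' + 1)) with hε₁
  set ε₂ : ℝ := ε / (2 * (A + 1)) with hε₂
  have hε₁0 : 0 < ε₁ := by positivity
  have hε₂0 : 0 < ε₂ := by positivity
  have e₁ : ε₁ * (A' + 1) = ε / 2 := by rw [hε₁]; field_simp
  have e₂ : ε₂ * (A + 1) = ε / 2 := by rw [hε₂]; field_simp
  obtain ⟨C₂, hC₂⟩ := h ε₁ hε₁0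
  obtain ⟨C₃, hC₃⟩ := h' ε₂ hε₂0
  refine ⟨ε₁ * C₁ + ε₁ * (L * (2 * c)) + |C₂| * lg (2 * c) + A * C₃, fun x y n ρ hr => ?_⟩
  have hρ := hr.nonneg
  have hr' : Reach S (Slab (ht ∘ ψ') x ((A' + 1) * ρ + C₁ * lg n)) x n y := by
    obtain ⟨p, p0, p1, p2, p3⟩ := hr
    refine ⟨p, p0, p1, p2, fun i hi => ?_⟩
    have hi' : Reach S (Slab ht x ρ) x n (p i) :=
      Reach.of_le ⟨p, p0, rfl, fun j hj => p2 j (by omega), fun j hj => p3 j (by omega)⟩ hi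
    have h1 := hC₁ x (p i) n ρ hi'
    have h2 := hA' (ht (p i) - ht x)
    have h3 : ‖ht (p i) - ht x‖ ≤ ρ := p3 i hi
    have h4 := norm_add_le (ht (ψ' (p i)) - ht (ψ' x) - w' (ht (p i) - ht x))
      (w' (ht (p i) - ht x))
    rw [sub_add_cancel] at h4
    change ‖ht (ψ' (p i)) - ht (ψ' x)‖ ≤ (A' + 1) * ρ + C₁ * lg n
    nlinarith [mul_le_mul_of_nonneg_left h3 hA0']
  have h1 := hC₂ _ _ _ _ (hq.reach hL hr')
  have h2 := hC₃ x y n ρ hr
  have h3 := hA (ht (ψ' y) - ht (ψ' x) - w' (ht y - ht x))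
  have h4 : lg (2 * c * n) ≤ lg (2 * c) * lg n :=
    (lg_mono (Nat.le_add_right _ _)).trans (lg_mul_le (2 * c) n)
  have h5 := one_le_lg n
  have h6 : C₂ * lg (2 * c * n) ≤ |C₂| * (lg (2 * c) * lg n) :=
    (mul_le_mul_of_nonneg_right (le_abs_self C₂) (zero_le_one.trans (one_le_lg _))).trans
      (mul_le_mul_of_nonneg_left h4 (abs_nonneg _))
  have h7 : 0 ≤ ε₁ * (L * (2 * c)) := by have := hL.1; positivity
  have h8 := mul_le_mul_of_nonneg_left h5 h7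
  have h9 := mul_le_mul_of_nonneg_left h2 hA0
  have e : ht ((ψ ∘ ψ') y) - ht ((ψ ∘ ψ') x) - (w * w') (ht y - ht x) =
      (ht (ψ (ψ' y)) - ht (ψ (ψ' x)) - w (ht (ψ' y) - ht (ψ' x))) +
        w (ht (ψ' y) - ht (ψ' x) - w' (ht y - ht x)) := by
    rw [map_sub w (ht (ψ' y) - ht (ψ' x)), Module.End.mul_apply]
    simp only [Function.comp_apply]
    abel
  rw [e]
  have h10 := norm_add_le (ht (ψ (ψ' y)) - ht (ψ (ψ' x)) - w (ht (ψ' y) - ht (ψ' x)))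
    (w (ht (ψ' y) - ht (ψ' x) - w' (ht y - ht x)))
  have e₃ : ε₁ * ((A' + 1) * ρ) = ε / 2 * ρ := by rw [← mul_assoc, e₁]
  have e₄ : A * (ε₂ * ρ) + ε₂ * ρ = ε / 2 * ρ := by rw [← e₂]; ring
  have h11 : 0 ≤ ε₂ * ρ := by positivity
  nlinarith

theorem h43_slope_id (S : Set P) (ht : P → Fin k → ℝ) (ε : ℝ) (hε : 0 < ε) :
    Slope S ht id 1 ε 0 := by
  intro x y n ρ h
  have := h.nonneg
  simp only [id, Module.End.one_apply, sub_self, norm_zero, zero_mul, add_zero]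
  positivity

/-- `E` from `QI.symm`, `ψ b = F ∘ (b * ·) ∘ E` (one constant: `QI.comp`, `QI.mul_left`), `b ↦ sl (ψ b)` is a
monoid hom `H →* Module.End` (`slope_comp`, `Slope.near`, `slope_unique`; `ψ 1` is near `id`, `ψ b ∘ ψ b'` is
near `ψ (b * b')`) with finite range, `H₀ = (MonoidHom.toHomUnits _).ker`; for `b ∈ H₀` use `QI.reach` and
that `ψ b (F x)` is near `F (b * x)` -/
theorem SelfU.u0 {S : Set P} (hS : S.Finite) (hS' : Subgroup.closure S = ⊤)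
    {ht : P → Fin k → ℝ} (hht : AHom ht) (hsurj : ∀ j, ∃ t, ht t = Pi.single j 1)
    (h : SelfU S ht) {T : Set H} {F : H → P} {c : ℕ} (hF : QI T S F c) :
    ∃ H₀ : Subgroup H, H₀.FiniteIndex ∧ U0 T (ht ∘ F) H₀ := by
  obtain ⟨L, hL⟩ := hht.lip hS
  obtain ⟨E, hE, hE1, hE2⟩ := hF.symm
  let ψ : H → P → P := fun b => (F ∘ fun x => b * x) ∘ E
  obtain ⟨c', hq⟩ : ∃ c', ∀ b, QI S S (ψ b) c' :=
    ⟨_, fun b => hE.comp ((QI.mul_left T b).comp hF)⟩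
  obtain ⟨Wf, sl, hW, hsl⟩ := h.strong hS hS' hht hsurj c'
  have hs : ∀ b ε, 0 < ε → ∃ C, Slope S ht (ψ b) (sl (ψ b)) ε C := fun b ε hε =>
    let ⟨C, _, hC⟩ := hsl ε hε; ⟨C, hC _ (hq b)⟩
  -- `ψ b (F x)` is near `F (b * x)`
  have hnear : ∀ b x, (ψ b (F x))⁻¹ * F (b * x) ∈ Ball S (c * (c * c + c) + c) := fun b x => by
    refine hF.up _ _ _ ?_
    rw [show (b * E (F x))⁻¹ * (b * x) = (E (F x))⁻¹ * x by group]
    exact hE2 x
  have h1 : sl (ψ 1) = 1 := by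
    refine slope_unique hS hS' hht hsurj (hs 1) fun ε hε => ⟨_, (h43_slope_id S ht ε hε).near hL
      (D := c) fun p => ?_⟩
    have := Ball.inv_mem (hE1 p)
    simpa [ψ] using this
  have h2 : ∀ b b', sl (ψ (b * b')) = sl (ψ b) * sl (ψ b') := fun b b' => by
    refine slope_unique hS hS' hht hsurj (hs _) fun ε hε => ?_
    obtain ⟨C, hC⟩ := slope_comp hL (hq b') (hs b) (hs b') ε hε
    refine ⟨_, hC.near hL (D := c * (c * c + c) + c) fun p => ?_⟩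
    have := hnear b (b' * E p)
    simpa [ψ, mul_assoc] using this
  let f : H →* Module.End ℝ (Fin k → ℝ) := ⟨⟨fun b => sl (ψ b), h1⟩, h2⟩
  have hfin : Finite f.toHomUnits.range := by
    refine Finite.of_injective
      (fun u : f.toHomUnits.range => (⟨(u.1 : Module.End ℝ (Fin k → ℝ)), ?_⟩ : Wf)) ?_
    · obtain ⟨_, b, rfl⟩ := u
      exact hW _ (hq b)
    · intro u v huv
      exact Subtype.ext (Units.ext (congrArg Subtype.val huv))
  refine ⟨f.toHomUnits.ker, inferInstance, fun ε hε => ?_⟩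
  obtain ⟨C, hC0, hC⟩ := hsl ε hε
  set D : ℕ := c * (c * c + c) + c with hD
  refine ⟨C * lg (2 * c) + ε * (L * (2 * c)) + 2 * (L * D), fun b hb x y n ρ hr => ?_⟩
  have hb1 : sl (ψ b) = 1 := congrArg Units.val (MonoidHom.mem_ker.1 hb)
  have h3 := hC _ (hq b) _ _ _ _ (hF.reach hL hr)
  rw [hb1, Module.End.one_apply] at h3
  have h4 := hL.ball (hnear b x)
  have h5 := hL.ball (hnear b y)
  have h6 : lg (2 * c * n) ≤ lg (2 * c) * lg n :=
    (lg_mono (Nat.le_add_right _ _)).trans (lg_mul_le _ _)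
  have h7 := one_le_lg n
  have hL0 := hL.1
  have e : (ht ∘ F) (b * y) - (ht ∘ F) (b * x) - ((ht ∘ F) y - (ht ∘ F) x) =
      (ht (ψ b (F y)) - ht (ψ b (F x)) - (ht (F y) - ht (F x))) +
        (ht (F (b * y)) - ht (ψ b (F y))) - (ht (F (b * x)) - ht (ψ b (F x))) := by
    simp only [Function.comp]; abel
  rw [e]
  have h8 := norm_sub_le ((ht (ψ b (F y)) - ht (ψ b (F x)) - (ht (F y) - ht (F x))) +
        (ht (F (b * y)) - ht (ψ b (F y)))) (ht (F (b * x)) - ht (ψ b (F x)))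
  have h9 := norm_add_le (ht (ψ b (F y)) - ht (ψ b (F x)) - (ht (F y) - ht (F x)))
        (ht (F (b * y)) - ht (ψ b (F y)))
  have h10 : C * lg (2 * c * n) ≤ C * (lg (2 * c) * lg n) := mul_le_mul_of_nonneg_left h6 hC0
  have h11 : 0 ≤ ε * (L * (2 * c)) + 2 * (L * D) := by positivity
  have h12 := mul_le_mul_of_nonneg_left h7 h11
  nlinarith

end Crest.Agent.R182
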