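import Crest.Agent.R182.SDefs

/-! Row 182, block S: basic facts on heights, `Gam` and the lattices of the layers. -/

set_option autoImplicit false
set_option linter.dupNamespace false

namespace Crest.Agent.R182

namespace Tower

variable {P : Type*} [Group P] (W : Tower P)

theorem ht_one : W.ht 1 = 0 := by
  have h := W.ht_mul 1 1
  rw [mul_one] at h
  exact left_eq_add.1 h

theorem ht_inv (g : P) : W.ht g⁻¹ = -W.ht g := by
  have h := W.ht_mul g⁻¹ g
  rw [inv_mul_cancel, ht_one] at h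
  exact eq_neg_of_add_eq_zero_left h.symm

theorem ht_pow (g : P) (n : ℕ) : W.ht (g ^ n) = (n : ℝ) • W.ht g := by
  induction n with
  | zero => rw [pow_zero, ht_one, Nat.cast_zero, zero_smul]
  | succ n ih => rw [pow_succ, W.ht_mul, ih, Nat.cast_succ, add_smul, one_smul]

theorem ht_inv_mul (g g' : P) : W.ht (g⁻¹ * g') = W.ht g' - W.ht g := by
  rw [W.ht_mul, ht_inv, neg_add_eq_sub]

theorem Q_le {i i' : ℕ} (h : i ≤ i') : W.Q i' ≤ W.Q i :=
  antitone_nat_of_succ_le W.anti h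

theorem ht_eq_zero {i : ℕ} {x : P} (hx : x ∈ W.Q i) : W.ht x = 0 :=
  (W.mem_zero x).1 (W.Q_le (Nat.zero_le i) hx)

theorem exists_wt_le : ∃ C : ℝ, 1 ≤ C ∧ ∀ j v, |W.wt j v| ≤ C * ‖v‖ := by
  refine ⟨1 + ∑ j, ‖LinearMap.toContinuousLinearMap (W.wt j)‖,
    le_add_of_nonneg_right (Finset.sum_nonneg fun _ _ => norm_nonneg _), fun j v => ?_⟩
  refine ((LinearMap.toContinuousLinearMap (W.wt j)).le_opNorm v).trans
    (mul_le_mul_of_nonneg_right ?_ (norm_nonneg _))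
  have := Finset.single_le_sum (f := fun j => ‖LinearMap.toContinuousLinearMap (W.wt j)‖)
    (fun _ _ => norm_nonneg _) (Finset.mem_univ j)
  linarith

theorem exists_ht_le : ∃ C : ℝ, 1 ≤ C ∧ ∀ n : ℕ, ∀ g ∈ Ball (W.S : Set P) n, ‖W.ht g‖ ≤ C * n := by
  have h0 : 0 ≤ ∑ s ∈ W.S, ‖W.ht s‖ := Finset.sum_nonneg fun _ _ => norm_nonneg _
  have h1 : ∀ s ∈ W.S, ‖W.ht s‖ ≤ ∑ s ∈ W.S, ‖W.ht s‖ := fun s hs =>
    Finset.single_le_sum (f := fun s => ‖W.ht s‖) (fun _ _ => norm_nonneg _) hs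
  refine ⟨1 + ∑ s ∈ W.S, ‖W.ht s‖, le_add_of_nonneg_right h0, fun n => ?_⟩
  induction n with
  | zero =>
    intro g hg
    rw [h31_ball_zero] at hg
    rw [hg, ht_one, norm_zero, Nat.cast_zero, mul_zero]
  | succ n ih =>
    intro g hg
    rcases h31_ball_succ hg with rfl | ⟨x, hx, b, hb, rfl⟩
    · rw [ht_one, norm_zero]
      positivity
    · have h2 : ‖W.ht x‖ ≤ ∑ s ∈ W.S, ‖W.ht s‖ := by
        rcases hx with hx | hx
        · exact h1 x hx
        · have := h1 _ hx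
          rwa [ht_inv, norm_neg] at this
      have h3 := ih b hb
      have h4 := norm_add_le (W.ht x) (W.ht b)
      rw [W.ht_mul, Nat.cast_succ, mul_add, mul_one]
      linarith

theorem sum_wt (v : Fin W.k → ℝ) : ∑ j, W.wt j v = 0 := by
  rw [← Finset.sum_fiberwise_of_maps_to (s := Finset.univ) (t := Finset.range W.r) (g := W.lay)
    fun j _ => Finset.mem_range.2 (W.lay_lt j)]
  exact Finset.sum_eq_zero fun i _ => W.unimod i v

theorem h_nonneg (v : Fin W.k → ℝ) : 0 ≤ W.h v :=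
  Finset.sum_nonneg fun _ _ => le_max_right _ _

theorem h_add_le (v v' : Fin W.k → ℝ) : W.h (v + v') ≤ W.h v + W.h v' := by
  unfold h
  rw [← Finset.sum_add_distrib]
  refine Finset.sum_le_sum fun j _ => ?_
  rw [map_add]
  exact max_le (add_le_add (le_max_left _ _) (le_max_left _ _))
    (add_nonneg (le_max_right _ _) (le_max_right _ _))

theorem h_smul {c : ℝ} (hc : 0 ≤ c) (v : Fin W.k → ℝ) : W.h (c • v) = c * W.h v := by
  unfold h
  rw [Finset.mul_sum]
  refine Finset.sum_congr rfl fun j _ => ?_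
  rw [map_smul, smul_eq_mul, mul_max_of_nonneg _ _ hc, mul_zero]

theorem h_eq (v : Fin W.k → ℝ) : W.h v = (∑ j, |W.wt j v|) / 2 := by
  have h1 : ∀ x : ℝ, max x 0 = (|x| + x) / 2 := fun x => by
    rcases le_total x 0 with h | h
    · rw [max_eq_right h, abs_of_nonpos h]; ring
    · rw [max_eq_left h, abs_of_nonneg h]; ring
  unfold h
  simp only [h1]
  rw [← Finset.sum_div, Finset.sum_add_distrib, sum_wt, add_zero]

theorem h_neg (v : Fin W.k → ℝ) : W.h (-v) = W.h v := by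
  simp only [h_eq, map_neg, abs_neg]

/-- `h` is a norm (`span`; an injective linear map is antilipschitz) -/
theorem exists_h_equiv : ∃ C : ℝ, 1 ≤ C ∧ ∀ v, ‖v‖ ≤ C * W.h v ∧ W.h v ≤ C * ‖v‖ := by
  obtain ⟨K, -, hK⟩ := (LinearMap.pi W.wt).exists_antilipschitzWith
    (LinearMap.ker_eq_bot'.2 fun v hv => W.span v fun j => congrFun hv j)
  obtain ⟨C, hC1, hC⟩ := W.exists_wt_le
  have hK0 : (0 : ℝ) ≤ K := K.2
  have hm : (0 : ℝ) ≤ W.m * C := by positivity
  refine ⟨1 + 2 * K + W.m * C, by linarith, fun v => ⟨?_, ?_⟩⟩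
  · have h1 := ZeroHomClass.bound_of_antilipschitz _ hK v
    have h2 : ‖LinearMap.pi W.wt v‖ ≤ ∑ j, |W.wt j v| :=
      (pi_norm_le_iff_of_nonneg (Finset.sum_nonneg fun _ _ => abs_nonneg _)).2 fun j =>
        Finset.single_le_sum (f := fun j => |W.wt j v|) (fun _ _ => abs_nonneg _)
          (Finset.mem_univ j)
    have h3 := W.h_eq v
    have h4 := W.h_nonneg v
    have h5 := mul_le_mul_of_nonneg_left h2 hK0
    have h6 : ∑ j, |W.wt j v| = 2 * W.h v := by linarith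
    rw [h6] at h5
    nlinarith
  · have h1 : ∑ j, |W.wt j v| ≤ W.m * (C * ‖v‖) := by
      have := Finset.sum_le_card_nsmul Finset.univ (fun j => |W.wt j v|) _ fun j _ => hC j v
      rwa [Finset.card_univ, Fintype.card_fin, nsmul_eq_mul] at this
    have h2 := norm_nonneg v
    have h3 := W.h_eq v
    have h4 := W.h_nonneg v
    nlinarith

/-- a section of the heights: products of powers of lifts of the basis vectors -/
theorem lift_top_ball : ∃ C : ℕ, ∀ (g : P) (n : ℕ), ‖W.ht g‖ ≤ n →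
    ∃ y ∈ Ball (W.S : Set P) (C * n), W.ht y = W.ht g := by
  classical
  choose e he using fun a : Fin W.k => W.ht_surj (Pi.single a 1)
  have he' : ∀ a, W.ht (e a) = Pi.single a 1 := fun a => funext fun b => by
    rw [he a b, Pi.single_apply, Pi.single_apply]
    split_ifs <;> simp
  choose r hr using fun a : Fin W.k =>
    Ball.exists_of_mem_closure (T := (W.S : Set P)) (a := e a) (W.gen ▸ Subgroup.mem_top _)
  refine ⟨∑ a, r a, fun g n hn => ?_⟩
  have h1 : ∀ a, ∃ y ∈ Ball (W.S : Set P) (r a * n), W.ht y = Pi.single a (W.ht g a) := by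
    intro a
    obtain ⟨z, hz⟩ := W.ht_int g a
    have h2 : |(z : ℝ)| ≤ n := by
      rw [← hz]
      exact (norm_le_pi_norm (W.ht g) a).trans hn
    have h3 : ∀ m : ℕ, (m : ℝ) ≤ n → e a ^ m ∈ Ball (W.S : Set P) (r a * n) := fun m hm =>
      Ball.mono subset_rfl (by rw [mul_comm]; exact Nat.mul_le_mul_left _ (by exact_mod_cast hm))
        (Ball.pow_mem (hr a) m)
    obtain ⟨m, rfl | rfl⟩ := Int.eq_nat_or_neg z
    · refine ⟨e a ^ m, h3 m (by simpa using h2), ?_⟩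
      rw [ht_pow, he', hz, ← Pi.single_smul, smul_eq_mul, mul_one, Int.cast_natCast]
    · refine ⟨(e a ^ m)⁻¹, Ball.inv_mem (h3 m (by simpa using h2)), ?_⟩
      rw [ht_inv, ht_pow, he', hz, ← Pi.single_smul, smul_eq_mul, mul_one, Int.cast_neg,
        Int.cast_natCast, Pi.single_neg]
  have h2 : ∀ s : Finset (Fin W.k), ∃ y ∈ Ball (W.S : Set P) ((∑ a ∈ s, r a) * n),
      W.ht y = ∑ a ∈ s, Pi.single a (W.ht g a) := by
    intro s
    induction s using Finset.induction_on with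
    | empty => exact ⟨1, Ball.one_mem _ _, by rw [ht_one, Finset.sum_empty]⟩
    | insert a s ha ih =>
      obtain ⟨y, hy, e1⟩ := ih
      obtain ⟨x, hx, e2⟩ := h1 a
      refine ⟨x * y, ?_, ?_⟩
      · rw [Finset.sum_insert ha, add_mul]
        exact Ball.mul_mem hx hy
      · rw [Finset.sum_insert ha, W.ht_mul, e1, e2]
  obtain ⟨y, hy, e1⟩ := h2 Finset.univ
  exact ⟨y, hy, e1.trans (Finset.univ_sum_single _)⟩

/-! ### `Gam` -/

variable {W}

theorem Gam.nonneg {R : ℝ} {x : P} (hx : x ∈ W.Gam R) : 0 ≤ R := by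
  obtain ⟨n, g, -, -, -, -, h⟩ := hx
  exact (norm_nonneg _).trans (h 0 (Nat.zero_le _))

theorem Gam.one_mem {R : ℝ} (hR : 0 ≤ R) : (1 : P) ∈ W.Gam R := by
  exact ⟨0, fun _ => 1, by simpa using (Real.exp_pos R).le, rfl, rfl, fun a ha => by omega,
    fun _ _ => by simpa [W.ht_one] using hR⟩

theorem Gam.mono {R R' : ℝ} (h : R ≤ R') : W.Gam R ⊆ W.Gam R' := by
  rintro x ⟨n, g, h1, h2, h3, h4, h5⟩
  exact ⟨n, g, h1.trans (Real.exp_le_exp.2 h), h2, h3, h4, fun a ha => (h5 a ha).trans h⟩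

theorem Gam.ht_le {R : ℝ} {x : P} (hx : x ∈ W.Gam R) : ‖W.ht x‖ ≤ R := by
  obtain ⟨n, g, -, -, rfl, -, h⟩ := hx
  exact h n le_rfl

private theorem h30_cat {n n' : ℕ} {ρ ρ' : ℝ} {g g' : ℕ → P} (g0 : g 0 = 1) (g0' : g' 0 = 1)
    (hs : ∀ a < n, (g a)⁻¹ * g (a + 1) ∈ Ball (W.S : Set P) 1)
    (hs' : ∀ a < n', (g' a)⁻¹ * g' (a + 1) ∈ Ball (W.S : Set P) 1)
    (hh : ∀ a ≤ n, ‖W.ht (g a)‖ ≤ ρ) (hh' : ∀ a ≤ n', ‖W.ht (g' a)‖ ≤ ρ')
    (hρ : ‖W.ht (g n)‖ + ρ' ≤ ρ) :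
    ∃ G : ℕ → P, G 0 = 1 ∧ G (n + n') = g n * g' n' ∧
      (∀ a < n + n', (G a)⁻¹ * G (a + 1) ∈ Ball (W.S : Set P) 1) ∧
      ∀ a ≤ n + n', ‖W.ht (G a)‖ ≤ ρ := by
  refine ⟨fun a => g (min a n) * g' (a - n), by simp [g0, g0'], by simp, fun a ha => ?_,
    fun a ha => ?_⟩
  · rcases lt_or_ge a n with h | h
    · simp only [min_eq_left h.le, min_eq_left (Nat.succ_le_of_lt h), Nat.sub_eq_zero_of_le h.le,
        Nat.sub_eq_zero_of_le (Nat.succ_le_of_lt h), g0', mul_one]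
      exact hs a h
    · simp only [min_eq_right h, min_eq_right (h.trans (Nat.le_succ a))]
      rw [show a + 1 - n = a - n + 1 by omega, mul_inv_rev, mul_assoc, inv_mul_cancel_left]
      exact hs' _ (by omega)
  · rcases le_total a n with h | h
    · simp only [min_eq_left h, Nat.sub_eq_zero_of_le h, g0', mul_one]
      exact hh a h
    · simp only [min_eq_right h, W.ht_mul]
      exact (norm_add_le _ _).trans ((add_le_add le_rfl (hh' _ (by omega))).trans hρ)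

theorem Gam.mul_mem {R R' : ℝ} {x y : P} (hx : x ∈ W.Gam R) (hy : y ∈ W.Gam R') :
    x * y ∈ W.Gam (R + R' + 1) := by
  have hR := Gam.nonneg hx
  have hR' := Gam.nonneg hy
  obtain ⟨n, g, h1, h2, rfl, h4, h5⟩ := hx
  obtain ⟨n', g', h1', h2', rfl, h4', h5'⟩ := hy
  obtain ⟨G, G0, G1, G2, G3⟩ := h30_cat (ρ := R + R' + 1) h2 h2' h4 h4'
    (fun a ha => (h5 a ha).trans (by linarith)) h5' (by linarith [h5 n le_rfl])
  refine ⟨n + n', G, ?_, G0, G1, G2, G3⟩
  have a1 : Real.exp R ≤ Real.exp (R + R') := Real.exp_le_exp.2 (by linarith)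
  have a2 : Real.exp R' ≤ Real.exp (R + R') := Real.exp_le_exp.2 (by linarith)
  have a3 : 2 ≤ Real.exp 1 := by linarith [Real.add_one_le_exp 1]
  rw [Real.exp_add (R + R') 1]
  push_cast
  nlinarith [Real.exp_pos (R + R')]

theorem Gam.inv_mem {R : ℝ} {x : P} (hx : x ∈ W.Gam R) : x⁻¹ ∈ W.Gam (2 * R) := by
  have hR := Gam.nonneg hx
  obtain ⟨n, g, h1, h2, rfl, h4, h5⟩ := hx
  refine ⟨n, fun a => (g n)⁻¹ * g (n - a), h1.trans (Real.exp_le_exp.2 (by linarith)), by simp,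
    by simp [h2], fun a ha => ?_, fun a _ => ?_⟩
  · have := Ball.inv_mem (h4 (n - (a + 1)) (by omega))
    rw [show n - (a + 1) + 1 = n - a by omega] at this
    simpa [mul_assoc] using this
  · rw [W.ht_inv_mul]
    linarith [norm_sub_le (W.ht (g (n - a))) (W.ht (g n)), h5 n le_rfl, h5 (n - a) (by omega)]

theorem Gam.mem_ball {R : ℝ} {x : P} (hx : x ∈ W.Gam R) :
    x ∈ Ball (W.S : Set P) ⌊Real.exp R⌋₊ := by
  obtain ⟨n, g, h1, h2, rfl, h4, -⟩ := hx
  have key : ∀ a ≤ n, g a ∈ Ball (W.S : Set P) a := by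
    intro a
    induction a with
    | zero => intro _; rw [h2]; exact Ball.one_mem _ _
    | succ a ih =>
      intro ha
      have := Ball.mul_mem (ih (by omega)) (h4 a (by omega))
      rwa [mul_inv_cancel_left] at this
  exact Ball.mono subset_rfl (Nat.le_floor h1) (key n le_rfl)

theorem Gam.finite (R : ℝ) : (W.Gam R).Finite := by
  exact (Ball.finite W.S.finite_toSet _).subset fun _ hx => Gam.mem_ball hx

/-- concatenate the paths of the jumps -/
theorem Chain.mem_gam {R ρ : ℝ} {L : ℕ} {g : ℕ → P} (hR : 0 ≤ R) (hg : W.Chain R L g)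
    (hρ : ∀ a ≤ L, ‖W.ht (g a) - W.ht (g 0)‖ ≤ ρ) :
    (g 0)⁻¹ * g L ∈ W.Gam (R + ρ + Real.log (L + 1)) := by
  have hρ0 : 0 ≤ ρ := (norm_nonneg _).trans (hρ 0 (Nat.zero_le _))
  have key : ∀ b ≤ L, ∃ (n : ℕ) (G : ℕ → P), (n : ℝ) ≤ b * Real.exp R ∧ G 0 = 1 ∧
      G n = (g 0)⁻¹ * g b ∧ (∀ a < n, (G a)⁻¹ * G (a + 1) ∈ Ball (W.S : Set P) 1) ∧
      ∀ a ≤ n, ‖W.ht (G a)‖ ≤ R + ρ := by
    intro b
    induction b with
    | zero =>
      intro _
      exact ⟨0, fun _ => 1, by simp, rfl, by simp, fun a ha => by omega,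
        fun _ _ => by simpa [W.ht_one] using add_nonneg hR hρ0⟩
    | succ b ih =>
      intro hb
      obtain ⟨n, G, h1, h2, h3, h4, h5⟩ := ih (by omega)
      obtain ⟨n', g', h1', h2', h3', h4', h5'⟩ := hg b (by omega)
      obtain ⟨G', G0, G1, G2, G3⟩ := h30_cat h2 h2' h4 h4' h5 h5' (by
        rw [h3, W.ht_inv_mul]; linarith [hρ b (by omega)])
      refine ⟨n + n', G', by push_cast; linarith, G0, ?_, G2, G3⟩
      rw [G1, h3, h3', mul_assoc, mul_inv_cancel_left]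
  obtain ⟨n, G, h1, h2, h3, h4, h5⟩ := key L le_rfl
  have hL : (0 : ℝ) ≤ L := Nat.cast_nonneg L
  have hlog : 0 ≤ Real.log ((L : ℝ) + 1) := Real.log_nonneg (by linarith)
  refine ⟨n, G, h1.trans ?_, h2, h3, h4, fun a ha => (h5 a ha).trans (by linarith)⟩
  rw [Real.exp_add, Real.exp_log (by linarith)]
  have a1 : Real.exp R ≤ Real.exp (R + ρ) := Real.exp_le_exp.2 (by linarith)
  nlinarith [Real.exp_pos R]

theorem Chain.mono {R R' : ℝ} {L : ℕ} {g : ℕ → P} (hg : W.Chain R L g) (h : R ≤ R') :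
    W.Chain R' L g := fun a ha => Gam.mono h (hg a ha)

theorem Chain.mul_left {R : ℝ} {L : ℕ} {g : ℕ → P} (hg : W.Chain R L g) (p : P) :
    W.Chain R L fun a => p * g a := by
  intro a ha
  simpa [mul_assoc] using hg a ha

variable (W)

private theorem h30_take (l : List P) (a : ℕ) (ha : a < l.length) :
    (l.take a).prod⁻¹ * (l.take (a + 1)).prod = l[a] := by
  rw [List.prod_take_succ l a ha, inv_mul_cancel_left]

theorem exists_ball_subset_gam : ∃ C : ℝ, 1 ≤ C ∧ ∀ n : ℕ, Ball (W.S : Set P) n ⊆ W.Gam (C * n) := by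
  obtain ⟨C, hC1, hC⟩ := W.exists_ht_le
  refine ⟨C, hC1, fun n x ⟨l, hl, hS, hx⟩ => ?_⟩
  have hn : (0 : ℝ) ≤ n := Nat.cast_nonneg n
  refine ⟨l.length, fun a => (l.take a).prod, ?_, by simp, by simpa using hx, fun a ha => ?_,
    fun a _ => hC n _ ⟨l.take a, (List.length_take_le' _ _).trans hl,
      fun y hy => hS y (List.mem_of_mem_take hy), rfl⟩⟩
  · have h1 : (l.length : ℝ) ≤ n := by exact_mod_cast hl
    nlinarith [Real.add_one_le_exp (C * n)]
  · rw [h30_take l a ha]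
    exact ⟨[l[a]], le_rfl, fun y hy => by
      rw [List.mem_singleton.1 hy]; exact hS _ (List.getElem_mem ha), by simp⟩

theorem exists_gam (U : Finset P) : ∃ R : ℝ, 0 ≤ R ∧ ∀ u ∈ U, u ∈ W.Gam R ∧ u⁻¹ ∈ W.Gam R := by
  obtain ⟨C, hC1, hC⟩ := W.exists_ball_subset_gam
  choose r hr using fun u : P =>
    Ball.exists_of_mem_closure (T := (W.S : Set P)) (a := u) (by rw [W.gen]; trivial)
  refine ⟨C * (U.sup r : ℕ), by positivity, fun u hu => ?_⟩
  have h := Ball.mono subset_rfl (Finset.le_sup (f := r) hu) (hr u)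
  exact ⟨hC _ h, hC _ (Ball.inv_mem h)⟩

/-- words in elements of height zero (`Chain.mem_gam`) -/
theorem exists_ball_zero (U : Finset P) (hU : ∀ u ∈ U, u ∈ W.Q 0) :
    ∃ C : ℝ, 0 ≤ C ∧ ∀ M : ℕ, Ball (U : Set P) M ⊆ W.Gam (Real.log (M + 1) + C) := by
  obtain ⟨R, hR, h⟩ := W.exists_gam U
  refine ⟨R, hR, fun M x ⟨l, hl, hS, hx⟩ => ?_⟩
  have h1 : W.Chain R l.length fun a => (l.take a).prod := by
    intro a ha
    rw [h30_take l a ha]
    rcases hS _ (List.getElem_mem ha) with h2 | h2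
    · exact (h _ h2).1
    · simpa using (h _ h2).2
  have h2 : ∀ a, W.ht (l.take a).prod = 0 := fun a => by
    refine W.ht_eq_zero (i := 0) (Subgroup.list_prod_mem _ fun y hy => ?_)
    rcases hS y (List.mem_of_mem_take hy) with h3 | h3
    · exact hU _ h3
    · exact inv_mem_iff.1 (hU _ h3)
  have h3 := Chain.mem_gam (ρ := 0) hR h1 fun a _ => by simp only [h2, sub_zero, norm_zero, le_refl]
  simp only [List.take_zero, List.prod_nil, inv_one, one_mul, List.take_length, hx] at h3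
  refine Gam.mono ?_ h3
  have h4 : (l.length : ℝ) ≤ M := by exact_mod_cast hl
  have h5 : Real.log ((l.length : ℝ) + 1) ≤ Real.log ((M : ℝ) + 1) :=
    Real.log_le_log (by positivity) (by linarith)
  linarith

theorem lift_top : ∃ C : ℝ, 1 ≤ C ∧ ∀ g : P, ∃ y ∈ W.Gam (C * (‖W.ht g‖ + 1)), W.ht y = W.ht g := by
  obtain ⟨C, hC1, hC⟩ := W.exists_ball_subset_gam
  obtain ⟨C0, h⟩ := W.lift_top_ball
  have h0 : (0 : ℝ) ≤ C0 := Nat.cast_nonneg C0
  refine ⟨C * (C0 + 1), by nlinarith, fun g => ?_⟩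
  obtain ⟨y, hy, he⟩ := h g ⌈‖W.ht g‖⌉₊ (Nat.le_ceil _)
  refine ⟨y, Gam.mono ?_ (hC _ hy), he⟩
  have h1 := (Nat.ceil_lt_add_one (norm_nonneg (W.ht g))).le
  push_cast
  rw [mul_assoc]
  refine mul_le_mul_of_nonneg_left ?_ (by linarith)
  exact mul_le_mul (by linarith) h1 (Nat.cast_nonneg _) (by linarith)

/-! ### the lattices -/

theorem ι_one (i : ℕ) : W.ι i 1 = 0 := by
  -- h29_ lattices
  exact W.ι_zero i 1 (one_mem _)

theorem ι_inv {i : ℕ} {x : P} (hx : x ∈ W.Q i) : W.ι i x⁻¹ = -W.ι i x := by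
  have h := W.ι_mul i x hx x⁻¹ (inv_mem hx)
  rw [mul_inv_cancel, W.ι_one] at h
  exact eq_neg_of_add_eq_zero_right h.symm

theorem ι_congr {i : ℕ} {x y : P} (hy : y ∈ W.Q i) (h : y⁻¹ * x ∈ W.Q (i + 1)) :
    W.ι i x = W.ι i y := by
  have h1 := W.ι_mul i y hy (y⁻¹ * x) (W.anti i h)
  rwa [mul_inv_cancel_left, W.ι_zero i _ h, add_zero] at h1

/-- `ρ_le` with `B = 0` -/
theorem ρ_supp (g : P) {i : ℕ} {y : Fin W.m → ℝ} (hy : ∀ j, W.lay j ≠ i → y j = 0) (j : Fin W.m)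
    (hj : W.lay j ≠ i) : W.ρ g y j = 0 := by
  have h := W.ρ_le g y j 0 fun j' h1 _ => by rw [hy j' (h1 ▸ hj), abs_zero]
  rw [mul_zero] at h
  exact abs_nonpos_iff.1 h

theorem ρ_le_norm (g : P) (y : Fin W.m → ℝ) (j : Fin W.m) :
    |W.ρ g y j| ≤ W.C * Real.exp (W.wt j (W.ht g)) * ‖y‖ :=
  W.ρ_le g y j ‖y‖ fun j' _ _ => norm_le_pi_norm y j'

/-- cut the box into cells `j ↦ ⌊ι x j⌋` (zero outside the layer), one point per cell, `proper` -/
theorem card_box (i : ℕ) : ∃ C : ℝ, 1 ≤ C ∧ ∀ B : Fin W.m → ℝ, (∀ j, 0 ≤ B j) →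
    ∃ T : Finset P, (∀ t ∈ T, t ∈ W.Q i) ∧ (T.card : ℝ) ≤ C * ∏ j with W.lay j = i, (1 + B j) ∧
      ∀ x ∈ W.Q i, (∀ j, W.lay j = i → |W.ι i x j| ≤ B j) → ∃ t ∈ T, t⁻¹ * x ∈ W.Q (i + 1) := by
  classical
  obtain ⟨T0, hT0, hT⟩ := W.proper i
  have hrep : ∀ c : Fin W.m → ℤ, ∃ x0 ∈ W.Q i, ∀ x ∈ W.Q i, (∀ j, ⌊W.ι i x j⌋ = c j) →
      ∀ j, ⌊W.ι i x0 j⌋ = c j := by
    intro c
    by_cases h : ∃ x ∈ W.Q i, ∀ j, ⌊W.ι i x j⌋ = c j
    · obtain ⟨x0, h1, h2⟩ := h
      exact ⟨x0, h1, fun _ _ _ => h2⟩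
    · exact ⟨1, one_mem _, fun x hx h2 => absurd ⟨x, hx, h2⟩ h⟩
  choose rp hrp hrp' using hrep
  have h3 : (1 : ℝ) ≤ 3 ^ W.m := one_le_pow₀ (by norm_num)
  refine ⟨3 ^ W.m * (T0.card + 1), ?_, fun B hB => ?_⟩
  · have : (0 : ℝ) ≤ T0.card := Nat.cast_nonneg _
    nlinarith
  let I : Fin W.m → Finset ℤ := fun j => if W.lay j = i then Finset.Icc (-⌈B j⌉) ⌈B j⌉ else {0}
  refine ⟨(Fintype.piFinset I ×ˢ T0).image fun q => rp q.1 * q.2, ?_, ?_, fun x hx hb => ?_⟩
  · intro t ht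
    obtain ⟨q, hq, rfl⟩ := Finset.mem_image.1 ht
    exact mul_mem (hrp _) (hT0 _ (Finset.mem_product.1 hq).2)
  · have hI : ∀ j, ((I j).card : ℝ) ≤ 3 * if W.lay j = i then 1 + B j else 1 := by
      intro j
      by_cases hj : W.lay j = i
      · simp only [I, if_pos hj, Int.card_Icc]
        have h1 : (0 : ℤ) ≤ ⌈B j⌉ := Int.ceil_nonneg (hB j)
        have h2 : (((⌈B j⌉ + 1 - -⌈B j⌉).toNat : ℤ) : ℝ) = ((⌈B j⌉ + 1 - -⌈B j⌉ : ℤ) : ℝ) := by
          rw [Int.toNat_of_nonneg (by omega)]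
        have h4 := Int.ceil_lt_add_one (B j)
        have h5 := hB j
        push_cast at h2
        rw [h2]
        linarith
      · simp only [I, if_neg hj, Finset.card_singleton]
        norm_num
    have hp : 0 ≤ ∏ j with W.lay j = i, (1 + B j) :=
      Finset.prod_nonneg fun j _ => by linarith [hB j]
    have hG : ((Fintype.piFinset I).card : ℝ) ≤ 3 ^ W.m * ∏ j with W.lay j = i, (1 + B j) := by
      rw [Fintype.card_piFinset, Nat.cast_prod, Finset.prod_filter]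
      refine (Finset.prod_le_prod (fun j _ => Nat.cast_nonneg _) fun j _ => hI j).trans ?_
      rw [Finset.prod_mul_distrib, Finset.prod_const, Finset.card_univ, Fintype.card_fin]
    have h6 : (((Fintype.piFinset I ×ˢ T0).image fun q => rp q.1 * q.2).card : ℝ) ≤
        (Fintype.piFinset I).card * T0.card := by
      rw [← Nat.cast_mul, ← Finset.card_product]
      exact_mod_cast Finset.card_image_le
    have h7 : (0 : ℝ) ≤ T0.card := Nat.cast_nonneg _
    refine h6.trans ((mul_le_mul_of_nonneg_right hG h7).trans ?_)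
    have h8 : 0 ≤ 3 ^ W.m * ∏ j with W.lay j = i, (1 + B j) := by positivity
    nlinarith
  · set c : Fin W.m → ℤ := fun j => ⌊W.ι i x j⌋ with hc
    have hcI : c ∈ Fintype.piFinset I := by
      rw [Fintype.mem_piFinset]
      intro j
      by_cases hj : W.lay j = i
      · simp only [I, if_pos hj, Finset.mem_Icc, hc]
        have h1 := abs_le.1 (hb j hj)
        have h2 := Int.le_ceil (B j)
        refine ⟨Int.le_floor.2 ?_, ?_⟩
        · push_cast
          linarith [h1.1]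
        · have h4 := Int.floor_le (W.ι i x j)
          have : ((⌊W.ι i x j⌋ : ℤ) : ℝ) ≤ ((⌈B j⌉ : ℤ) : ℝ) := by linarith [h1.2]
          exact_mod_cast this
      · simp only [I, if_neg hj, Finset.mem_singleton, hc, W.ι_supp i x hx j hj, Int.floor_zero]
    have h1 := hrp' c x hx fun _ => rfl
    have h2 : ‖W.ι i ((rp c)⁻¹ * x)‖ ≤ 1 := by
      rw [W.ι_mul i _ (inv_mem (hrp c)) x hx, W.ι_inv (hrp c)]
      refine (pi_norm_le_iff_of_nonneg zero_le_one).2 fun j => ?_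
      have h4 := Int.abs_sub_lt_one_of_floor_eq_floor (show ⌊W.ι i x j⌋ = ⌊W.ι i (rp c) j⌋ from
        (h1 j).symm)
      rw [Real.norm_eq_abs, Pi.add_apply, Pi.neg_apply, neg_add_eq_sub]
      exact h4.le
    obtain ⟨t, ht, ht'⟩ := hT _ (mul_mem (inv_mem (hrp c)) hx) h2
    refine ⟨rp c * t, Finset.mem_image.2 ⟨(c, t), Finset.mem_product.2 ⟨hcI, ht⟩, rfl⟩, ?_⟩
    rwa [mul_inv_rev, mul_assoc]

/-- round the grid `3 C * {0, …, ⌊B j⌋}` (layer coordinates) with `dense` -/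
theorem many_box (i : ℕ) : ∃ C : ℝ, 1 ≤ C ∧ ∀ B : Fin W.m → ℝ, (∀ j, 0 ≤ B j) →
    ∃ T : Finset P, (∀ t ∈ T, t ∈ W.Q i ∧ ∀ j, |W.ι i t j| ≤ C * (1 + B j)) ∧
      (∀ t ∈ T, ∀ t' ∈ T, t ≠ t' → 1 ≤ ‖W.ι i t - W.ι i t'‖) ∧
      ∏ j with W.lay j = i, max 1 (B j) ≤ (T.card : ℝ) := by
  classical
  have hC := W.one_le_C
  let y : (Fin W.m → ℕ) → Fin W.m → ℝ := fun c j => if W.lay j = i then 3 * W.C * c j else 0
  have hy : ∀ c, ∃ x ∈ W.Q i, ‖W.ι i x - y c‖ ≤ W.C := fun c =>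
    W.dense i (y c) fun j hj => if_neg hj
  choose x hx hx' using hy
  have hxj : ∀ c j, |W.ι i (x c) j - y c j| ≤ W.C := fun c j =>
    (norm_le_pi_norm (W.ι i (x c) - y c) j).trans (hx' c)
  refine ⟨3 * W.C, by linarith, fun B hB => ?_⟩
  let I : Fin W.m → Finset ℕ := fun j => if W.lay j = i then Finset.range (⌊B j⌋₊ + 1) else {0}
  have hsep : ∀ c ∈ Fintype.piFinset I, ∀ c' ∈ Fintype.piFinset I, c ≠ c' →
      1 ≤ ‖W.ι i (x c) - W.ι i (x c')‖ := by
    intro c hc c' hc' hne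
    obtain ⟨j, hj⟩ := Function.ne_iff.1 hne
    have hl : W.lay j = i := by
      by_contra hl
      have h1 := Fintype.mem_piFinset.1 hc j
      have h2 := Fintype.mem_piFinset.1 hc' j
      simp only [I, if_neg hl, Finset.mem_singleton] at h1 h2
      exact hj (h1.trans h2.symm)
    refine le_trans ?_ (norm_le_pi_norm (W.ι i (x c) - W.ι i (x c')) j)
    have h1 := abs_le.1 (hxj c j)
    have h2 := abs_le.1 (hxj c' j)
    simp only [y, if_pos hl] at h1 h2
    rw [Real.norm_eq_abs, Pi.sub_apply, le_abs]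
    rcases lt_or_gt_of_ne hj with h | h
    · have h3 : (c j : ℝ) + 1 ≤ c' j := by exact_mod_cast h
      right
      nlinarith [h1.1, h1.2, h2.1, h2.2]
    · have h3 : (c' j : ℝ) + 1 ≤ c j := by exact_mod_cast h
      left
      nlinarith [h1.1, h1.2, h2.1, h2.2]
  refine ⟨(Fintype.piFinset I).image x, ?_, ?_, ?_⟩
  · intro t ht
    obtain ⟨c, hc, rfl⟩ := Finset.mem_image.1 ht
    refine ⟨hx c, fun j => ?_⟩
    have h1 := abs_le.1 (hxj c j)
    have h2 := Fintype.mem_piFinset.1 hc j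
    have h5 := hB j
    rw [abs_le]
    by_cases hl : W.lay j = i
    · simp only [y, I, if_pos hl, Finset.mem_range] at h1 h2
      have h3 : (c j : ℝ) ≤ ⌊B j⌋₊ := by exact_mod_cast Nat.lt_succ_iff.1 h2
      have h4 := h3.trans (Nat.floor_le h5)
      have h6 : (0 : ℝ) ≤ c j := Nat.cast_nonneg _
      constructor <;> nlinarith [h1.1, h1.2]
    · simp only [y, if_neg hl] at h1
      constructor <;> nlinarith [h1.1, h1.2]
  · intro t ht t' ht' hne
    obtain ⟨c, hc, rfl⟩ := Finset.mem_image.1 ht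
    obtain ⟨c', hc', rfl⟩ := Finset.mem_image.1 ht'
    exact hsep c hc c' hc' fun h => hne (congrArg x h)
  · have hinj : Set.InjOn x (Fintype.piFinset I : Finset _) := by
      intro c hc c' hc' h
      by_contra hne
      have := hsep c hc c' hc' hne
      rw [h, sub_self, norm_zero] at this
      linarith
    rw [Finset.card_image_of_injOn hinj, Fintype.card_piFinset, Nat.cast_prod, Finset.prod_filter]
    refine Finset.prod_le_prod (fun j _ => ?_) fun j _ => ?_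
    · split_ifs
      · exact le_max_of_le_left zero_le_one
      · exact zero_le_one
    · by_cases hl : W.lay j = i
      · simp only [I, if_pos hl, Finset.card_range]
        have h1 := Nat.lt_floor_add_one (B j)
        have h2 : (0 : ℝ) ≤ ⌊B j⌋₊ := Nat.cast_nonneg _
        push_cast
        exact max_le (by linarith) h1.le
      · simp only [I, if_neg hl, Finset.card_singleton, Nat.cast_one, le_refl]

/-- walk along the segment from `0` to `ι x` in steps of size `≤ 1`, round with `dense`; `U` comes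
from `card_box` with `B = 2 C + 1` -/
theorem lift_ball (i : ℕ) : ∃ (U : Finset P) (C : ℕ), (∀ u ∈ U, u ∈ W.Q i) ∧
    ∀ x ∈ W.Q i, ∀ n : ℕ, ‖W.ι i x‖ ≤ n →
      ∃ y ∈ Ball (U : Set P) (C * (n + 1)), y⁻¹ * x ∈ W.Q (i + 1) := by
  have hC := W.one_le_C
  obtain ⟨_, -, hb⟩ := W.card_box i
  obtain ⟨U, hU, -, hcov⟩ := hb (fun _ => 2 * W.C + 1) fun _ => by linarith
  have hcov' : ∀ x ∈ W.Q i, ‖W.ι i x‖ ≤ 2 * W.C + 1 → ∃ t ∈ U, t⁻¹ * x ∈ W.Q (i + 1) :=
    fun x hx h => hcov x hx fun j _ => (norm_le_pi_norm (W.ι i x) j).trans h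
  have key : ∀ n : ℕ, ∀ x ∈ W.Q i, ‖W.ι i x‖ ≤ n + W.C →
      ∃ y ∈ Ball (U : Set P) (n + 1), y⁻¹ * x ∈ W.Q (i + 1) := by
    intro n
    induction n with
    | zero =>
      intro x hx h
      obtain ⟨t, ht, h'⟩ := hcov' x hx (by push_cast at h; linarith)
      exact ⟨t, Ball.mem_of_mem ht, h'⟩
    | succ n ih =>
      intro x hx h
      push_cast at h
      set w : Fin W.m → ℝ := fun j => max (-(W.C + 1)) (min (W.C + 1) (W.ι i x j)) with hw
      have hw1 : ‖w‖ ≤ W.C + 1 := by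
        refine (pi_norm_le_iff_of_nonneg (by linarith)).2 fun j => ?_
        rw [Real.norm_eq_abs, abs_le]
        exact ⟨le_max_left _ _, max_le (by linarith) (min_le_left _ _)⟩
      have hn : (0 : ℝ) ≤ n := Nat.cast_nonneg n
      have hw2 : ‖W.ι i x - w‖ ≤ n := by
        refine (pi_norm_le_iff_of_nonneg hn).2 fun j => ?_
        have := abs_le.1 ((norm_le_pi_norm (W.ι i x) j).trans h)
        rw [Real.norm_eq_abs, abs_le, Pi.sub_apply, hw]
        simp only [max_def, min_def]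
        split_ifs <;> constructor <;> linarith [this.1, this.2]
      obtain ⟨u, hu, hd⟩ := W.dense i w fun j hj => by
        rw [hw]
        simp only [W.ι_supp i x hx j hj]
        rw [min_eq_right (by linarith), max_eq_right (by linarith)]
      obtain ⟨t, ht, htu⟩ := hcov' u hu (by
        have := norm_le_norm_add_norm_sub' (W.ι i u) w
        linarith)
      have htQ := hU t ht
      have e : W.ι i (t⁻¹ * x) = (W.ι i x - w) - (W.ι i u - w) := by
        rw [W.ι_mul i _ ((W.Q i).inv_mem htQ) _ hx, W.ι_inv htQ, ← W.ι_congr htQ htu]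
        abel
      obtain ⟨y, hy, hyx⟩ := ih (t⁻¹ * x) ((W.Q i).mul_mem ((W.Q i).inv_mem htQ) hx) (by
        rw [e]
        exact (norm_sub_le _ _).trans (add_le_add hw2 hd))
      refine ⟨t * y, ?_, ?_⟩
      · rw [add_comm (n + 1) 1]
        exact Ball.mul_mem (Ball.mem_of_mem ht) hy
      · rwa [mul_inv_rev, mul_assoc]
  refine ⟨U, 1, hU, fun x hx n hn => ?_⟩
  rw [one_mul]
  exact key n x hx (by linarith)

theorem lift (i : ℕ) : ∃ C : ℝ, 0 ≤ C ∧ ∀ x ∈ W.Q i, ∀ R : ℝ, 0 ≤ R → ‖W.ι i x‖ ≤ Real.exp R →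
    ∃ y ∈ W.Q i, y ∈ W.Gam (R + C) ∧ y⁻¹ * x ∈ W.Q (i + 1) := by
  obtain ⟨U, C0, hU, hl⟩ := W.lift_ball i
  obtain ⟨C1, hC1, hz⟩ := W.exists_ball_zero U fun u hu => W.Q_le (Nat.zero_le i) (hU u hu)
  have hC0 : (0 : ℝ) ≤ C0 := Nat.cast_nonneg C0
  have hlog : 0 ≤ Real.log (3 * C0 + 1) := Real.log_nonneg (by linarith)
  refine ⟨Real.log (3 * C0 + 1) + C1, by linarith, fun x hx R hR h => ?_⟩
  obtain ⟨y, hy, hyx⟩ := hl x hx ⌈Real.exp R⌉₊ (h.trans (Nat.le_ceil _))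
  refine ⟨y, (Subgroup.closure_le (W.Q i)).2 (fun u hu => hU u hu) (Ball.mem_closure hy),
    Gam.mono ?_ (hz _ hy), hyx⟩
  have h1 : 1 ≤ Real.exp R := Real.one_le_exp hR
  have h2 : (⌈Real.exp R⌉₊ : ℝ) ≤ Real.exp R + 1 := (Nat.ceil_lt_add_one (by linarith)).le
  have h3 : ((C0 * (⌈Real.exp R⌉₊ + 1) : ℕ) : ℝ) + 1 ≤ (3 * C0 + 1) * Real.exp R := by
    push_cast
    nlinarith
  have h4 := Real.log_le_log (by positivity) h3
  rw [Real.log_mul (by positivity) (by positivity), Real.log_exp] at h4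
  linarith

end Tower

end Crest.Agent.R182
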