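import Crest.Agent.R182.EGrow
import Crest.Agent.R182.EConn
import Crest.Agent.R182.ESlope
import Crest.Agent.R182.SBasic

/-! Row 182, block E: assembly. The row follows from `TowerStmt`, `Count` and `SelfU` for towers. -/

set_option autoImplicit false
set_option linter.dupNamespace false

namespace Crest.Agent.R182

open Crest.GroupTheory

variable {G H P : Type*} [Group G] [Group H] [Group P] {k : ℕ}

theorem end_of_u0 (S : Finset P) (hS : Subgroup.closure (S : Set P) = ⊤)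
    (hP : IsVirtuallyPolycyclic P) {ht : P → Fin k → ℝ} (hht : AHom ht)
    (hint : ∀ g j, ∃ z : ℤ, ht g j = z) (hsurj : ∀ j, ∃ t, ht t = Pi.single j 1)
    (hn : Count (S : Set P) ht) (T : Finset H) (hT : Subgroup.closure (T : Set H) = ⊤) {F : H → P}
    {c : ℕ} (hF : QI (T : Set H) (S : Set P) F c) (H₀ : Subgroup H) [H₀.FiniteIndex]
    (h : U0 (T : Set H) (ht ∘ F) H₀) : IsVirtuallyPolycyclic H := by
  haveI : Group.FG H := ⟨⟨T, hT⟩⟩
  obtain ⟨T₀, hT₀⟩ := (inferInstance : Group.FG H₀).out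
  haveI : H₀.subtype.range.FiniteIndex := by rwa [Subgroup.range_subtype]
  obtain ⟨c₀, hc₀⟩ := QI.of_hom T₀.finite_toSet hT₀ T.finite_toSet hT H₀.subtype
    H₀.subtype_injective
  obtain ⟨L, hL⟩ := hht.lip S.finite_toSet
  have hq := hc₀.comp hF
  obtain ⟨μ⟩ := Mean.of_vp hP
  obtain ⟨μ₀⟩ := Mean.of_qi hq T₀.finite_toSet hT₀ S.finite_toSet μ
  have hc : Conn (S : Set P) ht := conn_of_ker_fg S.finite_toSet hS hht
    ((Group.fg_iff_subgroup_fg _).1 (vp_fg (vp_subgroup hP _))) hint hsurj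
  exact of_finiteIndex H₀ (end_core T₀ hT₀ (hq.lip hL) μ₀ (hq.conn hL hc)
    (hq.count T₀.finite_toSet S.finite_toSet hL hn) (U0.restrict (hF.lip hL) h hc₀))

theorem end_all (S : Finset P) (hS : Subgroup.closure (S : Set P) = ⊤)
    (hP : IsVirtuallyPolycyclic P) {ht : P → Fin k → ℝ} (hht : AHom ht)
    (hint : ∀ g j, ∃ z : ℤ, ht g j = z) (hsurj : ∀ j, ∃ t, ht t = Pi.single j 1)
    (hn : Count (S : Set P) ht) (hU : SelfU (S : Set P) ht) (T : Finset H)
    (hT : Subgroup.closure (T : Set H) = ⊤) {F : H → P} {c : ℕ}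
    (hF : QI (T : Set H) (S : Set P) F c) : IsVirtuallyPolycyclic H := by
  obtain ⟨H₀, h1, h2⟩ := hU.u0 S.finite_toSet hS hht hsurj hF
  exact end_of_u0 S hS hP hht hint hsurj hn T hT hF H₀ h2

/-- translate the path to `1`; `a⁻¹ * y ∈ W.Gam (ρ + lg n)` (`exp_lg`); `W.Gam R ⊆ Ball W.S ⌊exp R⌋₊` is
finite; `one_le_lg` -/
theorem Tower.count_of_gam (W : Tower P)
    (h : ∃ C : ℝ, 0 ≤ C ∧ ∀ R : ℝ, 0 ≤ R → ((W.Gam R).ncard : ℝ) ≤ Real.exp (C * (R + 1))) :
    Count (W.S : Set P) W.ht := by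
  obtain ⟨C, hC, h⟩ := h
  refine ⟨2 * C, by linarith, fun a n ρ hρ => ?_⟩
  have h1 := one_le_lg n
  have hsub : {y | Reach (W.S : Set P) (Slab W.ht a ρ) a n y} ⊆
      (fun z => a * z) '' W.Gam (ρ + lg n) := by
    rintro y ⟨p, p0, pn, hp, hA⟩
    refine ⟨a⁻¹ * y, ⟨n, fun i => a⁻¹ * p i, ?_, by simp [p0], by simp [pn], fun i hi => ?_,
      fun i hi => ?_⟩, mul_inv_cancel_left _ _⟩
    · refine le_trans ?_ (Real.exp_le_exp.2 (le_add_of_nonneg_left hρ))
      rw [exp_lg]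
      have : (0 : ℝ) ≤ n := n.cast_nonneg
      nlinarith [Real.add_one_le_exp 1]
    · simpa [mul_assoc] using hp i hi
    · rw [W.ht_inv_mul]
      exact le_trans (hA i hi) (by linarith)
  refine le_trans ?_ ((h (ρ + lg n) (by linarith)).trans (Real.exp_le_exp.2 (by nlinarith)))
  exact_mod_cast (Set.ncard_le_ncard hsub ((Tower.Gam.finite _).image _)).trans
    (Set.ncard_image_le (Tower.Gam.finite _))

theorem Tower.surj (W : Tower P) (j : Fin W.k) : ∃ t, W.ht t = Pi.single j 1 := by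
  obtain ⟨g, hg⟩ := W.ht_surj (Pi.single j 1)
  refine ⟨g, funext fun a => ?_⟩
  rw [hg a]
  by_cases h : a = j
  · subst h; simp
  · simp [Pi.single_eq_of_ne h]

/-- THE ROW from the model, the count and the middle -/
theorem result_of (S : Finset P) (hS : Subgroup.closure (S : Set P) = ⊤) (T : Finset H)
    (hT : Subgroup.closure (T : Set H) = ⊤) (hP : IsVirtuallyPolycyclic P) (F : H → P)
    (hF : Crest.Geometry.IsQuasiIsometry (wordDist (T : Set H)) (wordDist (S : Set P)) F)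
    (htow : TowerStmt P)
    (hgam : ∀ (P₀ : Subgroup P) (W : Tower P₀), ∃ C : ℝ, 0 ≤ C ∧ ∀ R : ℝ, 0 ≤ R →
      ((W.Gam R).ncard : ℝ) ≤ Real.exp (C * (R + 1)))
    (hmid : ∀ (P₀ : Subgroup P) (W : Tower P₀), IsVirtuallyPolycyclic P₀ →
      SelfU (W.S : Set P₀) W.ht) : IsVirtuallyPolycyclic H := by
  obtain ⟨P₀, h0, ⟨W⟩⟩ := htow hP
  obtain ⟨c, hc⟩ := QI.of_isQuasiIsometry hT hS hF
  haveI : P₀.subtype.range.FiniteIndex := by rwa [Subgroup.range_subtype]
  obtain ⟨c₀, hc₀⟩ := QI.of_hom W.S.finite_toSet W.gen S.finite_toSet hS P₀.subtype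
    P₀.subtype_injective
  obtain ⟨E, hE, -⟩ := hc₀.symm
  have hv := vp_subgroup hP P₀
  exact end_all W.S W.gen hv W.ht_mul W.ht_int W.surj (W.count_of_gam (hgam P₀ W))
    (hmid P₀ W hv) T hT (hc.comp hE)

end Crest.Agent.R182
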