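import Crest.Agent.R182.GBDefs
import Crest.Prelude.Def_QuasiIsometry

/-! Row 182, block E (end game): paths, slabs, means, discrete quasi-isometries. -/

set_option autoImplicit false
set_option linter.dupNamespace false

namespace Crest.Agent.R182

open Crest.GroupTheory

variable {G H P : Type*} [Group G] [Group H] [Group P] {k : ℕ}

/-- a `T`-path with `n` steps (staying is allowed) from `x` to `y` inside `A` -/
def Reach (T A : Set G) (x : G) (n : ℕ) (y : G) : Prop :=
  ∃ p : ℕ → G, p 0 = x ∧ p n = y ∧ (∀ i < n, (p i)⁻¹ * p (i + 1) ∈ Ball T 1) ∧ ∀ i ≤ n, p i ∈ A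

/-- `x` and `y` are joined by a `T`-path inside `A` -/
def Link (T A : Set G) (x y : G) : Prop := ∃ n, Reach T A x n y

/-- points whose height is within `ρ` of the height of `x` -/
def Slab (u : G → Fin k → ℝ) (x : G) (ρ : ℝ) : Set G := {z | ‖u z - u x‖ ≤ ρ}

/-- the ball of radius `r` about `x` -/
def BallAt (T : Set G) (x : G) (r : ℕ) : Set G := {z | x⁻¹ * z ∈ Ball T r}

/-- additive maps -/
def AHom (φ : G → Fin k → ℝ) : Prop := ∀ a b, φ (a * b) = φ a + φ b

/-- the error term -/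
noncomputable def lg (n : ℕ) : ℝ := 1 + Real.log (1 + n)

/-- `u` is Lipschitz -/
def Lip (T : Set G) (u : G → Fin k → ℝ) (L : ℝ) : Prop :=
  0 ≤ L ∧ ∀ x, ∀ t ∈ Ball T 1, ‖u (x * t) - u x‖ ≤ L

/-- few endpoints of paths in a slab -/
def Count (T : Set G) (u : G → Fin k → ℝ) : Prop :=
  ∃ C : ℝ, 0 ≤ C ∧ ∀ (a : G) (n : ℕ) (ρ : ℝ), 0 ≤ ρ →
    (Set.ncard {y | Reach T (Slab u a ρ) a n y} : ℝ) ≤ Real.exp (C * (ρ + lg n))

/-- level sets are coarsely connected, inside balls of comparable radius -/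
def Conn (T : Set G) (u : G → Fin k → ℝ) : Prop :=
  ∃ C : ℕ, ∀ (x y : G) (L : ℕ), x⁻¹ * y ∈ Ball T L →
    Link T (BallAt T x (C * L + C) ∩ Slab u x (C * ‖u y - u x‖ + C)) x y

/-- left translations by elements of `H₀` almost preserve height differences -/
def U0 (T : Set G) (u : G → Fin k → ℝ) (H₀ : Subgroup G) : Prop :=
  ∀ ε : ℝ, 0 < ε → ∃ C : ℝ, ∀ b ∈ H₀, ∀ (x y : G) (n : ℕ) (ρ : ℝ), Reach T (Slab u x ρ) x n y →
    ‖u (b * y) - u (b * x) - (u y - u x)‖ ≤ ε * ρ + C * lg n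

/-- height differences are almost given by `φ` -/
def UP (T : Set G) (u φ : G → Fin k → ℝ) : Prop :=
  ∀ ε : ℝ, 0 < ε → ∃ C : ℝ, 0 ≤ C ∧ ∀ (x y : G) (n : ℕ) (ρ : ℝ), Reach T (Slab u x ρ) x n y →
    ‖u y - u x - φ (x⁻¹ * y)‖ ≤ ε * ρ + C * lg n

/-- bounded functions -/
def Bdd {X : Type*} (f : X → ℝ) : Prop := ∃ B, ∀ x, |f x| ≤ B

/-- a right invariant mean -/
structure Mean (G : Type*) [Group G] where
  /-- the functional (only its values on bounded functions matter) -/
  m : (G → ℝ) → ℝ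
  add : ∀ f g, Bdd f → Bdd g → m (fun x => f x + g x) = m f + m g
  smul : ∀ (c : ℝ) f, Bdd f → m (fun x => c * f x) = c * m f
  mono : ∀ f g, Bdd f → Bdd g → (∀ x, f x ≤ g x) → m f ≤ m g
  one : m (fun _ => 1) = 1
  inv : ∀ f, Bdd f → ∀ g : G, m (fun x => f (x * g)) = m f

/-- discrete quasi-isometry with constant `c` -/
structure QI (T : Set H) (S : Set P) (F : H → P) (c : ℕ) : Prop where
  up : ∀ x y n, x⁻¹ * y ∈ Ball T n → (F x)⁻¹ * F y ∈ Ball S (c * n + c)
  down : ∀ x y n, (F x)⁻¹ * F y ∈ Ball S n → x⁻¹ * y ∈ Ball T (c * n + c)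
  dense : ∀ p, ∃ x, (F x)⁻¹ * p ∈ Ball S c

/-- THE MIDDLE: every self-quasi-isometry of `P` acts on height differences, up to an error
`ε · excursion + C log length`, by one of finitely many linear maps -/
def SelfU (S : Set P) (ht : P → Fin k → ℝ) : Prop :=
  ∀ c : ℕ, ∃ Wf : Finset (Module.End ℝ (Fin k → ℝ)), ∀ ε : ℝ, 0 < ε → ∃ C : ℝ,
    ∀ ψ : P → P, QI S S ψ c → ∃ w ∈ Wf, ∀ (x y : P) (n : ℕ) (ρ : ℝ),
      Reach S (Slab ht x ρ) x n y →
        ‖ht (ψ y) - ht (ψ x) - w (ht y - ht x)‖ ≤ ε * ρ + C * lg n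

/-! ### `lg` -/

theorem one_le_lg (n : ℕ) : 1 ≤ lg n := by
  have : 0 ≤ Real.log (1 + n) := Real.log_nonneg (by have := n.cast_nonneg (α := ℝ); linarith)
  unfold lg; linarith

theorem lg_mono {m n : ℕ} (h : m ≤ n) : lg m ≤ lg n := by
  have h1 : (m : ℝ) ≤ n := by exact_mod_cast h
  have : Real.log (1 + m) ≤ Real.log (1 + n) := Real.log_le_log (by positivity) (by linarith)
  unfold lg; linarith

theorem lg_mul_le (c n : ℕ) : lg (c * n + c) ≤ lg c * lg n := by
  have hc : (0 : ℝ) ≤ c := c.cast_nonneg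
  have hn : (0 : ℝ) ≤ n := n.cast_nonneg
  have h1 : Real.log (1 + (c * n + c : ℕ)) ≤ Real.log (1 + c) + Real.log (1 + n) := by
    rw [← Real.log_mul (by positivity) (by positivity)]
    refine Real.log_le_log (by positivity) ?_
    push_cast
    nlinarith
  have h2 : 0 ≤ Real.log (1 + c) := Real.log_nonneg (by linarith)
  have h3 : 0 ≤ Real.log (1 + n) := Real.log_nonneg (by linarith)
  unfold lg
  nlinarith [mul_nonneg h2 h3]

theorem lg_le_lin {δ : ℝ} (hδ : 0 < δ) : ∃ B : ℝ, 0 ≤ B ∧ ∀ n : ℕ, lg n ≤ δ * n + B := by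
  refine ⟨δ + |Real.log δ|, by positivity, fun n => ?_⟩
  have hn : (0 : ℝ) ≤ n := n.cast_nonneg
  have h1 := Real.log_le_sub_one_of_pos (x := δ * (1 + n)) (by positivity)
  rw [Real.log_mul hδ.ne' (by positivity)] at h1
  have := neg_abs_le (Real.log δ)
  unfold lg
  nlinarith

theorem exp_lg (n : ℕ) : Real.exp (lg n) = Real.exp 1 * (1 + n) := by
  rw [lg, Real.exp_add, Real.exp_log (by positivity)]

/-! ### additive maps -/

theorem AHom.one {φ : G → Fin k → ℝ} (h : AHom φ) : φ 1 = 0 := by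
  have := h 1 1
  rw [mul_one] at this
  exact left_eq_add.1 this

theorem AHom.inv {φ : G → Fin k → ℝ} (h : AHom φ) (a : G) : φ a⁻¹ = -φ a := by
  have := h a a⁻¹
  rw [mul_inv_cancel, h.one] at this
  exact eq_neg_of_add_eq_zero_right this.symm

theorem AHom.inv_mul {φ : G → Fin k → ℝ} (h : AHom φ) (a b : G) : φ (a⁻¹ * b) = φ b - φ a := by
  rw [h, h.inv]; abel

theorem AHom.pow {φ : G → Fin k → ℝ} (h : AHom φ) (a : G) (n : ℕ) : φ (a ^ n) = (n : ℝ) • φ a := by
  induction n with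
  | zero => simp [h.one]
  | succ n ih => rw [pow_succ, h, ih]; push_cast; rw [add_smul, one_smul]

theorem AHom.zpow {φ : G → Fin k → ℝ} (h : AHom φ) (a : G) (n : ℤ) : φ (a ^ n) = (n : ℝ) • φ a := by
  cases n with
  | ofNat n => simpa using h.pow a n
  | negSucc n => rw [zpow_negSucc, h.inv, h.pow, Int.cast_negSucc, neg_smul]

/-- the kernel -/
def AHom.ker {φ : G → Fin k → ℝ} (h : AHom φ) : Subgroup G where
  carrier := {g | φ g = 0}
  one_mem' := h.one
  mul_mem' {a b} ha hb := by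
    change φ (a * b) = 0
    rw [h, show φ a = 0 from ha, show φ b = 0 from hb, add_zero]
  inv_mem' {a} ha := by
    change φ a⁻¹ = 0
    rw [h.inv, show φ a = 0 from ha, neg_zero]

theorem AHom.mem_ker {φ : G → Fin k → ℝ} (h : AHom φ) {g : G} : g ∈ h.ker ↔ φ g = 0 := Iff.rfl

theorem AHom.conj {φ : G → Fin k → ℝ} (h : AHom φ) (a b : G) : φ (a * b * a⁻¹) = φ b := by
  rw [h, h, h.inv]; abel

theorem AHom.ker_normal {φ : G → Fin k → ℝ} (h : AHom φ) : h.ker.Normal :=
  ⟨fun n hn g => by rw [h.mem_ker, h.conj]; exact hn⟩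

theorem AHom.comm_mem {φ : G → Fin k → ℝ} (h : AHom φ) (a b : G) :
    a * b * a⁻¹ * b⁻¹ ∈ h.ker := by
  rw [h.mem_ker, h, h.conj, h.inv, add_neg_cancel]

theorem AHom.norm_le {φ : G → Fin k → ℝ} (h : AHom φ) {X : Set G} {η : ℝ} (hη : 0 ≤ η)
    (hX : ∀ x ∈ X, ‖φ x‖ ≤ η) {r : ℕ} {g : G} (hg : g ∈ Ball X r) : ‖φ g‖ ≤ η * r := by
  induction r generalizing g with
  | zero =>
    rw [h31_ball_zero] at hg
    rw [Set.mem_singleton_iff.1 hg, h.one]; simp
  | succ r ih =>
    rcases h31_ball_succ hg with rfl | ⟨x, hx, b, hb, rfl⟩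
    · rw [h.one, norm_zero]; positivity
    · have h1 : ‖φ x‖ ≤ η := by
        rcases hx with hx | hx
        · exact hX x hx
        · have := hX _ hx
          rwa [h.inv, norm_neg] at this
      rw [h]
      have := ih hb
      push_cast
      linarith [norm_add_le (φ x) (φ b)]

theorem AHom.lip {φ : G → Fin k → ℝ} (h : AHom φ) {T : Set G} (hT : T.Finite) :
    ∃ L, Lip T φ L := by
  obtain ⟨B, hB⟩ := (hT.image fun t => ‖φ t‖).bddAbove
  refine ⟨max B 0, le_max_right _ _, fun x t ht => ?_⟩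
  rw [h, add_sub_cancel_left]
  have := h.norm_le (le_max_right B 0)
    (fun y hy => (hB (Set.mem_image_of_mem _ hy)).trans (le_max_left _ _)) ht
  simpa using this

/-! ### paths -/

theorem Reach.refl (T : Set G) {A : Set G} {x : G} (hx : x ∈ A) (n : ℕ) : Reach T A x n x :=
  ⟨fun _ => x, rfl, rfl, fun _ _ => by rw [inv_mul_cancel]; exact Ball.one_mem _ _, fun _ _ => hx⟩

theorem Reach.mono {T A A' : Set G} {x y : G} {n : ℕ} (h : Reach T A x n y) (hA : A ⊆ A') :
    Reach T A' x n y := by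
  obtain ⟨p, h0, h1, h2, h3⟩ := h
  exact ⟨p, h0, h1, h2, fun i hi => hA (h3 i hi)⟩

theorem Reach.left {T A : Set G} {x y : G} {n : ℕ} (h : Reach T A x n y) : x ∈ A := by
  obtain ⟨p, rfl, -, -, h3⟩ := h
  exact h3 0 (Nat.zero_le _)

theorem Reach.right {T A : Set G} {x y : G} {n : ℕ} (h : Reach T A x n y) : y ∈ A := by
  obtain ⟨p, -, rfl, -, h3⟩ := h
  exact h3 n le_rfl

theorem Reach.trans {T A : Set G} {x y z : G} {m n : ℕ} (h : Reach T A x m y)
    (h' : Reach T A y n z) : Reach T A x (m + n) z := by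
  obtain ⟨p, p0, p1, p2, p3⟩ := h
  obtain ⟨q, q0, q1, q2, q3⟩ := h'
  refine ⟨fun i => if i ≤ m then p i else q (i - m), by simpa using p0, ?_, fun i hi => ?_,
    fun i hi => ?_⟩
  · by_cases hn : n = 0
    · subst hn; simp [p1, ← q1, q0]
    · have : ¬ m + n ≤ m := by omega
      simp [this, q1]
  · by_cases h1 : i + 1 ≤ m
    · simp only [h1, show i ≤ m by omega, if_true]; exact p2 i (by omega)
    · have e : (if i ≤ m then p i else q (i - m)) = q (i - m) := by
        split_ifs with h2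
        · obtain rfl : i = m := by omega
          rw [p1, Nat.sub_self, q0]
        · rfl
      simp only [h1, if_false, e, show i + 1 - m = i - m + 1 by omega]
      exact q2 _ (by omega)
  · by_cases h1 : i ≤ m
    · simp only [h1, if_true]; exact p3 i h1
    · simp only [h1, if_false]; exact q3 _ (by omega)

theorem Reach.of_le {T A : Set G} {x y : G} {m n : ℕ} (h : Reach T A x m y) (hmn : m ≤ n) :
    Reach T A x n y := by
  have := h.trans (Reach.refl T h.right (n - m))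
  rwa [Nat.add_sub_cancel' hmn] at this

theorem Reach.step {T A : Set G} {x y : G} (hx : x ∈ A) (hy : y ∈ A) (h : x⁻¹ * y ∈ Ball T 1) :
    Reach T A x 1 y := by
  refine ⟨fun i => if i = 0 then x else y, by simp, by simp, fun i hi => ?_, fun i _ => ?_⟩
  · obtain rfl : i = 0 := by omega
    simpa using h
  · dsimp only
    split_ifs
    · exact hx
    · exact hy

theorem Reach.symm {T A : Set G} {x y : G} {n : ℕ} (h : Reach T A x n y) : Reach T A y n x := by
  obtain ⟨p, p0, p1, p2, p3⟩ := h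
  refine ⟨fun i => p (n - i), by simpa using p1, by simpa using p0, fun i hi => ?_,
    fun i _ => p3 _ (Nat.sub_le _ _)⟩
  have := Ball.inv_mem (p2 (n - (i + 1)) (by omega))
  rw [mul_inv_rev, inv_inv, show n - (i + 1) + 1 = n - i by omega] at this
  exact this

/-- left translation of a path -/
theorem Reach.mul_left {T A A' : Set G} {x y : G} {n : ℕ} (h : Reach T A x n y) (g : G)
    (hA : ∀ z ∈ A, g * z ∈ A') : Reach T A' (g * x) n (g * y) := by
  obtain ⟨p, p0, p1, p2, p3⟩ := h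
  refine ⟨fun i => g * p i, by simp only [p0], by simp only [p1], fun i hi => ?_,
    fun i hi => hA _ (p3 i hi)⟩
  have := p2 i hi
  rwa [show (g * p i)⁻¹ * (g * p (i + 1)) = (p i)⁻¹ * p (i + 1) by group]

/-- induction along a path -/
theorem Reach.induction {T A : Set G} {x : G} (Q : ℕ → G → Prop) (h0 : x ∈ A → Q 0 x)
    (hs : ∀ n y z, Reach T A x n y → Q n y → y⁻¹ * z ∈ Ball T 1 → z ∈ A → Q (n + 1) z)
    {n : ℕ} {y : G} (h : Reach T A x n y) : Q n y := by
  obtain ⟨p, p0, rfl, p2, p3⟩ := h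
  have key : ∀ i ≤ n, Q i (p i) := by
    intro i
    induction i with
    | zero => intro _; rw [p0]; exact h0 (p0 ▸ p3 0 (Nat.zero_le _))
    | succ i ih =>
      intro hi
      exact hs i (p i) _ ⟨p, p0, rfl, fun j hj => p2 j (by omega), fun j hj => p3 j (by omega)⟩
        (ih (by omega)) (p2 i (by omega)) (p3 _ hi)
  exact key n le_rfl

theorem Reach.mem_ball {T A : Set G} {x y : G} {n : ℕ} (h : Reach T A x n y) :
    x⁻¹ * y ∈ Ball T n := by
  refine Reach.induction (fun n y => x⁻¹ * y ∈ Ball T n) (fun _ => ?_) (fun n y z _ h1 h2 _ => ?_) h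
  · rw [inv_mul_cancel]; exact Ball.one_mem _ _
  · have := Ball.mul_mem h1 h2
    rwa [show x⁻¹ * y * (y⁻¹ * z) = x⁻¹ * z by group] at this

theorem BallAt.self (T : Set G) (x : G) (r : ℕ) : x ∈ BallAt T x r := by
  change x⁻¹ * x ∈ Ball T r
  rw [inv_mul_cancel]
  exact Ball.one_mem _ _

theorem BallAt.mono (T : Set G) (x : G) {r s : ℕ} (h : r ≤ s) : BallAt T x r ⊆ BallAt T x s :=
  fun _ hz => Ball.mono subset_rfl h hz

theorem Slab.self (u : G → Fin k → ℝ) (x : G) {ρ : ℝ} (h : 0 ≤ ρ) : x ∈ Slab u x ρ := by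
  change ‖u x - u x‖ ≤ ρ
  rwa [sub_self, norm_zero]

theorem Slab.mono (u : G → Fin k → ℝ) (x : G) {ρ σ : ℝ} (h : ρ ≤ σ) : Slab u x ρ ⊆ Slab u x σ :=
  fun _ hz => le_trans hz h

theorem Reach.nonneg {T : Set G} {u : G → Fin k → ℝ} {x y : G} {n : ℕ} {ρ : ℝ}
    (h : Reach T (Slab u x ρ) x n y) : 0 ≤ ρ :=
  le_trans (norm_nonneg _) h.left

/-- geodesics -/
theorem Reach.of_ball {T : Set G} {x y : G} {n : ℕ} (h : x⁻¹ * y ∈ Ball T n) :
    Reach T (BallAt T x n) x n y := by
  induction n generalizing x with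
  | zero =>
    rw [h31_ball_zero, Set.mem_singleton_iff, inv_mul_eq_one] at h
    subst h
    exact Reach.refl T (BallAt.self T x 0) 0
  | succ n ih =>
    have hx : x ∈ BallAt T x (n + 1) := BallAt.self T x _
    rcases h31_ball_succ h with h1 | ⟨s, hs, b, hb, e⟩
    · rw [inv_mul_eq_one] at h1
      subst h1
      exact Reach.refl T hx _
    · have hs1 : s ∈ Ball T 1 := by
        rcases hs with hs | hs
        · exact Ball.mem_of_mem hs
        · exact inv_inv s ▸ Ball.inv_mem (Ball.mem_of_mem hs)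
      have hsub : BallAt T (x * s) n ⊆ BallAt T x (n + 1) := fun z hz => by
        have := Ball.mul_mem hs1 hz
        rw [show s * ((x * s)⁻¹ * z) = x⁻¹ * z by group, add_comm] at this
        exact this
      have h2 : (x * s)⁻¹ * y ∈ Ball T n := by
        rwa [show (x * s)⁻¹ * y = s⁻¹ * (x⁻¹ * y) by group, ← e, inv_mul_cancel_left]
      have h3 := (ih h2).mono hsub
      have h4 : Reach T (BallAt T x (n + 1)) x 1 (x * s) :=
        Reach.step hx h3.left (by rwa [inv_mul_cancel_left])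
      exact (h4.trans h3).of_le (by omega)

theorem Reach.finite {T : Set G} (hT : T.Finite) (A : Set G) (x : G) (n : ℕ) :
    {y | Reach T A x n y}.Finite :=
  ((Ball.finite hT n).image fun g => x * g).subset fun y hy =>
    ⟨x⁻¹ * y, Reach.mem_ball hy, mul_inv_cancel_left x y⟩

theorem Lip.ball {T : Set G} {u : G → Fin k → ℝ} {L : ℝ} (h : Lip T u L) {x y : G} {n : ℕ}
    (hxy : x⁻¹ * y ∈ Ball T n) : ‖u y - u x‖ ≤ L * n := by
  refine Reach.induction (fun n y => ‖u y - u x‖ ≤ L * n) (fun _ => by simp)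
    (fun n y z _ h1 h2 _ => ?_) (Reach.of_ball hxy)
  have h3 := h.2 y _ h2
  rw [mul_inv_cancel_left] at h3
  have := norm_add_le (u z - u y) (u y - u x)
  rw [sub_add_sub_cancel] at this
  push_cast
  linarith

/-- a geodesic stays in a slab -/
theorem Lip.reach {T : Set G} {u : G → Fin k → ℝ} {L : ℝ} (h : Lip T u L) {x y : G} {n : ℕ}
    (hxy : x⁻¹ * y ∈ Ball T n) : Reach T (Slab u x (L * n)) x n y :=
  (Reach.of_ball hxy).mono fun _ hz => h.ball hz

theorem Link.refl (T : Set G) {A : Set G} {x : G} (hx : x ∈ A) : Link T A x x :=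
  ⟨0, Reach.refl T hx 0⟩

theorem Link.mono {T A A' : Set G} {x y : G} (h : Link T A x y) (hA : A ⊆ A') : Link T A' x y :=
  let ⟨n, hn⟩ := h; ⟨n, hn.mono hA⟩

theorem Link.trans {T A : Set G} {x y z : G} (h : Link T A x y) (h' : Link T A y z) :
    Link T A x z :=
  let ⟨m, hm⟩ := h; let ⟨n, hn⟩ := h'; ⟨m + n, hm.trans hn⟩

theorem Link.symm {T A : Set G} {x y : G} (h : Link T A x y) : Link T A y x :=
  let ⟨n, hn⟩ := h; ⟨n, hn.symm⟩

theorem Link.mul_left {T A A' : Set G} {x y : G} (h : Link T A x y) (g : G)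
    (hA : ∀ z ∈ A, g * z ∈ A') : Link T A' (g * x) (g * y) :=
  let ⟨n, hn⟩ := h; ⟨n, hn.mul_left g hA⟩

/-- a chain of links -/
theorem Link.chain {T A : Set G} (q : ℕ → G) (n : ℕ) (h0 : q 0 ∈ A)
    (h : ∀ i < n, Link T A (q i) (q (i + 1))) : Link T A (q 0) (q n) := by
  induction n with
  | zero => exact Link.refl T h0
  | succ n ih => exact (ih fun i hi => h i (by omega)).trans (h n (by omega))

/-- a chain of paths of `c` steps -/
theorem Reach.chain {T A : Set G} (q : ℕ → G) (c n : ℕ) (h0 : q 0 ∈ A)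
    (h : ∀ i < n, Reach T A (q i) c (q (i + 1))) : Reach T A (q 0) (c * n) (q n) := by
  induction n with
  | zero => exact Reach.refl T h0 _
  | succ n ih => exact (ih fun i hi => h i (by omega)).trans (h n (by omega))

end Crest.Agent.R182
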