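import Crest.Agent.R182.GBUnit

/-! Row 182, block G5: a finite-index subgroup mapping onto `ℤ`. -/

set_option autoImplicit false
set_option linter.dupNamespace false

namespace Crest.Agent.R182

variable {G : Type*} [Group G]

/-- an infinite finitely generated abelian group maps onto `ℤ`
(`AddCommGroup.equiv_free_prod_directSum_zmod`: the free rank is positive) -/
theorem exists_surj_int_add (A : Type*) [AddCommGroup A] (hA : AddGroup.FG A) [Infinite A] :
    ∃ φ : A →+ ℤ, Function.Surjective φ := by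
  classical
  obtain ⟨n, ι, _, p, hp, e, ⟨f⟩⟩ := AddCommGroup.equiv_free_prod_directSum_zmod A
  rcases n with _ | n
  · exfalso
    have : ∀ i, NeZero (p i ^ e i) := fun i => ⟨pow_ne_zero _ (hp i).ne_zero⟩
    have : Finite (DirectSum ι fun i => ZMod (p i ^ e i)) :=
      Finite.of_equiv _ (DFinsupp.equivFunOnFintype (β := fun i => ZMod (p i ^ e i))).symm
    have : Finite A := Finite.of_equiv _ f.toEquiv.symm
    exact not_finite A
  · refine ⟨(Finsupp.applyAddHom (0 : Fin (n + 1))).comp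
      ((AddMonoidHom.fst _ _).comp f.toAddMonoidHom), fun z => ?_⟩
    exact ⟨f.symm (Finsupp.single 0 z, 0), by simp⟩

/-- `f` factors through `Abelianization G`, which is therefore infinite and finitely generated -/
theorem exists_surj_int (hG : Group.FG G) {A : Type*} [Group A] (f : G →* A)
    (hc : ∀ a b, f a * f b = f b * f a) (hinf : (Set.range f).Infinite) :
    ∃ φ : G →* Multiplicative ℤ, Function.Surjective φ := by
  letI : CommGroup f.range :=
    { (inferInstance : Group f.range) with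
      mul_comm := by
        rintro ⟨_, a, rfl⟩ ⟨_, b, rfl⟩
        exact Subtype.ext (hc a b) }
  have hfg : Group.FG f.range := Group.fg_of_surjective f.rangeRestrict_surjective
  have : Infinite f.range := hinf.to_subtype
  obtain ⟨φ, hφ⟩ := exists_surj_int_add (Additive f.range) (GroupFG.iff_add_fg.1 hfg)
  refine ⟨(AddMonoidHom.toMultiplicativeRight φ).comp f.rangeRestrict, fun z => ?_⟩
  obtain ⟨a, ha⟩ := hφ (Multiplicative.toAdd z)
  obtain ⟨g, hg⟩ := f.rangeRestrict_surjective (Additive.toMul a)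
  refine ⟨g, ?_⟩
  rw [MonoidHom.comp_apply, hg]
  exact congrArg Multiplicative.ofAdd ha

/-- `Γ` from `virt_comm_real`.  If `ρ` has infinite image on `Γ` use `exists_surj_int` for `Γ`.
Otherwise `K = Γ ⊓ ker ρ` has finite index, `b` is a homomorphism `K →* Multiplicative (Fin n → ℝ)`,
and its range is infinite: otherwise `b (f * x) = b f + ρ f (b x)` (`f` in a finite transversal)
takes finitely many values. -/
theorem exists_finiteIndex_surj {d n : ℕ} (hG : Group.FG G) (h : PG G d)
    (ρ : G →* Matrix.unitaryGroup (Fin n) ℝ) (b : G → Fin n → ℝ)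
    (hb : ∀ g x, b (g * x) = b g + (ρ g : Matrix (Fin n) (Fin n) ℝ).mulVec (b x))
    (hu : ∀ M : ℝ, ∃ g, M < ‖b g‖) :
    ∃ Γ : Subgroup G, Γ.FiniteIndex ∧ ∃ φ : Γ →* Multiplicative ℤ, Function.Surjective φ := by
  obtain ⟨Γ, hΓ, hc⟩ := virt_comm_real hG h ρ
  by_cases hinf : (Set.range (ρ.comp Γ.subtype)).Infinite
  · exact ⟨Γ, hΓ, exists_surj_int (Subgroup.fg_of_index_ne_zero Γ) (ρ.comp Γ.subtype)
      (fun a b => hc a a.2 b b.2) hinf⟩
  have hfin : Finite (ρ.comp Γ.subtype).range := (Set.not_infinite.1 hinf).to_subtype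
  have hK0 : (ρ.comp Γ.subtype).ker.FiniteIndex := Subgroup.finiteIndex_ker _
  obtain ⟨K, hK⟩ : ∃ K : Subgroup G, K = (ρ.comp Γ.subtype).ker.map Γ.subtype := ⟨_, rfl⟩
  have hKf : K.FiniteIndex := ⟨by
    rw [hK, Subgroup.index_map_subtype]
    exact mul_ne_zero hK0.index_ne_zero hΓ.index_ne_zero⟩
  have hρ : ∀ k ∈ K, ρ k = 1 := by
    intro k hk
    rw [hK] at hk
    obtain ⟨x, hx, rfl⟩ := hk
    exact hx
  let β : K →* Multiplicative (Fin n → ℝ) := MonoidHom.mk' (fun k => Multiplicative.ofAdd (b k))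
    fun k k' => by
      rw [← ofAdd_add, Subgroup.coe_mul, hb, hρ k k.2]
      simp
  refine ⟨K, hKf, exists_surj_int (Subgroup.fg_of_index_ne_zero K) β (fun _ _ => mul_comm _ _) ?_⟩
  intro hβ
  have : Finite (Set.range β) := hβ.to_subtype
  have hfb : (Set.range b).Finite := by
    refine (Set.finite_range fun q : (G ⧸ K) × Set.range β => b q.1.out +
      (ρ q.1.out : Matrix (Fin n) (Fin n) ℝ).mulVec (Multiplicative.toAdd q.2.1)).subset ?_
    rintro _ ⟨g, rfl⟩
    obtain ⟨k, hk⟩ := QuotientGroup.mk_out_eq_mul K g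
    refine ⟨((g : G ⧸ K), ⟨β k⁻¹, k⁻¹, rfl⟩), ?_⟩
    have e : g = (g : G ⧸ K).out * ((k⁻¹ : K) : G) := by
      rw [hk, Subgroup.coe_inv, mul_inv_cancel_right]
    conv_rhs => rw [e, hb]
    rfl
  obtain ⟨M, hM⟩ := (hfb.image fun v => ‖v‖).bddAbove
  obtain ⟨g, hg⟩ := hu M
  exact absurd (hM ⟨b g, ⟨g, rfl⟩, rfl⟩) (not_le.2 hg)

end Crest.Agent.R182
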