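import Crest.Agent.R182.GBDefs

/-! Row 182, block G1: Milnor's lemma and the drop of the growth degree. -/

set_option autoImplicit false
set_option linter.dupNamespace false

namespace Crest.Agent.R182

variable {G : Type*} [Group G]

/-- `cj t g i = t ^ i * g * t ^ (-i)` -/
def cj (t g : G) (i : ℕ) : G := t ^ i * g * (t ^ i)⁻¹

/-- the word `g ^ e 0 * t * g ^ e 1 * t * ⋯ * g ^ e (m-1) * t`, without the final `t ^ m` -/
def mw (t g : G) (e : ℕ → Bool) : ℕ → G
  | 0 => 1
  | m + 1 => mw t g e m * (if e m then cj t g m else 1)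

/-- induction: `mw (m+1) * t ^ (m+1) = (mw m * t ^ m) * (g or 1) * t` -/
theorem mw_mem_ball (t g : G) (e : ℕ → Bool) (m : ℕ) :
    mw t g e m * t ^ m ∈ Ball ({g, t} : Set G) (2 * m) := by
  induction m with
  | zero => simpa [mw] using Ball.one_mem _ _
  | succ m ih =>
    have ht : t ∈ Ball ({g, t} : Set G) 1 := Ball.mem_of_mem (by simp)
    have hx : (if e m then g else 1) ∈ Ball ({g, t} : Set G) 1 := by
      split_ifs
      exacts [Ball.mem_of_mem (by simp), Ball.one_mem _ _]
    have h1 : mw t g e (m + 1) * t ^ (m + 1) =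
        mw t g e m * t ^ m * (if e m then g else 1) * t := by
      rw [mw, pow_succ]
      split_ifs
      · rw [cj]
        group
      · group
    rw [h1, show 2 * (m + 1) = 2 * m + 1 + 1 by ring]
    exact Ball.mul_mem (Ball.mul_mem ih hx) ht

theorem mw_mem_closure (t g : G) (e : ℕ → Bool) (m : ℕ) :
    mw t g e m ∈ Subgroup.closure (cj t g '' {i | i < m}) := by
  induction m with
  | zero => exact Subgroup.one_mem _
  | succ m ih =>
    rw [mw]
    refine Subgroup.mul_mem _ (Subgroup.closure_mono (Set.image_mono fun i hi => ?_) ih) ?_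
    · exact Nat.lt_succ_of_lt hi
    · split_ifs
      exacts [Subgroup.subset_closure ⟨m, Nat.lt_succ_self m, rfl⟩, Subgroup.one_mem _]

/-- induction on `m`: if `e m = e' m` cancel the last factor, otherwise `j = m` works by
`mw_mem_closure` -/
theorem mw_collide (t g : G) (e e' : ℕ → Bool) (m : ℕ) (hne : ∃ i < m, e i ≠ e' i)
    (h : mw t g e m = mw t g e' m) :
    ∃ j, cj t g j ∈ Subgroup.closure (cj t g '' {i | i < j}) := by
  induction m with
  | zero =>
    obtain ⟨i, hi, -⟩ := hne
    omega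
  | succ m ih =>
    rw [mw, mw] at h
    have h1 := mw_mem_closure t g e m
    have h2 := mw_mem_closure t g e' m
    by_cases hm : e m = e' m
    · rw [hm] at h
      obtain ⟨i, hi, hi'⟩ := hne
      refine ih ⟨i, ?_, hi'⟩ (mul_right_cancel h)
      rcases Nat.lt_succ_iff_lt_or_eq.1 hi with h3 | h3
      · exact h3
      · exact absurd hm (h3 ▸ hi')
    · refine ⟨m, ?_⟩
      cases h3 : e m <;> cases h4 : e' m
      · exact absurd (h3.trans h4.symm) hm
      · rw [h3, h4] at h
        simp only [Bool.false_eq_true, if_false, if_true, mul_one] at h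
        rw [eq_inv_mul_of_mul_eq h.symm]
        exact Subgroup.mul_mem _ (Subgroup.inv_mem _ h2) h1
      · rw [h3, h4] at h
        simp only [Bool.false_eq_true, if_false, if_true, mul_one] at h
        rw [eq_inv_mul_of_mul_eq h]
        exact Subgroup.mul_mem _ (Subgroup.inv_mem _ h1) h2
      · exact absurd (h3.trans h4.symm) hm

/-- pigeonhole: `2 ^ m` words (`e : Fin m → Bool` extended by `false`) in a ball with at most
`C * (2 m) ^ d < 2 ^ m` elements (`exists_two_pow_gt`) -/
theorem exists_cj_mem {d : ℕ} (h : PG G d) (t g : G) :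
    ∃ j, cj t g j ∈ Subgroup.closure (cj t g '' {i | i < j}) := by
  classical
  obtain ⟨C, hC⟩ := h {g, t}
  obtain ⟨m, hm, hlt⟩ := exists_two_pow_gt C d
  have h1 := hC (2 * m) (by omega)
  rw [Finset.coe_pair] at h1
  have hfin : (Ball ({g, t} : Set G) (2 * m)).Finite := Ball.finite (Set.toFinite _) _
  let ex : (Fin m → Bool) → ℕ → Bool := fun e i => if hi : i < m then e ⟨i, hi⟩ else false
  obtain ⟨e, -, e', -, hne, heq⟩ := Finset.exists_ne_map_eq_of_card_lt_of_maps_to
    (s := (Finset.univ : Finset (Fin m → Bool))) (t := hfin.toFinset)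
    (f := fun e => mw t g (ex e) m * t ^ m)
    (by
      rw [← Set.ncard_eq_toFinset_card _ hfin, Finset.card_univ, Fintype.card_fun,
        Fintype.card_bool, Fintype.card_fin]
      exact h1.trans_lt hlt)
    (fun e _ => by simpa using mw_mem_ball t g (ex e) m)
  obtain ⟨i, hi⟩ := Function.ne_iff.1 hne
  refine mw_collide t g (ex e) (ex e') m ⟨i, i.2, ?_⟩ (mul_right_cancel heq)
  simpa [ex] using hi

/-- strong induction on `n`; for `n ≥ j` conjugate the hypothesis by `t ^ (n - j)` -/
theorem cj_mem_all (t g : G) {j : ℕ}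
    (h : cj t g j ∈ Subgroup.closure (cj t g '' {i | i < j})) (n : ℕ) :
    cj t g n ∈ Subgroup.closure (cj t g '' {i | i < j}) := by
  induction n using Nat.strong_induction_on with
  | _ n ih =>
    by_cases hn : n < j
    · exact Subgroup.subset_closure ⟨n, hn, rfl⟩
    · obtain ⟨k, rfl⟩ := Nat.exists_eq_add_of_le (not_lt.1 hn)
      have hc : ∀ i, (MulAut.conj (t ^ k)).toMonoidHom (cj t g i) = cj t g (i + k) := by
        intro i
        simp only [cj, MulEquiv.coe_toMonoidHom, MulAut.conj_apply]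
        group
      have h1 := Subgroup.mem_map_of_mem (MulAut.conj (t ^ k)).toMonoidHom h
      rw [MonoidHom.map_closure, hc] at h1
      refine (Subgroup.closure_le _).2 ?_ h1
      rintro _ ⟨_, ⟨i, hi, rfl⟩, rfl⟩
      rw [hc]
      exact ih _ (Nat.add_lt_add_right hi k)

/-- the two-sided conjugates generate a finitely generated subgroup: use `exists_cj_mem` and
`cj_mem_all` for `t` and `t⁻¹` -/
theorem conj_fg {d : ℕ} (h : PG G d) (t g : G) :
    (Subgroup.closure (Set.range fun i : ℤ => t ^ i * g * (t ^ i)⁻¹)).FG := by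
  obtain ⟨j, hj⟩ := exists_cj_mem h t g
  obtain ⟨j', hj'⟩ := exists_cj_mem h t⁻¹ g
  rw [Subgroup.fg_iff]
  refine ⟨cj t g '' {i | i < j} ∪ cj t⁻¹ g '' {i | i < j'}, le_antisymm ?_ ?_,
    ((Set.finite_lt_nat j).image _).union ((Set.finite_lt_nat j').image _)⟩
  · refine Subgroup.closure_mono ?_
    rintro _ (⟨i, -, rfl⟩ | ⟨i, -, rfl⟩)
    · exact ⟨(i : ℤ), by simp [cj]⟩
    · exact ⟨-(i : ℤ), by simp [cj]⟩
  · refine (Subgroup.closure_le _).2 ?_
    rintro _ ⟨i, rfl⟩
    obtain ⟨n, rfl | rfl⟩ := i.eq_nat_or_neg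
    · have h1 := Subgroup.closure_mono (Set.subset_union_left (t := cj t⁻¹ g '' {i | i < j'}))
        (cj_mem_all t g hj n)
      simpa [cj] using h1
    · have h1 := Subgroup.closure_mono (Set.subset_union_right (s := cj t g '' {i | i < j}))
        (cj_mem_all t⁻¹ g hj' n)
      simpa [cj] using h1

theorem h45_fg_iSup_finset {ι : Type*} (S : Finset ι) (H : ι → Subgroup G)
    (hH : ∀ s ∈ S, (H s).FG) : (⨆ s ∈ S, H s).FG := by
  classical
  induction S using Finset.induction_on with
  | empty => simpa using Subgroup.FG.bot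
  | insert a S ha ih =>
    rw [Finset.iSup_insert]
    exact (hH a (Finset.mem_insert_self _ _)).sup
      (ih fun s hs => hH s (Finset.mem_insert_of_mem hs))

/-- Milnor.  `φ t = ofAdd 1`; for a generator `s` put `k s = s * t ^ (-(φ s))`;
`N = ⨆ s ∈ S, closure (range conj of k s)` is finitely generated, normalised by `t ^ i`, contained in
the kernel, and `{n * t ^ i}` is a subgroup containing `S`; so `ker φ = N`. -/
theorem ker_fg {d : ℕ} (hG : Group.FG G) (h : PG G d) (φ : G →* Multiplicative ℤ)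
    (hφ : Function.Surjective φ) : φ.ker.FG := by
  classical
  obtain ⟨t, ht⟩ := hφ (Multiplicative.ofAdd 1)
  obtain ⟨S, hS⟩ := (Group.fg_def.mp hG)
  have hφt : ∀ i : ℤ, φ (t ^ i) = Multiplicative.ofAdd i := by
    intro i
    rw [map_zpow, ht, ← ofAdd_zsmul]
    simp
  let k : G → G := fun s => s * (t ^ (Multiplicative.toAdd (φ s)))⁻¹
  have hk : ∀ s, φ (k s) = 1 := by
    intro s
    simp only [k, map_mul, map_inv, hφt]
    simp
  let H : G → Subgroup G := fun s =>
    Subgroup.closure (Set.range fun i : ℤ => t ^ i * k s * (t ^ i)⁻¹)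
  let N : Subgroup G := ⨆ s ∈ S, H s
  have hNfg : N.FG := h45_fg_iSup_finset S H fun s _ => conj_fg h t (k s)
  have hNle : N ≤ φ.ker := by
    refine iSup₂_le fun s _ => ?_
    rw [Subgroup.closure_le]
    rintro _ ⟨i, rfl⟩
    simp only [SetLike.mem_coe, MonoidHom.mem_ker, map_mul, map_inv, hk]
    simp
  have hconj : ∀ j : ℤ, ∀ n ∈ N, t ^ j * n * (t ^ j)⁻¹ ∈ N := by
    intro j
    have : N ≤ N.comap (MulAut.conj (t ^ j)).toMonoidHom := by
      refine iSup₂_le fun s hs => ?_
      rw [Subgroup.closure_le]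
      rintro _ ⟨i, rfl⟩
      simp only [SetLike.mem_coe, Subgroup.mem_comap, MulEquiv.coe_toMonoidHom,
        MulAut.conj_apply]
      have h1 : H s ≤ N := le_iSup₂_of_le (f := fun s (_ : s ∈ S) => H s) s hs le_rfl
      apply h1
      apply Subgroup.subset_closure
      refine ⟨j + i, ?_⟩
      simp only [zpow_add]
      group
    intro n hn
    exact this hn
  have hall : ∀ g : G, ∃ n ∈ N, ∃ i : ℤ, g = n * t ^ i := by
    intro g
    have hg : g ∈ Subgroup.closure (S : Set G) := by rw [hS]; trivial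
    induction hg using Subgroup.closure_induction with
    | mem x hx =>
      refine ⟨k x, ?_, Multiplicative.toAdd (φ x), by simp [k]⟩
      have h1 : H x ≤ N := le_iSup₂_of_le (f := fun s (_ : s ∈ S) => H s) x hx le_rfl
      apply h1
      apply Subgroup.subset_closure
      exact ⟨0, by simp⟩
    | one => exact ⟨1, N.one_mem, 0, by simp⟩
    | mul x y _ _ hx hy =>
      obtain ⟨n, hn, i, rfl⟩ := hx
      obtain ⟨m, hm, j, rfl⟩ := hy
      refine ⟨n * (t ^ i * m * (t ^ i)⁻¹), N.mul_mem hn (hconj i m hm), i + j, ?_⟩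
      simp only [zpow_add]
      group
    | inv x _ hx =>
      obtain ⟨n, hn, i, rfl⟩ := hx
      refine ⟨t ^ (-i) * n⁻¹ * (t ^ (-i))⁻¹, hconj (-i) _ (N.inv_mem hn), -i, ?_⟩
      group
  have : φ.ker = N := by
    refine le_antisymm ?_ hNle
    intro g hg
    obtain ⟨n, hn, i, rfl⟩ := hall g
    have h1 : φ n = 1 := hNle hn
    rw [MonoidHom.mem_ker, map_mul, h1, one_mul, hφt] at hg
    have hi : i = 0 := by simpa using hg
    subst hi
    simpa using hn
  rw [this]
  exact hNfg

/-- `(k, j) ↦ k * t ^ j` is injective on `Ball T r × range r` and lands in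
`Ball (insert t (subtype '' T)) (2 r)`; so `|Ball T r| * r ≤ C (2 r) ^ (d + 1)`. -/
theorem PG.ker {d : ℕ} (h : PG G (d + 1)) (φ : G →* Multiplicative ℤ)
    (hφ : Function.Surjective φ) : PG φ.ker d := by
  classical
  obtain ⟨t, ht⟩ := hφ (Multiplicative.ofAdd 1)
  have hφt : ∀ i : ℕ, φ (t ^ i) = Multiplicative.ofAdd (i : ℤ) := by
    intro i
    rw [map_pow, ht, ← ofAdd_nsmul]
    simp
  intro T
  obtain ⟨C, hC⟩ := h (insert t (T.image φ.ker.subtype))
  refine ⟨C * 2 ^ (d + 1), fun r hr => ?_⟩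
  set T' : Finset G := insert t (T.image φ.ker.subtype) with hT'
  let f : φ.ker × ℕ → G := fun p => (p.1 : G) * t ^ p.2
  have hf : Function.Injective f := by
    rintro ⟨a, i⟩ ⟨b, j⟩ hab
    simp only [f] at hab
    have h1 := congrArg φ hab
    have ha : φ (a : G) = 1 := a.2
    have hb : φ (b : G) = 1 := b.2
    rw [map_mul, map_mul, ha, hb, one_mul, one_mul, hφt, hφt] at h1
    have hij : i = j := by simpa using h1
    subst hij
    have : (a : G) = b := mul_right_cancel hab
    rw [Subtype.ext this]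
  have hfin : (Ball (T' : Set G) (2 * r)).Finite := Ball.finite T'.finite_toSet _
  have hsub : f '' (Ball (T : Set φ.ker) r ×ˢ (Finset.range r : Set ℕ)) ⊆
      Ball (T' : Set G) (2 * r) := by
    rintro _ ⟨⟨a, i⟩, ⟨ha, hi⟩, rfl⟩
    simp only [Finset.coe_range, Set.mem_Iio] at hi
    have h1 : (a : G) ∈ Ball (T' : Set G) r := by
      have : (a : G) ∈ φ.ker.subtype '' Ball (T : Set φ.ker) r := ⟨a, ha, rfl⟩
      rw [Ball.image] at this
      refine Ball.mono ?_ le_rfl this
      intro x hx
      rw [hT', Finset.coe_insert, Finset.coe_image]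
      exact Set.mem_insert_of_mem _ hx
    have h2 : t ^ i ∈ Ball (T' : Set G) (i * 1) :=
      Ball.pow_mem (Ball.mem_of_mem (by simp [hT'])) i
    have h3 := Ball.mul_mem h1 h2
    exact Ball.mono le_rfl (by omega) h3
  have h4 := Set.ncard_le_ncard hsub hfin
  rw [Set.ncard_image_of_injective _ hf, Set.ncard_prod, Set.ncard_coe_finset,
    Finset.card_range] at h4
  have h5 := h4.trans (hC (2 * r) (by omega))
  have h6 : C * (2 * r) ^ (d + 1) = (C * 2 ^ (d + 1) * r ^ d) * r := by ring
  rw [h6] at h5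
  exact Nat.le_of_mul_le_mul_right h5 (by omega)

end Crest.Agent.R182
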