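import Crest.Agent.R182.GBDefs

/-! Row 182, block G0: polycyclic subgroups, closure properties. -/

set_option autoImplicit false
set_option linter.dupNamespace false

namespace Crest.Agent.R182

open Crest.GroupTheory

variable {G G' : Type*} [Group G] [Group G']

/-- polycyclic subgroups of an ambient group -/
inductive PC {G : Type*} [Group G] : Subgroup G → Prop
  | bot : PC ⊥
  | step (H : Subgroup G) (g : G) : PC H → (∀ x ∈ H, g * x * g⁻¹ ∈ H) →
      (∀ x ∈ H, g⁻¹ * x * g ∈ H) → PC (H ⊔ Subgroup.zpowers g)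

private theorem helper38_norm {H : Subgroup G} {g : G} (h1 : ∀ x ∈ H, g * x * g⁻¹ ∈ H)
    (h2 : ∀ x ∈ H, g⁻¹ * x * g ∈ H) : H ⊔ Subgroup.zpowers g ≤ Subgroup.normalizer H := by
  refine sup_le Subgroup.le_normalizer ?_
  rw [Subgroup.zpowers_le, Subgroup.mem_normalizer_iff]
  refine fun x => ⟨h1 x, fun h => ?_⟩
  have := h2 _ h
  simpa [mul_assoc] using this

private theorem helper38_conj {H : Subgroup G} {g : G} (h1 : ∀ x ∈ H, g * x * g⁻¹ ∈ H)
    (h2 : ∀ x ∈ H, g⁻¹ * x * g ∈ H) {y : G} (hy : y ∈ H ⊔ Subgroup.zpowers g) :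
    ∀ x ∈ H, y * x * y⁻¹ ∈ H := fun x hx =>
  (Subgroup.mem_normalizer_iff.1 (helper38_norm h1 h2 hy) x).1 hx

/-- normal form in `H ⊔ ⟨g⟩` when `g` normalises `H` (the set of all `x * g ^ k` is a subgroup) -/
theorem mem_sup_zpowers {H : Subgroup G} {g : G} (h1 : ∀ x ∈ H, g * x * g⁻¹ ∈ H)
    (h2 : ∀ x ∈ H, g⁻¹ * x * g ∈ H) {y : G} :
    y ∈ H ⊔ Subgroup.zpowers g ↔ ∃ x ∈ H, ∃ k : ℤ, y = x * g ^ k := by
  have hk : ∀ k : ℤ, g ^ k ∈ H ⊔ Subgroup.zpowers g := fun k =>
    Subgroup.mem_sup_right (Subgroup.zpow_mem_zpowers g k)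
  constructor
  · let S : Subgroup G :=
      { carrier := {y | ∃ x ∈ H, ∃ k : ℤ, y = x * g ^ k}
        one_mem' := ⟨1, H.one_mem, 0, by simp⟩
        mul_mem' := by
          rintro _ _ ⟨x, hx, k, rfl⟩ ⟨x', hx', k', rfl⟩
          exact ⟨x * (g ^ k * x' * (g ^ k)⁻¹), H.mul_mem hx (helper38_conj h1 h2 (hk k) x' hx'),
            k + k', by rw [zpow_add]; group⟩
        inv_mem' := by
          rintro _ ⟨x, hx, k, rfl⟩
          exact ⟨g ^ (-k) * x⁻¹ * (g ^ (-k))⁻¹, helper38_conj h1 h2 (hk _) _ (H.inv_mem hx), -k,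
            by group⟩ }
    have hS : H ⊔ Subgroup.zpowers g ≤ S := by
      refine sup_le (fun x hx => ⟨x, hx, 0, by simp⟩) ?_
      rw [Subgroup.zpowers_le]
      exact ⟨1, H.one_mem, 1, by simp⟩
    exact fun hy => hS hy
  · rintro ⟨x, hx, k, rfl⟩
    exact Subgroup.mul_mem _ (Subgroup.mem_sup_left hx) (hk k)

/-- all of `H ⊔ ⟨g⟩` normalises `H` -/
theorem conj_mem_of_mem_sup {H : Subgroup G} {g : G} (h1 : ∀ x ∈ H, g * x * g⁻¹ ∈ H)
    (h2 : ∀ x ∈ H, g⁻¹ * x * g ∈ H) {y : G} (hy : y ∈ H ⊔ Subgroup.zpowers g) :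
    ∀ x ∈ H, y * x * y⁻¹ ∈ H := by
  exact helper38_conj h1 h2 hy

/-- induction; `Subgroup.map_sup`, `MonoidHom.map_zpowers` -/
theorem PC.map {H : Subgroup G} (h : PC H) (f : G →* G') : PC (H.map f) := by
  induction h with
  | bot => rw [Subgroup.map_bot]; exact PC.bot
  | step H g _ h1 h2 ih =>
    rw [Subgroup.map_sup, MonoidHom.map_zpowers]
    refine PC.step _ _ ih ?_ ?_
    · rintro _ ⟨x, hx, rfl⟩
      exact ⟨_, h1 x hx, by simp⟩
    · rintro _ ⟨x, hx, rfl⟩
      exact ⟨_, h2 x hx, by simp⟩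

/-- Subgroups of polycyclic groups.  Induction on `PC H` generalising `K`.  For
`K ≤ H ⊔ ⟨g⟩` the set of `k : ℤ` with `x * g ^ k ∈ K` for some `x ∈ H` is an additive subgroup of
`ℤ`, so `= m ℤ` (`Int.subgroup_cyclic`); pick `k₀ = x₀ * g ^ m ∈ K`; then
`K = (K ⊓ H) ⊔ zpowers k₀` (`mem_sup_zpowers`, `conj_mem_of_mem_sup`). -/
theorem PC.of_le {H K : Subgroup G} (h : PC H) (hK : K ≤ H) : PC K := by
  induction h generalizing K with
  | bot => rw [le_bot_iff.1 hK]; exact PC.bot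
  | step H g _ h1 h2 ih =>
    have hk : ∀ k : ℤ, g ^ k ∈ H ⊔ Subgroup.zpowers g := fun k =>
      Subgroup.mem_sup_right (Subgroup.zpow_mem_zpowers g k)
    let A : AddSubgroup ℤ :=
      { carrier := {k | ∃ x ∈ H, x * g ^ k ∈ K}
        zero_mem' := ⟨1, H.one_mem, by simp⟩
        add_mem' := by
          rintro k k' ⟨x, hx, hxk⟩ ⟨x', hx', hxk'⟩
          refine ⟨x * (g ^ k * x' * (g ^ k)⁻¹),
            H.mul_mem hx (conj_mem_of_mem_sup h1 h2 (hk k) x' hx'), ?_⟩
          convert K.mul_mem hxk hxk' using 1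
          rw [zpow_add]; group
        neg_mem' := by
          rintro k ⟨x, hx, hxk⟩
          refine ⟨g ^ (-k) * x⁻¹ * (g ^ (-k))⁻¹,
            conj_mem_of_mem_sup h1 h2 (hk _) _ (H.inv_mem hx), ?_⟩
          convert K.inv_mem hxk using 1
          group }
    obtain ⟨m, hm⟩ := Int.subgroup_cyclic A
    obtain ⟨x₀, hx₀, hk₀⟩ : m ∈ A := by
      rw [hm]; exact AddSubgroup.subset_closure rfl
    set k₀ := x₀ * g ^ m with hk₀d
    have hk₀' : k₀ ∈ H ⊔ Subgroup.zpowers g := hK hk₀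
    have c1 : ∀ x ∈ K ⊓ H, k₀ * x * k₀⁻¹ ∈ K ⊓ H := fun x hx =>
      ⟨K.mul_mem (K.mul_mem hk₀ hx.1) (K.inv_mem hk₀), conj_mem_of_mem_sup h1 h2 hk₀' x hx.2⟩
    have c2 : ∀ x ∈ K ⊓ H, k₀⁻¹ * x * k₀ ∈ K ⊓ H := fun x hx =>
      ⟨K.mul_mem (K.mul_mem (K.inv_mem hk₀) hx.1) hk₀, by
        simpa using conj_mem_of_mem_sup h1 h2 (Subgroup.inv_mem _ hk₀') x hx.2⟩
    have hpow : ∀ n : ℤ, g ^ (n * m) * (k₀ ^ n)⁻¹ ∈ H := by
      intro n
      induction n using Int.induction_on with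
      | zero => simp
      | succ n ihn =>
        have e : g ^ (((n : ℤ) + 1) * m) * (k₀ ^ ((n : ℤ) + 1))⁻¹ =
            (g ^ ((n : ℤ) * m) * x₀⁻¹ * (g ^ ((n : ℤ) * m))⁻¹)⁻¹⁻¹ *
              (g ^ ((n : ℤ) * m) * (k₀ ^ (n : ℤ))⁻¹) := by
          rw [inv_inv, add_mul, one_mul, zpow_add, zpow_add_one, mul_inv_rev, hk₀d]
          group
        rw [e, inv_inv]
        exact H.mul_mem (conj_mem_of_mem_sup h1 h2 (hk _) _ (H.inv_mem hx₀)) ihn
      | pred n ihn =>
        have e : g ^ ((-(n : ℤ) - 1) * m) * (k₀ ^ (-(n : ℤ) - 1))⁻¹ =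
            (g ^ ((-(n : ℤ) - 1) * m) * x₀ * (g ^ ((-(n : ℤ) - 1) * m))⁻¹) *
              (g ^ (-(n : ℤ) * m) * (k₀ ^ (-(n : ℤ)))⁻¹) := by
          rw [zpow_sub_one, mul_inv_rev, inv_inv]
          generalize k₀ ^ (-(n : ℤ)) = u
          rw [hk₀d]
          group
        rw [e]
        exact H.mul_mem (conj_mem_of_mem_sup h1 h2 (hk _) _ hx₀) ihn
    have e : K = (K ⊓ H) ⊔ Subgroup.zpowers k₀ := by
      refine le_antisymm (fun y hy => ?_) (sup_le inf_le_left (Subgroup.zpowers_le.2 hk₀))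
      obtain ⟨x, hx, k, rfl⟩ := (mem_sup_zpowers h1 h2).1 (hK hy)
      have hkA : k ∈ A := ⟨x, hx, hy⟩
      rw [hm, AddSubgroup.mem_closure_singleton] at hkA
      obtain ⟨n, rfl⟩ := hkA
      rw [smul_eq_mul] at hy ⊢
      refine (mem_sup_zpowers c1 c2).2 ⟨x * g ^ (n * m) * (k₀ ^ n)⁻¹, ⟨?_, ?_⟩, n, by group⟩
      · exact K.mul_mem hy (K.inv_mem (K.zpow_mem hk₀ n))
      · rw [mul_assoc]
        exact H.mul_mem hx (hpow n)
    rw [e]
    exact PC.step _ _ (ih inf_le_right) c1 c2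

/-- induction on `PC H`; `H ⊔ ⟨g⟩ ≤ range f` gives `g = f g'` -/
theorem PC.comap {H : Subgroup G'} (h : PC H) (f : G →* G') (hf : Function.Injective f)
    (hH : H ≤ f.range) : PC (H.comap f) := by
  induction h with
  | bot => rw [MonoidHom.comap_bot, (MonoidHom.ker_eq_bot_iff f).2 hf]; exact PC.bot
  | step H g _ h1 h2 ih =>
    obtain ⟨g', rfl⟩ := hH (Subgroup.mem_sup_right (Subgroup.mem_zpowers g))
    have hH' : H ≤ f.range := le_sup_left.trans hH
    have e : (H ⊔ Subgroup.zpowers (f g')).comap f = H.comap f ⊔ Subgroup.zpowers g' := by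
      apply Subgroup.map_injective hf
      rw [Subgroup.map_comap_eq_self hH, Subgroup.map_sup, Subgroup.map_comap_eq_self hH',
        MonoidHom.map_zpowers]
    rw [e]
    refine PC.step _ _ (ih hH') (fun x hx => ?_) fun x hx => ?_
    · simpa using h1 _ hx
    · simpa using h2 _ hx

theorem helper90_series {H : Subgroup G} (h : PC H) : ∃ (n : ℕ) (S : ℕ → Subgroup G),
    S 0 = ⊥ ∧ S n = H ∧ ∀ i < n, S i ≤ S (i + 1) ∧
      (∀ y ∈ S (i + 1), ∀ x ∈ S i, y * x * y⁻¹ ∈ S i) ∧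
      ∃ g ∈ S (i + 1), S (i + 1) = S i ⊔ Subgroup.zpowers g := by
  induction h with
  | bot => exact ⟨0, fun _ => ⊥, rfl, rfl, fun i hi => absurd hi (Nat.not_lt_zero i)⟩
  | step H g _ h1 h2 ih =>
    obtain ⟨n, S, h0, hn, hS⟩ := ih
    refine ⟨n + 1, fun i => if i ≤ n then S i else H ⊔ Subgroup.zpowers g, ?_, ?_, ?_⟩
    · simp [h0]
    · simp
    · intro i hi
      rcases (Nat.lt_succ_iff.1 hi).lt_or_eq with hlt | rfl
      · simp only [if_pos hlt.le, if_pos (Nat.succ_le_of_lt hlt)]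
        exact hS i hlt
      · simp only [if_pos le_rfl, if_neg (Nat.not_succ_le_self i), hn]
        exact ⟨le_sup_left, fun y hy => conj_mem_of_mem_sup h1 h2 hy, g,
          Subgroup.mem_sup_right (Subgroup.mem_zpowers g), rfl⟩

/-- (→) induction along the series; (←) prove by induction on `PC H` that there is a series from `⊥`
to `H` (`Fin.snoc`, or a series indexed by `ℕ` first) -/
theorem isPolycyclic_iff : IsPolycyclic G ↔ PC (⊤ : Subgroup G) := by
  constructor
  · rintro ⟨n, H, h0, hn, hS⟩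
    have key : ∀ i : Fin (n + 1), PC (H i) := by
      intro i
      induction i using Fin.induction with
      | zero => rw [h0]; exact PC.bot
      | succ i ih =>
        obtain ⟨-, h2, g, hg, he⟩ := hS i
        rw [he]
        refine PC.step _ g ih (h2 g hg) fun x hx => ?_
        simpa using h2 g⁻¹ (inv_mem hg) x hx
    rw [← hn]
    exact key _
  · intro h
    obtain ⟨n, S, h0, hn, hS⟩ := helper90_series h
    exact ⟨n, fun i => S i, h0, hn, fun i => hS i i.2⟩

/-- `PC.map` / `PC.comap` along `H.subtype` -/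
theorem pc_iff (H : Subgroup G) : PC H ↔ IsPolycyclic H := by
  rw [isPolycyclic_iff]
  constructor
  · intro h
    have := h.comap H.subtype H.subtype_injective (by rw [Subgroup.range_subtype])
    rwa [Subgroup.comap_subtype, Subgroup.subgroupOf_self] at this
  · intro h
    have := h.map H.subtype
    rwa [← MonoidHom.range_eq_map, Subgroup.range_subtype] at this

theorem isVirtuallyPolycyclic_of_finite [Finite G] : IsVirtuallyPolycyclic G := by
  exact ⟨⊥, Subgroup.finiteIndex_of_finite, (pc_iff _).1 PC.bot⟩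

/-- `Q ≤ P` of finite index; take `Q.map P.subtype` (`pc_iff`, `PC.map`, `Subgroup.index_map_subtype`
or `relIndex_mul_index`) -/
theorem of_finiteIndex (P : Subgroup G) [P.FiniteIndex] (h : IsVirtuallyPolycyclic P) :
    IsVirtuallyPolycyclic G := by
  obtain ⟨Q, hQ, hp⟩ := h
  refine ⟨Q.map P.subtype, ⟨?_⟩, (pc_iff _).1 (((pc_iff Q).2 hp).map P.subtype)⟩
  rw [Subgroup.index_map_subtype]
  exact mul_ne_zero hQ.index_ne_zero Subgroup.FiniteIndex.index_ne_zero

/-- a finitely generated group has finitely many homomorphisms to a finite group -/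
theorem finite_hom (hG : Group.FG G) (F : Type*) [Group F] [Finite F] : Finite (G →* F) := by
  obtain ⟨S, hS, hfin⟩ := Group.fg_iff.1 hG
  have := hfin.to_subtype
  refine Finite.of_injective (fun (f : G →* F) (s : S) => f s) fun f g h => ?_
  exact MonoidHom.eq_of_eqOn_dense hS fun s hs => congrFun h ⟨s, hs⟩

/-- `Q = ⨅ f : G →* Perm (G ⧸ P), ker f` (`Subgroup.finiteIndex_iInf`,
`Subgroup.normalCore_eq_ker`, `Subgroup.characteristic_iff_comap_eq` or `..._le_comap`) -/
theorem exists_char_le (hG : Group.FG G) (P : Subgroup G) [P.FiniteIndex] :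
    ∃ Q : Subgroup G, Q.Characteristic ∧ Q.FiniteIndex ∧ Q ≤ P := by
  have : Finite (G ⧸ P) := Subgroup.finite_quotient_of_finiteIndex
  have := finite_hom hG (Equiv.Perm (G ⧸ P))
  refine ⟨⨅ f : G →* Equiv.Perm (G ⧸ P), f.ker, ?_, Subgroup.finiteIndex_iInf fun f => inferInstance,
    ?_⟩
  · rw [Subgroup.characteristic_iff_le_comap]
    intro φ x hx
    rw [Subgroup.mem_comap, Subgroup.mem_iInf]
    intro f
    exact Subgroup.mem_iInf.1 hx (f.comp φ.toMonoidHom)
  · refine (iInf_le _ (MulAction.toPermHom G (G ⧸ P))).trans ?_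
    rw [← Subgroup.normalCore_eq_ker]
    exact P.normalCore_le

/-- A finitely generated virtually polycyclic `K` normalised by `t` contains a polycyclic subgroup of
finite index normalised by `t` (`exists_char_le` in `↥K`, conjugation by `t` is an automorphism of
`↥K`; map to `G`). -/
theorem exists_pc_norm {K : Subgroup G} (hK : K.FG) (hv : IsVirtuallyPolycyclic K) (t : G)
    (h1 : ∀ x ∈ K, t * x * t⁻¹ ∈ K) (h2 : ∀ x ∈ K, t⁻¹ * x * t ∈ K) :
    ∃ Q : Subgroup G, Q ≤ K ∧ PC Q ∧ Q.relIndex K ≠ 0 ∧ (∀ x ∈ Q, t * x * t⁻¹ ∈ Q) ∧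
      ∀ x ∈ Q, t⁻¹ * x * t ∈ Q := by
  obtain ⟨P, hPf, hP⟩ := hv
  obtain ⟨Q, hQc, hQf, hQP⟩ := exists_char_le ((Group.fg_iff_subgroup_fg K).2 hK) P
  let φ : K ≃* K :=
    { toFun := fun x => ⟨t * x * t⁻¹, h1 x x.2⟩
      invFun := fun x => ⟨t⁻¹ * x * t, h2 x x.2⟩
      left_inv := fun x => Subtype.ext (by simp only; group)
      right_inv := fun x => Subtype.ext (by simp only; group)
      map_mul' := fun x y => Subtype.ext (by simp only [Subgroup.coe_mul]; group) }
  refine ⟨Q.map K.subtype, Subgroup.map_subtype_le Q, (((pc_iff P).2 hP).of_le hQP).map _, ?_, ?_,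
    ?_⟩
  · rw [Subgroup.relIndex, Subgroup.subgroupOf,
      Subgroup.comap_map_eq_self_of_injective K.subtype_injective]
    exact hQf.index_ne_zero
  · rintro _ ⟨x, hx, rfl⟩
    exact ⟨φ x, Subgroup.characteristic_iff_le_comap.1 hQc φ hx, rfl⟩
  · rintro _ ⟨x, hx, rfl⟩
    exact ⟨φ.symm x, Subgroup.characteristic_iff_le_comap.1 hQc φ.symm hx, rfl⟩

/-- `Q ⊔ ⟨t⟩` is polycyclic and has finite index in `K ⊔ ⟨t⟩`: the map
`K ⧸ Q → (K ⊔ ⟨t⟩) ⧸ (Q ⊔ ⟨t⟩)` is onto by `mem_sup_zpowers`. -/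
theorem vp_step {K : Subgroup G} (hK : K.FG) (hv : IsVirtuallyPolycyclic K) (t : G)
    (h1 : ∀ x ∈ K, t * x * t⁻¹ ∈ K) (h2 : ∀ x ∈ K, t⁻¹ * x * t ∈ K) :
    IsVirtuallyPolycyclic (K ⊔ Subgroup.zpowers t : Subgroup G) := by
  obtain ⟨Q, hQK, hQ, hidx, q1, q2⟩ := exists_pc_norm hK hv t h1 h2
  have hM : PC (Q ⊔ Subgroup.zpowers t) := PC.step Q t hQ q1 q2
  refine ⟨(Q ⊔ Subgroup.zpowers t).subgroupOf (K ⊔ Subgroup.zpowers t), ?_, ?_⟩
  · have : (Q.subgroupOf K).FiniteIndex := ⟨hidx⟩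
    let f : K ⧸ Q.subgroupOf K → (K ⊔ Subgroup.zpowers t : Subgroup G) ⧸
        (Q ⊔ Subgroup.zpowers t).subgroupOf (K ⊔ Subgroup.zpowers t) :=
      Quotient.map' (fun k => ⟨k.1, Subgroup.mem_sup_left k.2⟩) (by
        intro a b hab
        rw [QuotientGroup.leftRel_apply] at hab ⊢
        rw [Subgroup.mem_subgroupOf] at hab ⊢
        exact Subgroup.mem_sup_left hab)
    have hf : Function.Surjective f := by
      intro y
      obtain ⟨y, rfl⟩ := QuotientGroup.mk_surjective y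
      obtain ⟨x, hx, k, hk⟩ := (mem_sup_zpowers h1 h2).1 y.2
      refine ⟨QuotientGroup.mk ⟨x, hx⟩, ?_⟩
      change QuotientGroup.mk _ = QuotientGroup.mk _
      rw [QuotientGroup.eq, Subgroup.mem_subgroupOf]
      have : x⁻¹ * (y : G) = t ^ k := by rw [hk]; group
      change x⁻¹ * (y : G) ∈ _
      rw [this]
      exact Subgroup.mem_sup_right (Subgroup.zpow_mem_zpowers t k)
    have := Finite.of_surjective f hf
    exact Subgroup.finiteIndex_of_finite_quotient
  · refine (pc_iff _).1 (hM.comap _ (Subgroup.subtype_injective _) ?_)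
    rw [Subgroup.range_subtype]
    exact sup_le_sup_right hQK _

/-- Induction on a finite set `s`: `K ⊔ closure s` is finitely generated and virtually polycyclic
(every subgroup containing all commutators is normalised by every `t`;
`closure (insert t s) = closure s ⊔ zpowers t`).  Finish with `of_finiteIndex ⊤`. -/
theorem ext_abelian {H : Type*} [Group H] (hH : Group.FG H) (K : Subgroup H) (hK : K.FG)
    (hv : IsVirtuallyPolycyclic K) (hc : ∀ a b : H, a * b * a⁻¹ * b⁻¹ ∈ K) :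
    IsVirtuallyPolycyclic H := by
  classical
  have key : ∀ s : Finset H,
      IsVirtuallyPolycyclic (K ⊔ Subgroup.closure (s : Set H) : Subgroup H) := by
    intro s
    induction s using Finset.induction_on with
    | empty =>
      rw [Finset.coe_empty, Subgroup.closure_empty, sup_bot_eq]
      exact hv
    | insert t s _ ih =>
      have hfg : (K ⊔ Subgroup.closure (s : Set H)).FG := hK.sup ⟨s, rfl⟩
      have hn : ∀ u : H, ∀ x ∈ K ⊔ Subgroup.closure (s : Set H),
          u * x * u⁻¹ ∈ K ⊔ Subgroup.closure (s : Set H) := by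
        intro u x hx
        have : u * x * u⁻¹ = (u * x * u⁻¹ * x⁻¹) * x := by group
        rw [this]
        exact Subgroup.mul_mem _ (Subgroup.mem_sup_left (hc u x)) hx
      have h := vp_step hfg ih t (hn t) (fun x hx => by simpa using hn t⁻¹ x hx)
      have he : K ⊔ Subgroup.closure ((insert t s : Finset H) : Set H) =
          K ⊔ Subgroup.closure (s : Set H) ⊔ Subgroup.zpowers t := by
        rw [Finset.coe_insert, Set.insert_eq, Subgroup.closure_union,
          Subgroup.zpowers_eq_closure, sup_assoc, sup_comm (Subgroup.closure {t})]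
      rw [he]
      exact h
  obtain ⟨s, hs⟩ := hH.out
  have h := key s
  rw [hs, sup_top_eq] at h
  exact of_finiteIndex ⊤ h

end Crest.Agent.R182
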