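import Crest.Agent.R182.GA
import Crest.Agent.R182.GBPoly
import Crest.Agent.R182.GBMilnor
import Crest.Agent.R182.GBInt

/-! Row 182, block G: finitely generated groups of polynomial growth are virtually polycyclic. -/

set_option autoImplicit false
set_option linter.dupNamespace false

namespace Crest.Agent.R182

open Crest.GroupTheory

universe u

theorem vp_of_pg (d : ℕ) : ∀ (G : Type u) [Group G], Group.FG G → PG G d →
    IsVirtuallyPolycyclic G := by
  induction d with
  | zero =>
    intro G _ hG h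
    haveI := PG.finite_of_zero hG h
    exact isVirtuallyPolycyclic_of_finite
  | succ d ih =>
    intro G _ hG h
    rcases finite_or_infinite G with hfin | hinf
    · exact isVirtuallyPolycyclic_of_finite
    obtain ⟨T, hT⟩ := hG.out
    obtain ⟨C, hC⟩ := h.wordDist T hT
    obtain ⟨n, ρ, b, hb, hu⟩ := exists_fd_cocycle T hT C (d + 1) hC
    obtain ⟨Γ, hΓ, φ, hφ⟩ := exists_finiteIndex_surj hG h ρ b hb hu
    have hΓfg : Group.FG Γ := Subgroup.fg_of_index_ne_zero Γ
    have hK : φ.ker.FG := ker_fg hΓfg (h.subgroup Γ) φ hφ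
    have hv : IsVirtuallyPolycyclic φ.ker :=
      ih φ.ker ((Group.fg_iff_subgroup_fg _).2 hK) ((h.subgroup Γ).ker φ hφ)
    refine of_finiteIndex Γ (ext_abelian hΓfg φ.ker hK hv fun a b => ?_)
    rw [MonoidHom.mem_ker]
    simp only [map_mul, map_inv]
    rw [mul_comm (φ a) (φ b), mul_inv_cancel_right, mul_inv_cancel]

theorem gromov_lite {G : Type*} [Group G] (T : Finset G)
    (hT : Subgroup.closure (T : Set G) = ⊤) (C d : ℕ)
    (h : ∀ r : ℕ, 1 ≤ r → Set.ncard {g | wordDist (T : Set G) 1 g ≤ r} ≤ C * r ^ d) :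
    IsVirtuallyPolycyclic G :=
  vp_of_pg d G ⟨⟨T, hT⟩⟩ (PG.of_wordDist T hT C d h)

end Crest.Agent.R182
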