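import Crest.Agent.R182.EPhi
import Crest.Agent.R182.GLite

/-! Row 182, block E: growth of tiny sets, Milnor descent, the end game. -/

set_option autoImplicit false
set_option linter.dupNamespace false

namespace Crest.Agent.R182

open Crest.GroupTheory

variable {G H P : Type*} [Group G] [Group H] [Group P] {k : ℕ}

/-- growth of finite sets of `φ`-tiny elements -/
def Grow (φ : G → Fin k → ℝ) : Prop :=
  ∃ (d : ℕ) (C₀ : ℝ), 0 ≤ C₀ ∧ ∀ η : ℝ, 0 ≤ η → ∀ X : Finset G, (∀ x ∈ X, ‖φ x‖ ≤ η) →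
    ∃ B : ℝ, ∀ r : ℕ, 1 ≤ r → ((Ball (X : Set G) r).ncard : ℝ) ≤ B * r ^ d * Real.exp (C₀ * η * r)

/-- bootstrap: induction on `j ≤ r` for `g ∈ Ball X j` (split off the LAST letter, e.g.
`Reach.induction` on `Reach.of_ball` for `X`): by `h` and `AHom.norm_le`,
`‖u g - u 1‖ ≤ η r + ρ / 2 + C lg (c r) = ρ - L c`, so the next `c` steps (`Lip.reach`) stay in the slab -/
theorem bootstrap {T : Set G} {u φ : G → Fin k → ℝ} {L C η : ℝ} (hu : Lip T u L) (hφ : AHom φ)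
    (hC : 0 ≤ C) (h : ∀ (y : G) (n : ℕ) (ρ : ℝ), Reach T (Slab u 1 ρ) 1 n y →
      ‖u y - u 1 - φ y‖ ≤ 1 / 2 * ρ + C * lg n) (hη : 0 ≤ η) {X : Set G} {c : ℕ}
    (hX : ∀ x ∈ X, ‖φ x‖ ≤ η) (hXT : ∀ x ∈ X, x ∈ Ball T c) {r : ℕ} {g : G} (hg : g ∈ Ball X r) :
    Reach T (Slab u 1 (2 * (η * r + C * lg (c * r) + L * c))) 1 (c * r) g := by
  obtain ⟨ρ, hρ⟩ : ∃ ρ, ρ = 2 * (η * r + C * lg (c * r) + L * c) := ⟨_, rfl⟩
  rw [← hρ]
  have hρ0 : 0 ≤ ρ := by
    have := hu.1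
    have := one_le_lg (c * r)
    rw [hρ]
    positivity
  have h0 : Reach X (BallAt X 1 r) 1 r g := Reach.of_ball (by rwa [inv_one, one_mul])
  refine Reach.induction (fun j y => j ≤ r → Reach T (Slab u 1 ρ) 1 (c * j) y)
    (fun _ _ => Reach.refl T (Slab.self u 1 hρ0) _) (fun n y z h1 h2 h3 _ hn => ?_) h0 le_rfl
  have h4 := h2 (by omega)
  have h5 := h y (c * r) ρ (h4.of_le (Nat.mul_le_mul_left c (by omega)))
  have h6 : ‖φ y‖ ≤ η * r := by
    have := h1.mem_ball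
    rw [inv_one, one_mul] at this
    exact hφ.norm_le hη hX (Ball.mono subset_rfl (by omega) this)
  have h7 : y⁻¹ * z ∈ Ball T c := by
    have := Ball.subset_of hXT 1 h3
    rwa [one_mul] at this
  refine h4.trans ((hu.reach h7).mono fun w hw => ?_)
  have h8 : ‖u w - u y‖ ≤ L * c := hw
  have h9 : ‖u w - u 1‖ ≤ ‖u w - u y‖ + ‖u y - u 1 - φ y‖ + ‖φ y‖ := by
    refine le_trans (le_of_eq ?_) norm_add₃_le
    congr 1
    abel
  change ‖u w - u 1‖ ≤ ρ
  linarith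

/-- `bootstrap` and `Count`; `exp (A * lg (c r)) ≤ exp (⌈A⌉ * lg (c r)) = (e (1 + c r)) ^ ⌈A⌉`,
`1 + c r ≤ (1 + c) r`; `d = ⌈C₁ (2 C + 1)⌉`, `C₀ = 2 C₁` -/
theorem grow_of_up {T : Set G} (hT : T.Finite) (hT' : Subgroup.closure T = ⊤)
    {u φ : G → Fin k → ℝ} {L : ℝ} (hu : Lip T u L) (hφ : AHom φ) (h : UP T u φ)
    (hc : Count T u) : Grow φ := by
  obtain ⟨C₁, hC₁, hc⟩ := hc
  obtain ⟨C, hC, h⟩ := h (1 / 2) one_half_pos
  refine ⟨⌈C₁ * (2 * C + 1)⌉₊, 2 * C₁, by positivity, fun η hη X hX => ?_⟩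
  choose s hs using fun t : G => Ball.exists_of_mem_closure (T := T) (a := t)
    (hT' ▸ Subgroup.mem_top t)
  obtain ⟨c, hXT⟩ : ∃ c, ∀ x ∈ (X : Set G), x ∈ Ball T c :=
    ⟨X.sup s, fun t ht => Ball.mono subset_rfl (Finset.le_sup (f := s) ht) (hs t)⟩
  obtain ⟨d, hd⟩ : ∃ d, d = ⌈C₁ * (2 * C + 1)⌉₊ := ⟨_, rfl⟩
  have hd' : C₁ * (2 * C + 1) ≤ d := hd ▸ Nat.le_ceil _
  rw [← hd]
  refine ⟨Real.exp (2 * C₁ * L * c) * (Real.exp 1 * (1 + c)) ^ d, fun r hr => ?_⟩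
  have hlg := one_le_lg (c * r)
  have hL := hu.1
  have h1 : Ball (X : Set G) r ⊆
      {y | Reach T (Slab u 1 (2 * (η * r + C * lg (c * r) + L * c))) 1 (c * r) y} := fun g hg =>
    bootstrap hu hφ hC (fun y n ρ hy => by simpa only [inv_one, one_mul] using h 1 y n ρ hy)
      hη hX hXT hg
  have h2 := Set.ncard_le_ncard h1 (Reach.finite hT _ _ _)
  have h3 := hc 1 (c * r) (2 * (η * r + C * lg (c * r) + L * c)) (by positivity)
  refine ((Nat.cast_le.2 h2).trans h3).trans ?_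
  have h4 : Real.exp (d * lg (c * r)) ≤ (Real.exp 1 * (1 + c)) ^ d * r ^ d := by
    rw [Real.exp_nat_mul, exp_lg, ← mul_pow]
    have hr' : (1 : ℝ) ≤ r := by exact_mod_cast hr
    refine pow_le_pow_left₀ (by positivity) ?_ d
    rw [mul_assoc]
    refine mul_le_mul_of_nonneg_left ?_ (Real.exp_pos 1).le
    push_cast
    linarith
  calc Real.exp (C₁ * (2 * (η * r + C * lg (c * r) + L * c) + lg (c * r)))
      ≤ Real.exp (2 * C₁ * L * c + d * lg (c * r) + 2 * C₁ * η * r) := by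
        refine Real.exp_le_exp.2 ?_
        have := mul_le_mul_of_nonneg_right hd' (zero_le_one.trans hlg)
        linarith
    _ = Real.exp (2 * C₁ * L * c) * Real.exp (d * lg (c * r)) * Real.exp (2 * C₁ * η * r) := by
        rw [Real.exp_add, Real.exp_add]
    _ ≤ _ := by
        rw [mul_assoc (Real.exp (2 * C₁ * L * c)) _ ((r : ℝ) ^ d)]
        gcongr

theorem h97_exists_exp_lt (B : ℝ) (d : ℕ) :
    ∃ m : ℕ, 1 ≤ m ∧ B * ((2 * m : ℕ) : ℝ) ^ d * Real.exp (m / 2) < 2 ^ m := by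
  have he : Real.exp (1 / 2) < 2 := by
    have h1 : Real.exp (1 / 2) ^ 2 = Real.exp 1 := by
      rw [← Real.exp_nat_mul]; norm_num
    have h2 : Real.exp 1 < 4 := lt_trans Real.exp_one_lt_d9 (by norm_num)
    nlinarith [Real.exp_pos (1 / 2)]
  have hp := Real.exp_pos (1 / 2)
  have hr : (1 : ℝ) < 2 / Real.exp (1 / 2) := by rwa [one_lt_div hp]
  have h := tendsto_pow_const_div_const_pow_of_one_lt d hr
  have h0 : (0 : ℝ) < 1 / (|B| * 2 ^ d + 1) := by positivity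
  obtain ⟨m, hm⟩ := ((h.eventually_lt_const h0).and (Filter.eventually_ge_atTop 1)).exists
  refine ⟨m, hm.2, ?_⟩
  have h1 := hm.1
  rw [div_lt_div_iff₀ (by positivity) (by positivity), one_mul, div_pow,
    lt_div_iff₀ (by positivity), ← Real.exp_nat_mul] at h1
  refine lt_of_le_of_lt ?_ h1
  rw [show (m : ℝ) * (1 / 2) = m / 2 by ring]
  refine mul_le_mul_of_nonneg_right ?_ (Real.exp_pos _).le
  push_cast
  have h3 : (0 : ℝ) ≤ (m : ℝ) ^ d := by positivity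
  have h4 : (0 : ℝ) ≤ (2 : ℝ) ^ d * (m : ℝ) ^ d := by positivity
  rw [mul_pow]
  nlinarith [mul_le_mul_of_nonneg_right (le_abs_self B) h4]

/-- as `exists_cj_mem` in `GBMilnor` (`mw_mem_ball`, `mw_collide`): `η = 1 / (4 (C₀ + 1))`,
`B (2 m) ^ d exp (m / 2) < 2 ^ m` for some `m` -/
theorem Grow.collide {φ : G → Fin k → ℝ} (h : Grow φ) : ∃ η : ℝ, 0 < η ∧ ∀ t g : G,
    ‖φ t‖ ≤ η → ‖φ g‖ ≤ η → ∃ j, cj t g j ∈ Subgroup.closure (cj t g '' {i | i < j}) := by
  classical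
  obtain ⟨d, C₀, hC₀, h⟩ := h
  have hη : (0 : ℝ) < 1 / (4 * (C₀ + 1)) := by positivity
  refine ⟨1 / (4 * (C₀ + 1)), hη, fun t g ht hg => ?_⟩
  obtain ⟨B, hB⟩ := h _ hη.le {g, t} (by
    intro x hx
    rcases Finset.mem_insert.1 hx with rfl | hx
    · exact hg
    · rw [Finset.mem_singleton.1 hx]; exact ht)
  obtain ⟨m, hm, hlt⟩ := h97_exists_exp_lt (max B 0) d
  have h1 := hB (2 * m) (by omega)
  rw [Finset.coe_pair] at h1
  have h2 : ((Ball ({g, t} : Set G) (2 * m)).ncard : ℝ) < 2 ^ m := by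
    refine lt_of_le_of_lt (h1.trans ?_) hlt
    refine mul_le_mul (mul_le_mul_of_nonneg_right (le_max_left _ _) (by positivity)) ?_
      (Real.exp_pos _).le (mul_nonneg (le_max_right _ _) (by positivity))
    refine Real.exp_le_exp.2 ?_
    have h3 : C₀ * (1 / (4 * (C₀ + 1))) ≤ 1 / 4 := by
      rw [mul_one_div, div_le_div_iff₀ (by positivity) (by positivity)]
      linarith
    have h4 : (0 : ℝ) ≤ m := m.cast_nonneg
    push_cast
    nlinarith
  have h3 : (Ball ({g, t} : Set G) (2 * m)).ncard < 2 ^ m := by exact_mod_cast h2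
  have hfin : (Ball ({g, t} : Set G) (2 * m)).Finite := Ball.finite (Set.toFinite _) _
  let ex : (Fin m → Bool) → ℕ → Bool := fun e i => if hi : i < m then e ⟨i, hi⟩ else false
  obtain ⟨e, -, e', -, hne, heq⟩ := Finset.exists_ne_map_eq_of_card_lt_of_maps_to
    (s := (Finset.univ : Finset (Fin m → Bool))) (t := hfin.toFinset)
    (f := fun e => mw t g (ex e) m * t ^ m)
    (by
      rw [← Set.ncard_eq_toFinset_card _ hfin, Finset.card_univ, Fintype.card_fun,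
        Fintype.card_bool, Fintype.card_fin]
      exact h3)
    (fun e _ => by simpa using mw_mem_ball t g (ex e) m)
  obtain ⟨i, hi⟩ := Function.ne_iff.1 hne
  refine mw_collide t g (ex e) (ex e') m ⟨i, i.2, ?_⟩ (mul_right_cancel heq)
  simpa [ex] using hi

/-- as `conj_fg` in `GBMilnor` -/
theorem conj_fg_of_collide {t g : G}
    (h1 : ∃ j, cj t g j ∈ Subgroup.closure (cj t g '' {i | i < j}))
    (h2 : ∃ j, cj t⁻¹ g j ∈ Subgroup.closure (cj t⁻¹ g '' {i | i < j})) :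
    (Subgroup.closure (Set.range fun i : ℤ => t ^ i * g * (t ^ i)⁻¹)).FG := by
  obtain ⟨j, hj⟩ := h1
  obtain ⟨j', hj'⟩ := h2
  rw [Subgroup.fg_iff]
  refine ⟨cj t g '' {i | i < j} ∪ cj t⁻¹ g '' {i | i < j'}, le_antisymm ?_ ?_,
    ((Set.finite_lt_nat j).image _).union ((Set.finite_lt_nat j').image _)⟩
  · refine Subgroup.closure_mono ?_
    rintro _ (⟨i, -, rfl⟩ | ⟨i, -, rfl⟩)
    · exact ⟨(i : ℤ), by simp [cj]⟩
    · exact ⟨-(i : ℤ), by simp [cj]⟩
  · refine (Subgroup.closure_le _).2 ?_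
    rintro _ ⟨i, rfl⟩
    obtain ⟨n, rfl | rfl⟩ := i.eq_nat_or_neg
    · have h1 := Subgroup.closure_mono (Set.subset_union_left (t := cj t⁻¹ g '' {i | i < j'}))
        (cj_mem_all t g hj n)
      simpa [cj] using h1
    · have h1 := Subgroup.closure_mono (Set.subset_union_right (s := cj t g '' {i | i < j}))
        (cj_mem_all t⁻¹ g hj' n)
      simpa [cj] using h1

/-- `M = ⨆ y ∈ Y, closure {t ^ i * y * t ^ (-i)}` is finitely generated (`h45_fg_iSup_finset`), `≤ J`,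
normalised by `t`, and `closure (insert t Y) = M ⊔ zpowers t`; so (`mem_sup_zpowers`)
`J = M ⊔ (J ⊓ zpowers t)`, and a subgroup of `zpowers t` is cyclic -/
theorem fg_of_cyclic_ext {J : Subgroup G} [J.Normal] (t : G) (Y : Finset G) (hY : ∀ y ∈ Y, y ∈ J)
    (hJ : J ≤ Subgroup.closure (insert t (Y : Set G)))
    (h : ∀ y ∈ Y, (Subgroup.closure (Set.range fun i : ℤ => t ^ i * y * (t ^ i)⁻¹)).FG) : J.FG := by
  classical
  set M : Subgroup G :=
    ⨆ y ∈ Y, Subgroup.closure (Set.range fun i : ℤ => t ^ i * y * (t ^ i)⁻¹) with hM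
  have hMfg : M.FG := h45_fg_iSup_finset Y _ h
  have hgen : ∀ y ∈ Y, ∀ i : ℤ, t ^ i * y * (t ^ i)⁻¹ ∈ M := fun y hy i =>
    (le_iSup₂_of_le (f := fun y (_ : y ∈ Y) =>
      Subgroup.closure (Set.range fun i : ℤ => t ^ i * y * (t ^ i)⁻¹)) y hy le_rfl :
        _ ≤ M) (Subgroup.subset_closure ⟨i, rfl⟩)
  have hMJ : M ≤ J := by
    refine iSup₂_le fun y hy => (Subgroup.closure_le _).2 ?_
    rintro _ ⟨i, rfl⟩
    exact ‹J.Normal›.conj_mem y (hY y hy) _
  have hconj : ∀ j : ℤ, ∀ x ∈ M, t ^ j * x * (t ^ j)⁻¹ ∈ M := by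
    intro j
    have : M ≤ M.comap (MulAut.conj (t ^ j)).toMonoidHom := by
      refine iSup₂_le fun y hy => (Subgroup.closure_le _).2 ?_
      rintro _ ⟨i, rfl⟩
      have e : t ^ j * (t ^ i * y * (t ^ i)⁻¹) * (t ^ j)⁻¹ = t ^ (j + i) * y * (t ^ (j + i))⁻¹ := by
        rw [zpow_add]; group
      change t ^ j * (t ^ i * y * (t ^ i)⁻¹) * (t ^ j)⁻¹ ∈ M
      rw [e]
      exact hgen y hy _
    intro x hx
    exact this hx
  have h1 : ∀ x ∈ M, t * x * t⁻¹ ∈ M := fun x hx => by simpa using hconj 1 x hx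
  have h2 : ∀ x ∈ M, t⁻¹ * x * t ∈ M := fun x hx => by simpa using hconj (-1) x hx
  have hle : J ≤ M ⊔ Subgroup.zpowers t := by
    refine hJ.trans ((Subgroup.closure_le _).2 ?_)
    rintro x (rfl | hx)
    · exact Subgroup.mem_sup_right (Subgroup.mem_zpowers _)
    · exact Subgroup.mem_sup_left (by simpa using hgen x hx 0)
  obtain ⟨n, hn⟩ := (Subgroup.le_zpowers_iff t (J ⊓ Subgroup.zpowers t)).1 inf_le_right
  have hJe : J = M ⊔ (J ⊓ Subgroup.zpowers t) := by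
    refine le_antisymm (fun g hg => ?_) (sup_le hMJ inf_le_left)
    obtain ⟨x, hx, k, rfl⟩ := (mem_sup_zpowers h1 h2).1 (hle hg)
    refine Subgroup.mul_mem _ (Subgroup.mem_sup_left hx) (Subgroup.mem_sup_right ⟨?_, ?_⟩)
    · simpa using J.mul_mem (J.inv_mem (hMJ hx)) hg
    · exact Subgroup.zpow_mem_zpowers t k
  rw [hJe, hn]
  exact hMfg.sup ⟨{t ^ n}, by rw [Finset.coe_singleton, Subgroup.zpowers_eq_closure]⟩

/-- a finitely generated `K ⊔ closure X` is generated by `X` and finitely many elements of `K`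
(`Subgroup.mem_sup_of_normal_left` or `Subgroup.normal_mul`) -/
theorem exists_gens_ker {K : Subgroup G} [K.Normal] (X : Set G)
    (h : (K ⊔ Subgroup.closure X).FG) :
    ∃ Y : Finset G, (∀ y ∈ Y, y ∈ K) ∧ K ≤ Subgroup.closure (X ∪ Y) := by
  classical
  obtain ⟨S, hS⟩ := h
  have key : ∀ s ∈ S, ∃ y ∈ K, ∃ x ∈ Subgroup.closure X, y * x = s := fun s hs =>
    Subgroup.mem_sup_of_normal_left.1 (hS ▸ Subgroup.subset_closure hs)
  choose! f hf g hg e using key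
  refine ⟨S.image f, fun y hy => ?_, ?_⟩
  · obtain ⟨s, hs, rfl⟩ := Finset.mem_image.1 hy
    exact hf s hs
  · refine le_sup_left.trans (hS.ge.trans ((Subgroup.closure_le _).2 fun s hs => ?_))
    rw [← e s hs]
    refine Subgroup.mul_mem _ (Subgroup.subset_closure (Or.inr ?_))
      (Subgroup.closure_mono Set.subset_union_left (hg s hs))
    exact Finset.mem_coe.2 (Finset.mem_image_of_mem f hs)

/-- induction on `X`: `J = K ⊔ closure X` is normal (it contains all commutators);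
`exists_gens_ker` for `insert t X`, `fg_of_cyclic_ext` with `X ∪ Y` -/
theorem descent {K : Subgroup G} [K.Normal] (hc : ∀ a b : G, a * b * a⁻¹ * b⁻¹ ∈ K) (Tiny : Set G)
    (hK : ∀ g ∈ K, g ∈ Tiny) (hM : ∀ t ∈ Tiny, ∀ g ∈ Tiny,
      (Subgroup.closure (Set.range fun i : ℤ => t ^ i * g * (t ^ i)⁻¹)).FG)
    (X : Finset G) (hX : ∀ x ∈ X, x ∈ Tiny) (h : (K ⊔ Subgroup.closure (X : Set G)).FG) :
    K.FG := by
  classical
  induction X using Finset.induction_on with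
  | empty => simpa using h
  | insert t X _ ih =>
    refine ih (fun x hx => hX x (Finset.mem_insert_of_mem hx)) ?_
    obtain ⟨Y, hY, hKY⟩ := exists_gens_ker _ h
    have hN : (K ⊔ Subgroup.closure (X : Set G)).Normal := ⟨fun n hn g => by
      have := Subgroup.mul_mem _ (Subgroup.mem_sup_left (hc g n)) hn
      rwa [inv_mul_cancel_right] at this⟩
    refine fg_of_cyclic_ext t (X ∪ Y) (fun y hy => ?_) (sup_le (hKY.trans ?_) ?_) (fun y hy => ?_)
    · rcases Finset.mem_union.1 hy with hy | hy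
      · exact Subgroup.mem_sup_right (Subgroup.subset_closure hy)
      · exact Subgroup.mem_sup_left (hY y hy)
    · refine Subgroup.closure_mono ?_
      rw [Finset.coe_insert, Finset.coe_union, Set.insert_union]
    · refine Subgroup.closure_mono ?_
      rw [Finset.coe_union]
      exact Set.subset_union_left.trans (Set.subset_insert _ _)
    · refine hM t (hX t (Finset.mem_insert_self _ _)) y ?_
      rcases Finset.mem_union.1 hy with hy | hy
      · exact hX y (Finset.mem_insert_of_mem hy)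
      · exact hK y (hY y hy)

/-- `η = 0`; `Ball.image` for `Subgroup.subtype` -/
theorem Grow.pg {φ : G → Fin k → ℝ} (hφ : AHom φ) (h : Grow φ) : ∃ d, PG hφ.ker d := by
  classical
  obtain ⟨d, C₀, -, h⟩ := h
  refine ⟨d, fun T => ?_⟩
  obtain ⟨B, hB⟩ := h 0 le_rfl (T.image hφ.ker.subtype) fun x hx => by
    obtain ⟨y, -, rfl⟩ := Finset.mem_image.1 hx
    exact (norm_eq_zero.2 (hφ.mem_ker.1 y.2)).le
  refine ⟨⌈B⌉₊, fun r hr => ?_⟩
  have h1 := hB r hr
  rw [Finset.coe_image, ← Ball.image, Set.ncard_image_of_injective _ hφ.ker.subtype_injective,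
    mul_zero, zero_mul, Real.exp_zero, mul_one] at h1
  have h2 := h1.trans (mul_le_mul_of_nonneg_right (Nat.le_ceil B) (by positivity))
  exact_mod_cast h2

theorem end_of_grow (T : Finset G) (hT' : Subgroup.closure (T : Set G) = ⊤) {u φ : G → Fin k → ℝ}
    (hφ : AHom φ) (hc : Conn (T : Set G) u) (h : UL (T : Set G) u φ) (hg : Grow φ) :
    IsVirtuallyPolycyclic G := by
  obtain ⟨M₀, hM⟩ := slab_conn T hT' hφ hc h
  obtain ⟨η, hη, hcol⟩ := hg.collide
  obtain ⟨X, hX, hK⟩ := tiny_gens T hφ hM η hη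
  haveI := hφ.ker_normal
  have hfg : hφ.ker.FG := by
    refine descent hφ.comm_mem {g | ‖φ g‖ ≤ η} (fun g hg => ?_) (fun t ht g hg => ?_) X hX ?_
    · change ‖φ g‖ ≤ η
      rw [hφ.mem_ker.1 hg, norm_zero]; exact hη.le
    · exact conj_fg_of_collide (hcol t g ht hg) (hcol t⁻¹ g (by rwa [hφ.inv, norm_neg]) hg)
    · rw [sup_eq_right.2 hK]; exact ⟨X, rfl⟩
  obtain ⟨d, hd⟩ := hg.pg hφ
  exact ext_abelian ⟨⟨T, hT'⟩⟩ hφ.ker hfg
    (vp_of_pg d _ ((Group.fg_iff_subgroup_fg _).2 hfg) hd) hφ.comm_mem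

theorem end_core (T : Finset G) (hT' : Subgroup.closure (T : Set G) = ⊤) {u : G → Fin k → ℝ}
    {L : ℝ} (hu : Lip (T : Set G) u L) (μ : Mean G) (hc : Conn (T : Set G) u)
    (hn : Count (T : Set G) u) (h : U0 (T : Set G) u ⊤) : IsVirtuallyPolycyclic G := by
  obtain ⟨φ, hφ, hU⟩ := exists_phi hT' hu μ h
  exact end_of_grow T hT' hφ hc (hU.ul hu) (grow_of_up T.finite_toSet hT' hu hφ hU hn)

end Crest.Agent.R182
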