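import Crest.Agent.R182.EQI
import Crest.Agent.R182.GBPoly

/-! Row 182, block E: invariant means. -/

set_option autoImplicit false
set_option linter.dupNamespace false

namespace Crest.Agent.R182

open Crest.GroupTheory

variable {G H P : Type*} [Group G] [Group H] [Group P] {k : ℕ}

private theorem h88_bdd_const {X : Type*} (c : ℝ) : Bdd fun _ : X => c := ⟨|c|, fun _ => le_rfl⟩

private theorem h88_bdd_add {X : Type*} {f g : X → ℝ} (hf : Bdd f) (hg : Bdd g) :
    Bdd fun x => f x + g x := by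
  obtain ⟨A, hA⟩ := hf
  obtain ⟨B, hB⟩ := hg
  exact ⟨A + B, fun x => (abs_add_le _ _).trans (add_le_add (hA x) (hB x))⟩

private theorem h88_bdd_smul {X : Type*} (c : ℝ) {f : X → ℝ} (hf : Bdd f) :
    Bdd fun x => c * f x := by
  obtain ⟨A, hA⟩ := hf
  exact ⟨|c| * A, fun x => by
    rw [abs_mul]
    exact mul_le_mul_of_nonneg_left (hA x) (abs_nonneg _)⟩

private theorem h88_bdd_comp {X Y : Type*} {f : X → ℝ} (hf : Bdd f) (φ : Y → X) :
    Bdd fun y => f (φ y) := by
  obtain ⟨A, hA⟩ := hf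
  exact ⟨A, fun y => hA _⟩

theorem Mean.const (μ : Mean G) (c : ℝ) : μ.m (fun _ => c) = c := by
  have h := μ.smul c (fun _ => 1) (h88_bdd_const 1)
  simpa [μ.one] using h

theorem Mean.abs_sub_le (μ : Mean G) {f : G → ℝ} {a E : ℝ} (h : ∀ x, |f x - a| ≤ E) :
    |μ.m f - a| ≤ E := by
  have hf : Bdd f := ⟨E + |a|, fun x => by
    have h1 := abs_add_le (f x - a) a
    rw [sub_add_cancel] at h1
    linarith [h x]⟩
  have h1 := μ.mono f (fun _ => a + E) hf (h88_bdd_const _) fun x => by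
    linarith [(abs_le.1 (h x)).2]
  have h2 := μ.mono (fun _ => a - E) f (h88_bdd_const _) hf fun x => by
    linarith [(abs_le.1 (h x)).1]
  rw [μ.const] at h1 h2
  exact abs_le.2 ⟨by linarith, by linarith⟩

theorem Mean.sum (μ : Mean G) {ι : Type*} (s : Finset ι) (f : ι → G → ℝ) (hf : ∀ i, Bdd (f i)) :
    μ.m (fun x => ∑ i ∈ s, f i x) = ∑ i ∈ s, μ.m (f i) := by
  classical
  have hb : ∀ s : Finset ι, Bdd fun x => ∑ i ∈ s, f i x := fun s => by
    induction s using Finset.induction_on with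
    | empty => simpa using h88_bdd_const (X := G) 0
    | insert i s hi ih =>
      simp only [Finset.sum_insert hi]
      exact h88_bdd_add (hf i) ih
  induction s using Finset.induction_on with
  | empty => simpa using μ.const 0
  | insert i s hi ih =>
    simp only [Finset.sum_insert hi]
    rw [μ.add _ _ (hf i) (hb s), ih]

/-- a mean on `G` which is only invariant under a subgroup -/
structure MeanOn (K : Subgroup G) where
  /-- the functional -/
  m : (G → ℝ) → ℝ
  add : ∀ f g, Bdd f → Bdd g → m (fun x => f x + g x) = m f + m g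
  smul : ∀ (c : ℝ) f, Bdd f → m (fun x => c * f x) = c * m f
  mono : ∀ f g, Bdd f → Bdd g → (∀ x, f x ≤ g x) → m f ≤ m g
  one : m (fun _ => 1) = 1
  inv : ∀ f, Bdd f → ∀ g ∈ K, m (fun x => f (x * g)) = m f

/-- evaluation at `1` -/
theorem MeanOn.bot : Nonempty (MeanOn (⊥ : Subgroup G)) := by
  refine ⟨⟨fun f => f 1, fun _ _ _ _ => rfl, fun _ _ _ => rfl, fun _ _ _ _ h => h 1, rfl,
    fun f _ g hg => ?_⟩⟩
  simp only [Subgroup.mem_bot.1 hg, mul_one]

private noncomputable def h88avg (f : ℕ → ℝ) (n : ℕ) : ℝ :=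
  (∑ i ∈ Finset.range (n + 1), f i) / (n + 1)

private theorem h88avg_tendsto {f : ℕ → ℝ} (hf : Bdd f) :
    Filter.Tendsto (h88avg f) (Filter.hyperfilter ℕ)
      (nhds (Filter.limUnder (Filter.hyperfilter ℕ : Filter ℕ) (h88avg f))) := by
  obtain ⟨B, hB⟩ := hf
  have hm : ∀ n, h88avg f n ∈ Set.Icc (-B) B := fun n => by
    have hn : (0 : ℝ) < n + 1 := by positivity
    have h1 : |∑ i ∈ Finset.range (n + 1), f i| ≤ (n + 1) * B := by
      refine (Finset.abs_sum_le_sum_abs _ _).trans ?_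
      refine (Finset.sum_le_sum fun i _ => hB i).trans ?_
      simp
    rw [Set.mem_Icc, ← abs_le, h88avg, abs_div, abs_of_pos hn, div_le_iff₀ hn]
    linarith
  obtain ⟨l, -, hl⟩ := (isCompact_Icc (a := -B) (b := B)).ultrafilter_le_nhds
    ((Filter.hyperfilter ℕ).map (h88avg f))
    (Filter.le_principal_iff.2 (Filter.mem_map.2 (Filter.univ_mem' hm)))
  exact tendsto_nhds_limUnder ⟨l, hl⟩

/-- a Banach limit on `ℕ` (limit of Cesàro averages along `hyperfilter ℕ`; bounded sequences converge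
along an ultrafilter: `IsCompact.ultrafilter_le_nhds`) -/
theorem exists_banachLim : ∃ Λ : (ℕ → ℝ) → ℝ,
    (∀ f g, Bdd f → Bdd g → Λ (fun x => f x + g x) = Λ f + Λ g) ∧
    (∀ (c : ℝ) f, Bdd f → Λ (fun x => c * f x) = c * Λ f) ∧
    (∀ f g, Bdd f → Bdd g → (∀ x, f x ≤ g x) → Λ f ≤ Λ g) ∧ Λ (fun _ => 1) = 1 ∧
    ∀ f, Bdd f → Λ (fun x => f (x + 1)) = Λ f := by
  refine ⟨fun f => Filter.limUnder (Filter.hyperfilter ℕ : Filter ℕ) (h88avg f),
    fun f g hf hg => ?_, fun c f hf => ?_, fun f g hf hg h => ?_, ?_, fun f hf => ?_⟩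
  · refine tendsto_nhds_unique (h88avg_tendsto (h88_bdd_add hf hg))
      (((h88avg_tendsto hf).add (h88avg_tendsto hg)).congr fun n => ?_)
    simp only [h88avg, Finset.sum_add_distrib, add_div]
  · refine tendsto_nhds_unique (h88avg_tendsto (h88_bdd_smul c hf))
      (((h88avg_tendsto hf).const_mul c).congr fun n => ?_)
    simp only [h88avg, ← Finset.mul_sum, mul_div_assoc]
  · refine le_of_tendsto_of_tendsto' (h88avg_tendsto hf) (h88avg_tendsto hg) fun n => ?_
    exact div_le_div_of_nonneg_right (Finset.sum_le_sum fun i _ => h i) (by positivity)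
  · refine tendsto_nhds_unique (h88avg_tendsto (h88_bdd_const 1))
      (tendsto_const_nhds.congr fun n => ?_)
    have hn : (n : ℝ) + 1 ≠ 0 := by positivity
    simp [h88avg, hn]
  · have h0 : Filter.Tendsto (fun n : ℕ => (f (n + 1) - f 0) / (n + 1 : ℝ)) Filter.atTop
        (nhds 0) := by
      obtain ⟨B, hB⟩ := hf
      have h1 : Filter.Tendsto (fun n : ℕ => (B + B) * (1 / (n + 1 : ℝ))) Filter.atTop
          (nhds ((B + B) * 0)) := tendsto_one_div_add_atTop_nhds_zero_nat.const_mul _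
      rw [mul_zero] at h1
      refine squeeze_zero_norm (fun n => ?_) h1
      have hn : (0 : ℝ) < n + 1 := by positivity
      rw [Real.norm_eq_abs, abs_div, abs_of_pos hn, mul_one_div]
      exact div_le_div_of_nonneg_right ((abs_sub _ _).trans (add_le_add (hB _) (hB _))) hn.le
    have h2 := (h88avg_tendsto hf).add (h0.mono_left Nat.hyperfilter_le_atTop)
    rw [add_zero] at h2
    refine tendsto_nhds_unique (h88avg_tendsto (h88_bdd_comp hf fun x => x + 1))
      (h2.congr fun n => ?_)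
    have h3 := Finset.sum_range_succ' f (n + 1)
    rw [Finset.sum_range_succ] at h3
    simp only [h88avg]
    rw [← add_div]
    congr 1
    linarith

/-- `Φ a = m (fun x => f (x * a))` satisfies `Φ (y * a) = Φ a` for `y ∈ K` and is bounded;
`m' f = Λ (fun i => Φ (g ^ i))`. The `b` with `∀ f, Bdd f → m' (f (· * b)) = m' f` form a subgroup
containing `K` (`g ^ i * b = (g ^ i * b * (g ^ i)⁻¹) * g ^ i`) and `g` (shift). -/
theorem MeanOn.step {K : Subgroup G} (μ : MeanOn K) (g : G) (h1 : ∀ x ∈ K, g * x * g⁻¹ ∈ K) :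
    Nonempty (MeanOn (K ⊔ Subgroup.zpowers g)) := by
  obtain ⟨Λ, hadd, hsmul, hmono, hone, hsh⟩ := exists_banachLim
  have hc : ∀ c : ℝ, μ.m (fun _ => c) = c := fun c => by
    have h := μ.smul c (fun _ => 1) (h88_bdd_const 1)
    simpa [μ.one] using h
  have hb : ∀ f : G → ℝ, Bdd f → Bdd fun i : ℕ => μ.m fun x => f (x * g ^ i) := fun f hf => by
    obtain ⟨B, hB⟩ := id hf
    refine ⟨B, fun i => abs_le.2 ⟨?_, ?_⟩⟩
    · exact (hc (-B)).symm.le.trans (μ.mono _ _ (h88_bdd_const _) (h88_bdd_comp hf _)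
        fun x => (abs_le.1 (hB _)).1)
    · exact (μ.mono _ _ (h88_bdd_comp hf _) (h88_bdd_const _)
        fun x => (abs_le.1 (hB _)).2).trans (hc B).le
  obtain ⟨m', hm'⟩ : ∃ m' : (G → ℝ) → ℝ,
      ∀ f, m' f = Λ fun i : ℕ => μ.m fun x => f (x * g ^ i) := ⟨_, fun _ => rfl⟩
  have hpow : ∀ i : ℕ, ∀ b ∈ K, g ^ i * b * (g ^ i)⁻¹ ∈ K := fun i b hbK => by
    induction i with
    | zero => simpa using hbK
    | succ i ih =>
      have e : g ^ (i + 1) * b * (g ^ (i + 1))⁻¹ = g * (g ^ i * b * (g ^ i)⁻¹) * g⁻¹ := by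
        rw [pow_succ']
        group
      rw [e]
      exact h1 _ ih
  let Hs : Subgroup G :=
    { carrier := {b | ∀ f : G → ℝ, Bdd f → m' (fun x => f (x * b)) = m' f}
      one_mem' := fun f _ => by simp only [mul_one]
      mul_mem' := fun {a b} ha hb' f hf => by
        have h2 := ha (fun x => f (x * b)) (h88_bdd_comp hf _)
        simp only [mul_assoc] at h2
        exact h2.trans (hb' f hf)
      inv_mem' := fun {b} hb' f hf => by
        have h2 := hb' (fun x => f (x * b⁻¹)) (h88_bdd_comp hf _)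
        simp only [mul_inv_cancel_right] at h2
        exact h2.symm }
  have hle : K ⊔ Subgroup.zpowers g ≤ Hs := by
    refine sup_le (fun b hbK f hf => ?_) (Subgroup.zpowers_le.2 fun f hf => ?_)
    · rw [hm', hm']
      congr 1
      funext i
      rw [← μ.inv (fun x => f (x * g ^ i)) (h88_bdd_comp hf _) _ (hpow i b hbK)]
      congr 1
      funext x
      congr 1
      group
    · rw [hm', hm', ← hsh _ (hb f hf)]
      simp only [pow_succ, mul_assoc]
  refine ⟨⟨m', fun f f' hf hf' => ?_, fun c f hf => ?_, fun f f' hf hf' h => ?_, ?_,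
    fun f hf b hb' => hle hb' f hf⟩⟩
  · rw [hm', hm', hm', ← hadd _ _ (hb f hf) (hb f' hf')]
    congr 1
    funext i
    exact μ.add _ _ (h88_bdd_comp hf _) (h88_bdd_comp hf' _)
  · rw [hm', hm', ← hsmul _ _ (hb f hf)]
    congr 1
    funext i
    exact μ.smul _ _ (h88_bdd_comp hf _)
  · rw [hm', hm']
    exact hmono _ _ (hb f hf) (hb f' hf') fun i =>
      μ.mono _ _ (h88_bdd_comp hf _) (h88_bdd_comp hf' _) fun x => h _
  · rw [hm']
    simp only [μ.one]
    exact hone

theorem MeanOn.of_pc {K : Subgroup G} (h : PC K) : Nonempty (MeanOn K) := by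
  induction h with
  | bot => exact MeanOn.bot
  | step K g _ h1 _ ih => exact ih.elim fun μ => μ.step g h1

theorem Mean.of_pc (h : PC (⊤ : Subgroup G)) : Nonempty (Mean G) := by
  obtain ⟨μ⟩ := MeanOn.of_pc h
  exact ⟨⟨μ.m, μ.add, μ.smul, μ.mono, μ.one, fun f hf g => μ.inv f hf g (Subgroup.mem_top g)⟩⟩

/-- push-forward of a function along a map with finite fibres -/
noncomputable def push (F : H → P) (f : H → ℝ) (p : P) : ℝ := ∑ᶠ x ∈ F ⁻¹' {p}, f x

/-- `m' f = μ.m (push F f) / μ.m (push F 1)`. `push F f` is bounded by `M * B` (`QI.fibre`);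
`1 ≤ ∑_{w ∈ Ball S c} push F 1 (p * w⁻¹)` (density) gives `0 < μ.m (push F 1)`. Invariance under
`g` (`g ∈ Ball T n` for some `n`): `w x = (F (x * g⁻¹))⁻¹ * F x` lies in the finite set
`Ball S (c * n + c)`; split `f = ∑_w f * 1_{w x = w}`; for each piece `f_w`,
`push F (fun x => f_w (x * g)) p = push F f_w (p * w)`. -/
theorem Mean.of_qi {T : Set H} {S : Set P} {F : H → P} {c : ℕ} (h : QI T S F c) (hT : T.Finite)
    (hT' : Subgroup.closure T = ⊤) (hS : S.Finite) (μ : Mean P) : Nonempty (Mean H) := by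
  classical
  obtain ⟨M, hM⟩ := h.fibre hT
  have hfin : ∀ p : P, (F ⁻¹' {p}).Finite := fun p => (hM {p} (Set.finite_singleton p)).1
  obtain ⟨fib, hfib, hcard⟩ : ∃ fib : P → Finset H, (∀ p x, x ∈ fib p ↔ F x = p) ∧
      ∀ p, (fib p).card ≤ M := by
    refine ⟨fun p => (hfin p).toFinset, fun p x => by simp, fun p => ?_⟩
    have := (hM {p} (Set.finite_singleton p)).2
    rwa [Set.ncard_singleton, mul_one, Set.ncard_eq_toFinset_card _ (hfin p)] at this
  obtain ⟨ps, hps⟩ : ∃ ps : (H → ℝ) → P → ℝ, ∀ f p, ps f p = ∑ x ∈ fib p, f x :=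
    ⟨fun f p => ∑ x ∈ fib p, f x, fun _ _ => rfl⟩
  have hb : ∀ f : H → ℝ, Bdd f → Bdd (ps f) := fun f hf => by
    obtain ⟨B, hB⟩ := hf
    have hB0 : 0 ≤ B := (abs_nonneg _).trans (hB 1)
    refine ⟨M * B, fun p => ?_⟩
    rw [hps]
    refine (Finset.abs_sum_le_sum_abs _ _).trans ((Finset.sum_le_sum fun x _ => hB x).trans ?_)
    rw [Finset.sum_const, nsmul_eq_mul]
    exact mul_le_mul_of_nonneg_right (by exact_mod_cast hcard p) hB0
  have hpos : 0 < μ.m (ps fun _ => 1) := by
    have hb1 := hb _ (h88_bdd_const (X := H) 1)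
    have hW := Ball.finite hS c
    have h1 := μ.sum hW.toFinset (fun w p => ps (fun _ => 1) (p * w⁻¹))
      fun w => h88_bdd_comp hb1 _
    have hbs : Bdd fun p => ∑ w ∈ hW.toFinset, ps (fun _ => 1) (p * w⁻¹) := by
      obtain ⟨B, hB⟩ := hb1
      exact ⟨∑ w ∈ hW.toFinset, B, fun p =>
        (Finset.abs_sum_le_sum_abs _ _).trans (Finset.sum_le_sum fun w _ => hB _)⟩
    have h2 := μ.mono (fun _ => 1) _ (h88_bdd_const 1) hbs fun p => by
      obtain ⟨x, hx⟩ := h.dense p
      have h3 : (1 : ℝ) ≤ ps (fun _ => 1) (p * ((F x)⁻¹ * p)⁻¹) := by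
        rw [hps]
        exact Finset.single_le_sum (f := fun _ : H => (1 : ℝ)) (fun _ _ => zero_le_one)
          ((hfib _ x).2 (by group))
      refine h3.trans (Finset.single_le_sum (f := fun w => ps (fun _ => 1) (p * w⁻¹))
        (fun w _ => ?_) (hW.mem_toFinset.2 hx))
      rw [hps]
      exact Finset.sum_nonneg fun _ _ => zero_le_one
    rw [μ.one, h1, Finset.sum_congr rfl fun w _ => μ.inv _ hb1 w⁻¹, Finset.sum_const,
      nsmul_eq_mul] at h2
    by_contra h3
    have := mul_nonpos_of_nonneg_of_nonpos (Nat.cast_nonneg (α := ℝ) hW.toFinset.card)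
      (not_lt.1 h3)
    linarith
  refine ⟨⟨fun f => μ.m (ps f) / μ.m (ps fun _ => 1), fun f g hf hg => ?_, fun a f hf => ?_,
    fun f g hf hg hfg => ?_, div_self hpos.ne', fun f hf g => ?_⟩⟩
  · rw [← add_div, ← μ.add _ _ (hb f hf) (hb g hg)]
    congr 2
    funext p
    simp only [hps, Finset.sum_add_distrib]
  · rw [← mul_div_assoc, ← μ.smul _ _ (hb f hf)]
    congr 2
    funext p
    simp only [hps, Finset.mul_sum]
  · refine div_le_div_of_nonneg_right (μ.mono _ _ (hb f hf) (hb g hg) fun p => ?_) hpos.le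
    rw [hps, hps]
    exact Finset.sum_le_sum fun x _ => hfg x
  · congr 1
    obtain ⟨n, hn⟩ := Ball.exists_of_mem_closure (T := T) (a := g) (hT' ▸ Subgroup.mem_top g)
    have hW := Ball.finite hS (c * n + c)
    obtain ⟨fv, hfv⟩ : ∃ fv : P → H → ℝ, ∀ v y,
        fv v y = if (F (y * g⁻¹))⁻¹ * F y = v then f y else 0 := ⟨_, fun _ _ => rfl⟩
    have hbv : ∀ v, Bdd (fv v) := fun v => by
      obtain ⟨B, hB⟩ := hf
      refine ⟨B, fun y => ?_⟩
      rw [hfv]
      split_ifs
      · exact hB y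
      · exact (abs_zero.le.trans (abs_nonneg _)).trans (hB y)
    have hsum : ∀ y, f y = ∑ v ∈ hW.toFinset, fv v y := fun y => by
      have hy : (F (y * g⁻¹))⁻¹ * F y ∈ hW.toFinset :=
        hW.mem_toFinset.2 (h.up _ _ n (by rwa [show (y * g⁻¹)⁻¹ * y = g by group]))
      simp only [hfv, Finset.sum_ite_eq, hy, if_true]
    have hA : ps f = fun p => ∑ v ∈ hW.toFinset, ps (fv v) p := by
      funext p
      simp only [hps]
      rw [Finset.sum_comm]
      exact Finset.sum_congr rfl fun y _ => hsum y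
    have hB : ps (fun x => f (x * g)) = fun p => ∑ v ∈ hW.toFinset, ps (fv v) (p * v) := by
      funext p
      rw [hps, Finset.sum_congr rfl fun x _ => hsum (x * g), Finset.sum_comm]
      refine Finset.sum_congr rfl fun v _ => ?_
      simp only [hps, hfv, ← Finset.sum_filter]
      refine Finset.sum_nbij' (fun x => x * g) (fun y => y * g⁻¹) (fun x hx => ?_)
        (fun y hy => ?_) (fun x _ => by simp) (fun y _ => by simp) fun _ _ => rfl
      · simp only [Finset.mem_filter, hfib] at hx ⊢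
        refine ⟨?_, hx.2⟩
        rw [← hx.2, ← hx.1, mul_inv_cancel_right, mul_inv_cancel_left]
      · simp only [Finset.mem_filter, hfib, inv_mul_cancel_right] at hy ⊢
        refine ⟨?_, hy.2⟩
        have := hy.2
        rw [hy.1, inv_mul_eq_iff_eq_mul] at this
        exact (mul_right_cancel this).symm
    rw [hA, hB, μ.sum _ _ fun v => hb _ (hbv v),
      μ.sum _ (fun v p => ps (fv v) (p * v)) fun v => h88_bdd_comp (hb _ (hbv v)) _]
    exact Finset.sum_congr rfl fun v _ => μ.inv _ (hb _ (hbv v)) v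

/-- `pc_iff`, `isPolycyclic_iff`, induction on `PC` -/
theorem PC.fg_e {K : Subgroup G} (h : PC K) : K.FG := by
  induction h with
  | bot => exact ⟨∅, by simp⟩
  | step H g _ _ _ ih => exact ih.sup ⟨{g}, by simp [Subgroup.zpowers_eq_closure]⟩

/-- `K ⊓ Q` is `PC` and of finite index in `K` -/
theorem vp_subgroup (h : IsVirtuallyPolycyclic G) (K : Subgroup G) : IsVirtuallyPolycyclic K := by
  obtain ⟨Q, hQ, hp⟩ := h
  refine ⟨Q.subgroupOf K, inferInstance, (pc_iff _).1 ?_⟩
  rw [← Subgroup.inf_subgroupOf_left]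
  exact (((pc_iff Q).2 hp).of_le inf_le_right).comap K.subtype K.subtype_injective
    (by rw [Subgroup.range_subtype]; exact inf_le_left)

/-- `PC.fg` and finite index (generators of `Q` together with coset representatives) -/
theorem vp_fg (h : IsVirtuallyPolycyclic G) : Group.FG G := by
  obtain ⟨Q, hQ, hp⟩ := h
  obtain ⟨T, hT, hfin⟩ := (Subgroup.fg_iff Q).1 ((pc_iff Q).2 hp).fg_e
  have : Finite (G ⧸ Q) := Subgroup.finite_quotient_of_finiteIndex
  refine Group.fg_iff.2 ⟨T ∪ Set.range fun c : G ⧸ Q => c.out, eq_top_iff.2 fun g _ => ?_,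
    hfin.union (Set.finite_range _)⟩
  rw [← mul_inv_cancel_left (QuotientGroup.mk g : G ⧸ Q).out g]
  refine mul_mem (Subgroup.subset_closure (Or.inr ⟨_, rfl⟩))
    (Subgroup.closure_mono Set.subset_union_left ?_)
  rw [hT, ← QuotientGroup.eq, QuotientGroup.out_eq']

theorem Mean.of_vp (h : IsVirtuallyPolycyclic G) : Nonempty (Mean G) := by
  obtain ⟨S, hS⟩ := (vp_fg h).out
  obtain ⟨Q, hQ, hp⟩ := h
  obtain ⟨T, hT⟩ := (PC.fg_e (isPolycyclic_iff.1 hp))
  haveI : Q.subtype.range.FiniteIndex := by rwa [Subgroup.range_subtype]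
  obtain ⟨c, hc⟩ := QI.of_hom T.finite_toSet hT S.finite_toSet hS Q.subtype Q.subtype_injective
  obtain ⟨E, hE, -⟩ := hc.symm
  obtain ⟨μ⟩ := Mean.of_pc (isPolycyclic_iff.1 hp)
  exact Mean.of_qi hE S.finite_toSet hS T.finite_toSet μ

end Crest.Agent.R182
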