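import Crest.Agent.R182.EMean

/-! Row 182, block E: the homomorphism `φ`, slabs, tiny generators. -/

set_option autoImplicit false
set_option linter.dupNamespace false

namespace Crest.Agent.R182

open Crest.GroupTheory

variable {G H P : Type*} [Group G] [Group H] [Group P] {k : ℕ}

/-- the linear form of `UP` -/
def UL (T : Set G) (u φ : G → Fin k → ℝ) : Prop :=
  ∀ ε : ℝ, 0 < ε → ∃ C : ℝ, 0 ≤ C ∧ ∀ (x y : G) (n : ℕ), x⁻¹ * y ∈ Ball T n →
    ‖u y - u x - φ (x⁻¹ * y)‖ ≤ ε * n + C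

/-- `φ g j = μ.m (fun h => u (h * g) j - u h j)`; use `b = h * x⁻¹` and `Mean.abs_sub_le`;
replace `C` by `max C 0` -/
theorem exists_phi {T : Set G} (hT' : Subgroup.closure T = ⊤) {u : G → Fin k → ℝ} {L : ℝ}
    (hu : Lip T u L) (μ : Mean G) (h : U0 T u ⊤) : ∃ φ, AHom φ ∧ UP T u φ := by
  have hb : ∀ (g : G) (j : Fin k), Bdd fun z => u (z * g) j - u z j := fun g j => by
    obtain ⟨r, hr⟩ := Ball.exists_of_mem_closure (T := T) (a := g) (hT' ▸ Subgroup.mem_top g)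
    refine ⟨L * r, fun z => ?_⟩
    have h1 : ‖u (z * g) - u z‖ ≤ L * r := hu.ball (by rwa [inv_mul_cancel_left])
    exact (norm_le_pi_norm (u (z * g) - u z) j).trans h1
  refine ⟨fun g j => μ.m fun z => u (z * g) j - u z j, fun a b => funext fun j => ?_,
    fun ε hε => ?_⟩
  · have hb' : Bdd fun z => u (z * a * b) j - u (z * a) j :=
      (hb b j).imp fun B hB z => hB (z * a)
    have h1 := μ.add _ _ (hb a j) hb'
    have h2 := μ.inv _ (hb b j) a
    rw [h2] at h1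
    rw [Pi.add_apply, ← h1]
    refine congrArg μ.m (funext fun z => ?_)
    rw [mul_assoc]
    ring
  · obtain ⟨C, hC⟩ := h ε hε
    refine ⟨max C 0, le_max_right _ _, fun x y n ρ hxy => ?_⟩
    have hlg : 0 ≤ lg n := zero_le_one.trans (one_le_lg n)
    have hρ := hxy.nonneg
    have hM : 0 ≤ max C 0 := le_max_right _ _
    refine (pi_norm_le_iff_of_nonneg (by positivity)).2 fun j => ?_
    rw [Pi.sub_apply, Real.norm_eq_abs, abs_sub_comm]
    refine μ.abs_sub_le fun z => ?_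
    have h1 := hC (z * x⁻¹) (Subgroup.mem_top _) x y n ρ hxy
    rw [inv_mul_cancel_right, mul_assoc] at h1
    have h2 := (norm_le_pi_norm _ j).trans h1
    have h3 := mul_le_mul_of_nonneg_right (le_max_left C 0) hlg
    exact le_trans h2 (by linarith)

/-- `Lip.reach`, `lg_le_lin` -/
theorem UP.ul {T : Set G} {u φ : G → Fin k → ℝ} {L : ℝ} (hu : Lip T u L) (h : UP T u φ) :
    UL T u φ := by
  intro ε hε
  have hL := hu.1
  obtain ⟨C, hC, h⟩ := h (ε / (2 * (L + 1))) (by positivity)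
  obtain ⟨B, hB, hlg⟩ := lg_le_lin (δ := ε / (2 * (C + 1))) (by positivity)
  refine ⟨C * B, by positivity, fun x y n hxy => (h x y n _ (hu.reach hxy)).trans ?_⟩
  have key : ∀ a : ℝ, 0 ≤ a → ε / (2 * (a + 1)) * a ≤ ε / 2 := fun a ha => by
    rw [div_mul_eq_mul_div, div_le_div_iff₀ (by positivity) (by positivity)]
    nlinarith
  have h1 := mul_le_mul_of_nonneg_right (key L hL) (n.cast_nonneg (α := ℝ))
  have h2 := mul_le_mul_of_nonneg_right (key C hC) (n.cast_nonneg (α := ℝ))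
  have h3 := mul_le_mul_of_nonneg_left (hlg n) hC
  linarith

/-- `Conn` in terms of `φ` -/
theorem conn_phi {T : Set G} {u φ : G → Fin k → ℝ} (hφ : AHom φ) (hc : Conn T u) (h : UL T u φ)
    (ε : ℝ) (hε : 0 < ε) : ∃ A B : ℝ, 0 ≤ A ∧ 0 ≤ B ∧ ∀ (x y : G) (n : ℕ), x⁻¹ * y ∈ Ball T n →
      Link T (Slab φ x (A * ‖φ y - φ x‖ + ε * n + B)) x y := by
  obtain ⟨C, hc⟩ := hc
  have hC : (0 : ℝ) ≤ C := C.cast_nonneg
  obtain ⟨δ, hδ, hδε⟩ : ∃ δ : ℝ, 0 < δ ∧ 2 * C * δ ≤ ε := by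
    refine ⟨ε / (2 * C + 1), by positivity, ?_⟩
    rw [← mul_div_assoc, div_le_iff₀ (by positivity)]
    nlinarith
  obtain ⟨D, hD, h⟩ := h δ hδ
  refine ⟨C, C * D + C + δ * C + D, hC, by positivity, fun x y n hxy => (hc x y n hxy).mono ?_⟩
  rintro z ⟨hz1, hz2⟩
  have h1 := h x z _ hz1
  have h2 := h x y n hxy
  rw [hφ.inv_mul] at h1 h2
  have h3 : ‖u z - u x‖ ≤ C * ‖u y - u x‖ + C := hz2
  have h4 := norm_sub_norm_le (u y - u x) (φ y - φ x)
  have h5 := norm_sub_norm_le (φ z - φ x) (u z - u x)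
  rw [norm_sub_rev (φ z - φ x)] at h5
  have h6 : ‖u y - u x‖ ≤ ‖φ y - φ x‖ + (δ * n + D) := by linarith
  have h7 := mul_le_mul_of_nonneg_left h6 hC
  have h8 := mul_le_mul_of_nonneg_right hδε (n.cast_nonneg (α := ℝ))
  push_cast at h1
  show ‖φ z - φ x‖ ≤ _
  linarith

theorem h79_round (a : ℝ) : ∃ n : ℤ, |(n : ℝ)| ≤ |a| ∧ |(n : ℝ) - a| ≤ 1 := by
  rcases le_total 0 a with h | h
  · refine ⟨⌊a⌋, ?_, ?_⟩
    · have h1 : (0 : ℝ) ≤ (⌊a⌋ : ℤ) := by exact_mod_cast Int.floor_nonneg.2 h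
      rw [abs_of_nonneg h1, abs_of_nonneg h]
      exact Int.floor_le a
    · rw [abs_le]
      constructor <;> linarith [Int.floor_le a, Int.lt_floor_add_one a]
  · refine ⟨⌈a⌉, ?_, ?_⟩
    · have h1 : ((⌈a⌉ : ℤ) : ℝ) ≤ 0 := by exact_mod_cast Int.ceil_nonpos.2 h
      rw [abs_of_nonpos h1, abs_of_nonpos h]
      linarith [Int.le_ceil a]
    · rw [abs_le]
      constructor <;> linarith [Int.le_ceil a, Int.ceil_lt_add_one a]

theorem h79_zpow_mem {T : Set G} {s : G} (hs : s ∈ T) (n : ℤ) : s ^ n ∈ Ball T n.natAbs := by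
  cases n with
  | ofNat n => simpa using Ball.pow_mem (Ball.mem_of_mem hs) n
  | negSucc n =>
    rw [zpow_negSucc]
    simpa using Ball.inv_mem (Ball.pow_mem (Ball.mem_of_mem hs) (n + 1))

theorem h79_word (T : Finset G) {φ : G → Fin k → ℝ} (hφ : AHom φ) (n : T → ℤ) (F : Finset T) :
    ∃ t ∈ Ball (T : Set G) (∑ s ∈ F, (n s).natAbs), φ t = ∑ s ∈ F, (n s : ℝ) • φ s := by
  classical
  induction F using Finset.induction_on with
  | empty => exact ⟨1, Ball.one_mem _ _, by simp [hφ.one]⟩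
  | insert s F hs ih =>
    obtain ⟨t, ht, e⟩ := ih
    refine ⟨(s : G) ^ n s * t, ?_, ?_⟩
    · rw [Finset.sum_insert hs]
      exact Ball.mul_mem (h79_zpow_mem (Finset.mem_coe.2 s.2) _) ht
    · rw [Finset.sum_insert hs, hφ, hφ.zpow, e]

/-- pushing: the linear map `(T → ℝ) → span (range φ)`, `a ↦ ∑ a s • φ s` is onto, so it has a (continuous)
linear right inverse: `∑ |a s| ≤ κ ‖w‖`; take `t = ∏ s ^ (a s rounded towards 0)`, `c = 1 / (κ + 1)` -/
theorem exists_push (T : Finset G) (hT' : Subgroup.closure (T : Set G) = ⊤) {φ : G → Fin k → ℝ}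
    (hφ : AHom φ) : ∃ c D : ℝ, 0 < c ∧ 0 ≤ D ∧ ∀ (R : ℕ) (g : G) (θ : ℝ), ‖θ • φ g‖ ≤ c * R →
      ∃ t ∈ Ball (T : Set G) R, ‖φ t - θ • φ g‖ ≤ D := by
  classical
  let Φ : (T → ℝ) →ₗ[ℝ] (Fin k → ℝ) := Fintype.linearCombination ℝ fun s : T => φ s
  have hΦ : ∀ a, Φ a = ∑ s : T, a s • φ s := fun a => Fintype.linearCombination_apply _ _ _
  have hr : ∀ g, φ g ∈ LinearMap.range Φ := by
    intro g
    have hg : g ∈ Subgroup.closure (T : Set G) := hT' ▸ Subgroup.mem_top g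
    induction hg using Subgroup.closure_induction with
    | mem x hx =>
      refine ⟨Pi.single ⟨x, hx⟩ 1, ?_⟩
      simp [Φ]
    | one => rw [hφ.one]; exact Submodule.zero_mem _
    | mul x y _ _ hx hy => rw [hφ]; exact Submodule.add_mem _ hx hy
    | inv x _ hx => rw [hφ.inv]; exact Submodule.neg_mem _ hx
  obtain ⟨σ, hσ⟩ := Φ.rangeRestrict.exists_rightInverse_of_surjective Φ.range_rangeRestrict
  set κ : ℝ := (Fintype.card T : ℝ) * ‖LinearMap.toContinuousLinearMap σ‖ with hκ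
  have hκ0 : 0 ≤ κ := by positivity
  refine ⟨1 / (κ + 1), ∑ s : T, ‖φ s‖, by positivity,
    Finset.sum_nonneg fun _ _ => norm_nonneg _, fun R g θ hθ => ?_⟩
  set w : LinearMap.range Φ := ⟨θ • φ g, Submodule.smul_mem _ _ (hr g)⟩ with hw
  have ha : Φ (σ w) = θ • φ g := congrArg Subtype.val (LinearMap.congr_fun hσ w)
  have hn : ‖σ w‖ ≤ ‖LinearMap.toContinuousLinearMap σ‖ * ‖θ • φ g‖ :=
    (LinearMap.toContinuousLinearMap σ).le_opNorm w
  choose n hn1 hn2 using fun s : T => h79_round (σ w s)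
  obtain ⟨t, ht, e⟩ := h79_word T hφ n Finset.univ
  refine ⟨t, Ball.mono subset_rfl ?_ ht, ?_⟩
  · have h1 : ((∑ s : T, (n s).natAbs : ℕ) : ℝ) ≤ ∑ _s : T, ‖σ w‖ := by
      push_cast
      refine Finset.sum_le_sum fun s _ => ?_
      rw [Nat.cast_natAbs, Int.cast_abs]
      exact (hn1 s).trans (norm_le_pi_norm (σ w) s)
    rw [Finset.sum_const, Finset.card_univ, nsmul_eq_mul] at h1
    have h2 : (Fintype.card T : ℝ) * ‖σ w‖ ≤ κ * ‖θ • φ g‖ := by
      rw [hκ, mul_assoc]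
      exact mul_le_mul_of_nonneg_left hn (Nat.cast_nonneg _)
    have h3 : κ * ‖θ • φ g‖ ≤ κ * (1 / (κ + 1) * R) := mul_le_mul_of_nonneg_left hθ hκ0
    have h4 : κ * (1 / (κ + 1) * R) ≤ R := by
      rw [← mul_assoc]
      refine mul_le_of_le_one_left (Nat.cast_nonneg _) ?_
      rw [mul_one_div, div_le_one (by positivity)]
      linarith
    exact Nat.cast_le.1 (h1.trans (h2.trans (h3.trans h4)))
  · rw [e, ← ha, hΦ, ← Finset.sum_sub_distrib]
    refine (norm_sum_le _ _).trans (Finset.sum_le_sum fun s _ => ?_)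
    rw [← sub_smul, norm_smul, Real.norm_eq_abs]
    exact mul_le_of_le_one_left (norm_nonneg _) (hn2 s)

/-- one push-down step: `ε = c / 4` in `conn_phi`, `R` large, `M₀ = c * R`; for a path `z j` in the slab of
width `M ≥ M₀` take `t j` from `exists_push` with `θ = -(c * R / M)` (`t j = 1` if `φ (z j) = 0`), join
`z j * t j` to `z (j + 1) * t (j + 1)` (distance `≤ 2 R + 1`, heights differ by `≤ L + 2 D`, height
`≤ M - c R + D`), `Link.chain` -/
theorem slab_step (T : Finset G) (hT' : Subgroup.closure (T : Set G) = ⊤) {u φ : G → Fin k → ℝ}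
    (hφ : AHom φ) (hc : Conn (T : Set G) u) (h : UL (T : Set G) u φ) :
    ∃ M₀ : ℝ, 0 < M₀ ∧ ∀ M, M₀ ≤ M → ∀ g, φ g = 0 → Link (T : Set G) {z | ‖φ z‖ ≤ M} 1 g →
      Link (T : Set G) {z | ‖φ z‖ ≤ M - 1} 1 g := by
  obtain ⟨c, D, hc0, hD, hp⟩ := exists_push T hT' hφ
  obtain ⟨L, hL⟩ := hφ.lip T.finite_toSet
  obtain ⟨A, B, hA, hB, hl⟩ := conn_phi hφ hc h (c / 4) (by positivity)
  have hL0 := hL.1
  obtain ⟨R, hR⟩ := exists_nat_ge (2 * (1 + D + A * (L + 2 * D) + c / 4 + B) / c)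
  rw [div_le_iff₀ hc0, mul_comm _ c] at hR
  have hAL : 0 ≤ A * (L + 2 * D) := by positivity
  refine ⟨c * R, by linarith, fun M hM g hg ⟨n, p, p0, pn, p2, p3⟩ => ?_⟩
  have hM0 : 0 < M := by linarith
  obtain ⟨θ, hθ⟩ : ∃ θ : ℝ, θ = c * R / M := ⟨_, rfl⟩
  have hθ0 : 0 ≤ θ := by rw [hθ]; positivity
  have hθ1 : θ ≤ 1 := by rw [hθ, div_le_one hM0]; exact hM
  have hθM : θ * M = c * R := by rw [hθ]; field_simp
  have ht : ∀ z : G, ∃ t : G, (φ z = 0 → t = 1) ∧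
      (‖φ z‖ ≤ M → t ∈ Ball (T : Set G) R ∧ ‖φ t - (-θ) • φ z‖ ≤ D) := fun z => by
    by_cases h0 : φ z = 0
    · exact ⟨1, fun _ => rfl, fun _ => ⟨Ball.one_mem _ _, by simpa [h0, hφ.one] using hD⟩⟩
    · by_cases h1 : ‖φ z‖ ≤ M
      · obtain ⟨t, h2, h3⟩ := hp R z (-θ) (by
          rw [norm_smul, norm_neg, Real.norm_of_nonneg hθ0, ← hθM]
          exact mul_le_mul_of_nonneg_left h1 hθ0)
        exact ⟨t, fun h => absurd h h0, fun _ => ⟨h2, h3⟩⟩
      · exact ⟨1, fun _ => rfl, fun h => absurd h h1⟩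
  choose t t1 t2 using ht
  have e : ∀ z, φ (z * t z) = (1 - θ) • φ z + (φ (t z) - (-θ) • φ z) := fun z => by
    rw [hφ]; module
  have key := Link.chain (T := (T : Set G)) (A := {z | ‖φ z‖ ≤ M - 1}) (fun j => p j * t (p j)) n
    (by
      change ‖φ (p 0 * t (p 0))‖ ≤ M - 1
      rw [p0, t1 1 hφ.one, mul_one, hφ.one, norm_zero]
      linarith) fun i hi => by
      have a1 : ‖φ (p i)‖ ≤ M := p3 i hi.le
      obtain ⟨b1, b2⟩ := t2 _ a1
      obtain ⟨b3, b4⟩ := t2 _ (p3 (i + 1) hi)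
      have b5 := Ball.mul_mem (Ball.mul_mem (Ball.inv_mem b1) (p2 i hi)) b3
      rw [show (t (p i))⁻¹ * ((p i)⁻¹ * p (i + 1)) * t (p (i + 1)) =
        (p i * t (p i))⁻¹ * (p (i + 1) * t (p (i + 1))) by group] at b5
      refine (hl _ _ _ b5).mono fun z hz => ?_
      have c1 : ‖φ (p i * t (p i))‖ ≤ M - c * R + D := by
        rw [e]
        refine (norm_add_le _ _).trans ?_
        rw [norm_smul, Real.norm_of_nonneg (by linarith)]
        have := mul_le_mul_of_nonneg_left a1 (by linarith : 0 ≤ 1 - θ)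
        linarith
      have c2 : ‖φ (p (i + 1) * t (p (i + 1))) - φ (p i * t (p i))‖ ≤ L + 2 * D := by
        have d1 := hL.ball (p2 i hi)
        rw [Nat.cast_one, mul_one] at d1
        have d2 : φ (p (i + 1) * t (p (i + 1))) - φ (p i * t (p i)) =
            (1 - θ) • (φ (p (i + 1)) - φ (p i)) + ((φ (t (p (i + 1))) - (-θ) • φ (p (i + 1))) -
              (φ (t (p i)) - (-θ) • φ (p i))) := by
          rw [e, e]; module
        rw [d2]
        refine (norm_add_le _ _).trans (add_le_add ?_ ((norm_sub_le _ _).trans (by linarith)))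
        rw [norm_smul, Real.norm_of_nonneg (by linarith)]
        exact (mul_le_of_le_one_left (norm_nonneg _) (by linarith)).trans d1
      have c3 := mul_le_mul_of_nonneg_left c2 hA
      have c4 : ‖φ z - φ (p i * t (p i))‖ ≤ _ := hz
      have c5 := norm_add_le (φ z - φ (p i * t (p i))) (φ (p i * t (p i)))
      rw [sub_add_cancel] at c5
      push_cast at c4
      change ‖φ z‖ ≤ M - 1
      linarith
  simp only [p0, pn, t1 1 hφ.one, t1 g hg, mul_one] at key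
  exact key

/-- induction on `m` for the width `M₀ + m` -/
theorem slab_conn (T : Finset G) (hT' : Subgroup.closure (T : Set G) = ⊤) {u φ : G → Fin k → ℝ}
    (hφ : AHom φ) (hc : Conn (T : Set G) u) (h : UL (T : Set G) u φ) :
    ∃ M₀ : ℝ, ∀ g, φ g = 0 → Link (T : Set G) {z | ‖φ z‖ ≤ M₀} 1 g := by
  obtain ⟨M₀, hM₀, hs⟩ := slab_step T hT' hφ hc h
  obtain ⟨L, hL⟩ := hφ.lip T.finite_toSet
  refine ⟨M₀, fun g hg => ?_⟩
  have key : ∀ m : ℕ, Link (T : Set G) {z | ‖φ z‖ ≤ M₀ + m} 1 g →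
      Link (T : Set G) {z | ‖φ z‖ ≤ M₀} 1 g := by
    intro m
    induction m with
    | zero => simp
    | succ m ih =>
      intro h1
      have h2 := hs _ (le_add_of_nonneg_right (Nat.cast_nonneg _)) g hg h1
      rw [Nat.cast_succ, ← add_assoc, add_sub_cancel_right] at h2
      exact ih h2
  obtain ⟨n, hn⟩ := Ball.exists_of_mem_closure (hT' ▸ Subgroup.mem_top g :
    g ∈ Subgroup.closure (T : Set G))
  obtain ⟨m, hm⟩ := exists_nat_ge (L * n)
  refine key m ⟨n, (hL.reach (x := 1) (by simpa using hn)).mono fun z hz => ?_⟩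
  have h1 : ‖φ z - φ 1‖ ≤ L * n := hz
  rw [hφ.one, sub_zero] at h1
  change ‖φ z‖ ≤ M₀ + m
  linarith

/-- finite set `Rp ∋ 1` and `rep z ∈ Rp` with `‖φ z - φ (rep z)‖ ≤ η / 2` on the slab, `rep z = 1` if
`φ z = 0` (the image of the slab is totally bounded: `Metric.totallyBounded_iff` / `finite_approx_of_totallyBounded`);
`X = {r * s * r'⁻¹ tiny}`; along a path `z * (rep z)⁻¹ ∈ closure X` (`Reach.induction`) -/
theorem tiny_gens (T : Finset G) {φ : G → Fin k → ℝ} (hφ : AHom φ) {M₀ : ℝ}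
    (h : ∀ g, φ g = 0 → Link (T : Set G) {z | ‖φ z‖ ≤ M₀} 1 g) (η : ℝ) (hη : 0 < η) :
    ∃ X : Finset G, (∀ x ∈ X, ‖φ x‖ ≤ η) ∧ hφ.ker ≤ Subgroup.closure (X : Set G) := by
  classical
  have htb : TotallyBounded (φ '' {z | ‖φ z‖ ≤ M₀}) := by
    refine (isCompact_closedBall (0 : Fin k → ℝ) M₀).totallyBounded.subset ?_
    rintro _ ⟨z, hz, rfl⟩
    exact mem_closedBall_zero_iff.2 hz
  obtain ⟨V, hV, hVf, hcov⟩ := Metric.finite_approx_of_totallyBounded htb (η / 2) (by positivity)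
  obtain ⟨R0, -, hR0f, hR0⟩ := (Set.exists_subset_image_finite_and (p := fun W => W = V)).1
    ⟨V, hV, hVf, rfl⟩
  subst hR0
  have hrep : ∀ z : G, ∃ r ∈ insert (1 : G) R0, (φ z = 0 → r = 1) ∧
      (‖φ z‖ ≤ M₀ → ‖φ z - φ r‖ ≤ η / 2) := by
    intro z
    by_cases h0 : φ z = 0
    · refine ⟨1, Set.mem_insert _ _, fun _ => rfl, fun _ => ?_⟩
      rw [h0, hφ.one, sub_zero, norm_zero]
      positivity
    · by_cases h1 : ‖φ z‖ ≤ M₀
      · obtain ⟨y, hy, hz⟩ := Set.mem_iUnion₂.1 (hcov ⟨z, h1, rfl⟩)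
        obtain ⟨r, hr, rfl⟩ := hy
        refine ⟨r, Set.mem_insert_of_mem _ hr, fun h => absurd h h0, fun _ => ?_⟩
        rw [← dist_eq_norm]
        exact (Metric.mem_ball.1 hz).le
      · exact ⟨1, Set.mem_insert _ _, fun _ => rfl, fun h => absurd h h1⟩
  choose rep hr1 hr2 hr3 using hrep
  have hfin : (Set.image2 (fun a r' : G => a * r'⁻¹)
      (Set.image2 (fun r s : G => r * s) (insert (1 : G) R0) (Ball (T : Set G) 1))
      (insert (1 : G) R0)).Finite :=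
    ((hR0f.insert 1).image2 _ (Ball.finite T.finite_toSet 1)).image2 _ (hR0f.insert 1)
  refine ⟨hfin.toFinset.filter fun x => ‖φ x‖ ≤ η, fun x hx => (Finset.mem_filter.1 hx).2,
    fun g hg => ?_⟩
  obtain ⟨n, hn⟩ := h g hg
  have key := Reach.induction (fun _ z => z * (rep z)⁻¹ ∈ Subgroup.closure
      ((hfin.toFinset.filter fun x => ‖φ x‖ ≤ η : Finset G) : Set G)) (fun _ => ?_)
      (fun n y z hy h1 h2 hz => ?_) hn
  · rwa [hr2 g hg, inv_one, mul_one] at key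
  · rw [hr2 1 hφ.one, inv_one, mul_one]
    exact Subgroup.one_mem _
  · rw [show z * (rep z)⁻¹ = y * (rep y)⁻¹ * (rep y * (y⁻¹ * z) * (rep z)⁻¹) by group]
    refine Subgroup.mul_mem _ h1 (Subgroup.subset_closure ?_)
    rw [Finset.coe_filter]
    refine ⟨hfin.mem_toFinset.2 ⟨_, ⟨_, hr1 y, _, h2, rfl⟩, _, hr1 z, rfl⟩, ?_⟩
    have e : φ (rep y * (y⁻¹ * z) * (rep z)⁻¹) = (φ z - φ (rep z)) - (φ y - φ (rep y)) := by
      rw [hφ, hφ, hφ.inv_mul, hφ.inv]
      abel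
    rw [e]
    have := norm_sub_le (φ z - φ (rep z)) (φ y - φ (rep y))
    linarith [hr3 z hz, hr3 y hy.right]

end Crest.Agent.R182
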