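import Crest.Agent.R182.EDefs

/-! Row 182, block E: discrete quasi-isometries and transfer of `Lip`, `Count`, `Conn`. -/

set_option autoImplicit false
set_option linter.dupNamespace false

namespace Crest.Agent.R182

open Crest.GroupTheory

variable {G H P : Type*} [Group G] [Group H] [Group P] {k : ℕ}

theorem QI.mono {T : Set H} {S : Set P} {F : H → P} {c c' : ℕ} (h : QI T S F c) (hc : c ≤ c') :
    QI T S F c' := by
  have h1 : ∀ n, c * n + c ≤ c' * n + c' := fun n => add_le_add (Nat.mul_le_mul_right n hc) hc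
  exact ⟨fun x y n hn => Ball.mono subset_rfl (h1 n) (h.up x y n hn),
    fun x y n hn => Ball.mono subset_rfl (h1 n) (h.down x y n hn),
    fun p => (h.dense p).imp fun _ hx => Ball.mono subset_rfl hc hx⟩

theorem h18_ball_iff {T : Set H} (hT : Subgroup.closure T = ⊤) (x y : H) (n : ℕ) :
    x⁻¹ * y ∈ Ball T n ↔ wordDist T x y ≤ n := by
  rw [Ball.eq_wordDist hT]
  simp [wordDist]

/-- `Ball.eq_wordDist`; `wordDist T x y = wordDist T 1 (x⁻¹ * y)` by `simp [wordDist]`;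
`c = ⌈K⌉ + ⌈K * C⌉ + ⌈C⌉`; `Ball.inv_mem` for density -/
theorem QI.of_isQuasiIsometry {T : Set H} {S : Set P} (hT : Subgroup.closure T = ⊤)
    (hS : Subgroup.closure S = ⊤) {F : H → P}
    (h : Crest.Geometry.IsQuasiIsometry (wordDist T) (wordDist S) F) : ∃ c, QI T S F c := by
  obtain ⟨K, C, hK, hC, h1, h2⟩ := h
  have hK0 : 0 < K := one_pos.trans_le hK
  have e1 := Nat.le_ceil K
  have e2 := Nat.le_ceil (K * C)
  have e3 := Nat.le_ceil C
  have p1 : (0 : ℝ) ≤ ⌈K⌉₊ := Nat.cast_nonneg _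
  have p2 : (0 : ℝ) ≤ ⌈K * C⌉₊ := Nat.cast_nonneg _
  have p3 : (0 : ℝ) ≤ ⌈C⌉₊ := Nat.cast_nonneg _
  obtain ⟨c, c1, c2, c3⟩ : ∃ c : ℕ, K ≤ c ∧ K * C ≤ c ∧ C ≤ c :=
    ⟨⌈K⌉₊ + ⌈K * C⌉₊ + ⌈C⌉₊, by push_cast; linarith, by push_cast; linarith,
      by push_cast; linarith⟩
  refine ⟨c, fun x y n hn => ?_, fun x y n hn => ?_, fun p => ?_⟩
  · rw [h18_ball_iff hT] at hn
    rw [h18_ball_iff hS]
    have h3 := mul_le_mul_of_nonneg_left hn hK0.le
    have h4 := mul_le_mul_of_nonneg_right c1 (n.cast_nonneg (α := ℝ))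
    push_cast
    linarith [(h1 x y).2]
  · rw [h18_ball_iff hS] at hn
    rw [h18_ball_iff hT]
    have h3 := mul_le_mul_of_nonneg_left ((h1 x y).1.trans hn) hK0.le
    rw [mul_sub, mul_inv_cancel_left₀ hK0.ne'] at h3
    have h4 := mul_le_mul_of_nonneg_right c1 (n.cast_nonneg (α := ℝ))
    push_cast
    linarith
  · obtain ⟨x, hx⟩ := h2 p
    have := Ball.inv_mem ((h18_ball_iff hS p (F x) c).2 (hx.trans c3))
    rw [mul_inv_rev, inv_inv] at this
    exact ⟨x, this⟩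

theorem QI.comp {R : Set G} {T : Set H} {S : Set P} {E : G → H} {F : H → P} {c c' : ℕ}
    (hE : QI R T E c) (hF : QI T S F c') : QI R S (F ∘ E) (c * c' + 2 * c' + c * c' + c) := by
  refine ⟨fun x y n hn => Ball.mono subset_rfl ?_ (hF.up _ _ _ (hE.up x y n hn)),
    fun x y n hn => Ball.mono subset_rfl ?_ (hE.down _ _ _ (hF.down _ _ n hn)), fun p => ?_⟩
  · nlinarith [Nat.zero_le (c * c' * n), Nat.zero_le (c' * n), Nat.zero_le (c * n),
      Nat.zero_le (c * c')]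
  · nlinarith [Nat.zero_le (c * c' * n), Nat.zero_le (c' * n), Nat.zero_le (c * n),
      Nat.zero_le (c * c')]
  · obtain ⟨x, hx⟩ := hF.dense p
    obtain ⟨g, hg⟩ := hE.dense x
    have := Ball.mul_mem (hF.up _ _ _ hg) hx
    rw [mul_assoc, mul_inv_cancel_left] at this
    exact ⟨g, Ball.mono subset_rfl (by nlinarith [Nat.zero_le (c * c')]) this⟩

/-- a coarse inverse (choose from `dense`) -/
theorem QI.symm {T : Set H} {S : Set P} {F : H → P} {c : ℕ} (h : QI T S F c) :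
    ∃ E : P → H, QI S T E (3 * c * c + 3 * c + 1) ∧ (∀ p, (F (E p))⁻¹ * p ∈ Ball S c) ∧
      ∀ x, (E (F x))⁻¹ * x ∈ Ball T (c * c + c) := by
  choose E hE using h.dense
  have h0 : ∀ x, (E (F x))⁻¹ * x ∈ Ball T (c * c + c) := fun x => h.down _ _ _ (hE (F x))
  refine ⟨E, ⟨fun p q n hn => ?_, fun p q n hn => ?_, fun x => ⟨F x, ?_⟩⟩, hE, h0⟩
  · have := Ball.mul_mem (Ball.mul_mem (hE p) hn) (Ball.inv_mem (hE q))
    rw [show (F (E p))⁻¹ * p * (p⁻¹ * q) * ((F (E q))⁻¹ * q)⁻¹ = (F (E p))⁻¹ * F (E q) by group]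
      at this
    refine Ball.mono subset_rfl ?_ (h.down _ _ _ this)
    nlinarith [Nat.zero_le (c * c * n), Nat.zero_le (c * n), Nat.zero_le (c * c)]
  · have := Ball.mul_mem (Ball.mul_mem (Ball.inv_mem (hE p)) (h.up _ _ _ hn)) (hE q)
    rw [show ((F (E p))⁻¹ * p)⁻¹ * ((F (E p))⁻¹ * F (E q)) * ((F (E q))⁻¹ * q) = p⁻¹ * q by group]
      at this
    refine Ball.mono subset_rfl ?_ this
    nlinarith [Nat.zero_le (c * c * n), Nat.zero_le (c * n), Nat.zero_le (c * c)]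
  · exact Ball.mono subset_rfl (by nlinarith [Nat.zero_le (c * c)]) (h0 x)

theorem QI.mul_left (T : Set H) (b : H) : QI T T (fun x => b * x) 1 := by
  have e : ∀ x y : H, (b * x)⁻¹ * (b * y) = x⁻¹ * y := fun x y => by group
  refine ⟨fun x y n hn => ?_, fun x y n hn => ?_, fun p => ⟨b⁻¹ * p, ?_⟩⟩
  · rw [e]
    exact Ball.mono subset_rfl (by omega) hn
  · rw [e] at hn
    exact Ball.mono subset_rfl (by omega) hn
  · rw [mul_inv_cancel_left, inv_mul_cancel]
    exact Ball.one_mem _ _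

private theorem h50_fin_ball {T A : Set G} (hT : Subgroup.closure T = ⊤) (hA : A.Finite) :
    ∃ m : ℕ, ∀ a ∈ A, a ∈ Ball T m := by
  have h1 : ∀ t : G, ∃ s, t ∈ Ball T s := fun t =>
    Ball.exists_of_mem_closure (hT ▸ Subgroup.mem_top t)
  choose s hs using h1
  exact ⟨hA.toFinset.sup s, fun a ha => Ball.mono subset_rfl
    (Finset.le_sup (f := s) (hA.mem_toFinset.2 ha)) (hs a)⟩

/-- an injective homomorphism onto a subgroup of finite index is a quasi-isometry.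
`up`: `Ball.subset_of`, `Ball.image`. `down` (Schreier): finite set `Rp ∋ 1` of representatives with
`P = f.range * Rp`, the representative of `f.range` being `1`; for `r ∈ Rp`, `s ∈ Ball S 1` the element
`r * s * (rep (r * s))⁻¹` is `f` of an element of `Ball T c`; induct on the length. -/
theorem QI.of_hom {T : Set H} {S : Set P} (hT : T.Finite) (hT' : Subgroup.closure T = ⊤)
    (hS : S.Finite) (hS' : Subgroup.closure S = ⊤) (f : H →* P) (hf : Function.Injective f)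
    [f.range.FiniteIndex] : ∃ c, QI T S f c := by
  obtain ⟨D, hD⟩ := h50_fin_ball hS' (Set.finite_range fun q : P ⧸ f.range => q.out⁻¹)
  have hd : ∀ p, ∃ x, (f x)⁻¹ * p ∈ Ball S D := by
    intro p
    obtain ⟨⟨_, x, rfl⟩, hx⟩ := QuotientGroup.mk_out_eq_mul f.range p⁻¹
    refine ⟨x, hD _ ⟨(p⁻¹ : P), ?_⟩⟩
    simp only [hx, mul_inv_rev, inv_inv]
  obtain ⟨c₁, h₁⟩ := h50_fin_ball hT' ((Ball.finite hS (D + 1 + D)).preimage hf.injOn)
  obtain ⟨c₂, h₂⟩ := h50_fin_ball hS' (hT.image f)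
  have h0 : ∀ x y, (f x)⁻¹ * f y ∈ Ball S (D + 1 + D) → x⁻¹ * y ∈ Ball T c₁ := by
    intro x y h
    refine h₁ _ ?_
    rwa [Set.mem_preimage, map_mul, map_inv]
  have key : ∀ (n : ℕ) (x y : H) (p : P), (f x)⁻¹ * p ∈ Ball S D → p⁻¹ * f y ∈ Ball S n →
      x⁻¹ * y ∈ Ball T (c₁ * n + c₁) := by
    have base : ∀ (n : ℕ) (x y : H) (p : P), (f x)⁻¹ * p ∈ Ball S D → p⁻¹ * f y = 1 →
        x⁻¹ * y ∈ Ball T (c₁ * n + c₁) := by
      intro n x y p hx hy
      rw [inv_mul_eq_one] at hy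
      subst hy
      exact Ball.mono subset_rfl (Nat.le_add_left _ _)
        (h0 x y (Ball.mono subset_rfl (Nat.le_add_left _ _) hx))
    intro n
    induction n with
    | zero =>
      intro x y p hx hy
      rw [h31_ball_zero] at hy
      exact base 0 x y p hx hy
    | succ n ih =>
      intro x y p hx hy
      rcases h31_ball_succ hy with h1 | ⟨s, hs, b, hb, e⟩
      · exact base _ x y p hx h1
      · have hs1 : s ∈ Ball S 1 := by
          rcases hs with hs | hs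
          · exact Ball.mem_of_mem hs
          · exact inv_inv s ▸ Ball.inv_mem (Ball.mem_of_mem hs)
        obtain ⟨x', hx'⟩ := hd (p * s)
        have h2 : (p * s)⁻¹ * f y ∈ Ball S n := by
          rwa [show (p * s)⁻¹ * f y = s⁻¹ * (p⁻¹ * f y) by group, ← e, inv_mul_cancel_left]
        have h3 := Ball.mul_mem (Ball.mul_mem hx hs1) (Ball.inv_mem hx')
        rw [show (f x)⁻¹ * p * s * ((f x')⁻¹ * (p * s))⁻¹ = (f x)⁻¹ * f x' by group] at h3
        have h4 := Ball.mul_mem (h0 x x' h3) (ih x' y _ hx' h2)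
        rw [show x⁻¹ * x' * (x'⁻¹ * y) = x⁻¹ * y by group] at h4
        exact Ball.mono subset_rfl (by rw [Nat.mul_succ]; omega) h4
  refine ⟨c₁ + c₂ + D, fun x y n h => ?_, fun x y n h => ?_, fun p => ?_⟩
  · have h1 : f (x⁻¹ * y) ∈ f '' Ball T n := Set.mem_image_of_mem f h
    rw [Ball.image, map_mul, map_inv] at h1
    refine Ball.mono subset_rfl ?_ (Ball.subset_of h₂ n h1)
    nlinarith [Nat.zero_le (c₁ * n), Nat.zero_le (D * n)]
  · refine Ball.mono subset_rfl ?_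
      (key n x y (f x) (by rw [inv_mul_cancel]; exact Ball.one_mem _ _) h)
    nlinarith [Nat.zero_le (c₂ * n), Nat.zero_le (D * n)]
  · obtain ⟨x, hx⟩ := hd p
    exact ⟨x, Ball.mono subset_rfl (Nat.le_add_left _ _) hx⟩

/-- fibres over balls are uniformly finite -/
theorem QI.fibre {T : Set H} {S : Set P} {F : H → P} {c : ℕ} (h : QI T S F c) (hT : T.Finite) :
    ∃ M : ℕ, ∀ A : Set P, A.Finite → (F ⁻¹' A).Finite ∧ (F ⁻¹' A).ncard ≤ M * A.ncard := by
  have hB := Ball.finite hT (c * 0 + c)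
  have h1 : ∀ p : P, (F ⁻¹' {p}).Finite ∧ (F ⁻¹' {p}).ncard ≤ (Ball T (c * 0 + c)).ncard := by
    intro p
    rcases (F ⁻¹' {p}).eq_empty_or_nonempty with h0 | ⟨x, hx⟩
    · rw [h0]
      exact ⟨Set.finite_empty, by simp⟩
    · have hsub : F ⁻¹' {p} ⊆ (fun g => x * g) '' Ball T (c * 0 + c) := by
        intro y hy
        refine ⟨x⁻¹ * y, h.down x y 0 ?_, mul_inv_cancel_left x y⟩
        rw [show F x = p from hx, show F y = p from hy, inv_mul_cancel]
        exact Ball.one_mem _ _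
      exact ⟨(hB.image _).subset hsub,
        (Set.ncard_le_ncard hsub (hB.image _)).trans (Set.ncard_image_le hB)⟩
  refine ⟨(Ball T (c * 0 + c)).ncard, fun A hA => ?_⟩
  induction A, hA using Set.Finite.induction_on with
  | empty => simp
  | @insert p A hp hA ih =>
    rw [Set.insert_eq, Set.preimage_union, ← Set.insert_eq, Set.ncard_insert_of_notMem hp hA,
      Nat.mul_succ]
    refine ⟨(h1 p).1.union ih.1, (Set.ncard_union_le _ _).trans ?_⟩
    have := (h1 p).2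
    have := ih.2
    omega

theorem QI.lip {T : Set H} {S : Set P} {F : H → P} {c : ℕ} (h : QI T S F c)
    {u : P → Fin k → ℝ} {L : ℝ} (hu : Lip S u L) : Lip T (u ∘ F) (L * (2 * c)) := by
  refine ⟨mul_nonneg hu.1 (by positivity), fun x t ht => ?_⟩
  have h1 := h.up x (x * t) 1 (by rwa [inv_mul_cancel_left])
  have h2 := hu.ball h1
  have e : ((c * 1 + c : ℕ) : ℝ) = 2 * c := by push_cast; ring
  rwa [e] at h2

/-- the image of a path: `Reach.chain` with `q = F ∘ p`, each step replaced by `Lip.reach` -/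
theorem QI.reach {T : Set H} {S : Set P} {F : H → P} {c : ℕ} (h : QI T S F c)
    {u : P → Fin k → ℝ} {L : ℝ} (hu : Lip S u L) {x y : H} {n : ℕ} {ρ : ℝ}
    (hr : Reach T (Slab (u ∘ F) x ρ) x n y) :
    Reach S (Slab u (F x) (ρ + L * (2 * c))) (F x) (2 * c * n) (F y) := by
  obtain ⟨p, rfl, rfl, p2, p3⟩ := hr
  have hL : 0 ≤ L * (2 * c) := mul_nonneg hu.1 (by positivity)
  have hρ : 0 ≤ ρ := le_trans (norm_nonneg _) (p3 0 (Nat.zero_le _))
  refine Reach.chain (fun i => F (p i)) (2 * c) n (Slab.self u _ (by linarith)) fun i hi => ?_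
  have h1 := h.up _ _ 1 (p2 i hi)
  rw [show c * 1 + c = 2 * c by ring] at h1
  refine (hu.reach h1).mono fun z hz => ?_
  have h2 : ‖u z - u (F (p i))‖ ≤ L * ((2 * c : ℕ) : ℝ) := hz
  have h3 : ‖u (F (p i)) - u (F (p 0))‖ ≤ ρ := p3 i hi.le
  have h4 := norm_add_le (u z - u (F (p i))) (u (F (p i)) - u (F (p 0)))
  rw [sub_add_sub_cancel] at h4
  push_cast at h2
  show ‖u z - u (F (p 0))‖ ≤ ρ + L * (2 * c)
  linarith

/-- `QI.reach`, `QI.fibre`, `Reach.finite`, `lg_mul_le`, `one_le_lg`, `M ≤ exp M` -/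
theorem QI.count {T : Set H} {S : Set P} {F : H → P} {c : ℕ} (h : QI T S F c) (hT : T.Finite)
    (hS : S.Finite) {u : P → Fin k → ℝ} {L : ℝ} (hu : Lip S u L) (hc : Count S u) :
    Count T (u ∘ F) := by
  obtain ⟨M, hM⟩ := h.fibre hT
  obtain ⟨C, hC, hc⟩ := hc
  have hL : 0 ≤ L * (2 * c) := mul_nonneg hu.1 (by positivity)
  have hlc := one_le_lg (2 * c)
  refine ⟨C + M + C * (L * (2 * c)) + C * lg (2 * c), by positivity, fun a n ρ hρ => ?_⟩
  have hfin := Reach.finite hS (Slab u (F a) (ρ + L * (2 * c))) (F a) (2 * c * n)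
  obtain ⟨h1, h2⟩ := hM _ hfin
  have h3 : {y | Reach T (Slab (u ∘ F) a ρ) a n y}.ncard ≤
      (F ⁻¹' {y | Reach S (Slab u (F a) (ρ + L * (2 * c))) (F a) (2 * c * n) y}).ncard :=
    Set.ncard_le_ncard (fun y hy => h.reach hu hy) h1
  have h4 := hc (F a) (2 * c * n) (ρ + L * (2 * c)) (by linarith)
  have h5 : lg (2 * c * n) ≤ lg (2 * c) * lg n :=
    (lg_mono (Nat.le_add_right _ _)).trans (lg_mul_le (2 * c) n)
  have hln := one_le_lg n
  have hM0 : (0 : ℝ) ≤ M := M.cast_nonneg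
  have h6 : (M : ℝ) ≤ Real.exp M := by linarith [Real.add_one_le_exp (M : ℝ)]
  have h7 : ((({y | Reach T (Slab (u ∘ F) a ρ) a n y}.ncard : ℕ) : ℝ)) ≤
      M * (({y | Reach S (Slab u (F a) (ρ + L * (2 * c))) (F a) (2 * c * n) y}.ncard : ℕ) : ℝ) := by
    exact_mod_cast h3.trans h2
  refine h7.trans ((mul_le_mul h6 h4 (Nat.cast_nonneg _) (Real.exp_pos _).le).trans ?_)
  rw [← Real.exp_add]
  refine Real.exp_le_exp.2 ?_
  have e1 : C * lg (2 * c * n) ≤ C * (lg (2 * c) * lg n) := mul_le_mul_of_nonneg_left h5 hC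
  have e2 : (M : ℝ) ≤ M * (ρ + lg n) := le_mul_of_one_le_right hM0 (by linarith)
  have e3 : C * (L * (2 * c)) ≤ C * (L * (2 * c)) * (ρ + lg n) :=
    le_mul_of_one_le_right (mul_nonneg hC hL) (by linarith)
  have e4 : 0 ≤ C * lg n := mul_nonneg hC (by linarith)
  have e5 : 0 ≤ C * lg (2 * c) * ρ := mul_nonneg (mul_nonneg hC (by linarith)) hρ
  nlinarith

/-- join `F x` to `F y` by a path `p` in `P`, choose `h j` with `(F (h j))⁻¹ * p j ∈ Ball S c`
(`h 0 = x`, `h n = y`; add one step if `n = 0`), join `h j` to `h (j + 1)` by a geodesic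
(`Reach.of_ball`), `Link.chain` -/
theorem QI.conn {T : Set H} {S : Set P} {F : H → P} {c : ℕ} (h : QI T S F c)
    {u : P → Fin k → ℝ} {L : ℝ} (hu : Lip S u L) (hc : Conn S u) : Conn T (u ∘ F) := by
  obtain ⟨C, hC⟩ := hc
  obtain ⟨D, hD⟩ : ∃ D, D = c * (c + 1 + c) + c := ⟨_, rfl⟩
  obtain ⟨E, hE⟩ := exists_nat_ge (L * ((c * D + c : ℕ) : ℝ) + L * c)
  refine ⟨c * (C * c + C + c) + c + D + C + E, fun x y L0 hxy => ?_⟩
  obtain ⟨n, hn⟩ := hC (F x) (F y) _ (h.up x y L0 hxy)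
  generalize hA : BallAt T x ((c * (C * c + C + c) + c + D + C + E) * L0 +
      (c * (C * c + C + c) + c + D + C + E)) ∩
    Slab (u ∘ F) x (((c * (C * c + C + c) + c + D + C + E : ℕ) : ℝ) * ‖(u ∘ F) y - (u ∘ F) x‖ +
      ((c * (C * c + C + c) + c + D + C + E : ℕ) : ℝ)) = A
  generalize hB : BallAt S (F x) (C * (c * L0 + c) + C) ∩
    Slab u (F x) (C * ‖u (F y) - u (F x)‖ + C) = B at hn
  have key : ∀ p ∈ B, ∀ z z', (F z)⁻¹ * p ∈ Ball S c → (F z)⁻¹ * F z' ∈ Ball S (c + 1 + c) →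
      Link T A z z' := by
    intro p hp z z' hz hz'
    rw [← hB] at hp
    obtain ⟨hp1, hp2⟩ := hp
    have h1 := h.down z z' _ hz'
    rw [← hD] at h1
    refine ⟨D, (Reach.of_ball h1).mono fun w hw => ?_⟩
    rw [← hA]
    have h2 : (F x)⁻¹ * F z ∈ Ball S (C * (c * L0 + c) + C + c) := by
      have := Ball.mul_mem hp1 (Ball.inv_mem hz)
      rwa [show (F x)⁻¹ * p * ((F z)⁻¹ * p)⁻¹ = (F x)⁻¹ * F z by group] at this
    constructor
    · have := Ball.mul_mem (h.down x z _ h2) hw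
      rw [show x⁻¹ * z * (z⁻¹ * w) = x⁻¹ * w by group] at this
      refine Ball.mono subset_rfl ?_ this
      nlinarith [Nat.zero_le (c * C * L0), Nat.zero_le (c * c * L0), Nat.zero_le (c * L0),
        Nat.zero_le (D * L0), Nat.zero_le (C * L0), Nat.zero_le (E * L0)]
    · have h3 := hu.ball (h.up z w D hw)
      have h4 := hu.ball hz
      have h5 : ‖u p - u (F x)‖ ≤ C * ‖u (F y) - u (F x)‖ + C := hp2
      change ‖u (F w) - u (F x)‖ ≤ _ * ‖u (F y) - u (F x)‖ + _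
      have h6 : ‖u (F w) - u (F x)‖ ≤
          ‖u (F w) - u (F z)‖ + ‖u p - u (F z)‖ + ‖u p - u (F x)‖ := by
        have e : u (F w) - u (F x) = (u (F w) - u (F z)) - (u p - u (F z)) + (u p - u (F x)) := by
          abel
        rw [e]
        exact (norm_add_le _ _).trans (add_le_add_left (norm_sub_le _ _) _)
      have h7 : (C : ℝ) + E ≤ ((c * (C * c + C + c) + c + D + C + E : ℕ) : ℝ) := by
        exact_mod_cast (by omega : C + E ≤ c * (C * c + C + c) + c + D + C + E)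
      have h8 : (C : ℝ) * ‖u (F y) - u (F x)‖ ≤
          ((c * (C * c + C + c) + c + D + C + E : ℕ) : ℝ) * ‖u (F y) - u (F x)‖ :=
        mul_le_mul_of_nonneg_right (le_trans (le_add_of_nonneg_right E.cast_nonneg) h7)
          (norm_nonneg _)
      linarith
  refine Reach.induction (fun _ p => ∀ z, (F z)⁻¹ * p ∈ Ball S c → Link T A x z)
    (fun hx z hz => ?_) (fun m p p' hr ih hpp _ z' hz' => ?_) hn y ?_
  · refine key _ hx x z (by rw [inv_mul_cancel]; exact Ball.one_mem _ _) ?_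
    have := Ball.inv_mem hz
    rw [mul_inv_rev, inv_inv] at this
    exact Ball.mono subset_rfl (by omega) this
  · obtain ⟨z, hz⟩ := h.dense p
    refine (ih z hz).trans (key p hr.right z z' hz ?_)
    have := Ball.mul_mem (Ball.mul_mem hz hpp) (Ball.inv_mem hz')
    rwa [show (F z)⁻¹ * p * (p⁻¹ * p') * ((F z')⁻¹ * p')⁻¹ = (F z)⁻¹ * F z' by group] at this
  · rw [inv_mul_cancel]; exact Ball.one_mem _ _

/-- restriction of `U0` to the subgroup: `QI.reach` for the inclusion, `lg_mul_le` -/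
theorem U0.restrict {T : Set H} {u : H → Fin k → ℝ} {L : ℝ} (hu : Lip T u L) {H₀ : Subgroup H}
    (h : U0 T u H₀) {T₀ : Set H₀} {c : ℕ} (hq : QI T₀ T H₀.subtype c) :
    U0 T₀ (u ∘ H₀.subtype) ⊤ := by
  intro ε hε
  obtain ⟨C, hC⟩ := h ε hε
  have hL : 0 ≤ L * (2 * c) := mul_nonneg hu.1 (by positivity)
  refine ⟨ε * (L * (2 * c)) + max C 0 * lg (2 * c), fun b _ x y n ρ hr => ?_⟩
  have h1 := hC b b.2 x y _ _ (hq.reach hu hr)
  have h5 : lg (2 * c * n) ≤ lg (2 * c) * lg n :=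
    (lg_mono (Nat.le_add_right _ _)).trans (lg_mul_le (2 * c) n)
  have hln := one_le_lg n
  have hl2 := one_le_lg (2 * c * n)
  have e1 : C * lg (2 * c * n) ≤ max C 0 * (lg (2 * c) * lg n) :=
    (mul_le_mul_of_nonneg_right (le_max_left C 0) (by linarith)).trans
      (mul_le_mul_of_nonneg_left h5 (le_max_right _ _))
  have e2 : ε * (L * (2 * c)) ≤ ε * (L * (2 * c)) * lg n :=
    le_mul_of_one_le_right (mul_nonneg hε.le hL) hln
  refine le_trans h1 ?_
  nlinarith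

end Crest.Agent.R182
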