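import Crest.Agent.R182.LBAlg

/-! Row 182, block L2: the calculus of the gauge `In`. -/

set_option autoImplicit false
set_option linter.dupNamespace false

namespace Crest.Agent.R182

namespace LieModel

variable {G : Type} [Group G] {k : ℕ} {M : LieModel G k}

/-- all words -/
abbrev top : List (Fin M.d) → Prop := fun _ => True

/-- adding letters to a word with `p` gives a word with `p'` -/
def Up (p p' : List (Fin M.d) → Prop) : Prop :=
  ∀ w w' w'' : List (Fin M.d), p w → w' ≠ [] → w''.Perm (w ++ w') → p' w''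

theorem up_top : Up (M := M) top top := fun _ _ _ _ _ _ => trivial

theorem up_mixed (i : M.Cl) : Up (M.Mixed i) (M.Mixed i) := by
  rintro w w' w'' ⟨l, hl, h⟩ - hp
  exact ⟨l, hp.mem_iff.2 (List.mem_append_left _ hl), h⟩

theorem up_len (s : ℕ) : Up (M := M) (fun w => s ≤ w.length) fun w => s + 1 ≤ w.length := by
  intro w w' w'' hw hw' hp
  have h1 := hp.length_eq
  have h2 := List.length_pos_iff.2 hw'
  rw [List.length_append] at h1
  show s + 1 ≤ w''.length
  have : s ≤ w.length := hw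
  omega

section basic

variable {p q : List (Fin M.d) → Prop} {a a' : M.Cl → ℝ} {t t' : ℝ} {X Y : Fin M.d → ℝ}

theorem In.nonneg (h : M.In p a t X) : 0 ≤ t := by
  obtain ⟨x, h1, -, -⟩ := h
  exact nonneg_of_mul_nonneg_left ((abs_nonneg _).trans (h1 [])) (Real.exp_pos _)

theorem h52_in_mk (ht : 0 ≤ t) (x : List (Fin M.d) → ℝ)
    (h1 : ∀ w ∈ M.Wd, |x w| ≤ t * Real.exp (M.lw a w)) (h2 : ∀ w ∈ M.Wd, ¬ p w → x w = 0) :
    M.In p a t (∑ w ∈ M.Wd, x w • M.mon w) := by
  classical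
  refine ⟨fun w => if w ∈ M.Wd then x w else 0, fun w => ?_, fun w hw => ?_,
    Finset.sum_congr rfl fun w hw => by simp only [if_pos hw]⟩
  · dsimp only
    split_ifs with h
    · exact h1 w h
    · rw [abs_zero]; positivity
  · dsimp only
    split_ifs with h
    · exact h2 w h hw
    · rfl

theorem In.mono (h : M.In p a t X) (hp : ∀ w ∈ M.Wd, p w → q w) (ha : a ≤ a') (ht : t ≤ t') :
    M.In q a' t' X := by
  have h0 := h.nonneg
  obtain ⟨x, h1, h2, rfl⟩ := h
  refine h52_in_mk (h0.trans ht) x (fun w _ => (h1 w).trans ?_)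
    fun w hw hq => h2 w fun hpw => hq (hp w hw hpw)
  exact mul_le_mul ht (Real.exp_le_exp.2 (M.lw_mono ha w)) (Real.exp_pos _).le (h0.trans ht)

theorem In.zero (ht : 0 ≤ t) : M.In p a t 0 := by
  refine ⟨0, fun w => ?_, fun _ _ => rfl, by simp⟩
  rw [Pi.zero_apply, abs_zero]; positivity

theorem In.add (hX : M.In p a t X) (hY : M.In p a t' Y) : M.In p a (t + t') (X + Y) := by
  obtain ⟨x, h1, h2, rfl⟩ := hX
  obtain ⟨y, h3, h4, rfl⟩ := hY
  refine ⟨fun w => x w + y w, fun w => ?_, fun w hw => by simp only [h2 w hw, h4 w hw, add_zero],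
    ?_⟩
  · rw [add_mul]
    exact (abs_add_le _ _).trans (add_le_add (h1 w) (h3 w))
  · simp only [add_smul, Finset.sum_add_distrib]

theorem In.smul (hX : M.In p a t X) (c : ℝ) : M.In p a (|c| * t) (c • X) := by
  obtain ⟨x, h1, h2, rfl⟩ := hX
  refine ⟨fun w => c * x w, fun w => ?_, fun w hw => by simp only [h2 w hw, mul_zero], ?_⟩
  · rw [abs_mul, mul_assoc]
    exact mul_le_mul_of_nonneg_left (h1 w) (abs_nonneg c)
  · simp only [Finset.smul_sum, mul_smul]

theorem In.neg (hX : M.In p a t X) : M.In p a t (-X) := by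
  simpa using hX.smul (-1)

theorem In.sub (hX : M.In p a t X) (hY : M.In p a t' Y) : M.In p a (t + t') (X - Y) := by
  rw [sub_eq_add_neg]
  exact hX.add hY.neg

theorem In.sum {α : Type*} (s : Finset α) {f : α → Fin M.d → ℝ} (ht : 0 ≤ t)
    (h : ∀ x ∈ s, M.In p a t (f x)) : M.In p a (s.card * t) (∑ x ∈ s, f x) := by
  classical
  induction s using Finset.induction_on with
  | empty => simpa using In.zero le_rfl
  | insert x s hx ih =>
    rw [Finset.sum_insert hx, Finset.card_insert_of_notMem hx]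
    have := (h x (Finset.mem_insert_self _ _)).add
      (ih fun y hy => h y (Finset.mem_insert_of_mem hy))
    convert this using 1
    push_cast; ring

theorem In.list_sum (l : List (Fin M.d → ℝ)) (ht : 0 ≤ t) (h : ∀ x ∈ l, M.In p a t x) :
    M.In p a (l.length * t) l.sum := by
  induction l with
  | nil => simpa using In.zero le_rfl
  | cons x l ih =>
    rw [List.sum_cons, List.length_cons]
    have := (h x List.mem_cons_self).add (ih fun y hy => h y (List.mem_cons_of_mem _ hy))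
    convert this using 1
    push_cast; ring

/-- a single monomial (empty and too long words have `mon = 0`) -/
theorem In.single {w : List (Fin M.d)} (hw : ∀ l ∈ w, l ∈ M.Lam) (hp : p w) {c : ℝ}
    (hc : |c| ≤ t * Real.exp (M.lw a w)) : M.In p a t (c • M.mon w) := by
  classical
  have ht : 0 ≤ t := nonneg_of_mul_nonneg_left ((abs_nonneg _).trans hc) (Real.exp_pos _)
  by_cases h : w ∈ M.Wd
  · refine ⟨fun v => if v = w then c else 0, fun v => ?_, fun v hv => ?_, ?_⟩
    · dsimp only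
      split_ifs with h1
      · rw [h1]; exact hc
      · rw [abs_zero]; positivity
    · exact if_neg fun h1 : v = w => hv (h1 ▸ hp)
    · rw [Finset.sum_eq_single w (fun v _ hv => by simp only [if_neg hv, zero_smul])
        fun h1 => absurd h h1]
      simp
  · have h0 : M.mon w = 0 := by
      by_cases h1 : w = []
      · rw [h1]; rfl
      · refine M.mon_eq_zero (not_le.1 fun h2 => h (M.mem_Wd.2 ⟨h1, h2, hw⟩))
    rw [h0, smul_zero]
    exact In.zero ht

theorem In.split (h : M.In top a t X) (p : List (Fin M.d) → Prop) :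
    ∃ Y Z, X = Y + Z ∧ M.In p a t Y ∧ M.In (fun w => ¬ p w) a t Z := by
  classical
  have h0 := h.nonneg
  obtain ⟨x, h1, -, rfl⟩ := h
  refine ⟨∑ w ∈ M.Wd, (if p w then x w else 0) • M.mon w,
    ∑ w ∈ M.Wd, (if p w then 0 else x w) • M.mon w, ?_,
    h52_in_mk h0 _ (fun w _ => ?_) fun w _ hw => if_neg hw,
    h52_in_mk h0 _ (fun w _ => ?_) fun w _ hw => if_pos (not_not.1 hw)⟩
  · rw [← Finset.sum_add_distrib]
    refine Finset.sum_congr rfl fun w _ => ?_
    split_ifs <;> simp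
  · split_ifs
    · exact h1 w
    · rw [abs_zero]; positivity
  · split_ifs
    · rw [abs_zero]; positivity
    · exact h1 w

theorem In.mem_E (h : M.In p a t X) : X ∈ M.E := by
  obtain ⟨x, -, -, rfl⟩ := h
  exact M.E.sum_mem fun w hw => M.E.smul_mem _ (M.mon_mem_E hw)

theorem In.mem_I {i : M.Cl} (h : M.In (M.Mixed i) a t X) : X ∈ M.I i := by
  obtain ⟨x, -, h2, rfl⟩ := h
  refine (M.I i).sum_mem fun w hw => ?_
  by_cases hm : M.Mixed i w
  · exact (M.I i).smul_mem _ (Submodule.subset_span ⟨w, ⟨hw, hm⟩, rfl⟩)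
  · rw [h2 w hm, zero_smul]; exact (M.I i).zero_mem

theorem In.eq_zero (h : M.In (fun w => M.d + 1 ≤ w.length) a t X) : X = 0 := by
  obtain ⟨x, -, h2, rfl⟩ := h
  refine Finset.sum_eq_zero fun w hw => ?_
  have := (M.mem_Wd.1 hw).2.1
  rw [h2 w (by omega), zero_smul]

/-- change of levels, word by word -/
theorem In.relevel (h : M.In p a t X) {s : ℝ}
    (hs : ∀ w ∈ M.Wd, p w → M.lw a w ≤ M.lw a' w + s) : M.In p a' (t * Real.exp s) X := by
  have h0 := h.nonneg
  obtain ⟨x, h1, h2, rfl⟩ := h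
  refine h52_in_mk (by positivity) x (fun w hw => ?_) fun w _ hw => h2 w hw
  by_cases hp : p w
  · refine (h1 w).trans ?_
    rw [mul_assoc, ← Real.exp_add]
    exact mul_le_mul_of_nonneg_left (Real.exp_le_exp.2 (by linarith [hs w hw hp])) h0
  · rw [h2 w hp, abs_zero]; positivity

end basic

variable (M)

theorem h97_lw_shift (a : M.Cl → ℝ) (s : ℝ) (w : List (Fin M.d)) :
    M.lw (fun i => a i + s) w = M.lw a w + (∑ i, M.cw w i) * s := by
  simp only [lw, mul_add, Finset.sum_add_distrib, Finset.sum_mul]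

/-- `exists_cw_bounds`, `In.relevel` -/
theorem exists_shift : ∃ κ₀ κ₁ : ℝ, 0 < κ₀ ∧ 0 < κ₁ ∧
    ∀ (p : List (Fin M.d) → Prop) (a : M.Cl → ℝ) (s t : ℝ) (X : Fin M.d → ℝ), 0 ≤ s →
      (M.In p a t X → M.In p (fun i => a i + s) (t * Real.exp (-(κ₀ * s))) X) ∧
      (M.In p (fun i => a i + s) t X → M.In p a (t * Real.exp (κ₁ * s)) X) := by
  obtain ⟨κ₀, κ₁, h0, h1, h⟩ := M.exists_cw_bounds
  refine ⟨κ₀, κ₁, h0, h1, fun p a s t X hs => ⟨fun hX => hX.relevel fun w hw _ => ?_,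
    fun hX => hX.relevel fun w hw _ => ?_⟩⟩
  · rw [h97_lw_shift]
    linarith [mul_le_mul_of_nonneg_right (h w hw).1 hs]
  · rw [h97_lw_shift]
    linarith [mul_le_mul_of_nonneg_right (h w hw).2 hs]

theorem exists_absorb : ∃ C : ℝ, 0 < C ∧
    ∀ (p : List (Fin M.d) → Prop) (a : M.Cl → ℝ) (s t : ℝ) (X : Fin M.d → ℝ), 0 ≤ s →
      t ≤ Real.exp s → M.In p a t X → M.In p (fun i => a i + C * s) 1 X := by
  obtain ⟨κ₀, κ₁, h0, -, h⟩ := M.exists_shift
  refine ⟨κ₀⁻¹, inv_pos.2 h0, fun p a s t X hs ht hX => ?_⟩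
  refine ((h p a (κ₀⁻¹ * s) t X (by positivity)).1 hX).mono (fun _ _ h => h) le_rfl ?_
  rw [← mul_assoc, mul_inv_cancel₀ h0.ne', one_mul, Real.exp_neg, ← div_eq_mul_inv,
    div_le_one (Real.exp_pos _)]
  exact ht

/-- `br_mon`, `In.single`, `lw_append`, `lw_perm` -/
theorem exists_br : ∃ C : ℝ, 1 ≤ C ∧ ∀ (p q r : List (Fin M.d) → Prop),
    (∀ w ∈ M.Wd, ∀ w' ∈ M.Wd, ∀ w'', p w → q w' → w''.Perm (w ++ w') → r w'') →
    ∀ (a : M.Cl → ℝ) (t t' : ℝ) (X Y : Fin M.d → ℝ), M.In p a t X → M.In q a t' Y →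
      M.In r a (C * t * t') (M.br X Y) := by
  classical
  refine ⟨(M.Wd.card : ℝ) * (M.Wd.card * 2 ^ M.d) + 1, le_add_of_nonneg_left (by positivity),
    fun p q r hr a t t' X Y hX hY => ?_⟩
  have ht := hX.nonneg
  have ht' := hY.nonneg
  have htt : 0 ≤ t * t' := mul_nonneg ht ht'
  obtain ⟨x, hx1, hx2, rfl⟩ := hX
  obtain ⟨y, hy1, hy2, rfl⟩ := hY
  have key : ∀ w ∈ M.Wd, ∀ w' ∈ M.Wd,
      M.In r a (2 ^ M.d * (t * t')) (M.br (x w • M.mon w) (y w' • M.mon w')) := by
    intro w hw w' hw'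
    by_cases hp : p w
    swap
    · rw [hx2 w hp, zero_smul, map_zero, LinearMap.zero_apply]
      exact In.zero (by positivity)
    by_cases hq : q w'
    swap
    · rw [hy2 w' hq, zero_smul, map_zero]
      exact In.zero (by positivity)
    obtain ⟨L, hL1, hL2, hL3⟩ := M.br_mon w w'
    have e : M.br (x w • M.mon w) (y w' • M.mon w') =
        (L.map fun u => (x w * y w' * u.1) • M.mon u.2).sum := by
      rw [map_smul, map_smul, LinearMap.smul_apply, hL3, smul_smul, List.smul_sum, List.map_map]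
      congr 1
      refine List.map_congr_left fun u _ => ?_
      simp only [Function.comp, smul_smul]
      congr 1
      ring
    rw [e]
    have h1 := In.list_sum (M := M) (p := r) (a := a)
      (L.map fun u => (x w * y w' * u.1) • M.mon u.2) htt (by
        intro z hz
        obtain ⟨u, hu, rfl⟩ := List.mem_map.1 hz
        obtain ⟨hu1, hu2⟩ := hL2 u hu
        refine In.single (fun l hl => ?_) (hr w hw w' hw' u.2 hp hq hu2) ?_
        · rcases List.mem_append.1 (hu2.subset hl) with h | h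
          · exact (M.mem_Wd.1 hw).2.2 l h
          · exact (M.mem_Wd.1 hw').2.2 l h
        · rw [M.lw_perm a hu2, M.lw_append, Real.exp_add, abs_mul, abs_mul]
          have h2 := mul_le_mul (hx1 w) (hy1 w') (abs_nonneg _) (by positivity)
          have h3 : |x w| * |y w'| * |u.1| ≤ |x w| * |y w'| :=
            mul_le_of_le_one_right (by positivity) hu1
          refine h3.trans (h2.trans (le_of_eq ?_))
          ring)
    refine h1.mono (fun _ _ h => h) le_rfl (mul_le_mul_of_nonneg_right ?_ htt)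
    rw [List.length_map]
    have h4 : L.length ≤ 2 ^ M.d :=
      hL1.trans (Nat.pow_le_pow_right (by norm_num) (M.mem_Wd.1 hw).2.1)
    exact_mod_cast h4
  have e : M.br (∑ w ∈ M.Wd, x w • M.mon w) (∑ w ∈ M.Wd, y w • M.mon w) =
      ∑ w ∈ M.Wd, ∑ w' ∈ M.Wd, M.br (x w • M.mon w) (y w' • M.mon w') := by
    rw [map_sum M.br, LinearMap.sum_apply]
    exact Finset.sum_congr rfl fun w _ => map_sum _ _ _
  rw [e]
  refine (In.sum M.Wd (t := M.Wd.card * (2 ^ M.d * (t * t'))) (by positivity) fun w hw =>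
    In.sum M.Wd (by positivity) fun w' hw' => key w hw w' hw').mono (fun _ _ h => h) le_rfl ?_
  nlinarith

theorem h94_ev (T : ℝ) (t : LTree) : ∃ C : ℝ, 1 ≤ C ∧ ∀ (a : M.Cl → ℝ) (X Y : Fin M.d → ℝ),
    M.In top a T X → M.In top a T Y → M.In top a C (M.ev t X Y) := by
  induction t with
  | x => exact ⟨max T 1, le_max_right _ _, fun a X Y hX _ =>
      hX.mono (fun _ _ h => h) le_rfl (le_max_left _ _)⟩
  | y => exact ⟨max T 1, le_max_right _ _, fun a X Y _ hY =>
      hY.mono (fun _ _ h => h) le_rfl (le_max_left _ _)⟩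
  | node s t hs ht =>
    obtain ⟨C, hC, h⟩ := M.exists_br
    obtain ⟨C₁, hC₁, h₁⟩ := hs
    obtain ⟨C₂, hC₂, h₂⟩ := ht
    exact ⟨C * C₁ * C₂, one_le_mul_of_one_le_of_one_le (one_le_mul_of_one_le_of_one_le hC hC₁) hC₂,
      fun a X Y hX hY => h top top top (fun _ _ _ _ _ _ _ _ => trivial) a _ _ _ _
        (h₁ a X Y hX hY) (h₂ a X Y hX hY)⟩

/-- the difference estimate for a tree, with output words in `p` (`b = false`) or `p'` -/
def h94_Sub (T : ℝ) (t : LTree) (b : Bool) : Prop :=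
  ∃ C : ℝ, 1 ≤ C ∧ ∀ (p p' : List (Fin M.d) → Prop), Up p p' →
    (∀ w, p' w → p w) → ∀ (a : M.Cl → ℝ) (ε : ℝ) (X Y X' Y' : Fin M.d → ℝ),
      M.In top a T X → M.In top a T Y → M.In top a T X' → M.In top a T Y' →
      M.In p a ε (X - X') → M.In p a ε (Y - Y') →
      M.In (cond b p' p) a (C * ε) (M.ev t X Y - M.ev t X' Y')

theorem h94_node_sub (T : ℝ) (s t : LTree) (hs : M.h94_Sub T s false) (ht : M.h94_Sub T t false) :
    M.h94_Sub T (.node s t) true := by
  obtain ⟨C, hC, h⟩ := M.exists_br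
  obtain ⟨C₁, hC₁, h₁⟩ := hs
  obtain ⟨C₂, hC₂, h₂⟩ := ht
  obtain ⟨D₁, hD₁, g₁⟩ := M.h94_ev T s
  obtain ⟨D₂, hD₂, g₂⟩ := M.h94_ev T t
  have p1 : 1 ≤ C * C₁ * D₂ :=
    one_le_mul_of_one_le_of_one_le (one_le_mul_of_one_le_of_one_le hC hC₁) hD₂
  have p2 : 1 ≤ C * D₁ * C₂ :=
    one_le_mul_of_one_le_of_one_le (one_le_mul_of_one_le_of_one_le hC hD₁) hC₂
  refine ⟨C * C₁ * D₂ + C * D₁ * C₂, by linarith,
    fun p p' hU hp a ε X Y X' Y' hX hY hX' hY' h1 h2 => ?_⟩
  have e1 := h p top p' (fun w _ w' hw' w'' hw _ hP => hU w w' w'' hw (M.mem_Wd.1 hw').1 hP) a _ _ _ _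
    (h₁ p p' hU hp a ε X Y X' Y' hX hY hX' hY' h1 h2) (g₂ a X Y hX hY)
  have e2 := h top p p' (fun w hw w' _ w'' _ hw' hP =>
    hU w' w w'' hw' (M.mem_Wd.1 hw).1 (hP.trans List.perm_append_comm)) a _ _ _ _
    (g₁ a X' Y' hX' hY') (h₂ p p' hU hp a ε X Y X' Y' hX hY hX' hY' h1 h2)
  have e3 := e1.add e2
  change M.In p' a _ _
  convert e3 using 1
  · ring
  · simp only [ev_node, map_sub, LinearMap.sub_apply]
    abel

theorem h94_ev_sub (T : ℝ) (t : LTree) : M.h94_Sub T t false := by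
  induction t with
  | x => exact ⟨1, le_rfl, fun p p' _ _ a ε X Y X' Y' _ _ _ _ h _ => by simpa using h⟩
  | y => exact ⟨1, le_rfl, fun p p' _ _ a ε X Y X' Y' _ _ _ _ _ h => by simpa using h⟩
  | node s t hs ht =>
    obtain ⟨C, hC, h⟩ := M.h94_node_sub T s t hs ht
    exact ⟨C, hC, fun p p' hU hp a ε X Y X' Y' hX hY hX' hY' h1 h2 =>
      (h p p' hU hp a ε X Y X' Y' hX hY hX' hY' h1 h2).mono (fun w _ hw => hp w hw) le_rfl le_rfl⟩

/-- induction on the trees; `[A, B] - [A', B'] = [A - A', B] + [A', B - B']` -/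
theorem exists_hi_sub (T : ℝ) : ∃ C : ℝ, 1 ≤ C ∧ ∀ (p p' : List (Fin M.d) → Prop), Up p p' →
    (∀ w, p' w → p w) → ∀ (a : M.Cl → ℝ) (ε : ℝ) (X Y X' Y' : Fin M.d → ℝ),
      M.In top a T X → M.In top a T Y → M.In top a T X' → M.In top a T Y' →
      M.In p a ε (X - X') → M.In p a ε (Y - Y') →
      M.In p' a (C * ε) (M.hi X Y - M.hi X' Y') := by
  have key : ∀ L : List (ℝ × LTree × LTree), ∃ C : ℝ, 1 ≤ C ∧
      ∀ (p p' : List (Fin M.d) → Prop), Up p p' → (∀ w, p' w → p w) →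
      ∀ (a : M.Cl → ℝ) (ε : ℝ) (X Y X' Y' : Fin M.d → ℝ),
      M.In top a T X → M.In top a T Y → M.In top a T X' → M.In top a T Y' →
      M.In p a ε (X - X') → M.In p a ε (Y - Y') →
      M.In p' a (C * ε) ((L.map fun q => q.1 • M.ev (LTree.node q.2.1 q.2.2) X Y).sum -
        (L.map fun q => q.1 • M.ev (LTree.node q.2.1 q.2.2) X' Y').sum) := by
    intro L
    induction L with
    | nil =>
      refine ⟨1, le_rfl, fun p p' _ _ a ε X Y X' Y' _ _ _ _ h _ => ?_⟩
      simpa using In.zero h.nonneg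
    | cons q L ih =>
      obtain ⟨C, hC, h⟩ := ih
      obtain ⟨C₁, hC₁, h₁⟩ := M.h94_node_sub T q.2.1 q.2.2 (M.h94_ev_sub T _) (M.h94_ev_sub T _)
      refine ⟨|q.1| * C₁ + C, by have := abs_nonneg q.1; nlinarith,
        fun p p' hU hp a ε X Y X' Y' hX hY hX' hY' h1 h2 => ?_⟩
      have e1 := ((h₁ p p' hU hp a ε X Y X' Y' hX hY hX' hY' h1 h2).smul q.1).add
        (h p p' hU hp a ε X Y X' Y' hX hY hX' hY' h1 h2)
      simp only [List.map_cons, List.sum_cons]
      change M.In p' a _ _ at e1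
      convert e1 using 1
      · ring
      · rw [smul_sub]; abel
  exact key M.bch

theorem exists_bc (T : ℝ) : ∃ C : ℝ, 1 ≤ C ∧ ∀ (a : M.Cl → ℝ) (X Y : Fin M.d → ℝ),
    M.In top a T X → M.In top a T Y → M.In top a C (M.bc X Y) := by
  obtain ⟨C, hC, h⟩ := M.exists_hi_sub T
  refine ⟨max (T + T + C * T) 1, le_max_right _ _, fun a X Y hX hY => ?_⟩
  have h0 : M.In top a T 0 := In.zero hX.nonneg
  have h1 := h top top up_top (fun _ h => h) a T X Y 0 0 hX hY h0 h0 (by rwa [sub_zero])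
    (by rwa [sub_zero])
  have h2 : M.hi 0 0 = 0 := by simpa using M.hi_smul_self 0 0 0
  rw [h2, sub_zero] at h1
  exact ((hX.add hY).add h1).mono (fun _ _ h => h) le_rfl (le_max_left _ _)

/-- `Ad_ex` -/
theorem exists_Ad_ex : ∃ C : ℝ, 1 ≤ C ∧ ∀ (p : List (Fin M.d) → Prop), Up p p →
    ∀ (a : M.Cl → ℝ) (T ε : ℝ) (X Y : Fin M.d → ℝ), 1 ≤ T → M.In top a T X → M.In p a ε Y →
      M.In p a (C * T ^ M.d * ε) (M.Ad (M.ex X) Y) := by
  obtain ⟨C, hC, h⟩ := M.exists_br
  have hd : (1 : ℝ) ≤ ((M.d + 1 : ℕ) : ℝ) := by exact_mod_cast Nat.le_add_left 1 M.d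
  refine ⟨((M.d + 1 : ℕ) : ℝ) * C ^ M.d, one_le_mul_of_one_le_of_one_le hd (one_le_pow₀ hC),
    fun p hU a T ε X Y hT hX hY => ?_⟩
  have hε := hY.nonneg
  have hCT : 1 ≤ C * T := one_le_mul_of_one_le_of_one_le hC hT
  have key : ∀ n : ℕ, M.In p a ((C * T) ^ n * ε) (((M.br X) ^ n) Y) := by
    intro n
    induction n with
    | zero => simpa using hY
    | succ n ih =>
      have e := h top p p (fun w hw w' _ w'' _ hw' hP =>
        hU w' w w'' hw' (M.mem_Wd.1 hw).1 (hP.trans List.perm_append_comm)) a _ _ _ _ hX ih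
      rw [pow_succ' (M.br X), Module.End.mul_apply]
      convert e using 1
      ring
  rw [M.Ad_ex, LinearMap.sum_apply]
  have h1 := In.sum (M := M) (p := p) (a := a) (t := (C * T) ^ M.d * ε) (Finset.range (M.d + 1))
    (f := fun n => (((n.factorial : ℝ)⁻¹) • (M.br X) ^ n) Y) (by positivity) fun n hn => by
      rw [LinearMap.smul_apply]
      refine ((key n).smul _).mono (fun _ _ h => h) le_rfl ?_
      have h2 : |((n.factorial : ℝ)⁻¹)| ≤ 1 := by
        rw [abs_of_nonneg (by positivity)]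
        exact inv_le_one_of_one_le₀ (by exact_mod_cast Nat.one_le_iff_ne_zero.2 n.factorial_ne_zero)
      have h3 : (C * T) ^ n ≤ (C * T) ^ M.d :=
        pow_le_pow_right₀ hCT (Nat.lt_succ_iff.1 (Finset.mem_range.1 hn))
      calc _ ≤ 1 * ((C * T) ^ n * ε) := mul_le_mul_of_nonneg_right h2 (by positivity)
        _ ≤ _ := by rw [one_mul]; exact mul_le_mul_of_nonneg_right h3 hε
  rw [Finset.card_range] at h1
  convert h1 using 1
  ring

theorem exists_norm_le : ∃ C : ℝ, 1 ≤ C ∧ ∀ (p : List (Fin M.d) → Prop) (t : ℝ) (X : Fin M.d → ℝ),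
    M.In p 0 t X → ‖X‖ ≤ C * t := by
  have hs : 0 ≤ ∑ w ∈ M.Wd, ‖M.mon w‖ := Finset.sum_nonneg fun _ _ => norm_nonneg _
  refine ⟨1 + ∑ w ∈ M.Wd, ‖M.mon w‖, by linarith, fun p t X hX => ?_⟩
  obtain ⟨x, hx, -, rfl⟩ := hX
  have h1 : ∀ w, |x w| ≤ t := fun w => by simpa [lw] using hx w
  have ht : 0 ≤ t := (abs_nonneg _).trans (h1 [])
  calc ‖∑ w ∈ M.Wd, x w • M.mon w‖ ≤ ∑ w ∈ M.Wd, ‖M.mon w‖ * t :=
        norm_sum_le_of_le _ fun w _ => by
          rw [norm_smul, Real.norm_eq_abs, mul_comm]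
          exact mul_le_mul_of_nonneg_left (h1 w) (norm_nonneg _)
    _ = (∑ w ∈ M.Wd, ‖M.mon w‖) * t := (Finset.sum_mul _ _ _).symm
    _ ≤ _ := by nlinarith
/-- `span_Wd`: the linear map `x ↦ ∑ x w • mon w` onto `E` has a bounded right inverse -/
theorem exists_in_norm : ∃ C : ℝ, 1 ≤ C ∧ ∀ X ∈ M.E, M.In top 0 (C * ‖X‖) X := by
  classical
  let f : (M.Wd → ℝ) →ₗ[ℝ] (Fin M.d → ℝ) := Fintype.linearCombination ℝ fun w : M.Wd => M.mon w
  have hf : LinearMap.range f = M.E := by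
    rw [← M.span_Wd, Fintype.range_linearCombination, Set.image_eq_range]
    rfl
  obtain ⟨g, hg⟩ := LinearMap.exists_rightInverse_of_surjective f.rangeRestrict
    f.range_rangeRestrict
  have h0 := norm_nonneg (LinearMap.toContinuousLinearMap g)
  refine ⟨1 + ‖LinearMap.toContinuousLinearMap g‖, by linarith, fun X hX => ?_⟩
  rw [← hf] at hX
  have hX0 := norm_nonneg X
  refine ⟨fun w => if h : w ∈ M.Wd then g ⟨X, hX⟩ ⟨w, h⟩ else 0, fun w => ?_,
    fun w hw => absurd trivial hw, ?_⟩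
  · have h1 : ‖g ⟨X, hX⟩‖ ≤ ‖LinearMap.toContinuousLinearMap g‖ * ‖X‖ :=
      (LinearMap.toContinuousLinearMap g).le_opNorm ⟨X, hX⟩
    have h2 : M.lw 0 w = 0 := by simp [lw]
    rw [h2, Real.exp_zero, mul_one]
    beta_reduce
    split_ifs with h
    · have h3 := norm_le_pi_norm (g ⟨X, hX⟩) ⟨w, h⟩
      rw [Real.norm_eq_abs] at h3
      nlinarith
    · rw [abs_zero]; positivity
  · have h1 : f (g ⟨X, hX⟩) = X := congrArg Subtype.val (LinearMap.congr_fun hg ⟨X, hX⟩)
    rw [← Finset.sum_coe_sort]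
    conv_lhs => rw [← h1]
    rw [Fintype.linearCombination_apply]
    exact Finset.sum_congr rfl fun w _ => by beta_reduce; rw [dif_pos w.2]
/-- `exists_coef`, `le_lw_of_adm` -/
theorem exists_RD_in : ∃ C : ℝ, 1 ≤ C ∧ ∀ a, Adm M.χ a → ∀ i, ∀ X ∈ M.RD i (a i),
    M.In top a C X := by
  classical
  obtain ⟨C, hC, h⟩ := M.exists_coef
  refine ⟨1 + M.d * C, by linarith [show 0 ≤ (M.d : ℝ) * C by positivity], fun a ha i X hX => ?_⟩
  have h1 : ∀ j ∈ (Finset.univ : Finset (Fin M.d)), M.In top a C (X j • M.e j) := by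
    intro j _
    by_cases hj : M.dir j = M.χ i
    · have hw := M.wt_ne_of_dir hj
      obtain ⟨x, hx, hx0, he⟩ := h j hw
      refine ⟨fun w => if w ∈ M.Wd then X j * x w else 0, fun w => ?_,
        fun w hw => absurd trivial hw, ?_⟩
      · beta_reduce
        split_ifs with hW
        · by_cases hww : M.wwt w = M.wt j
          · have h2 := M.le_lw_of_adm ha hW (M.kap_pos hw) (i := i) (by rw [hww, M.wt_eq, hj])
            rw [abs_mul, mul_comm]
            exact mul_le_mul (hx w) ((hX.2 j).trans (Real.exp_le_exp.2 h2)) (abs_nonneg _)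
              (by linarith)
          · rw [hx0 w hww, mul_zero, abs_zero]; positivity
        · rw [abs_zero]; positivity
      · rw [he, Finset.smul_sum]
        exact Finset.sum_congr rfl fun w hw => by beta_reduce; rw [if_pos hw, mul_smul]
    · rw [hX.1 j hj, zero_smul]
      exact In.zero (by linarith)
  have h2 := In.sum Finset.univ (by linarith) h1
  rw [M.sum_e, Finset.card_univ, Fintype.card_fin] at h2
  exact h2.mono (fun _ _ h => h) le_rfl (by linarith)
/-- `pure_wwt`, `mon_mem_Wt`, `dir_eq_of_wt` -/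
theorem exists_pure_RD : ∃ C : ℝ, 0 ≤ C ∧ ∀ (i : M.Cl) (a : M.Cl → ℝ) (X : Fin M.d → ℝ),
    M.In (fun w => ¬ M.Mixed i w) a 1 X → X ∈ M.RD i (a i + C) := by
  obtain ⟨κ₀, -, hκ, -, hk, -⟩ := M.exists_kap
  have hs : 0 ≤ ∑ w ∈ M.Wd, ‖M.mon w‖ := Finset.sum_nonneg fun _ _ => norm_nonneg _
  refine ⟨(∑ w ∈ M.Wd, ‖M.mon w‖) / κ₀, by positivity, fun i a X hX => ?_⟩
  obtain ⟨x, hx, hx0, rfl⟩ := hX
  have key : ∀ w ∈ M.Wd, ∀ j, x w * M.mon w j ≠ 0 →
      M.dir j = M.χ i ∧ M.lw a w = M.kap j * a i := by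
    intro w hw j hne
    have h1 : ¬ M.Mixed i w := fun h => left_ne_zero_of_mul hne (hx0 w (not_not.2 h))
    obtain ⟨h2, h3, h4⟩ := M.pure_wwt hw h1
    have h5 : M.wt j = M.wwt w := by
      by_contra h
      exact right_ne_zero_of_mul hne (M.mon_mem_Wt w j h)
    obtain ⟨h6, h7⟩ := M.dir_eq_of_wt h2 (h5.trans h3)
    exact ⟨h6, by rw [h4, h7]⟩
  have hR : ∑ w ∈ M.Wd, x w • M.mon w ∈ M.R i := by
    intro j hj
    rw [Finset.sum_apply]
    refine Finset.sum_eq_zero fun w hw => ?_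
    by_contra h
    exact hj (key w hw j h).1
  refine ⟨hR, fun j => ?_⟩
  by_cases hj : M.dir j = M.χ i
  · have h1 := hk j (M.wt_ne_of_dir hj)
    have h2 : ∑ w ∈ M.Wd, ‖M.mon w‖ ≤ Real.exp (M.kap j * ((∑ w ∈ M.Wd, ‖M.mon w‖) / κ₀)) := by
      have h3 : ∑ w ∈ M.Wd, ‖M.mon w‖ ≤ M.kap j * ((∑ w ∈ M.Wd, ‖M.mon w‖) / κ₀) := by
        rw [mul_div_assoc', le_div_iff₀ hκ, mul_comm]
        exact mul_le_mul_of_nonneg_right h1 hs
      linarith [Real.add_one_le_exp (M.kap j * ((∑ w ∈ M.Wd, ‖M.mon w‖) / κ₀))]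
    rw [Finset.sum_apply]
    calc |∑ w ∈ M.Wd, (x w • M.mon w) j| ≤ ∑ w ∈ M.Wd, Real.exp (M.kap j * a i) * ‖M.mon w‖ := by
          refine (Finset.abs_sum_le_sum_abs _ _).trans (Finset.sum_le_sum fun w hw => ?_)
          by_cases h : x w * M.mon w j = 0
          · rw [Pi.smul_apply, smul_eq_mul, h, abs_zero]; positivity
          · have h4 := hx w
            rw [(key w hw j h).2, one_mul] at h4
            rw [Pi.smul_apply, smul_eq_mul, abs_mul]
            exact mul_le_mul h4 (norm_le_pi_norm (M.mon w) j) (abs_nonneg _) (by positivity)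
      _ = Real.exp (M.kap j * a i) * ∑ w ∈ M.Wd, ‖M.mon w‖ := (Finset.mul_sum _ _ _).symm
      _ ≤ _ := by rw [mul_add, Real.exp_add]; gcongr
  · rw [hR j hj, abs_zero]; positivity
theorem body_D (a : M.Cl → ℝ) : Body M.E (M.D a) := by
  refine ⟨fun X hX Y hY s t hs ht hst => ?_, fun X hX => In.neg hX, In.zero zero_le_one, ?_, ?_⟩
  · have h := (In.smul hX s).add (In.smul hY t)
    rwa [abs_of_nonneg hs, abs_of_nonneg ht, mul_one, mul_one, hst] at h
  · have h1 : IsCompact (Set.pi Set.univ fun w : List (Fin M.d) =>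
        Set.Icc (-Real.exp (M.lw a w)) (Real.exp (M.lw a w))) :=
      isCompact_univ_pi fun w => isCompact_Icc
    have h2 : Continuous fun x : List (Fin M.d) → ℝ => ∑ w ∈ M.Wd, x w • M.mon w :=
      continuous_finsetSum _ fun w _ => (continuous_apply w).smul continuous_const
    convert h1.image h2 using 1
    ext X
    constructor
    · rintro ⟨x, hx, -, rfl⟩
      exact ⟨x, fun w _ => abs_le.1 (by simpa using hx w), rfl⟩
    · rintro ⟨x, hx, rfl⟩
      exact ⟨x, fun w => by simpa using abs_le.2 (hx w trivial), fun w h => absurd trivial h, rfl⟩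
  · refine le_antisymm (Submodule.span_le.2 fun X hX => In.mem_E hX) ?_
    rw [← M.span_Wd]
    refine Submodule.span_le.2 ?_
    rintro _ ⟨w, hw, rfl⟩
    have h1 : Real.exp (M.lw a w) • M.mon w ∈ M.D a :=
      In.single (M.mem_Wd.1 hw).2.2 trivial (by rw [abs_of_pos (Real.exp_pos _), one_mul])
    have h2 := Submodule.smul_mem _ (Real.exp (M.lw a w))⁻¹ (Submodule.subset_span (R := ℝ) h1)
    rwa [smul_smul, inv_mul_cancel₀ (Real.exp_pos _).ne', one_smul] at h2

theorem body_RD (i : M.Cl) (b : ℝ) : Body (M.R i) (M.RD i b) := by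
  refine ⟨fun X hX Y hY s t hs ht hst => ⟨(M.R i).add_mem ((M.R i).smul_mem _ hX.1)
    ((M.R i).smul_mem _ hY.1), fun j => ?_⟩, fun X hX => ⟨(M.R i).neg_mem hX.1, fun j => ?_⟩,
    ⟨(M.R i).zero_mem, fun j => by simpa using (Real.exp_pos _).le⟩, ?_, ?_⟩
  · have h1 := hX.2 j
    have h2 := hY.2 j
    calc |(s • X + t • Y) j| ≤ |s * X j| + |t * Y j| := abs_add_le _ _
      _ = s * |X j| + t * |Y j| := by rw [abs_mul, abs_mul, abs_of_nonneg hs, abs_of_nonneg ht]
      _ ≤ s * Real.exp (M.kap j * b) + t * Real.exp (M.kap j * b) :=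
        add_le_add (mul_le_mul_of_nonneg_left h1 hs) (mul_le_mul_of_nonneg_left h2 ht)
      _ = Real.exp (M.kap j * b) := by rw [← add_mul, hst, one_mul]
  · rw [Pi.neg_apply, abs_neg]
    exact hX.2 j
  · have h1 : IsCompact (Set.pi Set.univ fun j : Fin M.d =>
        Set.Icc (-Real.exp (M.kap j * b)) (Real.exp (M.kap j * b))) :=
      isCompact_univ_pi fun w => isCompact_Icc
    convert h1.inter_left (M.R i).closed_of_finiteDimensional using 1
    ext X
    exact ⟨fun h => ⟨h.1, fun j _ => abs_le.1 (h.2 j)⟩,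
      fun h => ⟨h.1, fun j => abs_le.2 (h.2 j trivial)⟩⟩
  · refine le_antisymm (Submodule.span_le.2 fun X hX => hX.1) fun X hX => ?_
    rw [← M.sum_e X]
    refine Submodule.sum_mem _ fun j _ => ?_
    by_cases hj : M.dir j = M.χ i
    · have h1 : Real.exp (M.kap j * b) • M.e j ∈ M.RD i b := by
        refine ⟨fun l hl => ?_, fun l => ?_⟩
        · have : l ≠ j := fun h => hl (h ▸ hj)
          simp [e, this]
        · by_cases h : l = j
          · subst h
            simp [e]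
          · simpa [e, h] using (Real.exp_pos _).le
      have h2 := Submodule.smul_mem _ (X j * (Real.exp (M.kap j * b))⁻¹)
        (Submodule.subset_span (R := ℝ) h1)
      rwa [smul_smul, mul_assoc, inv_mul_cancel₀ (Real.exp_pos _).ne', mul_one] at h2
    · rw [hX j hj, zero_smul]
      exact Submodule.zero_mem _

theorem h58_exchange (b : M.Bas) {w v : List (Fin M.d)} (hw : w ∈ M.Wd) (hv : v ∈ b.1)
    (c : List (Fin M.d) → ℝ) (hc : ∑ u ∈ b.1, c u • M.mon u = M.mon w) (h0 : c v ≠ 0) :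
    ∃ b' : M.Bas, ∀ f : List (Fin M.d) → ℝ, ∑ u ∈ b'.1, f u = ∑ u ∈ b.1, f u - f v + f w := by
  classical
  have hS : ∑ u ∈ b.1.erase v, c u • M.mon u ∈
      Submodule.span ℝ (M.mon '' (b.1.erase v : Finset (List (Fin M.d)))) :=
    Submodule.sum_mem _ fun u hu => Submodule.smul_mem _ _ (Submodule.subset_span ⟨u, hu, rfl⟩)
  have hv' : M.mon v = (c v)⁻¹ • (M.mon w - ∑ u ∈ b.1.erase v, c u • M.mon u) := by
    rw [← hc, ← Finset.add_sum_erase _ _ hv, add_sub_cancel_right, smul_smul, inv_mul_cancel₀ h0,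
      one_smul]
  have hn : M.mon w ∉ Submodule.span ℝ (M.mon '' (b.1.erase v : Finset (List (Fin M.d)))) := by
    intro h
    refine b.2.2.1.notMem_span (i := v) hv ?_
    rw [← Finset.coe_erase, hv']
    exact Submodule.smul_mem _ _ (Submodule.sub_mem _ h hS)
  have hwn : w ∉ b.1.erase v := fun h => hn (Submodule.subset_span ⟨w, h, rfl⟩)
  refine ⟨⟨insert w (b.1.erase v), ?_, ?_, ?_⟩, fun f => ?_⟩
  · exact Finset.insert_subset hw ((Finset.erase_subset _ _).trans b.2.1)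
  · rw [Finset.coe_insert]
    exact (b.2.2.1.mono (Finset.coe_subset.2 (Finset.erase_subset _ _))).insert hn
  · refine le_antisymm (Submodule.span_le.2 ?_) ?_
    · rintro _ ⟨u, hu, rfl⟩
      rcases Finset.mem_insert.1 hu with rfl | hu
      · exact M.mon_mem_E hw
      · exact M.mon_mem_E (b.2.1 (Finset.mem_of_mem_erase hu))
    · refine b.2.2.2.ge.trans (Submodule.span_le.2 ?_)
      rintro _ ⟨u, hu, rfl⟩
      have hle : Submodule.span ℝ (M.mon '' (b.1.erase v : Finset (List (Fin M.d)))) ≤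
          Submodule.span ℝ (M.mon '' (insert w (b.1.erase v) : Finset (List (Fin M.d)))) :=
        Submodule.span_mono (Set.image_mono (Finset.coe_subset.2 (Finset.subset_insert _ _)))
      by_cases huv : u = v
      · subst huv
        rw [hv']
        exact Submodule.smul_mem _ _ (Submodule.sub_mem _
          (Submodule.subset_span ⟨w, Finset.mem_insert_self _ _, rfl⟩) (hle hS))
      · exact hle (Submodule.subset_span ⟨u, Finset.mem_erase.2 ⟨huv, hu⟩, rfl⟩)
  · change ∑ u ∈ insert w (b.1.erase v), f u = _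
    rw [Finset.sum_insert hwn, ← Finset.add_sum_erase _ _ hv]
    ring

/-- exchange: for an optimal basis `b`, if `mon v` (`v ∈ b`) occurs in the expansion of `mon w` then
`insert w (b.erase v)` is a basis, so `lw a w ≤ lw a v` -/
theorem exists_opt : ∃ C : ℝ, 1 ≤ C ∧ ∀ a : M.Cl → ℝ, ∃ b : M.Bas,
    ∑ w ∈ b.1, M.lw a w = Vol M.bw a ∧ ∀ (t : ℝ) (X : Fin M.d → ℝ), M.In top a t X →
      ∃ y : List (Fin M.d) → ℝ, (∀ v, |y v| ≤ C * t * Real.exp (M.lw a v)) ∧
        X = ∑ v ∈ b.1, y v • M.mon v := by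
  classical
  have hc : ∀ (b : M.Bas) (w : List (Fin M.d)), ∃ c : List (Fin M.d) → ℝ,
      (∀ v, v ∉ b.1 → c v = 0) ∧ (w ∈ M.Wd → ∑ u ∈ b.1, c u • M.mon u = M.mon w) := by
    intro b w
    by_cases hw : w ∈ M.Wd
    · have h := M.mon_mem_E hw
      rw [← b.2.2.2] at h
      obtain ⟨c, hc⟩ := (Submodule.mem_span_image_finset_iff_exists_fun' ℝ).1 h
      refine ⟨fun v => if v ∈ b.1 then c v else 0, fun v hv => if_neg hv, fun _ => ?_⟩
      rw [← hc]
      exact Finset.sum_congr rfl fun u hu => by simp only [if_pos hu]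
    · exact ⟨0, fun _ _ => rfl, fun h => absurd h hw⟩
  choose c hc0 hc using hc
  obtain ⟨C, hC⟩ : ∃ C : ℝ, C = ∑ b : M.Bas, ∑ v ∈ b.1, ∑ w ∈ M.Wd, |c b w v| := ⟨_, rfl⟩
  have hC0 : 0 ≤ C := hC ▸ Finset.sum_nonneg fun b _ => Finset.sum_nonneg fun v _ =>
    Finset.sum_nonneg fun w _ => abs_nonneg _
  have hCb : ∀ (b : M.Bas) (v : List (Fin M.d)), ∑ w ∈ M.Wd, |c b w v| ≤ C := by
    intro b v
    by_cases hv : v ∈ b.1
    · rw [hC]
      refine le_trans ?_ (Finset.single_le_sum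
        (f := fun b : M.Bas => ∑ v ∈ b.1, ∑ w ∈ M.Wd, |c b w v|)
        (fun b _ => Finset.sum_nonneg fun v _ => Finset.sum_nonneg fun w _ => abs_nonneg _)
        (Finset.mem_univ b))
      exact Finset.single_le_sum (f := fun v => ∑ w ∈ M.Wd, |c b w v|)
        (fun v _ => Finset.sum_nonneg fun w _ => abs_nonneg _) hv
    · rw [Finset.sum_eq_zero fun w _ => by rw [hc0 b w v hv, abs_zero]]
      exact hC0
  refine ⟨1 + C, by linarith, fun a => ?_⟩
  obtain ⟨b, hb⟩ := exists_eq_ciSup_of_finite (f := fun b : M.Bas => ∑ i, M.bw b i * a i)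
  have hmax : ∀ b' : M.Bas, ∑ w ∈ b'.1, M.lw a w ≤ ∑ w ∈ b.1, M.lw a w := by
    intro b'
    rw [← M.sum_bw, ← M.sum_bw, hb]
    exact le_ciSup (f := fun b : M.Bas => ∑ i, M.bw b i * a i) (Set.finite_range _).bddAbove b'
  refine ⟨b, by rw [← M.sum_bw]; exact hb, fun t X hX => ?_⟩
  have ht := hX.nonneg
  obtain ⟨x, hx, -, rfl⟩ := hX
  refine ⟨fun v => ∑ w ∈ M.Wd, x w * c b w v, fun v => ?_, ?_⟩
  · have hE : 0 ≤ t * Real.exp (M.lw a v) := mul_nonneg ht (Real.exp_pos _).le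
    calc |∑ w ∈ M.Wd, x w * c b w v| ≤ ∑ w ∈ M.Wd, |x w * c b w v| := Finset.abs_sum_le_sum_abs _ _
      _ ≤ ∑ w ∈ M.Wd, t * Real.exp (M.lw a v) * |c b w v| := by
          refine Finset.sum_le_sum fun w hw => ?_
          by_cases h0 : c b w v = 0
          · rw [h0]; simp
          have hv : v ∈ b.1 := by
            by_contra hv
            exact h0 (hc0 b w v hv)
          obtain ⟨b', hb'⟩ := M.h58_exchange b hw hv (c b w) (hc b w hw) h0
          have h1 := hmax b'
          rw [hb'] at h1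
          rw [abs_mul]
          refine mul_le_mul_of_nonneg_right ((hx w).trans ?_) (abs_nonneg _)
          exact mul_le_mul_of_nonneg_left (Real.exp_le_exp.2 (by linarith)) ht
      _ = t * Real.exp (M.lw a v) * ∑ w ∈ M.Wd, |c b w v| := by rw [Finset.mul_sum]
      _ ≤ t * Real.exp (M.lw a v) * (1 + C) :=
          mul_le_mul_of_nonneg_left (by linarith [hCb b v]) hE
      _ = (1 + C) * t * Real.exp (M.lw a v) := by ring
  · simp only [Finset.sum_smul]
    rw [Finset.sum_comm]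
    refine Finset.sum_congr rfl fun w hw => ?_
    rw [← hc b w hw, Finset.smul_sum]
    exact Finset.sum_congr rfl fun v _ => by rw [smul_smul]

open MeasureTheory in
/-- volume of a parallelepiped -/
theorem h41_par {V : Type*} [NormedAddCommGroup V] [NormedSpace ℝ V] [FiniteDimensional ℝ V]
    [MeasurableSpace V] [BorelSpace V] (μ : Measure V) [μ.IsAddHaarMeasure] {ι : Type*} [Fintype ι]
    (B : Module.Basis ι ℝ V) : ∃ c : ℝ, 0 < c ∧ ∀ r : ι → ℝ, (∀ i, 0 ≤ r i) →
      μ {x | ∀ i, |B.repr x i| ≤ r i} = ENNReal.ofReal (c * ∏ i, r i) := by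
  let e := B.equivFunL
  have : (μ.map e).IsAddHaarMeasure := e.isAddHaarMeasure_map μ
  have hs := Measure.isAddLeftInvariant_eq_smul (μ.map e) (volume : Measure (ι → ℝ))
  have hp := Measure.addHaarScalarFactor_pos_of_isAddHaarMeasure (μ.map e)
    (volume : Measure (ι → ℝ))
  set c := Measure.addHaarScalarFactor (μ.map e) (volume : Measure (ι → ℝ))
  refine ⟨c * 2 ^ Fintype.card ι, by positivity, fun r hr => ?_⟩
  have h1 : {x | ∀ i, |B.repr x i| ≤ r i} = e ⁻¹' Set.Icc (-r) r := by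
    ext x
    simp only [Set.mem_ofPred_eq, Set.mem_preimage, Set.mem_Icc, Pi.le_def, abs_le, forall_and]
    rfl
  rw [h1, ← Measure.map_apply e.continuous.measurable measurableSet_Icc, hs, Measure.smul_apply,
    Real.volume_Icc_pi, ← ENNReal.ofReal_prod_of_nonneg fun i _ => by
      have := hr i
      simp only [Pi.neg_apply]
      linarith]
  have h2 : ∏ i, (r i - (-r) i) = 2 ^ Fintype.card ι * ∏ i, r i := by
    rw [← Finset.card_univ, ← Finset.prod_const, ← Finset.prod_mul_distrib]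
    exact Finset.prod_congr rfl fun i _ => by simp only [Pi.neg_apply]; ring
  rw [h2, mul_assoc, ENNReal.ofReal_mul (NNReal.coe_nonneg c), ENNReal.smul_def, smul_eq_mul]
  congr 1
  exact ENNReal.ofReal_coe_nnreal.symm

/-- the basis of `E` given by `b` -/
theorem h41_basis (b : M.Bas) : ∃ B : Module.Basis b.1 ℝ M.E, ∀ v, (B v : Fin M.d → ℝ) = M.mon v := by
  have h1 : LinearIndependent ℝ fun v : b.1 => M.mon v := b.2.2.1
  have h2 : Submodule.span ℝ (Set.range fun v : b.1 => M.mon v) = M.E := by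
    refine Eq.trans ?_ b.2.2.2
    congr 1
    ext X
    simp
  exact ⟨(Module.Basis.span h1).map (LinearEquiv.ofEq _ _ h2), fun v => by simp⟩

/-- volume of the zonotope: squeeze it between two parallelepipeds of the optimal basis
(`exists_opt`, `MeasureTheory.Measure.addHaar_image_linearMap` for the map diagonal in `b`) -/
theorem exists_vol_D : ∃ C : ℝ, 1 ≤ C ∧ ∀ a : M.Cl → ℝ,
    Real.exp (Vol M.bw a) ≤ C * (vE M.E).real (Subtype.val ⁻¹' M.D a) ∧
    (vE M.E).real (Subtype.val ⁻¹' M.D a) ≤ C * Real.exp (Vol M.bw a) := by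
  classical
  have : (vE M.E).IsAddHaarMeasure := by unfold vE; infer_instance
  obtain ⟨C, hC, hopt⟩ := M.exists_opt
  choose B hB using M.h41_basis
  choose c hc hpar using fun b => h41_par (vE M.E) (B b)
  have hq : ∀ b : M.Bas, 0 ≤ (c b)⁻¹ + c b * C ^ b.1.card := fun b => by
    have := hc b
    positivity
  have hS : 0 ≤ ∑ b : M.Bas, ((c b)⁻¹ + c b * C ^ b.1.card) := Finset.sum_nonneg fun b _ => hq b
  refine ⟨1 + ∑ b : M.Bas, ((c b)⁻¹ + c b * C ^ b.1.card), by linarith, fun a => ?_⟩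
  obtain ⟨b, hb, hX⟩ := hopt a
  have hle : (c b)⁻¹ + c b * C ^ b.1.card ≤ ∑ b : M.Bas, ((c b)⁻¹ + c b * C ^ b.1.card) :=
    Finset.single_le_sum (f := fun b : M.Bas => (c b)⁻¹ + c b * C ^ b.1.card) (fun b _ => hq b)
      (Finset.mem_univ b)
  have hprod : ∏ v : b.1, Real.exp (M.lw a v) = Real.exp (Vol M.bw a) := by
    rw [← hb, Real.exp_sum, Finset.prod_coe_sort b.1 fun v => Real.exp (M.lw a v)]
  have hsum : ∀ X : M.E, (X : Fin M.d → ℝ) = ∑ v : b.1, (B b).repr X v • M.mon v := fun X => by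
    conv_lhs => rw [← (B b).sum_repr X]
    simp [hB]
  have h1 : {X : M.E | ∀ v : b.1, |(B b).repr X v| ≤ Real.exp (M.lw a v)} ⊆
      Subtype.val ⁻¹' M.D a := by
    intro X hx
    refine ⟨fun w => if h : w ∈ b.1 then (B b).repr X ⟨w, h⟩ else 0, fun w => ?_,
      fun w hw => absurd trivial hw, ?_⟩
    · by_cases h : w ∈ b.1
      · simpa [h] using hx ⟨w, h⟩
      · simpa [h] using (Real.exp_pos _).le
    · rw [hsum X, ← Finset.sum_subset b.2.1 fun w _ hw => by simp [hw],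
        ← Finset.sum_coe_sort b.1]
      exact Finset.sum_congr rfl fun v _ => by simp
  have h2 : Subtype.val ⁻¹' M.D a ⊆
      {X : M.E | ∀ v : b.1, |(B b).repr X v| ≤ C * Real.exp (M.lw a v)} := by
    intro X hx v
    obtain ⟨y, hy, e⟩ := hX 1 X hx
    have e' : X = ∑ v : b.1, y v • B b v := by
      apply Subtype.ext
      rw [e, ← Finset.sum_coe_sort b.1]
      simp [hB]
    have : (B b).repr X v = y v := by
      rw [e', Module.Basis.repr_sum_self]
    rw [this]
    simpa using hy v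
  have h3 := MeasureTheory.measure_mono (μ := vE M.E) h1
  have h4 := MeasureTheory.measure_mono (μ := vE M.E) h2
  rw [hpar b _ fun v => (Real.exp_pos _).le, hprod] at h3
  rw [hpar b _ fun v => by positivity, Finset.prod_mul_distrib, hprod, Finset.prod_const,
    Finset.card_univ, Fintype.card_coe] at h4
  have hcb := hc b
  have hE := Real.exp_pos (Vol M.bw a)
  have h5 : c b * Real.exp (Vol M.bw a) ≤ (vE M.E).real (Subtype.val ⁻¹' M.D a) :=
    (ENNReal.ofReal_le_iff_le_toReal (ne_top_of_le_ne_top ENNReal.ofReal_ne_top h4)).1 h3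
  have h6 : (vE M.E).real (Subtype.val ⁻¹' M.D a) ≤
      c b * (C ^ b.1.card * Real.exp (Vol M.bw a)) :=
    ENNReal.toReal_le_of_le_ofReal (by positivity) h4
  have h7 : 0 ≤ c b * C ^ b.1.card := by positivity
  have h8 : 0 ≤ (c b)⁻¹ := by positivity
  have h9 : (0 : ℝ) ≤ (vE M.E).real (Subtype.val ⁻¹' M.D a) := MeasureTheory.measureReal_nonneg
  constructor
  · have : Real.exp (Vol M.bw a) ≤ (c b)⁻¹ * (vE M.E).real (Subtype.val ⁻¹' M.D a) := by
      rw [le_inv_mul_iff₀ hcb]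
      exact h5
    nlinarith
  · nlinarith

end LieModel

end Crest.Agent.R182
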