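import Crest.Agent.R182.LBDefs

/-! Row 182, block L2: the measures on boxes and the statements of the sub-blocks. -/

set_option autoImplicit false
set_option linter.dupNamespace false

namespace Crest.Agent.R182

namespace LieModel

open MeasureTheory

variable {G : Type} [Group G] {k : ℕ} (M : LieModel G k)

/-- uniform measure on a box -/
noncomputable def nu [MeasurableSpace G] (a : M.Cl → ℝ) : Measure G := M.unif M.E (M.D a)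

/-- uniform measure on a ray box -/
noncomputable def nuR [MeasurableSpace G] (i : M.Cl) (b : ℝ) : Measure G :=
  M.unif (M.R i) (M.RD i b)

/-- `Geo.folner` (prove `M.Cont → M.SFolner`) -/
def SFolner [MeasurableSpace G] : Prop :=
  ∀ R : ℕ, ∃ KR : ℝ, ∀ n₀ : ℕ, ∃ n ≥ n₀, ∃ D : Set G, MeasurableSet D ∧ D ⊆ Ball M.Sg n ∧
    M.mu D ≠ 0 ∧ M.mu.real {y | (∃ b ∈ Ball M.Sg R, y * b ∈ D) ∧ ∃ b ∈ Ball M.Sg R, y * b ∉ D} ≤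
      KR / n * M.mu.real D

/-- `Geo.count0` (prove `∀ᶠ K in atTop, M.SCount0 K`) -/
def SCount0 (K : ℕ) : Prop :=
  ∀ a, Adm M.χ a → ∀ (m : ℕ) (Y : Finset G), Sep M.Sg 1 Y →
    (∀ y ∈ Y, ∃ e ∈ M.Box a, ∃ c ∈ Ball (M.SC : Set G) m, ∃ b ∈ Ball M.Sg 1, y = e * c * b ∧
      R182.pt M.χ (M.π c) ≤ a) → (Y.card : ℝ) ≤ Real.exp (Vol M.bw a + K * lg m)

/-- `Geo.count1` -/
def SCount1 (K : ℕ) : Prop :=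
  ∀ a, Adm M.χ a → ∀ (i : M.Cl) (B : ℝ) (m : ℕ) (g₀ : G) (Y : Finset G),
    g₀ ∈ Ball M.Sg m → Sep M.Sg 1 Y →
    (∀ y ∈ Y, ∃ e ∈ M.Box a, ∃ c ∈ Ball (M.SC : Set G) m, ∃ b ∈ Ball M.Sg 1, y = e * c * b ∧
      R182.pt M.χ (M.π c) ≤ a ∧ M.χ i (M.π c) ≤ B ∧ ∃ a', Adm M.χ a' ∧ 0 ≤ a' i ∧
        a' i + M.χ i (M.π g₀) ≤ B ∧ ∃ e' ∈ M.Box a', ∃ c' ∈ Ball (M.SC : Set G) m,
          ∃ b' ∈ Ball M.Sg 1, y = g₀ * e' * c' * b') →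
    (Y.card : ℝ) ≤ Real.exp (Vol M.bw a + M.dim i * (B - a i) + K * lg m)

/-- `Geo.count2` -/
def SCount2 (K : ℕ) : Prop :=
  ∀ a, Adm M.χ a → ∀ (i : M.Cl) (s : Fin k → ℝ) (D B : ℝ) (m : ℕ) (g₀ : G) (Y : Finset G),
    0 ≤ D → M.χ i s ≤ a i → (∀ j, j ≠ i → M.χ j s + K * D ≤ a j) → g₀ ∈ Ball M.Sg m →
    Sep M.Sg 1 Y →
    (∀ y ∈ Y, ∃ e₁ ∈ M.Box a, ∃ e₂ ∈ M.Box (fun j => M.χ j s + D), ∃ c ∈ Ball (M.SC : Set G) m,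
      ∃ b ∈ Ball M.Sg 1, y = e₁ * e₂ * c * b ∧ (∀ j, M.χ j (M.π c) ≤ M.χ j s + D) ∧
      M.χ i (M.π c) ≤ B ∧ ∃ a', Adm M.χ a' ∧ 0 ≤ a' i ∧ a' i + M.χ i (M.π g₀) ≤ B ∧
        ∃ e' ∈ M.Box a', ∃ c' ∈ Ball (M.SC : Set G) m, ∃ b' ∈ Ball M.Sg 1,
          y = g₀ * e' * c' * b') →
    (Y.card : ℝ) ≤ Real.exp (Vol M.bw a + M.dim i * (B - a i) + K * lg m)

/-- `Geo.zig0` -/
def SZig0 (K : ℕ) : Prop :=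
  ∀ θ : ℝ, 0 < θ → ∀ σ : ℕ, ∃ Kθ : ℝ, ∀ a, Adm M.χ a → ∃ Z : Sch G, Z.size ≤ K ∧
    Z.Let (fun g => ∃ j, g ∈ M.RB j (a j)) ∧ ∀ A : Set (List G),
      θ ≤ Z.avg (A.indicator 1) → ∃ Y : Finset G, Sep M.Sg σ Y ∧
        (∀ y ∈ Y, ∃ w ∈ A, Z.Mem w ∧ y = w.prod) ∧ Real.exp (Vol M.bw a - Kθ) ≤ Y.card

/-- `Geo.zig` (prove `M.Cont → ∀ᶠ K in atTop, M.SZig K`) -/
def SZig [MeasurableSpace G] (K : ℕ) : Prop :=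
  ∀ θ : ℝ, 0 < θ → ∀ σ : ℕ, ∃ Kθ : ℝ, ∀ a, Adm M.χ a → ∀ i (b : ℝ), a i ≤ b →
    ∃ Z : Sch G, Z.size ≤ K ∧ Z.Let (fun g => ∃ j, g ∈ M.RB j (a j)) ∧ ∀ A : List G → Set G,
      (∀ w, MeasurableSet (A w)) → θ ≤ Z.avg (fun w => (M.nuR i b).real (A w)) →
      ∃ Y : Finset G, Sep M.Sg σ Y ∧
        (∀ y ∈ Y, ∃ w, Z.Mem w ∧ ∃ n ∈ A w, n ∈ M.RB i b ∧ y = w.prod * n) ∧
        Real.exp (Vol M.bw a + M.dim i * (b - a i) - Kθ) ≤ Y.card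

/-- `Geo.abel` -/
def SAbel (K : ℕ) : Prop :=
  ∀ i, ∃ (E : ℝ → G) (κ : ℝ), 0 < κ ∧ (∀ τ, |τ| ≤ 1 → E τ ∈ M.RB i 0) ∧
    ∀ (m : ℕ) (U : ℝ) (g₀ : G) (τ : Fin 2 → ℝ), g₀ ∈ Ball M.Sg m →
      (∀ l, ∃ c ∈ Ball (M.SC : Set G) m, M.χ i (M.π c) ≤ -U ∧ ∃ a', Adm M.χ a' ∧ 0 ≤ a' i ∧
        a' i + M.χ i (M.π g₀) ≤ -U ∧ ∃ e' ∈ M.Box a', ∃ c' ∈ Ball (M.SC : Set G) m,
          ∃ b' ∈ Ball M.Sg 1, E (τ l) * c = g₀ * e' * c' * b') →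
      |τ 0 - τ 1| ≤ Real.exp (-(κ * U) + K * lg m)

end LieModel

end Crest.Agent.R182
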