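import Crest.Agent.R182.LMHaar

/-! Row 182, block L2 (measures): uniform measures on convex bodies in subalgebras. -/

set_option autoImplicit false
set_option linter.dupNamespace false

namespace Crest.Agent.R182

open Crest.GroupTheory MeasureTheory Pointwise

namespace LieModel

theorem vE_smul {d : ℕ} (E : Submodule ℝ (Fin d → ℝ)) {r : ℝ} (hr : 0 ≤ r) (s : Set E) :
    vE E (r • s) = ENNReal.ofReal (r ^ Module.finrank ℝ E) * vE E s :=
  Measure.addHaar_smul_of_nonneg (E := E) (vE E) hr s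

namespace Body

variable {d : ℕ} {E : Submodule ℝ (Fin d → ℝ)} {D : Set (Fin d → ℝ)} (hD : Body E D)
include hD

theorem subset : D ⊆ E := hD.span ▸ Submodule.subset_span

theorem add_mem {r s : ℝ} (hr : 0 ≤ r) (hs : 0 ≤ s) {X Y : Fin d → ℝ} (hX : X ∈ r • D)
    (hY : Y ∈ s • D) : X + Y ∈ (r + s) • D := by
  rw [hD.convex.add_smul hr hs]
  exact Set.add_mem_add hX hY

theorem zero_mem (r : ℝ) : (0 : Fin d → ℝ) ∈ r • D := ⟨0, hD.zero, smul_zero r⟩

theorem mono {r s : ℝ} (hr : 0 ≤ r) (hs : r ≤ s) : r • D ⊆ s • D := fun X hX => by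
  have := hD.add_mem hr (sub_nonneg.2 hs) hX (hD.zero_mem _)
  rwa [add_zero, add_sub_cancel] at this

theorem neg_mem {r : ℝ} {X : Fin d → ℝ} (hX : X ∈ r • D) : -X ∈ r • D := by
  obtain ⟨Y, hY, rfl⟩ := hX
  exact ⟨-Y, hD.neg Y hY, smul_neg r Y⟩

theorem smul_mem (c : ℝ) {r : ℝ} {X : Fin d → ℝ} (hX : X ∈ r • D) : c • X ∈ (|c| * r) • D := by
  have h : ∀ X ∈ r • D, |c| • X ∈ (|c| * r) • D := fun X ⟨Y, hY, e⟩ =>
    ⟨Y, hY, by rw [← e]; exact mul_smul _ _ _⟩
  rcases abs_choice c with e | e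
  · simpa only [e] using h X hX
  · have := h _ (hD.neg_mem hX)
    rwa [e, neg_smul_neg, ← e] at this

theorem pre_compact : IsCompact (Subtype.val ⁻¹' D : Set E) :=
  E.closed_of_finiteDimensional.isClosedEmbedding_subtypeVal.isCompact_preimage hD.compact

theorem pre_meas : MeasurableSet (Subtype.val ⁻¹' D : Set E) := hD.pre_compact.measurableSet

theorem vE_ne_top : vE E (Subtype.val ⁻¹' D) ≠ ⊤ := hD.pre_compact.measure_ne_top

theorem pre_interior : (interior (Subtype.val ⁻¹' D : Set E)).Nonempty := by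
  have hc : Convex ℝ (Subtype.val ⁻¹' D : Set E) := hD.convex.linear_preimage E.subtype
  have h0 : (0 : E) ∈ (Subtype.val ⁻¹' D : Set E) := hD.zero
  rw [hc.interior_nonempty_iff_affineSpan_eq_top,
    AffineSubspace.affineSpan_eq_top_iff_vectorSpan_eq_top_of_nonempty ℝ _ _ ⟨0, h0⟩,
    vectorSpan_eq_span_vsub_set_right ℝ h0]
  obtain rfl := hD.span
  simp

theorem vE_ne_zero : vE E (Subtype.val ⁻¹' D) ≠ 0 :=
  (Measure.measure_pos_of_nonempty_interior _ hD.pre_interior).ne'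

theorem pre_smul (r : ℝ) :
    (Subtype.val ⁻¹' (r • D) : Set E) ⊆ r • (Subtype.val ⁻¹' D : Set E) :=
  fun _ ⟨Y, hY, e⟩ => ⟨⟨Y, hD.subset hY⟩, hY, Subtype.ext e⟩

end Body

/-- two subsets of the same measure of a slightly bigger set -/
theorem tv_of_subset {V : Type*} [MeasurableSpace V] (m : Measure V) {P Q R B : Set V}
    (hP : MeasurableSet P) (hQ : MeasurableSet Q) (hPR : P ⊆ R) (hQR : Q ⊆ R) (hR : m R ≠ ⊤)
    (hPQ : m.real P = m.real Q) {η : ℝ} (h : m.real R ≤ (1 + η) * m.real Q) :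
    |m.real (P ∩ B) - m.real (Q ∩ B)| ≤ η * m.real Q := by
  have key : ∀ S : Set V, MeasurableSet S → S ⊆ R → m.real S = m.real Q →
      m.real (S ∩ B) ≤ m.real (R ∩ B) ∧ m.real (R ∩ B) ≤ m.real (S ∩ B) + η * m.real Q := by
    intro S hS hSR hSQ
    have h0 : m (R ∩ B) ≠ ⊤ := measure_ne_top_of_subset Set.inter_subset_left hR
    refine ⟨measureReal_mono (Set.inter_subset_inter_left _ hSR) h0, ?_⟩
    have h1 := measureReal_inter_add_sdiff (μ := m) (s := R ∩ B) hS h0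
    have h2 := measureReal_inter_add_sdiff (μ := m) (s := R) hS hR
    rw [Set.inter_eq_right.2 hSR] at h2
    have h3 : m.real ((R ∩ B) \ S) ≤ m.real (R \ S) :=
      measureReal_mono (Set.sdiff_subset_sdiff_left Set.inter_subset_left)
        (measure_ne_top_of_subset Set.sdiff_subset hR)
    have h4 : R ∩ B ∩ S = S ∩ B := by
      ext x
      exact ⟨fun hx => ⟨hx.2, hx.1.2⟩, fun hx => ⟨⟨hSR hx.1, hx.2⟩, hx.1⟩⟩
    rw [h4] at h1
    linarith
  obtain ⟨h1, h2⟩ := key P hP hPR hPQ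
  obtain ⟨h3, h4⟩ := key Q hQ hQR rfl
  exact abs_le.2 ⟨by linarith, by linarith⟩

variable {G : Type} [Group G] {k : ℕ} (M : LieModel G k)

/-- the constant of a bracket monomial -/
def tk (C : ℝ) : LTree → ℝ
  | .x => 1
  | .y => 1
  | .node s t => C * tk C s * tk C t

theorem tk_nonneg {C : ℝ} (hC : 0 ≤ C) (t : LTree) : 0 ≤ tk C t := by
  induction t with
  | x => exact zero_le_one
  | y => exact zero_le_one
  | node s t hs ht => exact mul_nonneg (mul_nonneg hC hs) ht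

/-- the constant of the higher terms -/
def hk (C : ℝ) : ℝ := (M.bch.map fun p => |p.1| * tk C (.node p.2.1 p.2.2)).sum

theorem hk_nonneg {C : ℝ} (hC : 0 ≤ C) : 0 ≤ M.hk C :=
  List.sum_nonneg fun x hx => by
    obtain ⟨p, -, rfl⟩ := List.mem_map.1 hx
    exact mul_nonneg (abs_nonneg _) (tk_nonneg hC _)

section br

variable {M} {E : Submodule ℝ (Fin M.d → ℝ)} {D : Set (Fin M.d → ℝ)} {C : ℝ}

theorem br_mem (hbr : ∀ A ∈ D, ∀ B ∈ D, M.br A B ∈ C • D) {r s : ℝ} {A B : Fin M.d → ℝ}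
    (hA : A ∈ r • D) (hB : B ∈ s • D) : M.br A B ∈ (C * r * s) • D := by
  obtain ⟨A, hA, rfl⟩ := hA
  obtain ⟨B, hB, rfl⟩ := hB
  obtain ⟨Z, hZ, e⟩ := hbr A hA B hB
  refine ⟨Z, hZ, ?_⟩
  simp only [map_smul, LinearMap.smul_apply, ← e, smul_smul]
  congr 1
  ring

/-- if one of two elements of `D` is `ε`-small, then so are the higher terms -/
theorem hi_mem (hD : Body E D) (hC : 0 ≤ C) (hbr : ∀ A ∈ D, ∀ B ∈ D, M.br A B ∈ C • D) {ε : ℝ}
    (hε : 0 ≤ ε) {X A B : Fin M.d → ℝ} (hA : A ∈ D) (hB : B ∈ D) (hA' : A = X ∨ A ∈ ε • D)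
    (hB' : B = X ∨ B ∈ ε • D) : M.hi A B ∈ (M.hk C * ε) • D := by
  have hnode : ∀ (r s : ℝ) (U W : Fin M.d → ℝ), U ∈ r • D → W ∈ s • D →
      ((∃ c : ℝ, U = c • X) ∨ U ∈ (r * ε) • D) → ((∃ c : ℝ, W = c • X) ∨ W ∈ (s * ε) • D) →
      M.br U W ∈ (C * r * s * ε) • D := by
    intro r s U W hU hW hU' hW'
    rcases hU' with ⟨c, rfl⟩ | hU'
    · rcases hW' with ⟨c', rfl⟩ | hW'
      · simpa [M.br_self] using hD.zero_mem _
      · simpa only [mul_assoc] using br_mem hbr hU hW'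
    · have := br_mem hbr hU' hW
      rwa [show C * (r * ε) * s = C * r * s * ε by ring] at this
  have hev : ∀ t : LTree, M.ev t A B ∈ tk C t • D ∧
      ((∃ c : ℝ, M.ev t A B = c • X) ∨ M.ev t A B ∈ (tk C t * ε) • D) := fun t => by
    induction t with
    | x => exact ⟨by simpa [tk] using hA, hA'.imp (fun h => ⟨1, by simp [h]⟩) (by simp [tk])⟩
    | y => exact ⟨by simpa [tk] using hB, hB'.imp (fun h => ⟨1, by simp [h]⟩) (by simp [tk])⟩
    | node s t hs ht => exact ⟨br_mem hbr hs.1 ht.1, Or.inr (hnode _ _ _ _ hs.1 ht.1 hs.2 ht.2)⟩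
  unfold hi hk
  induction M.bch with
  | nil => simpa using hD.zero_mem _
  | cons p q ih =>
    simp only [List.map_cons, List.sum_cons, add_mul]
    refine hD.add_mem (mul_nonneg (mul_nonneg (abs_nonneg _) (tk_nonneg hC _)) hε)
      (mul_nonneg (List.sum_nonneg fun x hx => ?_) hε) ?_ ih
    · obtain ⟨p, -, rfl⟩ := List.mem_map.1 hx
      exact mul_nonneg (abs_nonneg _) (tk_nonneg hC _)
    · rw [mul_assoc]
      exact hD.smul_mem _ (hnode _ _ _ _ (hev _).1 (hev _).1 (hev _).2 (hev _).2)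

theorem bc_mem_small (hD : Body E D) (hC : 0 ≤ C) (hbr : ∀ A ∈ D, ∀ B ∈ D, M.br A B ∈ C • D)
    {ε : ℝ} (hε : 0 ≤ ε) (hε1 : ε ≤ 1) {X Y : Fin M.d → ℝ} (hX : X ∈ D) (hY : Y ∈ ε • D) :
    M.bc X Y ∈ (1 + (1 + M.hk C) * ε) • D ∧ M.bc Y X ∈ (1 + (1 + M.hk C) * ε) • D := by
  have hY1 : Y ∈ D := by simpa using hD.mono hε hε1 hY
  have hX1 : X ∈ (1 : ℝ) • D := by simpa using hX
  have hk0 := mul_nonneg (M.hk_nonneg hC) hε
  have h1 := hD.add_mem (add_nonneg zero_le_one hε) hk0 (hD.add_mem zero_le_one hε hX1 hY)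
    (hi_mem hD hC hbr hε hX hY1 (Or.inl rfl) (Or.inr hY))
  have h2 := hD.add_mem (add_nonneg zero_le_one hε) hk0 (hD.add_mem zero_le_one hε hX1 hY)
    (hi_mem hD hC hbr hε hY1 hX (Or.inr hY) (Or.inl rfl))
  rw [show 1 + ε + M.hk C * ε = 1 + (1 + M.hk C) * ε by ring] at h1 h2
  rw [add_comm X Y] at h2
  exact ⟨h1, h2⟩

end br

variable {M} [MeasurableSpace G] [TopologicalSpace G] [BorelSpace G] (hM : M.Cont)
  {E : Submodule ℝ (Fin M.d → ℝ)} {D : Set (Fin M.d → ℝ)}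
include hM

theorem Cont.measurable_exE (E : Submodule ℝ (Fin M.d → ℝ)) : Measurable fun X : E => M.ex X :=
  (hM.continuous_ex.comp continuous_subtype_val).measurable

theorem Cont.unif_prob (hD : Body E D) : IsProbabilityMeasure (M.unif E D) :=
  have := ProbabilityTheory.cond_isProbabilityMeasure_of_finite hD.vE_ne_zero hD.vE_ne_top
  Measure.isProbabilityMeasure_map (hM.measurable_exE E).aemeasurable

theorem Cont.unif_ae (hD : Body E D) : ∀ᵐ g ∂(M.unif E D), g ∈ M.ex '' D := by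
  refine (ae_map_iff (hM.measurable_exE E).aemeasurable
    (hM.measurableSet_ex hD.compact.measurableSet)).2 ?_
  filter_upwards [ProbabilityTheory.ae_cond_mem hD.pre_meas] with X hX
  exact Set.mem_image_of_mem _ hX

theorem Cont.unif_apply (hD : Body E D) {A : Set G} (hA : MeasurableSet A) :
    M.unif E D A = (vE E (Subtype.val ⁻¹' D))⁻¹ *
      vE E (Subtype.val ⁻¹' D ∩ {X : E | M.ex X ∈ A}) := by
  rw [unif, Measure.map_apply (hM.measurable_exE E) hA, ProbabilityTheory.cond_apply hD.pre_meas]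
  rfl

theorem Cont.unif_real (hD : Body E D) {A : Set G} (hA : MeasurableSet A) :
    (M.unif E D).real A = (vE E).real (Subtype.val ⁻¹' D ∩ {X : E | M.ex X ∈ A}) /
      (vE E).real (Subtype.val ⁻¹' D) := by
  rw [Measure.real, hM.unif_apply hD hA, ENNReal.toReal_mul, ENNReal.toReal_inv, mul_comm]
  rfl

/-- the basic total variation estimate -/
theorem Cont.unif_tv (hD : Body E D) {F : E → E} (hF : Continuous F)
    (hvol : ∀ s, MeasurableSet s → vE E (F '' s) = vE E s) {r : ℝ} (hr : 1 ≤ r)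
    (hFD : ∀ X : E, (X : Fin M.d → ℝ) ∈ D → (F X : Fin M.d → ℝ) ∈ r • D) {f : G → G}
    (hf : Measurable f) (hfF : ∀ X : E, f (M.ex X) = M.ex (F X)) {A : Set G}
    (hA : MeasurableSet A) :
    |(M.unif E D).real (f ⁻¹' A) - (M.unif E D).real A| ≤ r ^ M.d - 1 := by
  have hq : 0 < (vE E).real (Subtype.val ⁻¹' D) := ENNReal.toReal_pos hD.vE_ne_zero hD.vE_ne_top
  have hB : MeasurableSet {X : E | M.ex X ∈ A} := hM.measurable_exE E hA
  have e1 : {X : E | M.ex X ∈ f ⁻¹' A} = F ⁻¹' {X : E | M.ex X ∈ A} := by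
    ext X
    simp only [Set.mem_ofPred_eq, Set.mem_preimage, hfF]
  have hR : vE E (r • (Subtype.val ⁻¹' D : Set E)) =
      ENNReal.ofReal (r ^ Module.finrank ℝ E) * vE E (Subtype.val ⁻¹' D) :=
    vE_smul E (zero_le_one.trans hr) _
  have hP : F '' (Subtype.val ⁻¹' D) ⊆ r • (Subtype.val ⁻¹' D : Set E) := by
    rintro _ ⟨X, hX, rfl⟩
    exact hD.pre_smul r (hFD X hX)
  have hQ : (Subtype.val ⁻¹' D : Set E) ⊆ r • (Subtype.val ⁻¹' D : Set E) := fun X hX =>
    hD.pre_smul r (hD.mono zero_le_one hr (by rw [one_smul]; exact hX))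
  have hm := hD.pre_meas
  have ht := hD.vE_ne_top
  have hm' := (hD.pre_compact.image hF).measurableSet
  rw [hM.unif_real hD (hf hA), hM.unif_real hD hA, e1]
  generalize (Subtype.val ⁻¹' D : Set E) = D' at *
  generalize {X : E | M.ex X ∈ A} = B at *
  have h1 : (vE E).real (D' ∩ F ⁻¹' B) = (vE E).real (F '' D' ∩ B) := by
    rw [← Set.image_inter_preimage, Measure.real, Measure.real,
      hvol _ (hm.inter (hF.measurable hB))]
  have h2 : Module.finrank ℝ E ≤ M.d := E.finrank_le.trans (Module.finrank_fin_fun ℝ).le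
  rw [← sub_div, abs_div, abs_of_pos hq, div_le_iff₀ hq, h1]
  refine tv_of_subset (vE E) hm' hm hP hQ ?_ ?_ ?_
  · rw [hR]
    exact ENNReal.mul_ne_top ENNReal.ofReal_ne_top ht
  · rw [Measure.real, hvol _ hm, Measure.real]
  · rw [Measure.real, hR, ENNReal.toReal_mul,
      ENNReal.toReal_ofReal (pow_nonneg (zero_le_one.trans hr) _), add_sub_cancel]
    exact mul_le_mul_of_nonneg_right (pow_le_pow_right₀ hr h2) hq.le

/-- uniform measures are almost invariant under relatively small elements -/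
theorem Cont.unif_inv {C : ℝ} (hC : 0 ≤ C) {η : ℝ} (hη : 0 < η) : ∃ ε : ℝ, 0 < ε ∧
    ∀ (E : Submodule ℝ (Fin M.d → ℝ)) (D : Set (Fin M.d → ℝ)), M.Sub E → Body E D →
      (∀ A ∈ D, ∀ B ∈ D, M.br A B ∈ C • D) → ∀ Y ∈ ε • D,
        TVr (M.unif E D) (M.ex Y) η ∧ TVl (M.unif E D) (M.ex Y) η := by
  have := hM.measurableMul₂
  have hc : ContinuousAt (fun ε : ℝ => (1 + (1 + M.hk C) * ε) ^ M.d - 1) 0 := by fun_prop
  have h0 : ∀ᶠ ε in nhds (0 : ℝ), (1 + (1 + M.hk C) * ε) ^ M.d - 1 < η :=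
    hc.eventually_lt continuousAt_const (by simpa using hη)
  obtain ⟨ε, ⟨h1, h2⟩, h3⟩ := (((h0.and (eventually_le_nhds one_pos)).filter_mono
    (nhdsWithin_le_nhds (s := Set.Ioi 0))).and self_mem_nhdsWithin).exists
  have hε : 0 < ε := h3
  have hr : 1 ≤ 1 + (1 + M.hk C) * ε := by
    have := M.hk_nonneg hC
    have : 0 ≤ (1 + M.hk C) * ε := by positivity
    linarith
  refine ⟨ε, hε, fun E D hE hD hbr Y hY => ?_⟩
  have hYE : Y ∈ E := by
    obtain ⟨Z, hZ, rfl⟩ := hY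
    exact E.smul_mem _ (hD.subset hZ)
  refine ⟨fun A hA => (hM.unif_tv hD (F := hE.rt hYE) ?_ (fun _ => hE.vol_rt hYE) hr
      (fun X hX => (bc_mem_small hD hC hbr hε.le h2 hX hY).1) (measurable_mul_const _)
      (fun X => M.ex_mul' _ _) hA).trans h1.le,
    fun A hA => (hM.unif_tv hD (F := hE.lt hYE) ?_ (fun _ => hE.vol_lt hYE) hr
      (fun X hX => (bc_mem_small hD hC hbr hε.le h2 hX hY).2) (measurable_const_mul _)
      (fun X => M.ex_mul' _ _) hA).trans h1.le⟩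
  · exact (M.continuous_bc.comp (continuous_subtype_val.prodMk continuous_const)).subtype_mk _
  · exact (M.continuous_bc.comp (continuous_const.prodMk continuous_subtype_val)).subtype_mk _

end LieModel

end Crest.Agent.R182
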