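import Crest.Agent.R182.LBBox
import Crest.Agent.R182.LBStmt
import Crest.Agent.R182.LMUnif

/-! Row 182, block L2: the uniform measures on boxes. -/

set_option autoImplicit false
set_option linter.dupNamespace false

namespace Crest.Agent.R182

namespace LieModel

open MeasureTheory Pointwise

variable {G : Type} [Group G] {k : ℕ} {M : LieModel G k}

theorem In.mem_smul_D {a : M.Cl → ℝ} {t : ℝ} {X : Fin M.d → ℝ} (ht : 0 < t)
    (h : M.In top a t X) : X ∈ t • M.D a := by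
  refine ⟨t⁻¹ • X, ?_, by simp [smul_smul, ht.ne']⟩
  have := h.smul t⁻¹
  rwa [abs_of_pos (inv_pos.2 ht), inv_mul_cancel₀ ht.ne'] at this

theorem mem_smul_RD {i : M.Cl} {b t : ℝ} {X : Fin M.d → ℝ} (ht : 0 < t) (h : X ∈ M.R i)
    (hX : ∀ j, M.dir j = M.χ i → |X j| ≤ t * Real.exp (M.kap j * b)) : X ∈ t • M.RD i b := by
  refine ⟨t⁻¹ • X, ⟨(M.R i).smul_mem _ h, fun j => ?_⟩, by simp [smul_smul, ht.ne']⟩
  by_cases hj : M.dir j = M.χ i
  · rw [Pi.smul_apply, smul_eq_mul, abs_mul, abs_of_pos (inv_pos.2 ht), inv_mul_le_iff₀ ht]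
    exact hX j hj
  · rw [Pi.smul_apply, h j hj, smul_zero, abs_zero]
    exact (Real.exp_pos _).le

variable (M) in
theorem exists_br_RD : ∃ C : ℝ, 0 < C ∧ ∀ (i : M.Cl) (b : ℝ), ∀ A ∈ M.RD i b, ∀ B ∈ M.RD i b,
    M.br A B ∈ C • M.RD i b := by
  classical
  obtain ⟨C, hC, hbr⟩ := M.exists_br_le
  refine ⟨(M.d : ℝ) ^ 2 * C + 1, by positivity, fun i b A hA B hB => ?_⟩
  refine mem_smul_RD (by positivity) (M.sub_R i A hA.1 B hB.1) fun l hl => ?_
  have key : ∀ p q : Fin M.d, |A p * B q * M.br (M.e p) (M.e q) l| ≤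
      C * Real.exp (M.kap l * b) := by
    intro p q
    by_cases h0 : M.br (M.e p) (M.e q) l = 0
    · rw [h0, mul_zero, abs_zero]; positivity
    by_cases hp : M.dir p = M.χ i
    swap
    · rw [hA.1 p hp, zero_mul, zero_mul, abs_zero]; positivity
    by_cases hq : M.dir q = M.χ i
    swap
    · rw [hB.1 q hq, mul_zero, zero_mul, abs_zero]; positivity
    have hw : M.wt l = (M.kap p + M.kap q) • M.χ i := by
      rw [(M.br_tri p q l h0).2.2, M.wt_eq p, M.wt_eq q, hp, hq, add_smul]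
    have hk := (M.dir_eq_of_wt (add_pos (M.kap_pos (M.wt_ne_of_dir hp))
      (M.kap_pos (M.wt_ne_of_dir hq))) hw).2
    have h1 : |M.br (M.e p) (M.e q) l| ≤ C := by
      have := (norm_le_pi_norm (M.br (M.e p) (M.e q)) l).trans (hbr _ _)
      simpa [e, Pi.norm_single] using this
    rw [abs_mul, abs_mul, hk, add_mul, Real.exp_add, mul_comm C]
    exact mul_le_mul (mul_le_mul (hA.2 p) (hB.2 q) (abs_nonneg _) (Real.exp_pos _).le) h1
      (abs_nonneg _) (by positivity)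
  have e1 : M.br A B l = ∑ p, ∑ q, A p * B q * M.br (M.e p) (M.e q) l := by
    conv_lhs => rw [← M.sum_e A, ← M.sum_e B]
    simp only [map_sum, map_smul, LinearMap.sum_apply, LinearMap.smul_apply, Finset.sum_apply,
      Pi.smul_apply, smul_eq_mul, Finset.mul_sum]
    rw [Finset.sum_comm]
    exact Finset.sum_congr rfl fun p _ => Finset.sum_congr rfl fun q _ => by ring
  rw [e1]
  calc |∑ p, ∑ q, A p * B q * M.br (M.e p) (M.e q) l|
      ≤ ∑ p, ∑ q, |A p * B q * M.br (M.e p) (M.e q) l| :=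
        (Finset.abs_sum_le_sum_abs _ _).trans
          (Finset.sum_le_sum fun p _ => Finset.abs_sum_le_sum_abs _ _)
    _ ≤ ∑ _p : Fin M.d, ∑ _q : Fin M.d, C * Real.exp (M.kap l * b) :=
        Finset.sum_le_sum fun p _ => Finset.sum_le_sum fun q _ => key p q
    _ = (M.d : ℝ) ^ 2 * C * Real.exp (M.kap l * b) := by
        simp only [Finset.sum_const, Finset.card_univ, Fintype.card_fin, nsmul_eq_mul]; ring
    _ ≤ _ := by
        have := Real.exp_pos (M.kap l * b)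
        nlinarith

theorem exp_neg_le {κ ε t : ℝ} (hκ : 0 < κ) (hε : 0 < ε) (ht : |Real.log ε| / κ ≤ t) :
    Real.exp (-(κ * t)) ≤ ε := by
  rw [div_le_iff₀ hκ] at ht
  calc Real.exp (-(κ * t)) ≤ Real.exp (Real.log ε) :=
        Real.exp_le_exp.2 (by have := neg_abs_le (Real.log ε); linarith)
    _ = ε := Real.exp_log hε

variable [TopologicalSpace G] [MeasurableSpace G] [BorelSpace G]

theorem Cont.nu_prob (hM : M.Cont) (a : M.Cl → ℝ) : IsProbabilityMeasure (M.nu a) :=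
  hM.unif_prob (M.body_D a)

theorem Cont.nu_box (hM : M.Cont) (a : M.Cl → ℝ) : ∀ᵐ g ∂(M.nu a), g ∈ M.Box a :=
  hM.unif_ae (M.body_D a)

theorem Cont.nu_inv (hM : M.Cont) (η : ℝ) (hη : 0 < η) : ∃ t₀ : ℝ, ∀ (a : M.Cl → ℝ) (t : ℝ), t₀ ≤ t →
    ∀ g ∈ M.Box a, TVr (M.nu fun i => a i + t) g η ∧ TVl (M.nu fun i => a i + t) g η := by
  obtain ⟨C, hC, hbr⟩ := M.exists_br
  obtain ⟨κ, κ₁, hκ, -, hs⟩ := M.exists_shift
  obtain ⟨ε, hε, h⟩ := hM.unif_inv (C := C) (by linarith) hη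
  refine ⟨|Real.log ε| / κ, fun a t ht g hg => ?_⟩
  obtain ⟨Y, hY, rfl⟩ := hg
  have ht0 : 0 ≤ t := le_trans (by positivity) ht
  refine h M.E _ M.sub_E (M.body_D _) (fun A hA B hB => In.mem_smul_D (by linarith) ?_) Y
    (In.mem_smul_D hε ?_)
  · simpa using hbr top top top (fun _ _ _ _ _ _ _ _ => trivial) _ 1 1 A B hA hB
  · exact ((hs top a t 1 Y ht0).1 hY).mono (fun _ _ h => h) le_rfl
      (by rw [one_mul]; exact exp_neg_le hκ hε ht)

theorem Cont.nuR_prob (hM : M.Cont) (i : M.Cl) (b : ℝ) : IsProbabilityMeasure (M.nuR i b) :=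
  hM.unif_prob (M.body_RD i b)

theorem Cont.nuR_box (hM : M.Cont) (i : M.Cl) (b : ℝ) : ∀ᵐ g ∂(M.nuR i b), g ∈ M.RB i b :=
  hM.unif_ae (M.body_RD i b)

theorem Cont.nuR_inv (hM : M.Cont) (η : ℝ) (hη : 0 < η) : ∃ t₀ : ℝ, ∀ i (b t : ℝ), t₀ ≤ t →
    ∀ g ∈ M.RB i b, TVr (M.nuR i (b + t)) g η ∧ TVl (M.nuR i (b + t)) g η := by
  obtain ⟨C, hC, hbr⟩ := M.exists_br_RD
  obtain ⟨κ, κ₁, hκ, -, hk, -⟩ := M.exists_kap
  obtain ⟨ε, hε, h⟩ := hM.unif_inv (C := C) hC.le hη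
  refine ⟨|Real.log ε| / κ, fun i b t ht g hg => ?_⟩
  obtain ⟨Y, hY, rfl⟩ := hg
  have ht0 : 0 ≤ t := le_trans (by positivity) ht
  refine h (M.R i) _ (M.sub_R i) (M.body_RD _ _) (hbr i _) Y
    (mem_smul_RD hε hY.1 fun j hj => (hY.2 j).trans ?_)
  have h1 := hk j (M.wt_ne_of_dir hj)
  calc Real.exp (M.kap j * b) = Real.exp (-(M.kap j * t)) * Real.exp (M.kap j * (b + t)) := by
        rw [← Real.exp_add]; congr 1; ring
    _ ≤ ε * Real.exp (M.kap j * (b + t)) := by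
        refine mul_le_mul_of_nonneg_right (le_trans (Real.exp_le_exp.2 ?_) (exp_neg_le hκ hε ht))
          (Real.exp_pos _).le
        nlinarith

end LieModel

end Crest.Agent.R182
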