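import Crest.Agent.R182.LC2a

/-! Row 182, block L2b: coordinates in thickened boxes. -/

set_option autoImplicit false
set_option linter.dupNamespace false

namespace Crest.Agent.R182

open Crest.GroupTheory MeasureTheory

namespace LieModel

variable {G : Type} [Group G] {k : ℕ} (M : LieModel G k)

theorem h83_sum_le {ι : Type*} (S : Finset ι) (x : ι → ℝ) (v : ι → Fin M.d → ℝ) (l : Fin M.d)
    {B : ℝ} (hB : 0 ≤ B) (h : ∀ w ∈ S, v w l ≠ 0 → |x w| ≤ B) :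
    |(∑ w ∈ S, x w • v w) l| ≤ (∑ w ∈ S, ‖v w‖) * B := by
  rw [Finset.sum_apply, Finset.sum_mul]
  refine (Finset.abs_sum_le_sum_abs _ _).trans (Finset.sum_le_sum fun w hw => ?_)
  rw [Pi.smul_apply, smul_eq_mul]
  by_cases h0 : v w l = 0
  · rw [h0, mul_zero, abs_zero]; positivity
  · rw [abs_mul, mul_comm]
    exact mul_le_mul (norm_le_pi_norm (v w) l) (h w hw h0) (abs_nonneg _) (norm_nonneg _)

theorem h83_pr_wt (i : M.Cl) {φ : (Fin k → ℝ) →ₗ[ℝ] ℝ} {X : Fin M.d → ℝ} (hX : X ∈ M.Wt φ)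
    {l : Fin M.d} (h : M.pr i X l ≠ 0) : M.wt l = φ := by
  by_contra hl
  apply h
  rw [← M.sum_e X, map_sum, Finset.sum_apply]
  refine Finset.sum_eq_zero fun j _ => ?_
  rw [map_smul, Pi.smul_apply, smul_eq_mul]
  by_cases hj : M.wt j = φ
  · have : M.pr i (M.e j) l = 0 := by
      by_contra h0
      exact hl (((M.isPr i).tri j l h0).2.trans hj)
    rw [this, mul_zero]
  · rw [hX j hj, zero_mul]

/-- TASK LC2d. `lw (χ s + D) w = wwt w s + (∑ i, cw w i) * D` for `w ∈ Wd`; `wt_of_mon`. -/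
theorem Ih_up : ∃ A : ℝ, 1 ≤ A ∧ ∀ (s : Fin k → ℝ) (D : ℝ), 0 ≤ D → ∀ t X,
    M.Ih (fun j => M.χ j s + D) t X → ∀ l, |X l| ≤ A * t * Real.exp (M.wt l s + A * D) := by
  obtain ⟨κ₀, κ₁, -, hκ₁, hκ⟩ := M.exists_cw_bounds
  have hB : 0 ≤ ∑ w ∈ M.Wd, ‖M.mon w‖ := Finset.sum_nonneg fun _ _ => norm_nonneg _
  refine ⟨1 + ∑ w ∈ M.Wd, ‖M.mon w‖ + κ₁, by linarith, fun s D hD t X hX l => ?_⟩
  have ht := hX.nonneg
  obtain ⟨Y, Z, ⟨x, hx, -, rfl⟩, hZ, hZt, rfl⟩ := hX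
  set B := ∑ w ∈ M.Wd, ‖M.mon w‖
  set E := Real.exp (M.wt l s + (1 + B + κ₁) * D) with hE
  have hE0 : 0 < E := Real.exp_pos _
  have h1 : |(∑ w ∈ M.Wd, x w • M.mon w) l| ≤ B * (t * E) := by
    refine M.h83_sum_le M.Wd x M.mon l (by positivity) fun w hw h0 => (hx w).trans ?_
    refine mul_le_mul_of_nonneg_left (Real.exp_le_exp.2 ?_) ht
    have e1 : (fun j => M.χ j s + D) = R182.pt M.χ s + fun _ => D := rfl
    have e2 : M.lw (fun _ => D) w = (∑ i, M.cw w i) * D := by rw [lw, Finset.sum_mul]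
    rw [e1, lw_add, M.lw_pt s (M.mem_Wd.1 hw).2.2, e2, M.wt_of_mon w l h0]
    have := mul_le_mul_of_nonneg_right (hκ w hw).2 hD
    nlinarith
  have h2 : |Z l| ≤ t * E := by
    by_cases h0 : M.wt l = 0
    · have : 1 ≤ E := by
        rw [hE, h0]
        exact Real.one_le_exp (by simp only [LinearMap.zero_apply, zero_add]; positivity)
      have h3 : |Z l| ≤ ‖Z‖ := norm_le_pi_norm Z l
      nlinarith
    · rw [hZ l h0, abs_zero]; positivity
  rw [Pi.add_apply]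
  have h3 := abs_add_le ((∑ w ∈ M.Wd, x w • M.mon w) l) (Z l)
  have h4 : 0 ≤ κ₁ * (t * E) := by positivity
  nlinarith

/-- TASK LC2d. `pr i` kills mixed monomials; for a pure word `w`, `lw a w = cw w i * a i`,
`wwt w = cw w i • χ i` and `pr i (mon w) l ≠ 0` forces `wt l = wwt w`, so `mult i l = cw w i`;
`pr i` maps `N0` to `N0`, where `mult i l = 0`. -/
theorem Ih_quo : ∃ A : ℝ, 1 ≤ A ∧ ∀ a i t X, M.Ih a t X → ∀ l,
    |M.pr i X l| ≤ A * t * Real.exp (M.mult i l * a i) := by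
  have hB : ∀ i, 0 ≤ ∑ w ∈ M.Wd, ‖M.pr i (M.mon w)‖ := fun i =>
    Finset.sum_nonneg fun _ _ => norm_nonneg _
  have hC : ∀ i, 0 ≤ ∑ j, ‖M.pr i (M.e j)‖ := fun i => Finset.sum_nonneg fun _ _ => norm_nonneg _
  have hB' := Finset.sum_nonneg fun i (_ : i ∈ Finset.univ) => hB i
  have hC' := Finset.sum_nonneg fun i (_ : i ∈ Finset.univ) => hC i
  refine ⟨1 + ∑ i, ∑ w ∈ M.Wd, ‖M.pr i (M.mon w)‖ + ∑ i, ∑ j, ‖M.pr i (M.e j)‖, by linarith,
    fun a i t X hX l => ?_⟩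
  have ht := hX.nonneg
  obtain ⟨Y, Z, ⟨x, hx, -, rfl⟩, hZ, hZt, rfl⟩ := hX
  have hBi := Finset.single_le_sum (fun i (_ : i ∈ Finset.univ) => hB i) (Finset.mem_univ i)
  have hCi := Finset.single_le_sum (fun i (_ : i ∈ Finset.univ) => hC i) (Finset.mem_univ i)
  set E := Real.exp (M.mult i l * a i) with hE
  have hE0 : 0 < E := Real.exp_pos _
  have htE : 0 ≤ t * E := by positivity
  have h1 : |M.pr i (∑ w ∈ M.Wd, x w • M.mon w) l| ≤
      (∑ w ∈ M.Wd, ‖M.pr i (M.mon w)‖) * (t * E) := by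
    simp only [map_sum, map_smul]
    refine M.h83_sum_le M.Wd x (fun w => M.pr i (M.mon w)) l htE fun w hw h0 => (hx w).trans ?_
    have hm : ¬ M.Mixed i w := fun hm => h0 (by
      rw [(M.isPr i).ker _ (Submodule.subset_span ⟨w, ⟨hw, hm⟩, rfl⟩)]; rfl)
    obtain ⟨h2, h3, h4⟩ := M.pure_wwt hw hm
    obtain ⟨h5, h6⟩ := M.dir_eq_of_wt h2 ((M.h83_pr_wt i (M.mon_mem_Wt w) h0).trans h3)
    rw [h4, hE, mult, if_pos h5, h6]
  have h2 : |M.pr i Z l| ≤ (∑ j, ‖M.pr i (M.e j)‖) * (t * E) := by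
    by_cases h0 : M.pr i Z l = 0
    · rw [h0, abs_zero]; exact mul_nonneg (hC i) htE
    have h3 : M.wt l = 0 := M.h83_pr_wt i (φ := 0) hZ h0
    have h4 : E = 1 := by
      rw [hE, mult, if_neg fun h => M.wt_ne_of_dir h h3, zero_mul, Real.exp_zero]
    conv_lhs => rw [← M.sum_e Z]
    simp only [map_sum, map_smul]
    refine M.h83_sum_le Finset.univ Z (fun j => M.pr i (M.e j)) l htE fun j _ _ => ?_
    rw [h4, mul_one]
    exact (norm_le_pi_norm Z j).trans hZt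
  rw [map_add, Pi.add_apply]
  have h3 := abs_add_le (M.pr i (∑ w ∈ M.Wd, x w • M.mon w) l) (M.pr i Z l)
  have h4 := mul_le_mul_of_nonneg_right hBi htE
  have h5 := mul_le_mul_of_nonneg_right hCi htE
  nlinarith

end LieModel

end Crest.Agent.R182
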