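import Crest.Agent.R182.LD2
import Crest.Agent.R182.LBIn
import Crest.Agent.R182.LC2d
import Crest.Agent.R182.LMUnif
import Crest.Agent.R182.LBNu

/-! Row 182, block L2c: determinants of boxes and small balls for the ray measures. -/

set_option autoImplicit false
set_option linter.dupNamespace false

namespace Crest.Agent.R182

open MeasureTheory

namespace LieModel

variable {G : Type} [Group G] {k : ℕ} (M : LieModel G k)

/-- coordinates on a subspace -/
theorem exists_coord {d : ℕ} (E : Submodule ℝ (Fin d → ℝ)) :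
    ∃ (D : ℕ) (Λ₀ : (Fin D → ℝ) →ₗ[ℝ] (Fin d → ℝ)) (κ : (Fin d → ℝ) →ₗ[ℝ] (Fin D → ℝ)),
      (∀ q, κ (Λ₀ q) = q) ∧ LinearMap.range Λ₀ = E := by
  let b := Module.finBasis ℝ E
  let Λ₀ : (Fin (Module.finrank ℝ E) → ℝ) →ₗ[ℝ] (Fin d → ℝ) :=
    E.subtype ∘ₗ b.equivFun.symm.toLinearMap
  have hinj : LinearMap.ker Λ₀ = ⊥ :=
    LinearMap.ker_eq_bot.2 (E.injective_subtype.comp b.equivFun.symm.injective)
  obtain ⟨κ, hκ⟩ := Λ₀.exists_leftInverse_of_injective hinj
  refine ⟨_, Λ₀, κ, fun q => LinearMap.congr_fun hκ q, ?_⟩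
  rw [LinearMap.range_comp, LinearEquiv.range, Submodule.map_top, Submodule.range_subtype]

theorem zg_in : ∃ C : ℝ, 1 ≤ C ∧ ∀ a, M.ZG M.E C fun t => {X | M.In top a t X} := by
  obtain ⟨C, hC, h⟩ := M.exists_br
  exact ⟨C, hC, fun a => ⟨fun _ _ h => In.mem_E h, In.zero le_rfl,
    fun _ _ hst _ h => In.mono h (fun _ _ h => h) le_rfl hst, fun _ _ _ hX _ hY => In.add hX hY,
    fun _ c _ hX => In.smul hX c,
    fun s t _ _ X hX Y hY => h top top top (fun _ _ _ _ _ _ _ _ => trivial) a s t X Y hX hY⟩⟩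

theorem in_bdd (a : M.Cl → ℝ) : ∃ ρ : ℝ, ∀ t X, M.In top a t X → ‖X‖ ≤ ρ * t := by
  refine ⟨∑ w ∈ M.Wd, Real.exp (M.lw a w) * ‖M.mon w‖, fun t X hX => ?_⟩
  obtain ⟨x, hx, -, rfl⟩ := hX
  rw [Finset.sum_mul]
  refine norm_sum_le_of_le _ fun w _ => ?_
  rw [norm_smul, Real.norm_eq_abs]
  have := mul_le_mul_of_nonneg_right (hx w) (norm_nonneg (M.mon w))
  linarith

section det

variable {D : ℕ} {Λ₀ : (Fin D → ℝ) →ₗ[ℝ] (Fin M.d → ℝ)} {κ : (Fin M.d → ℝ) →ₗ[ℝ] (Fin D → ℝ)}

/-- a monomial basis has `D = finrank E` elements, and `κ` is injective on `E` -/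
theorem bas_enum (hκ : ∀ q, κ (Λ₀ q) = q) (hE : LinearMap.range Λ₀ = M.E) (b : M.Bas) :
    ∃ f : Fin D ≃ b.1, cdet κ (fun i => M.mon (f i)) ≠ 0 := by
  obtain ⟨B, hB⟩ := M.h41_basis b
  have hinj : Function.Injective Λ₀ := Function.LeftInverse.injective hκ
  have hc : Fintype.card b.1 = D := by
    rw [← Module.finrank_eq_card_basis B, ← hE, LinearMap.finrank_range_of_inj hinj,
      Module.finrank_fin_fun]
  let f : Fin D ≃ b.1 := (Fintype.equivFinOfCardEq hc).symm
  refine ⟨f, ?_⟩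
  rw [← h38_det_chart, Ne, LinearMap.det_eq_zero_iff_ker_ne_bot, not_not, LinearMap.ker_eq_bot']
  intro q hq
  have h1 : chart (fun i => M.mon (f i)) q = (∑ i, q i • B (f i) : M.E) := by
    rw [h38_chart_apply, Submodule.coe_sum]
    simp only [Submodule.coe_smul, hB]
  obtain ⟨r, hr⟩ : chart (fun i => M.mon (f i)) q ∈ LinearMap.range Λ₀ := by
    rw [hE, h1]
    exact Subtype.property _
  rw [LinearMap.comp_apply, ← hr, hκ] at hq
  rw [hq, map_zero, h1, eq_comm, Submodule.coe_eq_zero] at hr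
  exact funext (Fintype.linearIndependent_iff.1 (B.linearIndependent.comp f f.injective) q hr)

theorem h36_abs_sign (u : ℤˣ) (x : ℝ) : |u • x| = |x| := by
  rcases Int.units_eq_one_or u with rfl | rfl <;> simp

/-- expand in the optimal basis (`exists_opt`, `bas_enum`): `u i = ∑ j, Y i j • mon (f j)`, so
`cdet κ u = det Y * cdet κ (mon ∘ f)` and `|det Y| ≤ D! C^D ∏ j, exp (lw a (f j))`; there are
finitely many bases -/
theorem det_up (hκ : ∀ q, κ (Λ₀ q) = q) (hE : LinearMap.range Λ₀ = M.E) :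
    ∃ C : ℝ, 1 ≤ C ∧ ∀ (a : M.Cl → ℝ) (u : Fin D → Fin M.d → ℝ), (∀ i, M.In top a 1 (u i)) →
      |cdet κ u| ≤ C * Real.exp (Vol M.bw a) := by
  classical
  obtain ⟨C, hC, h⟩ := M.exists_opt
  choose f _ using M.bas_enum hκ hE
  have hS : 0 ≤ ∑ b, |cdet κ fun i => M.mon (f b i)| := Finset.sum_nonneg fun _ _ => abs_nonneg _
  have hP : 0 ≤ (D.factorial : ℝ) * C ^ D := by positivity
  refine ⟨1 + D.factorial * C ^ D * ∑ b, |cdet κ fun i => M.mon (f b i)|,
    le_add_of_nonneg_right (mul_nonneg hP hS), fun a u hu => ?_⟩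
  obtain ⟨b, hb, hy⟩ := h a
  choose y hy1 hy2 using fun i => hy 1 (u i) (hu i)
  let Y : Matrix (Fin D) (Fin D) ℝ := Matrix.of fun i j => y i (f b j)
  let N : Matrix (Fin D) (Fin D) ℝ := Matrix.of fun j => κ (M.mon (f b j))
  have h1 : cdet κ u = Y.det * cdet κ fun i => M.mon (f b i) := by
    change Matrix.det (Matrix.of fun i => κ (u i)) = Y.det * N.det
    rw [← Matrix.det_mul]
    congr 1
    ext i l
    rw [Matrix.of_apply, hy2 i, ← Finset.sum_coe_sort b.1, ← (f b).sum_comp, map_sum,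
      Finset.sum_apply, Matrix.mul_apply]
    simp [Y, N]
  have h2 : |Y.det| ≤ D.factorial * C ^ D * Real.exp (Vol M.bw a) := by
    have h3 : ∏ j : Fin D, C * 1 * Real.exp (M.lw a (f b j)) = C ^ D * Real.exp (Vol M.bw a) := by
      rw [Finset.prod_mul_distrib, ← Real.exp_sum, ← hb, ← Finset.sum_coe_sort b.1,
        ← (f b).sum_comp]
      simp
    rw [Matrix.det_apply, mul_assoc, ← h3]
    refine (Finset.abs_sum_le_sum_abs _ _).trans ((Finset.sum_le_card_nsmul _ _
      (∏ j : Fin D, C * 1 * Real.exp (M.lw a (f b j))) fun σ _ => ?_).trans ?_)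
    · rw [h36_abs_sign, Finset.abs_prod]
      exact Finset.prod_le_prod (fun _ _ => abs_nonneg _) fun j _ => hy1 _ _
    · simp [Fintype.card_perm]
  rw [h1, abs_mul]
  have h4 : |cdet κ fun i => M.mon (f b i)| ≤ ∑ b, |cdet κ fun i => M.mon (f b i)| :=
    Finset.single_le_sum (f := fun b => |cdet κ fun i => M.mon (f b i)|)
      (fun _ _ => abs_nonneg _) (Finset.mem_univ b)
  have h5 := mul_le_mul h2 h4 (abs_nonneg _) (by positivity)
  nlinarith [Real.exp_pos (Vol M.bw a)]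

theorem h52_word (a : M.Cl → ℝ) (w : List (Fin M.d)) (hw : w ≠ []) :
    ∃ (L : List (Fin M.d → ℝ)) (y : Fin M.d → ℝ), L.length ≤ w.length ∧
      (∀ X ∈ y :: L, ∃ l ∈ w, X = Real.exp (M.lw a [l]) • M.e l) ∧
      L.foldr (fun X Y => M.br X Y) y = Real.exp (M.lw a w) • M.mon w := by
  induction w with
  | nil => exact absurd rfl hw
  | cons l w ih =>
    by_cases h : w = []
    · subst h
      exact ⟨[], Real.exp (M.lw a [l]) • M.e l, by simp, by simp, rfl⟩
    · obtain ⟨L, y, h1, h2, h3⟩ := ih h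
      refine ⟨Real.exp (M.lw a [l]) • M.e l :: L, y, by simpa using h1, fun X hX => ?_, ?_⟩
      · simp only [List.mem_cons] at hX h2
        rcases hX with hX | hX | hX
        · obtain ⟨l', hl', e⟩ := h2 X (Or.inl hX)
          exact ⟨l', List.mem_cons_of_mem _ hl', e⟩
        · exact ⟨l, List.mem_cons_self, hX⟩
        · obtain ⟨l', hl', e⟩ := h2 X (Or.inr hX)
          exact ⟨l', List.mem_cons_of_mem _ hl', e⟩
      · rw [List.foldr_cons, h3, M.mon_cons l h, map_smul, map_smul, LinearMap.smul_apply,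
          smul_smul, ← Real.exp_add, add_comm, ← M.lw_append]
        rfl

/-- take a basis `b` with `∑ w ∈ b, lw a w = Vol bw a` (`exists_opt`), `f` of `bas_enum`; for the word
`w = f i` let `sl l = exp (lw a [l]) • e l`, `L i = w.dropLast.map sl`, `y i = sl (w.getLast _)`; the
iterated bracket is `exp (lw a w) • mon w` (`mon_cons`, `lw_append`); `In.single`, `exists_cl`,
`lw_single`, `map_smul_univ` -/
theorem det_low (hκ : ∀ q, κ (Λ₀ q) = q) (hE : LinearMap.range Λ₀ = M.E) :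
    ∃ C : ℝ, 1 ≤ C ∧ ∀ a : M.Cl → ℝ, ∃ (L : Fin D → List (Fin M.d → ℝ)) (y : Fin D → Fin M.d → ℝ),
      (∀ i, (L i).length ≤ M.d) ∧
      (∀ i, ∀ X ∈ y i :: L i, M.In top a 1 X ∧ ∃ j, X ∈ M.RD j (a j)) ∧
      Real.exp (Vol M.bw a) ≤ C * |cdet κ fun i => (L i).foldr (fun X Y => M.br X Y) (y i)| := by
  choose f hf using M.bas_enum hκ hE
  obtain ⟨_, -, hopt⟩ := M.exists_opt
  have hnn : ∀ b : M.Bas, 0 ≤ |cdet κ (fun i => M.mon (f b i))|⁻¹ := fun b => by positivity
  refine ⟨1 + ∑ b : M.Bas, |cdet κ (fun i => M.mon (f b i))|⁻¹,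
    le_add_of_nonneg_right (Finset.sum_nonneg fun b _ => hnn b), fun a => ?_⟩
  obtain ⟨b, hb, -⟩ := hopt a
  have hW : ∀ i, (f b i).1 ∈ M.Wd := fun i => b.2.1 (f b i).2
  choose L y h1 h2 h3 using fun i => M.h52_word a (f b i).1 (M.mem_Wd.1 (hW i)).1
  refine ⟨L, y, fun i => (h1 i).trans (M.mem_Wd.1 (hW i)).2.1, fun i X hX => ?_, ?_⟩
  · obtain ⟨l, hl, rfl⟩ := h2 i X hX
    have hl' : l ∈ M.Lam := (M.mem_Wd.1 (hW i)).2.2 l hl
    refine ⟨In.single (w := [l]) (fun l' h => by rwa [List.mem_singleton.1 h]) trivial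
      (by rw [abs_of_pos (Real.exp_pos _), one_mul]), ?_⟩
    obtain ⟨j, hj⟩ := M.exists_cl hl'
    refine ⟨j, fun j' hj' => ?_, fun j' => ?_⟩
    · have : j' ≠ l := fun h => hj' (h ▸ hj)
      simp [e, this]
    · by_cases h : j' = l
      · subst h
        simp [e, M.lw_single a hj]
      · simp [e, h, (Real.exp_pos _).le]
  · simp only [h3]
    rw [(cdet κ).map_smul_univ (fun i => Real.exp (M.lw a (f b i).1)) fun i => M.mon (f b i),
      ← Real.exp_sum, (f b).sum_comp fun w => M.lw a w.1, Finset.sum_coe_sort b.1 (M.lw a), hb,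
      smul_eq_mul, abs_mul, abs_of_pos (Real.exp_pos _)]
    have h4 : |cdet κ (fun i => M.mon (f b i))|⁻¹ ≤
        ∑ b : M.Bas, |cdet κ (fun i => M.mon (f b i))|⁻¹ :=
      Finset.single_le_sum (fun b _ => hnn b) (Finset.mem_univ b)
    have h5 : 0 < |cdet κ (fun i => M.mon (f b i))| := abs_pos.2 (hf b)
    have h6 := mul_le_mul_of_nonneg_right h4 h5.le
    rw [inv_mul_cancel₀ h5.ne'] at h6
    have h7 := Real.exp_pos (Vol M.bw a)
    nlinarith [mul_le_mul_of_nonneg_left h6 h7.le, mul_pos h7 h5]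

end det

open Classical in
/-- the volume of a coordinate box in `R i` (compare the Haar measure `vE (R i)` with the Lebesgue
measure of `{j // dir j = χ i} → ℝ` along the restriction, a linear equivalence) -/
theorem vol_box_R (i : M.Cl) : ∃ c : ℝ, 0 < c ∧ ∀ s : Fin M.d → ℝ, (∀ j, 0 ≤ s j) →
    vE (M.R i) {X | ∀ j, |X.1 j| ≤ s j} =
      ENNReal.ofReal (c * ∏ j with M.dir j = M.χ i, s j) := by
  let e : M.R i ≃ₗ[ℝ] ({j // M.dir j = M.χ i} → ℝ) :=
    { toFun := fun X j => X.1 j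
      map_add' := fun _ _ => rfl
      map_smul' := fun _ _ => rfl
      invFun := fun y => ⟨fun j => if h : M.dir j = M.χ i then y ⟨j, h⟩ else 0,
        fun j hj => dif_neg hj⟩
      left_inv := fun X => Subtype.ext (funext fun j => by
        by_cases h : M.dir j = M.χ i
        · exact dif_pos h
        · exact (dif_neg h).trans (X.2 j h).symm)
      right_inv := fun y => funext fun j => dif_pos j.2 }
  obtain ⟨c, hc, h⟩ := h41_par (vE (M.R i)) (Module.Basis.ofEquivFun e)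
  refine ⟨c, hc, fun s hs => ?_⟩
  rw [Finset.prod_subtype (p := fun j => M.dir j = M.χ i) (F := inferInstance) _ (by simp) s,
    ← h (fun j => s j) fun j => hs j]
  congr 1
  ext X
  refine ⟨fun hX j => hX j, fun hX j => ?_⟩
  by_cases h : M.dir j = M.χ i
  · exact hX ⟨j, h⟩
  · rw [X.2 j h, abs_zero]
    exact hs j

/-- on the ray `kap` is additive (`br_tri`, `br_apply`, `wt_eq`, `dir_eq_of_wt`), so the bracket of
`s • RD i b` and `t • RD i b` lies in `C s t • RD i b`; induction on the trees -/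
theorem RD_bc : ∃ C : ℝ, 1 ≤ C ∧ ∀ (i : M.Cl) (b : ℝ), ∀ X ∈ M.RD i b, ∀ Y ∈ M.RD i b, ∀ j,
    |M.bc X Y j| ≤ C * Real.exp (M.kap j * b) := by
  obtain ⟨C, hC, hbr⟩ := M.exists_br_RD
  have hk := M.hk_nonneg hC.le
  refine ⟨1 + (1 + M.hk C) * 1, by linarith, fun i b X hX Y hY j => ?_⟩
  obtain ⟨Z, hZ, e⟩ := (bc_mem_small (M.body_RD i b) hC.le (hbr i b) zero_le_one le_rfl hX
    (Y := Y) ⟨Y, hY, one_smul _ _⟩).1
  rw [← e]
  simp only [Pi.smul_apply, smul_eq_mul]
  rw [abs_mul, abs_of_nonneg (by linarith)]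
  exact mul_le_mul_of_nonneg_left (hZ.2 j) (by linarith)

theorem h97_pr_apply (i : M.Cl) (X : Fin M.d → ℝ) (l : Fin M.d) :
    M.pr i X l = ∑ j, X j * M.pr i (M.e j) l := by
  conv_lhs => rw [← M.sum_e X]
  simp [map_sum, Finset.sum_apply]

theorem h97_pr_R (i : M.Cl) {X : Fin M.d → ℝ} (hX : X ∈ M.R i) : M.pr i X ∈ M.R i := by
  intro l hl
  rw [h97_pr_apply]
  refine Finset.sum_eq_zero fun j _ => ?_
  by_cases h : M.pr i (M.e j) l = 0
  · rw [h, mul_zero]
  · have h1 := ((M.isPr i).tri j l h).2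
    have h2 : M.dir l = M.dir j := by simp only [dir, kap, h1]
    rw [hX j (h2 ▸ hl), zero_mul]

theorem h97_pr_tri (i : M.Cl) {X : Fin M.d → ℝ} {l : Fin M.d} (hl : l ∈ M.Qs i)
    (hX : ∀ j < l, X j = 0) : M.pr i X l = X l := by
  rw [h97_pr_apply, Finset.sum_eq_single l]
  · rw [(M.isPr i).fix (M.e l) fun l' hl' => Pi.single_eq_of_ne (ne_of_mem_of_not_mem hl hl').symm _]
    simp [e]
  · intro j _ hj
    rcases lt_or_gt_of_ne hj with h | h
    · rw [hX j h, zero_mul]
    · by_cases h0 : M.pr i (M.e j) l = 0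
      · rw [h0, mul_zero]
      · exact absurd ((M.isPr i).tri j l h0).1 (not_le.2 h)
  · simp

theorem h97_exists_F (i : M.Cl) : ∃ F : M.R i → M.R i,
    (∀ s, MeasurableSet s → vE (M.R i) (F '' s) = vE (M.R i) s) ∧
      ∀ X j, (F X).1 j = if j ∈ M.Qs i then M.pr i X.1 j else X.1 j := by
  let N : (Fin M.d → ℝ) →ₗ[ℝ] (Fin M.d → ℝ) := LinearMap.pi fun j =>
    if j ∈ M.Qs i then (LinearMap.proj j).comp (M.pr i) else LinearMap.proj j
  have hN : ∀ X j, N X j = if j ∈ M.Qs i then M.pr i X j else X j := fun X j => by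
    simp only [N, LinearMap.pi_apply]
    split_ifs <;> rfl
  have hR : ∀ X ∈ M.R i, N X ∈ M.R i := fun X hX j hj => by
    rw [hN, M.h97_pr_R i hX j hj, hX j hj, ite_self]
  have htri : ∀ (X X' : Fin M.d → ℝ) l, (∀ j < l, X j = X' j) →
      N X l - X l = N X' l - X' l := fun X X' l h => by
    rw [hN, hN]
    split_ifs with hl
    · have := M.h97_pr_tri i (X := X - X') hl fun j hj => sub_eq_zero.2 (h j hj)
      rw [map_sub, Pi.sub_apply, Pi.sub_apply] at this
      linarith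
    · rw [sub_self, sub_self]
  refine ⟨N.restrict hR, fun s hs => tri_vol (vE (M.R i)) (M.R i).subtype
    (M.R i).injective_subtype _ (LinearMap.toContinuousLinearMap (N.restrict hR)).differentiable
    (fun X X' h => Subtype.ext (funext fun l => ?_)) (fun X X' l h => htri X X' l h) hs,
    fun X j => hN X j⟩
  have h1 : N X = N X' := congrArg Subtype.val h
  induction l using WellFoundedLT.induction with
  | ind l ih =>
    have := htri X X' l ih
    rw [h1] at this
    linarith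

/-- the map replacing the coordinates in `Qs i` by those of `pr i X` is linear, unipotent triangular
and preserves `R i` (`IsPr.tri`, `IsPr.fix`), so it preserves the volume (`tri_vol`); `vol_box_R`,
`dim_eq` -/
theorem vol_slab_R (T : ℝ) : ∃ C : ℝ, 0 < C ∧ ∀ (i : M.Cl) (a b : ℝ),
    (vE (M.R i)).real {X | (∀ j, |X.1 j| ≤ T * Real.exp (M.kap j * b)) ∧
        ∀ j, |M.pr i X.1 j| ≤ T * Real.exp (M.mult i j * a)} ≤
      C * Real.exp (-(M.dim i * (b - a))) * (vE (M.R i)).real (Subtype.val ⁻¹' M.RD i b) := by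
  classical
  have hT : T ≤ |T| + 1 := by linarith [le_abs_self T]
  have hT1 : 1 ≤ |T| + 1 := by linarith [abs_nonneg T]
  refine ⟨(|T| + 1) ^ M.d, by positivity, fun i a b => ?_⟩
  obtain ⟨c, hc, hv⟩ := M.vol_box_R i
  obtain ⟨F, hF, hFj⟩ := M.h97_exists_F i
  have hcont : Continuous (M.pr i) := (M.pr i).continuous_of_finiteDimensional
  have hm : MeasurableSet {X : M.R i | (∀ j, |X.1 j| ≤ T * Real.exp (M.kap j * b)) ∧
      ∀ j, |M.pr i X.1 j| ≤ T * Real.exp (M.mult i j * a)} := by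
    simp only [Set.ofPred_and, Set.ofPred_forall]
    exact IsClosed.measurableSet (IsClosed.inter
      (isClosed_iInter fun j => isClosed_le
        ((continuous_apply j).comp continuous_subtype_val).abs continuous_const)
      (isClosed_iInter fun j => isClosed_le
        ((continuous_apply j).comp (hcont.comp continuous_subtype_val)).abs continuous_const))
  set σ : Fin M.d → ℝ := fun j => (|T| + 1) * Real.exp (M.kap j * b) *
    Real.exp (if j ∈ M.Qs i then -(M.mult i j * (b - a)) else 0) with hσ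
  have hσ0 : ∀ j, 0 ≤ σ j := fun j => by positivity
  have hsub : F '' {X : M.R i | (∀ j, |X.1 j| ≤ T * Real.exp (M.kap j * b)) ∧
      ∀ j, |M.pr i X.1 j| ≤ T * Real.exp (M.mult i j * a)} ⊆ {X | ∀ j, |X.1 j| ≤ σ j} := by
    rintro _ ⟨X, hX, rfl⟩ j
    by_cases hj : M.dir j = M.χ i
    · rw [hFj, hσ]
      dsimp only
      split_ifs with hq
      · refine (hX.2 j).trans ?_
        rw [mul_assoc, ← Real.exp_add, mult, if_pos hj,
          show M.kap j * b + -(M.kap j * (b - a)) = M.kap j * a by ring]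
        exact mul_le_mul_of_nonneg_right hT (Real.exp_pos _).le
      · rw [Real.exp_zero, mul_one]
        exact (hX.1 j).trans (mul_le_mul_of_nonneg_right hT (Real.exp_pos _).le)
    · rw [(F X).2 j hj, abs_zero]
      exact hσ0 j
  have hRD : (Subtype.val ⁻¹' M.RD i b : Set (M.R i)) =
      {X | ∀ j, |X.1 j| ≤ Real.exp (M.kap j * b)} := by
    ext X
    exact ⟨fun h => h.2, fun h => ⟨X.2, h⟩⟩
  have hle := measure_mono (μ := vE (M.R i)) hsub
  rw [hF _ hm, hv σ hσ0] at hle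
  have hP : 0 ≤ ∏ j with M.dir j = M.χ i, Real.exp (M.kap j * b) := by positivity
  rw [measureReal_def, measureReal_def, hRD, hv _ fun j => (Real.exp_pos _).le,
    ENNReal.toReal_ofReal (mul_nonneg hc.le hP)]
  refine (ENNReal.toReal_le_of_le_ofReal
    (mul_nonneg hc.le (Finset.prod_nonneg fun j _ => hσ0 j)) hle).trans ?_
  have hs : ∑ j with M.dir j = M.χ i, (if j ∈ M.Qs i then -(M.mult i j * (b - a)) else 0) =
      -(M.dim i * (b - a)) := by
    rw [Finset.sum_filter_of_ne, Finset.sum_ite_mem, Finset.univ_inter, dim_eq, Finset.sum_mul,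
      Finset.sum_neg_distrib]
    intro j _ h
    by_contra hj
    simp [mult, hj] at h
  rw [hσ, Finset.prod_mul_distrib, Finset.prod_mul_distrib, ← Real.exp_sum _ fun j =>
    if j ∈ M.Qs i then -(M.mult i j * (b - a)) else 0, hs, Finset.prod_const]
  have hp : (|T| + 1) ^ (Finset.univ.filter fun j => M.dir j = M.χ i).card ≤ (|T| + 1) ^ M.d :=
    pow_le_pow_right₀ hT1 ((Finset.card_le_univ _).trans_eq (Fintype.card_fin _))
  have := mul_le_mul_of_nonneg_right hp
    (mul_nonneg (mul_nonneg hc.le hP) (Real.exp_pos (-(M.dim i * (b - a)))).le)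
  linarith

variable {M} in
/-- Fix `X₁ ∈ RD i b` with `g * (ex X₁)⁻¹ = ex P₁`, `P₁ ∈ P`.  For another such `X`, with `P'`,
`u = bc X (-X₁) = bc (-P') P₁` lies in the set of `vol_slab_R` (`RD_bc`, `exists_bc`, `Ih_quo`,
`sub_R`), and `X = bc u X₁`; `Sub.vol_rt`, `Cont.unif_real`, `body_RD`. -/
theorem nuR_small [TopologicalSpace G] [MeasurableSpace G] [BorelSpace G] (hM : M.Cont) :
    ∃ C : ℝ, 0 < C ∧ ∀ (a : M.Cl → ℝ) (i : M.Cl) (b : ℝ) (P : Set (Fin M.d → ℝ)),
      (∀ X ∈ P, M.In top a 1 X) → IsCompact P → ∀ g : G,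
        (M.nuR i b).real {n | g * n⁻¹ ∈ M.ex '' P} ≤ C * Real.exp (-(M.dim i * (b - a i))) := by
  obtain ⟨C₁, hC₁, h₁⟩ := M.RD_bc
  obtain ⟨C₂, hC₂, h₂⟩ := M.exists_bc 1
  obtain ⟨A, hA, hq⟩ := M.Ih_quo
  obtain ⟨C, hC, hv⟩ := M.vol_slab_R (C₁ + A * C₂)
  refine ⟨C, hC, fun a i b P hP hPc g => ?_⟩
  have := hM.topGroup
  have := hM.t2
  have hAC : 0 ≤ A * C₂ := by positivity
  have hmeas : MeasurableSet {n : G | g * n⁻¹ ∈ M.ex '' P} :=
    ((hPc.image hM.continuous_ex).isClosed.preimage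
      (f := fun n : G => g * n⁻¹) (by fun_prop)).measurableSet
  have hB := M.body_RD i b
  have hpos : 0 < (vE (M.R i)).real (Subtype.val ⁻¹' M.RD i b) :=
    ENNReal.toReal_pos hB.vE_ne_zero hB.vE_ne_top
  rw [nuR, hM.unif_real hB hmeas, div_le_iff₀ hpos]
  rcases (Subtype.val ⁻¹' M.RD i b ∩
    {X : M.R i | M.ex X ∈ {n : G | g * n⁻¹ ∈ M.ex '' P}}).eq_empty_or_nonempty with h0 | h0
  · rw [h0, measureReal_empty]
    positivity
  obtain ⟨X₁, hX₁, P₁, hP₁, e₁⟩ := h0
  refine le_trans ?_ (hv i (a i) b)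
  set S : Set (M.R i) := {X | (∀ j, |X.1 j| ≤ (C₁ + A * C₂) * Real.exp (M.kap j * b)) ∧
    ∀ j, |M.pr i X.1 j| ≤ (C₁ + A * C₂) * Real.exp (M.mult i j * a i)} with hS
  have hSc : IsClosed S := by
    have c1 : Continuous fun X : M.R i => M.pr i X.1 :=
      (LinearMap.continuous_of_finiteDimensional (M.pr i)).comp continuous_subtype_val
    rw [hS, Set.ofPred_and, Set.ofPred_forall, Set.ofPred_forall]
    refine IsClosed.inter (isClosed_iInter fun j => isClosed_le ?_ continuous_const)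
      (isClosed_iInter fun j => isClosed_le ?_ continuous_const)
    · exact ((continuous_apply j).comp continuous_subtype_val).abs
    · exact ((continuous_apply j).comp c1).abs
  have hSb : Bornology.IsBounded S := by
    refine isBounded_iff_forall_norm_le.2
      ⟨∑ j, (C₁ + A * C₂) * Real.exp (M.kap j * b), fun X hX => ?_⟩
    have hn : 0 ≤ ∑ j, (C₁ + A * C₂) * Real.exp (M.kap j * b) :=
      Finset.sum_nonneg fun j _ => by positivity
    refine (pi_norm_le_iff_of_nonneg (x := X.1) hn).2 fun j => (hX.1 j).trans ?_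
    exact Finset.single_le_sum (f := fun j => (C₁ + A * C₂) * Real.exp (M.kap j * b))
      (fun j _ => by positivity) (Finset.mem_univ j)
  have hvol := (M.sub_R i).vol_rt X₁.2 hSc.measurableSet
  have e : (vE (M.R i)).real S = (vE (M.R i)).real ((M.sub_R i).rt X₁.2 '' S) := by
    simp only [Measure.real, hvol]
  rw [e]
  refine measureReal_mono ?_ (by rw [hvol]; exact hSb.measure_lt_top.ne)
  rintro X ⟨hX, P', hP', e'⟩
  have eu : M.bc X.1 (-X₁.1) = M.bc (-P') P₁ := M.ex_inj (by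
    rw [← ex_mul', ← ex_mul', ex_neg, ex_neg, e₁, e']; group)
  refine ⟨⟨M.bc X.1 (-X₁.1), (M.sub_R i).bc_mem X.2 ((M.R i).neg_mem X₁.2)⟩, ⟨fun j => ?_,
    fun j => ?_⟩, Subtype.ext ?_⟩
  · refine (h₁ i b _ hX _ (hB.neg _ hX₁) j).trans ?_
    exact mul_le_mul_of_nonneg_right (by linarith) (Real.exp_pos _).le
  · have hI : M.Ih a C₂ (M.bc (-P') P₁) :=
      ⟨_, 0, h₂ a _ _ (hP _ hP').neg (hP _ hP₁), M.N0.zero_mem, by rw [norm_zero]; linarith,
        (add_zero _).symm⟩
    refine (le_of_eq (by rw [← eu])).trans ((hq a i _ _ hI j).trans ?_)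
    exact mul_le_mul_of_nonneg_right (by linarith) (Real.exp_pos _).le
  · show M.bc (M.bc X.1 (-X₁.1)) X₁.1 = X.1
    rw [bc_assoc, neg_bc_cancel, bc_zero]

end LieModel

end Crest.Agent.R182
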