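import Crest.Agent.R182.LD3
import Crest.Agent.R182.LD4

/-! Row 182, block L2c: the lower counts `zig0` and `zig`. -/

set_option autoImplicit false
set_option linter.dupNamespace false

namespace Crest.Agent.R182

open MeasureTheory Filter

namespace LieModel

variable {G : Type} [Group G] {k : ℕ} (M : LieModel G k)

theorem zig_box [TopologicalSpace G] [MeasurableSpace G] [BorelSpace G] (hM : M.Cont) :
    ∃ N : ℕ, ∀ θ : ℝ, 0 < θ → ∀ σ : ℕ, ∃ K : ℝ, 0 < K ∧ ∀ a : M.Cl → ℝ,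
    ∀ (ν : Measure G) [IsProbabilityMeasure ν] (R : Set G), (∀ᵐ n ∂ν, n ∈ R) →
    ∀ ρ' : ℝ, (∀ n ∈ R, ∃ u ∈ M.E, ‖u‖ ≤ ρ' ∧ n = M.ex u) → ∀ w : ℝ, 0 < w →
      (∀ P : Set (Fin M.d → ℝ), (∀ X ∈ P, M.In top a 1 X) → IsCompact P →
        ∀ g, ν.real {n | g * n⁻¹ ∈ M.ex '' P} ≤ w) →
    ∃ Z : Sch G, Z.size ≤ N ∧ Z.Let (fun g => ∃ j, g ∈ M.RB j (a j)) ∧ ∀ A : List G → Set G,
      (∀ w, MeasurableSet (A w)) → θ ≤ Z.avg (fun w => ν.real (A w)) →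
      ∃ Y : Finset G, Sep M.Sg σ Y ∧
        (∀ y ∈ Y, ∃ w, Z.Mem w ∧ ∃ n ∈ A w, n ∈ R ∧ y = w.prod * n) ∧
        Real.exp (Vol M.bw a) / (K * w) ≤ Y.card := by
  obtain ⟨D, Λ₀, κ, hκ, hE⟩ := exists_coord M.E
  obtain ⟨C₁, hC₁, h₁⟩ := M.zg_in
  obtain ⟨C₂, hC₂, h₂⟩ := M.det_up hκ hE
  obtain ⟨C₃, hC₃, h₃⟩ := M.det_low hκ hE
  refine ⟨D * (2 * M.d + 3) + 1, fun θ hθ σ => ?_⟩
  obtain ⟨K, hK, h⟩ := zig_core hM hκ hE M.d (C := C₁ + C₂ + C₃) (by linarith) hθ σ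
  refine ⟨K, hK, fun a ν _ R hR ρ' hRE w hw hsm => ?_⟩
  obtain ⟨ρ, hρ⟩ := M.in_bdd a
  obtain ⟨L, y, hL, hy, hlow⟩ := h₃ a
  refine h (fun t => {X | M.In top a t X})
    { h₁ a with br := fun s t hs ht X hX Y hY => (h₁ a).mono _ _ ?_ ((h₁ a).br s t hs ht X hX Y hY) }
    ρ hρ _ (Real.exp_pos _) (fun u hu => (h₂ a u hu).trans ?_) L y hL _ (fun i X hX => ?_)
    (hlow.trans ?_) ν R hR ρ' hRE w hw hsm
  · exact mul_le_mul_of_nonneg_right (mul_le_mul_of_nonneg_right (by linarith) hs) ht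
  · exact mul_le_mul_of_nonneg_right (by linarith) (Real.exp_pos _).le
  · obtain ⟨h1, j, h2⟩ := hy i X hX
    refine ⟨h1, fun t ht => ⟨j, t • X, ⟨(M.R j).smul_mem t h2.1, fun l => ?_⟩, rfl⟩⟩
    rw [Pi.smul_apply, smul_eq_mul, abs_mul]
    exact (mul_le_of_le_one_left (abs_nonneg _) ht).trans (h2.2 l)
  · exact mul_le_mul_of_nonneg_right (by linarith) (abs_nonneg _)

theorem zig [TopologicalSpace G] [MeasurableSpace G] [BorelSpace G] (hM : M.Cont) :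
    ∀ᶠ K in atTop, M.SZig K := by
  obtain ⟨N, hN⟩ := M.zig_box hM
  obtain ⟨C, hC, hs⟩ := nuR_small hM
  filter_upwards [eventually_ge_atTop N] with K hK θ hθ σ
  obtain ⟨K', hK', h⟩ := hN θ hθ σ
  refine ⟨Real.log (K' * C), fun a _ i b _ => ?_⟩
  have hb := M.body_RD i b
  have : IsProbabilityMeasure (M.nuR i b) := hM.unif_prob hb
  obtain ⟨ρ, hρ⟩ := hb.compact.isBounded.exists_norm_le
  obtain ⟨Z, h1, h2, h3⟩ := h a (M.nuR i b) (M.RB i b) (hM.unif_ae hb) ρ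
    (by rintro _ ⟨u, hu, rfl⟩; exact ⟨u, M.R_le_E i hu.1, hρ u hu, rfl⟩) _
    (mul_pos hC (Real.exp_pos _)) (hs a i b)
  refine ⟨Z, h1.trans hK, h2, fun A hA hav => ?_⟩
  obtain ⟨Y, h4, h5, h6⟩ := h3 A hA hav
  refine ⟨Y, h4, h5, le_of_eq_of_le ?_ h6⟩
  rw [Real.exp_sub, Real.exp_add, Real.exp_log (by positivity), Real.exp_neg]
  field_simp

theorem zig0 : ∀ᶠ K in atTop, M.SZig0 K := by
  classical
  obtain ⟨_, hM⟩ := M.exists_top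
  let _ : MeasurableSpace G := borel G
  have : BorelSpace G := ⟨rfl⟩
  have := hM.t2
  obtain ⟨N, hN⟩ := M.zig_box hM
  filter_upwards [eventually_ge_atTop N] with K hK θ hθ σ
  obtain ⟨K', hK', h⟩ := hN θ hθ σ
  refine ⟨Real.log K', fun a _ => ?_⟩
  obtain ⟨Z, h1, h2, h3⟩ := h a (Measure.dirac 1) {1} (by simp) 0
    (by rintro _ rfl; exact ⟨0, M.E.zero_mem, by simp, M.ex_zero.symm⟩) 1 one_pos
    fun _ _ _ _ => measureReal_le_one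
  refine ⟨Z, h1.trans hK, h2, fun A hav => ?_⟩
  obtain ⟨Y, h4, h5, h6⟩ := h3 (fun w => if w ∈ A then Set.univ else ∅)
    (fun w => by split_ifs <;> simp) (hav.trans_eq (congrArg Z.avg (funext fun w => by
      by_cases hw : w ∈ A <;> simp [hw])))
  refine ⟨Y, h4, fun y hy => ?_, le_of_eq_of_le ?_ h6⟩
  · obtain ⟨w, hw, n, hn, rfl, rfl⟩ := h5 y hy
    exact ⟨w, by_contra fun h => by simp [h] at hn, hw, mul_one _⟩
  · rw [Real.exp_sub, Real.exp_log hK', mul_one]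

end LieModel

end Crest.Agent.R182
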