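import Crest.Agent.R182.LBAll
import Crest.Agent.R182.LD

/-! Row 182, block L2: the geometric interface of a `LieModel`. -/

set_option autoImplicit false
set_option linter.dupNamespace false

namespace Crest.Agent.R182

theorem lieGeo : LieGeo :=
  lieGeo_of (fun _ _ _ M => M.zig0) fun _ _ _ M _ _ _ hM => M.zig hM

end Crest.Agent.R182
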