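import Crest.Agent.R182.MP3

/-! Row 182, block M3: from lines to balls. -/

set_option autoImplicit false
set_option linter.dupNamespace false
set_option linter.unusedSectionVars false

namespace Crest.Agent.R182

open Crest.GroupTheory MeasureTheory Filter

namespace Geo

variable {G : Type} [Group G] [MeasurableSpace G] {k : ℕ} (X : Geo G k)
  [MeasurableMul₂ G] [MeasurableInv G]

/-- labels rarely change under elements of the ball of radius `Q n` -/
def PS.Stab {X : Geo G k} {c : ℕ} {𝒯 : Finset G} (D : X.PS c 𝒯) {Y : Type}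
    (φ : Module.End ℝ (Fin k → ℝ) → Y) (Q κ : ℕ) : Prop :=
  ∀ θ : ℝ, 0 < θ → ∀ᶠ s in atTop, ∀ R : ℕ, ∀ g ∈ Ball (X.SC : Set G) (Q * D.n s),
    R + κ * D.n s ≤ D.j s → (D.m s R).real (Chg (fun y => φ (D.lab s y)) g) ≤ θ

/-- `line_sign` for all `t ∈ T` (`eventually_all_finset`) with exponents up to `C Q n`; `Cone` turns the
label into `sg v`; negative exponents by `chg_inv`, `om_shift`, `zpow_ball`; `om_chg_list` -/
theorem ball_sign (hVP : X.VP) {C Q : ℕ} (hC : 1 ≤ C) (hQ : 1 ≤ Q) : ∃ κ : ℕ, ∀ (c : ℕ)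
    (𝒯 T : Finset G) (v : Fin k → ℝ) (D : X.PS c 𝒯), T ⊆ 𝒯 → X.Cone v T → X.PowGen T C →
      D.Stab (X.sg v) Q κ := by
  refine ⟨C * (C * Q * C) + C * Q * C + 3 * C * (C * Q + 1), fun c 𝒯 T v D hT hv hp θ hθ => ?_⟩
  have hC0 : (0 : ℝ) < C := by exact_mod_cast hC
  have h1 := (eventually_all_finset T).2 fun t ht =>
    X.line_sign hVP hC (Q := C * Q) (Nat.mul_pos hC hQ) D (hT ht) (hp.1 t ht) (hv t ht).1
      (div_pos hθ hC0)
  filter_upwards [h1] with s hs R g hg hR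
  obtain ⟨l, hl, hl2, rfl⟩ := hp.2 _ g hg
  have hf : Step fun y => X.sg v (D.lab s y) := (D.lstep s).comp _
  set u := C * (Q * D.n s) * C with hu
  have hb : ∀ p ∈ l, p.1 ^ p.2 ∈ Ball (X.SC : Set G) u := fun p hp' =>
    zpow_ball (hp.1 _ (hl2 p hp').1) (hl2 p hp').2
  have hR' : R + C * u + u + 3 * C * (C * Q + 1) * D.n s ≤ D.j s := by
    refine le_trans (le_of_eq ?_) hR
    rw [hu]; ring
  have h2 := om_chg_list (S := X.SC) (ζ := D.ζ s) (j := D.j s) (R := R) (R' := R + C * u) (u := u) hf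
    (l.map fun p => p.1 ^ p.2) (θ := θ / C)
    (fun h hh => by obtain ⟨p, hp', rfl⟩ := List.mem_map.1 hh; exact hb p hp')
    (by rw [List.length_map]; exact Nat.add_le_add_left (Nat.mul_le_mul_right _ hl) _)
    (fun h hh => by
      obtain ⟨p, hp', rfl⟩ := List.mem_map.1 hh
      have ht := (hl2 p hp').1
      have e1 : (fun y => X.sg (X.π p.1) (D.lab s y)) = fun y => X.sg v (D.lab s y) :=
        funext fun y => (hv _ ht).2 _ (D.isW s y)
      have h3 := hs _ ht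
      rw [e1] at h3
      have h4 : p.2.natAbs ≤ C * Q * D.n s := by
        have h5 := (hl2 p hp').2
        rw [← Int.natCast_natAbs, ← mul_assoc] at h5
        exact_mod_cast h5
      have h6 := hb p hp'
      rcases Int.natAbs_eq p.2 with h | h
      · rw [h, zpow_natCast]
        exact h3 _ _ h4 (by omega)
      · rw [h, zpow_neg, zpow_natCast] at h6 ⊢
        rw [chg_inv]
        exact (om_shift (Chg.meas hf _) h6 le_rfl).trans (h3 _ _ h4 hR'))
  refine h2.trans ?_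
  rw [List.length_map]
  calc (l.length : ℝ) * (θ / C) ≤ C * (θ / C) := by
        gcongr
    _ = θ := by field_simp
/-- union bound over the cones (`measureReal_biUnion_finset_le`) -/
theorem ball_lab {c Q κ : ℕ} {𝒯 : Finset G} (D : X.PS c 𝒯) (𝒞 : Finset ((Fin k → ℝ) × Finset G))
    (h : ∀ p ∈ 𝒞, D.Stab (X.sg p.1) Q κ)
    (hs : ∀ w w', X.IsW w → X.IsW w' → (∀ p ∈ 𝒞, X.sg p.1 w = X.sg p.1 w') → w = w') :
    D.Stab id Q κ := by
  intro θ hθ
  have h0 : (0 : ℝ) < 𝒞.card + 1 := by positivity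
  have h1 := (eventually_all_finset 𝒞).2 fun p hp => h p hp _ (div_pos hθ h0)
  filter_upwards [h1] with s hs' R g hg hR
  have h2 : Chg (fun y => id (D.lab s y)) g ⊆
      ⋃ p ∈ 𝒞, Chg (fun y => X.sg p.1 (D.lab s y)) g := by
    intro x hx
    by_contra hc
    simp only [Set.mem_iUnion, not_exists, Chg, Set.mem_ofPred_eq, not_not] at hc
    exact hx (hs _ _ (D.isW s _) (D.isW s _) hc)
  calc (D.m s R).real (Chg (fun y => id (D.lab s y)) g)
      ≤ ∑ p ∈ 𝒞, (D.m s R).real (Chg (fun y => X.sg p.1 (D.lab s y)) g) :=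
        (measureReal_mono h2 (measure_ne_top _ _)).trans (measureReal_biUnion_finset_le _ _)
    _ ≤ ∑ _p ∈ 𝒞, θ / (𝒞.card + 1) := Finset.sum_le_sum fun p hp => hs' p hp R g hg hR
    _ ≤ θ := by
      rw [Finset.sum_const, nsmul_eq_mul, mul_div_assoc', div_le_iff₀ h0]
      nlinarith
/-- `dev_det`, `markov_cnt` (each event has measure at most `1 / (s + 1) + θ'` by `D.dev`, `om_shift`,
`Dev.anti` and `hst`), `r ≤ n / (s + 1)` -/
theorem line_dev {c C Q κ : ℕ} (hC : 1 ≤ C) {𝒯 : Finset G} (D : X.PS c 𝒯) {t : G} (ht : t ∈ 𝒯)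
    (htC : t ∈ Ball (X.SC : Set G) C) (hst : D.Stab id (Q * C) κ) {ε θ : ℝ} (hε : 0 < ε)
    (hθ : 0 < θ) : ∀ᶠ s in atTop, ∀ R e : ℕ, e ≤ Q * D.n s → R + (κ + Q * C) * D.n s ≤ D.j s →
      (D.m s R).real (X.Dev (D.ψ s) (D.lab s) (t ^ e) (ε * D.n s)) ≤ θ := by
  obtain ⟨K₂, hK, h⟩ := X.dev_det c C hC
  have hQ0 : (0 : ℝ) ≤ Q := Q.cast_nonneg
  obtain ⟨δ, hδ, hδε⟩ : ∃ δ : ℝ, 0 < δ ∧ K₂ * (δ * (Q + 1)) ≤ ε := by
    refine ⟨ε / ((K₂ + 1) * (Q + 1)), by positivity, ?_⟩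
    have e1 : K₂ * (ε / ((K₂ + 1) * (Q + 1)) * (Q + 1)) = ε * (K₂ / (K₂ + 1)) := by field_simp
    rw [e1]
    exact mul_le_of_le_one_right hε.le (div_le_one_of_le₀ (by linarith) (by positivity))
  have hp : 0 < θ * δ / 2 := by positivity
  filter_upwards [ev_small hδ, ev_small hp, hst _ hp] with s h1 h2 h3 R e he hR
  have hr := D.r_pos s
  have hr0 : (0 : ℝ) ≤ D.r s := Nat.cast_nonneg _
  have hn0 : (0 : ℝ) ≤ D.n s := Nat.cast_nonneg _
  have hD := Dev.meas X (D.step s) (D.lstep s)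
  have hE : ∀ l : ℕ, MeasurableSet ({y | y * t ^ (l * D.r s) ∈
      X.Dev (D.ψ s) (D.lab s) (t ^ D.r s) (δ * D.r s)} ∪ Chg (D.lab s) (t ^ (l * D.r s))) :=
    fun l => (meas_shift (hD _ _) _).union (Chg.meas (D.lstep s) _)
  have hM := markov_cnt (D.m s R) hE (e / D.r s) (p := θ * δ) (by positivity) hδ fun l hl => by
    have hl1 : l * D.r s ≤ Q * D.n s :=
      ((Nat.mul_le_mul_right _ hl.le).trans (Nat.div_mul_le_self _ _)).trans he
    have hb : t ^ (l * D.r s) ∈ Ball (X.SC : Set G) (Q * C * D.n s) := by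
      refine Ball.mono subset_rfl ?_ (Ball.pow_mem htC _)
      rw [mul_right_comm Q]
      exact Nat.mul_le_mul_right _ hl1
    rw [add_mul] at hR
    have g1 := om_shift (ζ := D.ζ s) (j := D.j s) (R := R) (R' := D.j s)
      (hD (t ^ D.r s) (δ * D.r s)) hb (by omega)
    have g2 : (D.m s (D.j s)).real (X.Dev (D.ψ s) (D.lab s) (t ^ D.r s) (δ * D.r s)) ≤
        1 / (s + 1) :=
      (measureReal_mono (Dev.anti X _ _ _ (mul_le_mul_of_nonneg_right h1 hr0))).trans
        (D.dev s t ht)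
    have g3 := h3 R _ hb (by omega)
    refine (measureReal_union_le _ _).trans ?_
    have g4 : (D.m s R).real (Chg (D.lab s) (t ^ (l * D.r s))) ≤ θ * δ / 2 := g3
    linarith
  rw [mul_div_assoc, div_self hδ.ne', mul_one] at hM
  refine (measureReal_mono fun x hx => ?_).trans hM
  by_contra hc
  have h4 := h (D.ψ s) (D.lab s) t x (D.r s) e δ (D.qi s) (D.isW s) htC hr hδ.le (not_lt.1 hc)
  have h5 : (e : ℝ) ≤ Q * D.n s := by exact_mod_cast he
  have h6 : ((s : ℝ) + 1) * D.r s ≤ D.n s := by exact_mod_cast D.r_le s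
  have h7 : (D.r s : ℝ) ≤ δ * D.n s := by
    have hs : (0 : ℝ) < s + 1 := by positivity
    rw [div_le_iff₀ hs] at h1
    nlinarith
  have h8 : K₂ * (δ * e + D.r s) ≤ K₂ * (δ * (Q + 1)) * D.n s := by
    rw [mul_assoc]
    refine mul_le_mul_of_nonneg_left ?_ hK
    nlinarith
  have h9 := mul_le_mul_of_nonneg_right hδε hn0
  exact absurd hx (not_lt.2 (h4.trans (h8.trans h9)))

/-- `line_dev` with `Q = 2 C` for all `t ∈ T`, negative exponents by `dev_inv`, `om_shift`; `om_dev_list` -/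
theorem ball_dev {c C κ : ℕ} (hC : 1 ≤ C) {𝒯 T : Finset G} (D : X.PS c 𝒯) (hT : T ⊆ 𝒯)
    (hp : X.PowGen T C) (hst : D.Stab id (2 * C * C) κ) {ε θ : ℝ} (hε : 0 < ε) (hθ : 0 < θ) :
    ∀ᶠ s in atTop, ∀ g ∈ Ball (X.SC : Set G) (2 * D.n s),
      D.n s + (κ + 6 * C * C * C) * D.n s ≤ D.j s →
        (D.m s (D.n s)).real (X.Dev (D.ψ s) (D.lab s) g (ε * D.n s)) ≤ θ := by
  have hC' : (1 : ℝ) ≤ C := by exact_mod_cast hC
  have hε' : 0 < ε / C := by positivity
  have hθ' : 0 < θ / (4 * C) := by positivity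
  have hall := (eventually_all_finset T).2 fun t ht =>
    X.line_dev (Q := 2 * C) hC D (hT ht) (hp.1 t ht) hst hε' hθ'
  filter_upwards [hall, hst _ hθ'] with s h1 h2 g hg hj
  obtain ⟨l, hl1, hl2, rfl⟩ := hp.2 _ g hg
  have hn0 : (0 : ℝ) ≤ D.n s := Nat.cast_nonneg _
  have hD := Dev.meas X (D.step s) (D.lstep s)
  set n := D.n s with hn
  have hu : 2 * C * C * n ≤ C * (2 * C * C * n) := Nat.le_mul_of_pos_left _ hC
  have hj' : n + κ * n + 3 * (C * (2 * C * C * n)) ≤ D.j s := by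
    refine le_trans (le_of_eq ?_) hj
    ring
  have hb : ∀ p ∈ l, p.1 ^ p.2 ∈ Ball (X.SC : Set G) (2 * C * C * n) := fun p hp' => by
    have := zpow_ball (hp.1 _ (hl2 p hp').1) (hl2 p hp').2
    rwa [show C * (2 * n) * C = 2 * C * C * n by ring] at this
  have hchg : ∀ p ∈ l, (D.m s (n + C * (2 * C * C * n))).real (Chg (D.lab s) (p.1 ^ p.2)) ≤
      θ / (4 * C) := fun p hp' => h2 _ _ (hb p hp') (by omega)
  have hL : ((l.map fun p => p.1 ^ p.2).length : ℝ) ≤ C := by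
    rw [List.length_map]; exact_mod_cast hl1
  have key := X.om_dev_list (D.step s) (D.lstep s) (ζ := D.ζ s) (j := D.j s) (R := n)
    (R' := n + C * (2 * C * C * n)) (u := 2 * C * C * n) (l.map fun p => p.1 ^ p.2)
    (ρ := ε / C * n) (θ := θ / (2 * C)) (fun g hg => by
      obtain ⟨p, hp', rfl⟩ := List.mem_map.1 hg
      exact hb p hp') (by
      rw [List.length_map]
      exact Nat.add_le_add_left (Nat.mul_le_mul_right _ hl1) _) (fun g hg => by
      obtain ⟨⟨t, e⟩, hp', rfl⟩ := List.mem_map.1 hg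
      have e2 : θ / (2 * C) = θ / (4 * C) + θ / (4 * C) := by field_simp; ring
      have ht := (hl2 _ hp').1
      have he : e.natAbs ≤ 2 * C * n := by
        have := (hl2 _ hp').2
        rw [← Int.natCast_natAbs, Nat.cast_le] at this
        exact this.trans (le_of_eq (by ring))
      have hb' := hb _ hp'
      have hc' := hchg _ hp'
      dsimp only at hb' hc' ht ⊢
      obtain ⟨m, rfl | rfl⟩ := e.eq_nat_or_neg
      · rw [zpow_natCast]
        rw [Int.natAbs_natCast] at he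
        have := h1 t ht (n + C * (2 * C * C * n)) m he (by rw [add_mul]; omega)
        linarith
      · rw [zpow_neg, zpow_natCast] at hb' hc' ⊢
        rw [Int.natAbs_neg, Int.natAbs_natCast] at he
        have g1 := h1 t ht (n + C * (2 * C * C * n) + 2 * C * C * n) m he (by rw [add_mul]; omega)
        have g2 := om_shift (ζ := D.ζ s) (j := D.j s) (R := n + C * (2 * C * C * n))
          (hD (t ^ m) (ε / C * n)) hb' le_rfl
        refine ((measureReal_mono (X.dev_inv _ _ _ _)).trans (measureReal_union_le _ _)).trans ?_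
        linarith) (fun g hg => by
      obtain ⟨p, hp', rfl⟩ := List.mem_map.1 hg
      refine (hchg p hp').trans ?_
      gcongr
      norm_num)
  refine (measureReal_mono (Dev.anti X _ _ _ ?_)).trans (key.trans ?_)
  · refine (mul_le_mul_of_nonneg_right hL (by positivity)).trans (le_of_eq ?_)
    field_simp
  · refine (mul_le_mul_of_nonneg_right hL (by positivity)).trans (le_of_eq ?_)
    field_simp

theorem pure_core (hVP : X.VP) : ∃ (𝒯 : Finset G) (κ : ℕ), (∀ t ∈ 𝒯, X.Reg t) ∧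
    ∀ (c : ℕ) (D : X.PS c 𝒯) (ε θ : ℝ), 0 < ε → 0 < θ →
      ∀ᶠ s in atTop, ∀ g ∈ Ball (X.SC : Set G) (2 * D.n s), D.n s + κ * D.n s ≤ D.j s →
        (D.m s (D.n s)).real (X.Dev (D.ψ s) (D.lab s) g (ε * D.n s)) ≤ θ := by
  classical
  obtain ⟨𝒞, C, hC, ⟨p₀, hp₀⟩, h1, h2⟩ := X.exists_cones
  obtain ⟨κ, hκ⟩ := X.ball_sign hVP (Q := 2 * C * C) hC (by nlinarith)
  refine ⟨𝒞.biUnion fun p => p.2, κ + 6 * C * C * C, fun t ht => ?_, fun c D ε θ hε hθ => ?_⟩
  · obtain ⟨p, hp, ht⟩ := Finset.mem_biUnion.1 ht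
    exact ⟨Ball.mem_closure ((h1 p hp).2.1 t ht), fun i => ((h1 p hp).1 t ht).1 1 X.isW_one i⟩
  · have hsub : ∀ p ∈ 𝒞, p.2 ⊆ 𝒞.biUnion fun p => p.2 := fun p hp =>
      Finset.subset_biUnion_of_mem (fun p => p.2) hp
    exact X.ball_dev hC D (hsub p₀ hp₀) (h1 p₀ hp₀).2
      (X.ball_lab D 𝒞 (fun p hp => hκ c _ _ _ D (hsub p hp) (h1 p hp).1 (h1 p hp).2) h2) hε hθ

end Geo

end Crest.Agent.R182
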