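import Crest.Agent.R182.MP2
import Crest.Agent.R182.MP4

/-! Row 182, block M3: local purity. -/

set_option autoImplicit false
set_option linter.dupNamespace false
set_option linter.unusedSectionVars false

namespace Crest.Agent.R182

open Crest.GroupTheory MeasureTheory Filter

namespace Geo

variable {G : Type} [Group G] [MeasurableSpace G] {k : ℕ} (X : Geo G k)
  [MeasurableMul₂ G] [MeasurableInv G]

/-- the last step: union bound over a net, pigeonhole on the base point -/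
theorem pure_fin {c : ℕ} {B : ℝ}
    (hB : ∀ (ψ : G → G) (lab : G → Module.End ℝ (Fin k → ℝ))
      (m n : ℕ) (F : Finset G) (c₀ z : G) (ρ : ℝ), QI X.Sg X.Sg ψ c → (∀ x, X.IsW (lab x)) → 1 ≤ m →
      m ≤ n → (∀ g ∈ Ball (X.SC : Set G) (2 * n), ∃ f ∈ F, f⁻¹ * g ∈ Ball (X.SC : Set G) (2 * m)) →
      c₀ ∈ Ball (X.SC : Set G) m → (∀ f ∈ F, z * c₀ ∉ X.Dev ψ lab f ρ) →
        ∀ c' ∈ Ball (X.SC : Set G) n,
          ‖X.π (ψ (z * c')) - X.π (ψ z) - lab (z * c₀) (X.π c')‖ ≤ ρ + B * m)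
    {ψ : G → G} {lab : G → Module.End ℝ (Fin k → ℝ)} {ζ : Measure G} [IsProbabilityMeasure ζ]
    {m n j N M : ℕ} {ε θ : ℝ} (hq : QI X.Sg X.Sg ψ c) (hst : Step ψ) (hW : ∀ x, X.IsW (lab x))
    (hl : Step lab) (hm : 1 ≤ m) (hmn : m ≤ n) (hj : j ≤ N) (hn : 2 * n + m ≤ N)
    (hM : (FB X.SC N).card ≤ M * (FB X.SC m).card) (hθ : 0 ≤ θ) (hε : B * m ≤ ε / 2 * n)
    (h : ∀ g ∈ Ball (X.SC : Set G) (2 * n), (om X.SC ζ j n).real (X.Dev ψ lab g (ε / 2 * n)) ≤ θ) :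
    ζ.real {z | ¬ ∃ w, X.IsW w ∧ X.Lab ψ n ε z w} ≤ M * (M * θ) := by
  obtain ⟨F, hF1, hF2, hF3⟩ := exists_net X.SC (R := 2 * n) (m := m) (M := M)
    ((Finset.card_le_card (FB_mono _ hn)).trans hM)
  have hmeas : MeasurableSet (⋃ f ∈ F, X.Dev ψ lab f (ε / 2 * n)) :=
    Finset.measurableSet_biUnion F fun f _ => Dev.meas X hst hl f _
  have h1 : (om X.SC ζ j m).real (⋃ f ∈ F, X.Dev ψ lab f (ε / 2 * n)) ≤ M * θ := by
    refine (om_mono hmeas hmn).trans ((measureReal_biUnion_finset_le F _).trans ?_)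
    refine (Finset.sum_le_card_nsmul F _ θ fun f hf => h f (hF1 f hf)).trans ?_
    rw [nsmul_eq_mul]
    exact mul_le_mul_of_nonneg_right (by exact_mod_cast hF2) hθ
  obtain ⟨c₀, hc₀, h2⟩ := om_exists (M := M) hmeas (by positivity)
    (by exact_mod_cast (Finset.card_le_card (FB_mono _ hj)).trans hM) h1
  refine le_trans (measureReal_mono ?_) h2
  intro z hz
  by_contra hc
  refine hz ⟨lab (z * c₀), hW _, fun c' hc' => ?_⟩
  have := hB ψ lab m n F c₀ z (ε / 2 * n) hq hW hm hmn hF3 hc₀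
    (fun f hf hd => hc (Set.mem_biUnion hf hd)) c' hc'
  linarith

/-- BLOCK M3 -/
theorem pure (hVP : X.VP) (hS : X.Slopes) : X.Pure := by
  intro c
  obtain ⟨𝒯, κ, h𝒯, hcore⟩ := X.pure_core hVP
  obtain ⟨A₀, hA₀⟩ := X.inv_rinv
  obtain ⟨B, hB0, hB⟩ := X.lab_of_dev c
  refine ⟨2 * (κ + 2) * A₀, fun ε η' hε hη' => ?_⟩
  by_contra hcon
  obtain ⟨lam, hlam1, hlam⟩ : ∃ lam : ℕ, 1 ≤ lam ∧ B ≤ ε / 2 * lam := by
    obtain ⟨l, hl⟩ := exists_nat_ge (B / (ε / 2))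
    refine ⟨l + 1, by omega, ?_⟩
    rw [div_le_iff₀ (by positivity)] at hl
    push_cast
    nlinarith
  obtain ⟨M, hM1, hM⟩ := exists_scale X.nil (Λ := (κ + 2) * lam) (by nlinarith)
  have key : ∀ i : ℕ, ∃ (m j : ℕ) (ψ ψ' : G → G) (ζ : Measure G), i + 1 ≤ m ∧
      (κ + 2) * lam * m ≤ j ∧ j ≤ 2 * ((κ + 2) * lam * m) ∧
      (FB X.SC (2 * ((κ + 2) * lam * m))).card ≤ M * (FB X.SC m).card ∧
      ((FB X.SC (j + 1)).card : ℝ) ≤ (1 + 1 / (i + 1)) * (FB X.SC j).card ∧ X.QP c ψ ψ' ∧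
      IsProbabilityMeasure ζ ∧ X.RInv ζ j (1 / (i + 1)) ∧
      η' < ζ.real {z | ¬ ∃ w, X.IsW w ∧ X.Lab ψ (lam * m) ε z w} := by
    intro i
    by_contra hk
    refine hcon ⟨1 / (i + 1), by positivity, fun n₀ => ?_⟩
    obtain ⟨m, hm, j, h1, h2, h3, h4⟩ := hM (1 / (i + 1)) (by positivity) (max n₀ (i + 1))
    have hm1 : n₀ ≤ m := le_trans (le_max_left _ _) hm
    have hm2 : i + 1 ≤ m := le_trans (le_max_right _ _) hm
    refine ⟨lam * m, by nlinarith, fun ψ ψ' hψ ζ hζ hinv => ?_⟩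
    by_contra hlt
    refine hk ⟨m, j, ψ, ψ', ζ, hm2, h1, h2, h3, h4, hψ, hζ, ?_, not_le.1 hlt⟩
    have hj1 : 1 ≤ j := by
      refine le_trans ?_ h1
      have : 0 < (κ + 2) * lam * m := Nat.mul_pos (Nat.mul_pos (by omega) (by omega)) (by omega)
      omega
    refine hA₀ ζ j _ hj1 (hinv.mono (fun _ => ?_) le_rfl)
    have : A₀ * j ≤ 2 * (κ + 2) * A₀ * (lam * m) := by
      calc A₀ * j ≤ A₀ * (2 * ((κ + 2) * lam * m)) := Nat.mul_le_mul_left _ h2
        _ = _ := by ring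
    beta_reduce
    exact_mod_cast this
  choose m j ψ ψ' ζ k1 k2 k3 k4 k5 k6 k7 k8 k9 using key
  have hmn : ∀ i, m i ≤ lam * m i := fun i => Nat.le_mul_of_pos_left _ hlam1
  have hnj : ∀ i, lam * m i + κ * (lam * m i) + lam * m i ≤ j i := fun i => by
    refine le_trans (le_of_eq ?_) (k2 i)
    ring
  obtain ⟨φ, D, hD⟩ := X.exists_PS hS c 𝒯 h𝒯 ψ ψ' ζ (fun i => lam * m i) j k6 k7
    (fun i => by have := k1 i; have := hmn i; omega)
    (fun i => by have := k1 i; have := hmn i; have := hnj i; omega) k8 k5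
  have hMp : (0 : ℝ) < M := by exact_mod_cast hM1
  obtain ⟨s, hs⟩ := (hcore c D (ε / 2) (η' / (M * M)) (by positivity) (by positivity)).exists
  obtain ⟨e1, e2, e3, e4⟩ := hD s
  have hle : D.n s + κ * D.n s ≤ D.j s := by
    rw [e1, e2]
    have := hnj (φ s)
    omega
  have hfin := X.pure_fin hB (m := m (φ s)) (n := D.n s) (j := D.j s)
    (N := 2 * ((κ + 2) * lam * m (φ s))) (M := M) (ε := ε) (θ := η' / (M * M)) (ζ := D.ζ s)
    (D.qi s) (D.step s) (D.isW s) (D.lstep s) (by have := k1 (φ s); omega)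
    (by rw [e1]; exact hmn _) (by rw [e2]; exact k3 _)
    (by
      rw [e1]
      have h1 := hmn (φ s)
      have h2 : 2 * ((κ + 2) * lam * m (φ s)) = 2 * (κ * (lam * m (φ s))) + 4 * (lam * m (φ s)) := by
        ring
      omega)
    (k4 _) (by positivity)
    (by
      rw [e1]
      push_cast
      have : (0 : ℝ) ≤ m (φ s) := Nat.cast_nonneg _
      nlinarith)
    (fun g hg => hs g hg hle)
  have h9 := k9 (φ s)
  rw [e1, e3, e4] at hfin
  have : (M : ℝ) * (M * (η' / (M * M))) = η' := by field_simp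
  linarith

end Geo

end Crest.Agent.R182
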