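import Crest.Agent.R182.MDefs

/-! Row 182, middle: almost invariant measures, step maps, separated sets, schemes. -/

set_option autoImplicit false
set_option linter.dupNamespace false

namespace Crest.Agent.R182

open Crest.GroupTheory MeasureTheory

section meas

variable {G : Type} [Group G] [MeasurableSpace G] [MeasurableMul₂ G] [MeasurableInv G]
  {ζ : Measure G} {g h : G} {η η' : ℝ}

theorem TVr.mono (H : TVr ζ g η) (hη : η ≤ η') : TVr ζ g η' := by
  exact fun A hA => (H A hA).trans hη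

theorem TVl.mono (H : TVl ζ g η) (hη : η ≤ η') : TVl ζ g η' := by
  exact fun A hA => (H A hA).trans hη

theorem TVr.one (hη : 0 ≤ η) : TVr ζ 1 η := by
  intro A _
  simpa using hη

theorem TVr.mul (H : TVr ζ g η) (H' : TVr ζ h η') : TVr ζ (g * h) (η + η') := by
  intro A hA
  have e : (fun x => x * (g * h)) ⁻¹' A = (fun x => x * g) ⁻¹' ((fun x => x * h) ⁻¹' A) := by
    ext x
    simp [mul_assoc]
  rw [e]
  exact (abs_sub_le _ _ _).trans (add_le_add (H _ (measurable_mul_const h hA)) (H' A hA))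

theorem TVr.inv (H : TVr ζ g η) : TVr ζ g⁻¹ η := by
  intro A hA
  have h1 := H _ (measurable_mul_const g⁻¹ hA)
  have e : (fun x => x * g) ⁻¹' ((fun x => x * g⁻¹) ⁻¹' A) = A := by
    ext x
    simp
  rwa [e, abs_sub_comm] at h1

theorem TVl.inv (H : TVl ζ g η) : TVl ζ g⁻¹ η := by
  intro A hA
  have h1 := H _ (measurable_const_mul g⁻¹ hA)
  have e : (fun x => g * x) ⁻¹' ((fun x => g⁻¹ * x) ⁻¹' A) = A := by
    ext x
    simp
  rwa [e, abs_sub_comm] at h1

theorem TVr.prod (hη : 0 ≤ η) (l : List G) (H : ∀ x ∈ l, TVr ζ x η) :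
    TVr ζ l.prod (l.length * η) := by
  induction l with
  | nil => simpa using TVr.one le_rfl
  | cons a l ih =>
    rw [List.prod_cons, List.length_cons]
    refine ((H a List.mem_cons_self).mul (ih fun x hx => H x (List.mem_cons_of_mem _ hx))).mono
      (le_of_eq ?_)
    push_cast
    ring

theorem TVr.map_iff (m : G) : TVr (ζ.map fun x => x * m) g η ↔ TVr ζ (m * g * m⁻¹) η := by
  have key : ∀ A, MeasurableSet A → |(ζ.map fun x => x * m).real ((fun x => x * g) ⁻¹' A) -
      (ζ.map fun x => x * m).real A| = |ζ.real ((fun x => x * (m * g * m⁻¹)) ⁻¹'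
        ((fun x => x * m) ⁻¹' A)) - ζ.real ((fun x => x * m) ⁻¹' A)| := by
    intro A hA
    rw [map_measureReal_apply (measurable_mul_const m) (measurable_mul_const g hA),
      map_measureReal_apply (measurable_mul_const m) hA]
    congr 3
    ext x
    simp [mul_assoc]
  constructor
  · intro H A hA
    have h1 := H _ (measurable_mul_const m⁻¹ hA)
    have e : (fun x => x * m) ⁻¹' ((fun x => x * m⁻¹) ⁻¹' A) = A := by
      ext x
      simp
    rwa [key _ (measurable_mul_const m⁻¹ hA), e] at h1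
  · intro H A hA
    rw [key A hA]
    exact H _ (measurable_mul_const m hA)

theorem TVr.map_left (H : TVr ζ g η) (p : G) : TVr (ζ.map fun x => p * x) g η := by
  intro A hA
  rw [map_measureReal_apply (measurable_const_mul p) (measurable_mul_const g hA),
    map_measureReal_apply (measurable_const_mul p) hA]
  have e : (fun x => p * x) ⁻¹' ((fun x => x * g) ⁻¹' A) =
      (fun x => x * g) ⁻¹' ((fun x => p * x) ⁻¹' A) := by
    ext x
    simp [mul_assoc]
  rw [e]
  exact H _ (measurable_const_mul p hA)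

theorem TVr.le (H : TVr ζ g η) {A : Set G} (hA : MeasurableSet A) :
    ζ.real {x | x * g ∈ A} ≤ ζ.real A + η := by
  exact sub_le_iff_le_add'.1 (abs_le.1 (H A hA)).2

theorem TVl.le (H : TVl ζ g η) {A : Set G} (hA : MeasurableSet A) :
    ζ.real {x | g * x ∈ A} ≤ ζ.real A + η := by
  exact sub_le_iff_le_add'.1 (abs_le.1 (H A hA)).2

theorem h12_layer {α : Type*} [MeasurableSpace α] (μ : Measure α) [IsProbabilityMeasure μ]
    {f : α → ℝ} (hf : Measurable f) {B : ℝ} (h0 : ∀ x, 0 ≤ f x) (hB : ∀ x, f x ≤ B) :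
    ∫ x, f x ∂μ = ∫ t in Set.Ioc 0 B, μ.real {x | t ≤ f x} ∧
      IntegrableOn (fun t => μ.real {x | t ≤ f x}) (Set.Ioc 0 B) := by
  have hi : Integrable f μ := Integrable.of_bound hf.aestronglyMeasurable B
    (ae_of_all _ fun x => by rw [Real.norm_of_nonneg (h0 x)]; exact hB x)
  refine ⟨hi.integral_eq_integral_Ioc_meas_le (ae_of_all _ h0) (ae_of_all _ hB), ?_⟩
  have ha : Antitone fun t => μ.real {x | t ≤ f x} := fun s t hst =>
    measureReal_mono fun x hx => le_trans hst hx
  exact ((ha.antitoneOn _).integrableOn_isCompact isCompact_Icc).mono_set Set.Ioc_subset_Icc_self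

/-- layer cake formula -/
theorem TVr.integral [IsProbabilityMeasure ζ] (H : TVr ζ g η) {f : G → ℝ} (hf : Measurable f)
    {B : ℝ} (h0 : ∀ x, 0 ≤ f x) (hB : ∀ x, f x ≤ B) :
    |∫ x, f (x * g) ∂ζ - ∫ x, f x ∂ζ| ≤ B * η := by
  have hB0 : 0 ≤ B := (h0 1).trans (hB 1)
  obtain ⟨e1, i1⟩ := h12_layer ζ (f := fun x => f (x * g)) (hf.comp (measurable_mul_const g))
    (fun x => h0 _) fun x => hB _
  obtain ⟨e2, i2⟩ := h12_layer ζ hf h0 hB
  rw [e1, e2, ← integral_sub i1 i2, ← Real.norm_eq_abs]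
  refine (norm_setIntegral_le_of_norm_le_const (C := η) measure_Ioc_lt_top fun t _ => ?_).trans
    (le_of_eq ?_)
  · exact H {x | t ≤ f x} (measurableSet_le measurable_const hf)
  · rw [Real.volume_real_Ioc_of_le hB0, sub_zero, mul_comm]

/-- convolution: if for almost every `n` one can write `n g = x n r`-wise invariance -/
theorem TVr.conv {ξ : Measure G} [IsProbabilityMeasure ζ] [IsProbabilityMeasure ξ] {x r : G}
    (H : ∀ᵐ n ∂ξ, TVr ζ (n * x * n⁻¹) η) (H' : TVr ξ r η') :
    TVr ((ζ.prod ξ).map fun p => p.1 * p.2) (x * r) (η + η') := by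
  intro A hA
  have hm : ∀ S : Set G, MeasurableSet S → Measurable fun n => ζ.real {z | z * n ∈ S} :=
    fun S hS => (measurable_measure_prodMk_right (μ := ζ) (measurable_mul hS)).ennreal_toReal
  have hi : ∀ S : Set G, MeasurableSet S → Integrable (fun n => ζ.real {z | z * n ∈ S}) ξ :=
    fun S hS => Integrable.of_bound (hm S hS).aestronglyMeasurable 1
      (ae_of_all _ fun n => by
        rw [Real.norm_of_nonneg measureReal_nonneg]; exact measureReal_le_one)
  have key : ∀ S : Set G, MeasurableSet S →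
      ((ζ.prod ξ).map fun p : G × G => p.1 * p.2).real S = ∫ n, ζ.real {z | z * n ∈ S} ∂ξ := by
    intro S hS
    rw [measureReal_def, Measure.map_apply measurable_mul hS,
      Measure.prod_apply_symm (measurable_mul hS),
      ← integral_toReal (measurable_measure_prodMk_right (μ := ζ) (measurable_mul hS)).aemeasurable
        (ae_of_all _ fun n => measure_lt_top _ _)]
    rfl
  have hA1 : MeasurableSet ((fun y => y * (x * r)) ⁻¹' A) := measurable_mul_const _ hA
  have hA2 : MeasurableSet ((fun y => y * r) ⁻¹' A) := measurable_mul_const _ hA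
  rw [key _ hA1, key _ hA]
  have h2 := H'.integral (hm A hA) (B := 1) (fun _ => measureReal_nonneg)
    fun _ => measureReal_le_one
  have e : ∀ n, {z | z * (n * r) ∈ A} = {z | z * n ∈ (fun y => y * r) ⁻¹' A} := fun n => by
    ext z; simp [mul_assoc]
  simp only [e, one_mul] at h2
  have h1 : |∫ n, ζ.real {z | z * n ∈ (fun y => y * (x * r)) ⁻¹' A} ∂ξ -
      ∫ n, ζ.real {z | z * n ∈ (fun y => y * r) ⁻¹' A} ∂ξ| ≤ η := by
    rw [← integral_sub (hi _ hA1) (hi _ hA2), ← Real.norm_eq_abs]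
    refine (norm_integral_le_of_norm_le_const (C := η) ?_).trans (by simp)
    filter_upwards [H] with n hn
    have := hn {z | z * n ∈ (fun y => y * r) ⁻¹' A} (measurable_mul_const n hA2)
    have e' : (fun z => z * (n * x * n⁻¹)) ⁻¹' {z | z * n ∈ (fun y => y * r) ⁻¹' A} =
        {z | z * n ∈ (fun y => y * (x * r)) ⁻¹' A} := by
      ext z; simp [mul_assoc]
    rwa [e'] at this
  exact (abs_sub_le _ _ _).trans (add_le_add h1 h2)

variable {Y Z : Type*}

theorem h24_step_meas {A : Type*} [MeasurableSpace A] {Y : Type*} {ψ : A → Y}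
    (hc : (Set.range ψ).Countable) (hm : ∀ y, MeasurableSet (ψ ⁻¹' {y})) (P : Y → Prop) :
    MeasurableSet {x | P (ψ x)} := by
  have : {x | P (ψ x)} = ⋃ y ∈ {y ∈ Set.range ψ | P y}, ψ ⁻¹' {y} := by
    ext x
    simp only [Set.mem_setOf_eq, Set.mem_iUnion, Set.mem_preimage, Set.mem_singleton_iff,
      exists_prop]
    constructor
    · intro h
      exact ⟨ψ x, ⟨⟨x, rfl⟩, h⟩, rfl⟩
    · rintro ⟨y, ⟨_, h⟩, rfl⟩
      exact h
  rw [this]
  exact MeasurableSet.biUnion (hc.mono (Set.sep_subset _ _)) fun y _ => hm y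

theorem Step.comp {ψ : G → Y} (H : Step ψ) (f : Y → Z) : Step fun x => f (ψ x) := by
  refine ⟨(H.1.image f).mono ?_, fun z => h24_step_meas H.1 H.2 fun y => f y = z⟩
  rintro _ ⟨x, rfl⟩
  exact ⟨ψ x, ⟨x, rfl⟩, rfl⟩

theorem Step.mul_right {ψ : G → Y} (H : Step ψ) (g : G) : Step fun x => ψ (x * g) := by
  refine ⟨H.1.mono ?_, fun y => (measurable_mul_const g) (H.2 y)⟩
  rintro _ ⟨x, rfl⟩
  exact ⟨x * g, rfl⟩

theorem Step.mul_left {ψ : G → Y} (H : Step ψ) (g : G) : Step fun x => ψ (g * x) := by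
  refine ⟨H.1.mono ?_, fun y => (measurable_const_mul g) (H.2 y)⟩
  rintro _ ⟨x, rfl⟩
  exact ⟨g * x, rfl⟩

theorem Step.prod {ψ : G → Y} {φ : G → Z} (H : Step ψ) (H' : Step φ) :
    Step fun x => (ψ x, φ x) := by
  refine ⟨(H.1.prod H'.1).mono ?_, fun y => ?_⟩
  · rintro _ ⟨x, rfl⟩
    exact ⟨⟨x, rfl⟩, ⟨x, rfl⟩⟩
  · have : (fun x => (ψ x, φ x)) ⁻¹' {y} = ψ ⁻¹' {y.1} ∩ φ ⁻¹' {y.2} := by
      ext x
      simp [Prod.ext_iff]
    rw [this]
    exact (H.2 _).inter (H'.2 _)

theorem Step.pi {I : Type*} [Finite I] {ψ : I → G → Y} (H : ∀ i, Step (ψ i)) :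
    Step fun x i => ψ i x := by
  refine ⟨(Set.countable_univ_pi fun i => (H i).1).mono ?_, fun y => ?_⟩
  · rintro _ ⟨x, rfl⟩ i _
    exact ⟨x, rfl⟩
  · have : (fun x i => ψ i x) ⁻¹' {y} = ⋂ i, ψ i ⁻¹' {y i} := by
      ext x
      simp [funext_iff]
    rw [this]
    exact MeasurableSet.iInter fun i => (H i).2 _

theorem Step.measurableSet {ψ : G → Y} (H : Step ψ) (P : Y → Prop) :
    MeasurableSet {x | P (ψ x)} := by
  exact h24_step_meas H.1 H.2 P

theorem Step.measurable {ψ : G → Y} (H : Step ψ) (f : Y → ℝ) : Measurable fun x => f (ψ x) := by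
  intro s _
  exact H.measurableSet fun y => f y ∈ s

/-- events depending on finitely many values `ψ (x * c)` -/
theorem Step.meas_fin {ψ : G → Y} (H : Step ψ) {F : Set G} (hF : F.Finite) (P : (G → Y) → Prop)
    (hP : ∀ f f', (∀ c ∈ F, f c = f' c) → P f → P f') :
    MeasurableSet {x | P fun c => ψ (x * c)} := by
  have := hF.to_subtype
  have hs : Step fun x (c : F) => ψ (x * c) := Step.pi fun c : F => H.mul_right (c : G)
  have : {x | P fun c => ψ (x * c)} =
      {x | (fun t : F → Y => ∃ f : G → Y, (∀ c : F, f c = t c) ∧ P f) fun c : F => ψ (x * c)} := by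
    ext x
    simp only [Set.mem_setOf_eq]
    constructor
    · intro h
      exact ⟨_, fun _ => rfl, h⟩
    · rintro ⟨f, h1, h2⟩
      exact hP f _ (fun c hc => h1 ⟨c, hc⟩) h2
  rw [this]
  exact hs.measurableSet fun t : F → Y => ∃ f : G → Y, (∀ c : F, f c = t c) ∧ P f

/-- events depending on finitely many values `ψ (x * c)`, `ψ (y * c)` -/
theorem Step.meas_fin₂ {ψ : G → Y} (H : Step ψ) {F : Set G} (hF : F.Finite)
    (P : (G → Y) → (G → Y) → Prop)
    (hP : ∀ f f' g g', (∀ c ∈ F, f c = f' c) → (∀ c ∈ F, g c = g' c) → P f g → P f' g') :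
    MeasurableSet {p : G × G | P (fun c => ψ (p.1 * c)) fun c => ψ (p.2 * c)} := by
  have := hF.to_subtype
  have hs : Step fun x (c : F) => ψ (x * c) := Step.pi fun c : F => H.mul_right (c : G)
  have e : {p : G × G | P (fun c => ψ (p.1 * c)) fun c => ψ (p.2 * c)} =
      {p : G × G | (fun t : (F → Y) × (F → Y) => ∃ f g : G → Y, (∀ c : F, f c = t.1 c) ∧
        (∀ c : F, g c = t.2 c) ∧ P f g)
          ((fun q : G × G => ((fun c : F => ψ (q.1 * c)), fun c : F => ψ (q.2 * c))) p)} := by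
    ext x
    simp only [Set.mem_setOf_eq]
    constructor
    · intro h
      exact ⟨_, _, fun _ => rfl, fun _ => rfl, h⟩
    · rintro ⟨f, g, h1, h2, h3⟩
      exact hP f _ g _ (fun c hc => h1 ⟨c, hc⟩) (fun c hc => h2 ⟨c, hc⟩) h3
  rw [e]
  refine h24_step_meas
    (ψ := fun q : G × G => ((fun c : F => ψ (q.1 * c)), fun c : F => ψ (q.2 * c)))
    ((hs.1.prod hs.1).mono ?_) (fun y => ?_)
    (fun t : (F → Y) × (F → Y) => ∃ f g : G → Y, (∀ c : F, f c = t.1 c) ∧
        (∀ c : F, g c = t.2 c) ∧ P f g)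
  · rintro _ ⟨x, rfl⟩
    exact ⟨⟨x.1, rfl⟩, ⟨x.2, rfl⟩⟩
  · have : (fun q : G × G => ((fun c : F => ψ (q.1 * c)), fun c : F => ψ (q.2 * c))) ⁻¹' {y} =
        ((fun x (c : F) => ψ (x * c)) ⁻¹' {y.1}) ×ˢ ((fun x (c : F) => ψ (x * c)) ⁻¹' {y.2}) := by
      ext x
      simp [Prod.ext_iff]
    rw [this]
    exact (hs.2 _).prod (hs.2 _)

end meas

section sep

variable {G H : Type*} [Group G] [Group H]

theorem Sep.mono {T : Set G} {σ σ' : ℕ} {Y Y' : Set G} (h : Sep T σ Y) (hσ : σ' ≤ σ) (hY : Y' ⊆ Y) :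
    Sep T σ' Y' := by
  intro x hx y hy hne hm
  exact h x (hY hx) y (hY hy) hne (Ball.mono subset_rfl hσ hm)

theorem Sep.mul_left {T : Set G} {σ : ℕ} {Y : Set G} (h : Sep T σ Y) (g : G) :
    Sep T σ ((fun y => g * y) '' Y) := by
  rintro _ ⟨x, hx, rfl⟩ _ ⟨y, hy, rfl⟩ hne hm
  refine h x hx y hy (fun e => hne (by rw [e])) ?_
  simpa [mul_assoc] using hm

theorem Sep.qi {T : Set G} {S : Set H} {ψ : G → H} {c : ℕ} (hq : QI T S ψ c) {Y : Set G}
    (h : Sep T (c + c) Y) : Sep S 1 (ψ '' Y) ∧ Set.InjOn ψ Y := by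
  refine ⟨?_, fun x hx y hy e => ?_⟩
  · rintro _ ⟨x, hx, rfl⟩ _ ⟨y, hy, rfl⟩ hne hm
    refine h x hx y hy (fun e => hne (by rw [e])) ?_
    simpa using hq.down x y 1 hm
  · by_contra hne
    refine h x hx y hy hne ?_
    simpa using hq.down x y 1 (by rw [e, inv_mul_cancel]; exact Ball.one_mem _ _)

end sep

namespace Sch

variable {G : Type} [Group G]

theorem prod_winv (u : List G) : (winv u).prod = u.prod⁻¹ := by
  exact (List.prod_inv_reverse u).symm

theorem Mem.length_le {Z : Sch G} {w : List G} (h : Z.Mem w) : w.length ≤ Z.size := by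
  induction Z generalizing w with
  | one =>
    have h' : w = [] := h
    rw [h']; exact Nat.zero_le _
  | fam g J =>
    obtain ⟨i, -, rfl⟩ := h
    exact le_rfl
  | conj X Y ihX ihY =>
    obtain ⟨u, v, hu, hv, rfl⟩ := h
    have h1 := ihX hu
    have h2 := ihY hv
    simp only [size, winv, List.length_append, List.length_reverse, List.length_map]
    omega
  | mul X Y ihX ihY =>
    obtain ⟨u, v, hu, hv, rfl⟩ := h
    have h1 := ihX hu
    have h2 := ihY hv
    simp only [size, List.length_append]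
    omega

theorem Mem.let {Z : Sch G} {w : List G} (h : Z.Mem w) {p : G → Prop} (hp : Z.Let p)
    (hi : ∀ g, p g → p g⁻¹) : ∀ x ∈ w, p x := by
  induction Z generalizing w with
  | one =>
    have h' : w = [] := h
    rw [h']; exact fun x hx => absurd hx List.not_mem_nil
  | fam g J =>
    obtain ⟨i, hi', rfl⟩ := h
    intro x hx
    rw [List.mem_singleton.1 hx]
    exact hp i hi'
  | conj X Y ihX ihY =>
    obtain ⟨u, v, hu, hv, rfl⟩ := h
    intro x hx
    rcases List.mem_append.1 hx with hx | hx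
    · rcases List.mem_append.1 hx with hx | hx
      · exact ihX hu hp.1 x hx
      · exact ihY hv hp.2 x hx
    · obtain ⟨y, hy, rfl⟩ := List.mem_map.1 (List.mem_reverse.1 hx)
      exact hi y (ihX hu hp.1 y hy)
  | mul X Y ihX ihY =>
    obtain ⟨u, v, hu, hv, rfl⟩ := h
    intro x hx
    rcases List.mem_append.1 hx with hx | hx
    · exact ihX hu hp.1 x hx
    · exact ihY hv hp.2 x hx

theorem Let.mono {Z : Sch G} {p q : G → Prop} (h : Z.Let p) (hpq : ∀ g, p g → q g) : Z.Let q := by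
  induction Z with
  | one => trivial
  | fam g J => exact fun i hi => hpq _ (h i hi)
  | conj X Y ihX ihY => exact ⟨ihX h.1, ihY h.2⟩
  | mul X Y ihX ihY => exact ⟨ihX h.1, ihY h.2⟩

theorem finite_mem (Z : Sch G) : {w | Z.Mem w}.Finite := by
  induction Z with
  | one => exact (Set.finite_singleton ([] : List G)).subset fun w hw => hw
  | fam g J =>
    refine ((Set.finite_Icc (-(J : ℤ)) J).image fun i => [g ^ i]).subset ?_
    rintro w ⟨i, hi, rfl⟩
    exact ⟨i, abs_le.1 hi, rfl⟩
  | conj X Y ihX ihY =>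
    refine (ihX.image2 (fun u v => u ++ v ++ winv u) ihY).subset ?_
    rintro w ⟨u, v, hu, hv, rfl⟩
    exact ⟨u, hu, v, hv, rfl⟩
  | mul X Y ihX ihY =>
    refine (ihX.image2 (fun u v => u ++ v) ihY).subset ?_
    rintro w ⟨u, v, hu, hv, rfl⟩
    exact ⟨u, hu, v, hv, rfl⟩

theorem avg_mono (Z : Sch G) {f g : List G → ℝ} (h : ∀ w, Z.Mem w → f w ≤ g w) :
    Z.avg f ≤ Z.avg g := by
  induction Z generalizing f g with
  | one => exact h [] rfl
  | fam x J =>
    refine div_le_div_of_nonneg_right (Finset.sum_le_sum fun i hi => h _ ⟨i, ?_, rfl⟩)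
      (by positivity)
    exact abs_le.2 (Finset.mem_Icc.1 hi)
  | conj X Y ihX ihY => exact ihX fun u hu => ihY fun v hv => h _ ⟨u, v, hu, hv, rfl⟩
  | mul X Y ihX ihY => exact ihX fun u hu => ihY fun v hv => h _ ⟨u, v, hu, hv, rfl⟩

theorem avg_add (Z : Sch G) (f g : List G → ℝ) :
    Z.avg (fun w => f w + g w) = Z.avg f + Z.avg g := by
  induction Z generalizing f g with
  | one => rfl
  | fam x J => simp only [avg, Finset.sum_add_distrib, add_div]
  | conj X Y ihX ihY => simp only [avg, ihY, ihX]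
  | mul X Y ihX ihY => simp only [avg, ihY, ihX]

theorem avg_smul (Z : Sch G) (t : ℝ) (f : List G → ℝ) :
    Z.avg (fun w => t * f w) = t * Z.avg f := by
  induction Z generalizing f with
  | one => rfl
  | fam x J => simp only [avg, ← Finset.mul_sum, mul_div_assoc]
  | conj X Y ihX ihY => simp only [avg, ihY, ihX]
  | mul X Y ihX ihY => simp only [avg, ihY, ihX]

theorem avg_const (Z : Sch G) (t : ℝ) : Z.avg (fun _ => t) = t := by
  induction Z with
  | one => rfl
  | fam x J =>
    have h1 : ((Finset.Icc (-(J : ℤ)) J).card : ℝ) = 2 * J + 1 := by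
      have h2 : (Finset.Icc (-(J : ℤ)) J).card = 2 * J + 1 := by
        rw [Int.card_Icc]
        omega
      rw [h2]
      push_cast
      ring
    simp only [avg, Finset.sum_const, nsmul_eq_mul, h1]
    exact mul_div_cancel_left₀ _ (by positivity)
  | conj X Y ihX ihY => simp only [avg, ihY, ihX]
  | mul X Y ihX ihY => simp only [avg, ihY, ihX]

theorem h31_avg_sum (Z : Sch G) {ι : Type*} (s : Finset ι) (c : ι → ℝ) (f : ι → List G → ℝ) :
    Z.avg (fun w => ∑ i ∈ s, c i * f i w) = ∑ i ∈ s, c i * Z.avg (f i) := by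
  classical
  induction s using Finset.induction_on with
  | empty => simp only [Finset.sum_empty, avg_const]
  | insert i s hi ih => simp only [Finset.sum_insert hi, avg_add, avg_smul, ih]

/-- `avg` is a finite convex combination of point evaluations -/
theorem avg_repr (Z : Sch G) : ∃ (s : Finset (List G)) (p : List G → ℝ), (∀ w ∈ s, Z.Mem w) ∧
    (∀ w, 0 ≤ p w) ∧ ∑ w ∈ s, p w = 1 ∧ ∀ f, Z.avg f = ∑ w ∈ s, p w * f w := by
  classical
  have key : ∀ f, Z.avg f =
      ∑ w ∈ Z.finite_mem.toFinset, Z.avg (fun v => if v = w then 1 else 0) * f w := by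
    intro f
    have h1 : ∀ v, Z.Mem v →
        f v = ∑ w ∈ Z.finite_mem.toFinset, f w * if v = w then 1 else 0 := by
      intro v hv
      simp only [mul_ite, mul_one, mul_zero, Finset.sum_ite_eq]
      rw [if_pos (Z.finite_mem.mem_toFinset.2 hv)]
    rw [le_antisymm (Z.avg_mono fun v hv => (h1 v hv).le) (Z.avg_mono fun v hv => (h1 v hv).ge),
      h31_avg_sum]
    exact Finset.sum_congr rfl fun w _ => mul_comm _ _
  refine ⟨Z.finite_mem.toFinset, fun w => Z.avg fun v => if v = w then 1 else 0,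
    fun w hw => Z.finite_mem.mem_toFinset.1 hw, fun w => ?_, ?_, key⟩
  · refine (Z.avg_const 0).ge.trans (Z.avg_mono fun v _ => ?_)
    split_ifs <;> norm_num
  · have h1 := key fun _ => 1
    simp only [mul_one, avg_const] at h1
    exact h1.symm

end Sch

end Crest.Agent.R182
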