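import Crest.Agent.R182.MB1
import Crest.Agent.R182.MB2
import Crest.Agent.R182.EQI

/-! Row 182, middle: paths and boxes, flat paths, invariance, labels. -/

set_option autoImplicit false
set_option linter.dupNamespace false

namespace Crest.Agent.R182

open Crest.GroupTheory MeasureTheory

namespace Geo

variable {G : Type} [Group G] [MeasurableSpace G] {k : ℕ} (X : Geo G k)

theorem π_ball {g : G} {n : ℕ} (h : g ∈ Ball X.Sg n) : ‖X.π g‖ ≤ X.K * n := by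
  obtain ⟨l, hl, hx, rfl⟩ := h
  have h1 : ∀ l : List G, (∀ x ∈ l, x ∈ X.Sg ∨ x⁻¹ ∈ X.Sg) → ‖X.π l.prod‖ ≤ X.K * l.length := by
    intro l
    induction l with
    | nil => intro _; simp [X.π_hom.one]
    | cons a l ih =>
      intro h
      have h2 := X.π_lip.2 1 a ⟨[a], le_rfl, fun x hx => by
        rw [List.mem_singleton.1 hx]; exact h a List.mem_cons_self, List.prod_singleton⟩
      rw [one_mul, X.π_hom.one, sub_zero] at h2
      have h3 := ih fun x hx => h x (List.mem_cons_of_mem _ hx)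
      rw [List.prod_cons, X.π_hom, List.length_cons]
      refine (norm_add_le _ _).trans ?_
      push_cast
      linarith
  refine (h1 l hx).trans (mul_le_mul_of_nonneg_left ?_ (Nat.cast_nonneg _))
  exact_mod_cast hl

theorem flat_ball {c : G} {m : ℕ} (h : c ∈ Ball (X.SC : Set G) m) : c ∈ Ball X.Sg (X.K * m) := by
  rw [mul_comm]
  exact Ball.subset_of (fun t ht => X.SC_ball t ht) m h

theorem box_mul {a : X.ι → ℝ} {g h : G} (hg : g ∈ X.Box a) (hh : h ∈ X.Box a) :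
    g * h ∈ X.Box fun i => a i + 3 * X.K := by
  have h1 := X.box_prod a [g, h] (by
    intro x hx
    simp only [List.mem_cons, List.not_mem_nil, or_false] at hx
    rcases hx with rfl | rfl <;> assumption)
  simp only [List.prod_cons, List.prod_nil, mul_one] at h1
  refine X.box_mono _ _ (fun i => ?_) h1
  have h2 : lg [g, h].length ≤ 3 := by
    have := Real.log_le_sub_one_of_pos (x := 1 + (([g, h].length : ℕ) : ℝ)) (by positivity)
    unfold lg
    simp only [List.length_cons, List.length_nil] at this ⊢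
    push_cast at this ⊢
    linarith
  have h3 : (0 : ℝ) ≤ X.K := Nat.cast_nonneg _
  nlinarith

theorem RB_π {i : X.ι} {b : ℝ} {g : G} (h : g ∈ X.RB i b) : X.π g = 0 := by
  have h1 : g ∈ X.RB i |b| := X.RB_mono i _ _ (le_abs_self b) h
  exact X.box_π _ _ (X.RB_box (fun _ => |b|) (X.adm_const (abs_nonneg b)) i h1)

theorem box_mem_Γ {a : X.ι → ℝ} {g : G} (h : g ∈ X.Box a) : g ∈ X.Γ := by
  obtain ⟨l, -, hl, rfl⟩ := X.box_gen a g h
  refine Subgroup.list_prod_mem _ fun x hx => ?_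
  obtain ⟨i, hi⟩ := hl x hx
  exact Subgroup.subset_closure (Or.inr (Set.mem_iUnion.2 ⟨i, Set.mem_iUnion.2 ⟨_, hi⟩⟩))

theorem RB_mem_Γ {i : X.ι} {b : ℝ} {g : G} (h : g ∈ X.RB i b) : g ∈ X.Γ := by
  exact Subgroup.subset_closure (Or.inr (Set.mem_iUnion.2 ⟨i, Set.mem_iUnion.2 ⟨_, h⟩⟩))

theorem flat_le_Γ : Subgroup.closure (X.SC : Set G) ≤ X.Γ := by
  exact Subgroup.closure_mono Set.subset_union_left

/-- greedy decomposition of a path `y 0, y 1, …` with steps in `Ball Sg R`: `b 0 = 1`,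
`b j * (y j)⁻¹ * y (j+1) = e j * c j * b (j+1)` by `ball_dec (1 + R)` -/
theorem greedy (R : ℕ) : ∃ K₁ : ℕ, ∀ (y : ℕ → G) (m : ℕ),
    (∀ j < m, (y j)⁻¹ * y (j + 1) ∈ Ball X.Sg R) → ∃ e c b : ℕ → G, b 0 = 1 ∧
      (∀ j, e j ∈ X.Box fun _ => K₁) ∧ (∀ j, c j ∈ Ball (X.SC : Set G) K₁) ∧
      (∀ j, b j ∈ Ball X.Sg 1) ∧
      ∀ j < m, (y j * (b j)⁻¹)⁻¹ * (y (j + 1) * (b (j + 1))⁻¹) = e j * c j := by
  classical
  obtain ⟨K₁, hK⟩ := X.ball_dec (1 + R)
  have h1 : ∀ g : G, ∃ e ∈ X.Box fun _ => K₁, ∃ c ∈ Ball (X.SC : Set G) K₁, ∃ b ∈ Ball X.Sg 1,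
      g ∈ Ball X.Sg (1 + R) → g = e * c * b := fun g => by
    by_cases hg : g ∈ Ball X.Sg (1 + R)
    · obtain ⟨e, he, c, hc, b, hb, h⟩ := hK g hg
      exact ⟨e, he, c, hc, b, hb, fun _ => h⟩
    · exact ⟨1, X.box_one _, 1, Ball.one_mem _ _, 1, Ball.one_mem _ _, fun h => absurd h hg⟩
  choose E hE C hC B hB h using h1
  refine ⟨K₁, fun y m hy => ?_⟩
  let b : ℕ → G := fun j => Nat.rec 1 (fun j bj => B (bj * ((y j)⁻¹ * y (j + 1)))) j
  have hb : ∀ j, b j ∈ Ball X.Sg 1 := fun j => by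
    cases j with
    | zero => exact Ball.one_mem _ _
    | succ j => exact hB _
  refine ⟨fun j => E (b j * ((y j)⁻¹ * y (j + 1))), fun j => C (b j * ((y j)⁻¹ * y (j + 1))), b,
    rfl, fun j => hE _, fun j => hC _, hb, fun j hj => ?_⟩
  have h2 := h _ (Ball.mul_mem (hb j) (hy j hj))
  have h3 : b (j + 1) = B (b j * ((y j)⁻¹ * y (j + 1))) := rfl
  rw [← h3] at h2
  rw [← mul_left_inj (b (j + 1)), ← h2]
  group

/-- (SL) `greedy`, `∏ e j c j = ∏ (c̃ j * e j * (c̃ j)⁻¹) * c̃ m`, `box_conj` (`Adm` of a constant),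
`box_mono`, `box_prod` -/
theorem sl : ∃ K₁ : ℕ, 1 ≤ K₁ ∧ ∀ (a : X.ι → ℝ) (x y : G) (m : ℕ),
    Reach X.Sg {z | pt X.χ (X.π z - X.π x) ≤ a} x m y →
      ∃ e ∈ X.Box fun i => a i + K₁ * lg m, ∃ c ∈ Ball (X.SC : Set G) (K₁ * m),
        ∃ b ∈ Ball X.Sg 1, x⁻¹ * y = e * c * b ∧ ‖X.π c - (X.π y - X.π x)‖ ≤ K₁ := by
  obtain ⟨K0, hK0⟩ := X.greedy 1
  obtain ⟨B, hB1, hB⟩ := X.χ_bound
  have hKn : (0 : ℝ) ≤ X.K := Nat.cast_nonneg _
  have hK0n : (0 : ℝ) ≤ K0 := Nat.cast_nonneg _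
  obtain ⟨K₁, h1, h2, h3, h4⟩ : ∃ K₁ : ℕ, 1 ≤ K₁ ∧ K0 ≤ K₁ ∧ (X.K : ℝ) * X.K ≤ K₁ ∧
      (K0 : ℝ) + B * (X.K * X.K) + X.K * lg K0 + X.K ≤ K₁ := by
    refine ⟨⌈(K0 : ℝ) + B * (X.K * X.K) + X.K * lg K0 + X.K⌉₊ + K0 + X.K * X.K + 1, by omega,
      by omega, ?_, ?_⟩
    · push_cast
      have : (0 : ℝ) ≤ ⌈(K0 : ℝ) + B * (X.K * X.K) + X.K * lg K0 + X.K⌉₊ := Nat.cast_nonneg _
      linarith
    · push_cast
      have := Nat.le_ceil ((K0 : ℝ) + B * (X.K * X.K) + X.K * lg K0 + X.K)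
      nlinarith [mul_nonneg hKn hKn]
  refine ⟨K₁, h1, fun a x y m ⟨p, hp0, hpm, hps, hpA⟩ => ?_⟩
  obtain ⟨e, c, b, hb0, he, hc, hb, hz⟩ := hK0 p m hps
  have hπb : ∀ j, ‖X.π (b j)‖ ≤ X.K * X.K := fun j =>
    X.π_ball (Ball.mono subset_rfl X.one_le_K (hb j))
  have hlm := one_le_lg m
  have hl0 := one_le_lg K0
  have key : ∀ j ≤ m, ∃ l : List G, l.length = j ∧
      (∀ g ∈ l, g ∈ X.Box fun i => a i + (K0 + B * (X.K * X.K) + X.K * (lg K0 * lg m))) ∧
      ∃ d ∈ Ball (X.SC : Set G) (K0 * j), x⁻¹ * (p j * (b j)⁻¹) = l.prod * d := by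
    intro j
    induction j with
    | zero =>
      intro _
      exact ⟨[], rfl, fun g hg => absurd hg List.not_mem_nil, 1, Ball.one_mem _ _,
        by rw [hp0, hb0]; simp⟩
    | succ j ih =>
      intro hj
      obtain ⟨l, hl, hlb, d, hd, hd'⟩ := ih (by omega)
      have hπl : X.π l.prod = 0 := X.box_π _ _ (X.box_prod _ l hlb)
      have hπd : X.π d = X.π (p j) - X.π x - X.π (b j) := by
        have := congrArg X.π hd'
        rw [X.π_hom.inv_mul, X.π_hom, X.π_hom, X.π_hom.inv, hπl] at this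
        rw [zero_add] at this
        rw [← this]
        abel
      refine ⟨l ++ [d * e j * d⁻¹], by simp [hl], fun g hg => ?_, d * c j,
        Ball.mono subset_rfl (by rw [Nat.mul_succ]) (Ball.mul_mem hd (hc j)), ?_⟩
      · rcases List.mem_append.1 hg with hg | hg
        · exact hlb g hg
        rw [List.mem_singleton.1 hg]
        refine X.box_mono _ _ (fun i => ?_)
          (X.box_conj _ (X.adm_const hK0n) _ d hd _ (he j))
        have h5 : X.χ i (X.π (p j) - X.π x) ≤ a i := hpA j (by omega) i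
        have h6 := (abs_le.1 ((hB i (X.π (b j))).trans
          (mul_le_mul_of_nonneg_left (hπb j) (by linarith)))).1
        have h7 : lg (K0 * j) ≤ lg K0 * lg m :=
          (lg_mono (by nlinarith [Nat.mul_le_mul_left K0 (show j ≤ m by omega)])).trans
            (lg_mul_le K0 m)
        have h8 := mul_le_mul_of_nonneg_left h7 hKn
        change (K0 : ℝ) + X.χ i (X.π d) + X.K * lg (K0 * j) ≤ _
        rw [hπd, map_sub]
        linarith
      · have h5 := hz j (by omega)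
        rw [List.prod_append, List.prod_singleton]
        calc x⁻¹ * (p (j + 1) * (b (j + 1))⁻¹)
            = x⁻¹ * (p j * (b j)⁻¹) * ((p j * (b j)⁻¹)⁻¹ * (p (j + 1) * (b (j + 1))⁻¹)) := by group
          _ = l.prod * (d * e j * d⁻¹) * (d * c j) := by rw [hd', h5]; group
  obtain ⟨l, hl, hlb, d, hd, hd'⟩ := key m le_rfl
  have hpr := X.box_prod _ l hlb
  refine ⟨l.prod, X.box_mono _ _ (fun i => ?_) hpr, d,
    Ball.mono subset_rfl (Nat.mul_le_mul_right m h2) hd, b m, hb m, ?_, ?_⟩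
  · rw [hl]
    have h5 : (0 : ℝ) ≤ K0 + B * (X.K * X.K) := by positivity
    have h6 := mul_le_mul_of_nonneg_left hlm h5
    have h7 := mul_le_mul_of_nonneg_right h4 (show 0 ≤ lg m by linarith)
    change a i + (K0 + B * (X.K * X.K) + X.K * (lg K0 * lg m)) + X.K * lg m ≤ a i + K₁ * lg m
    nlinarith
  · rw [← hd', hpm]
    group
  · have := congrArg X.π hd'
    rw [X.π_hom.inv_mul, X.π_hom, X.π_hom, X.π_hom.inv, X.box_π _ _ hpr, zero_add, hpm] at this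
    rw [← this, show X.π y + -X.π (b m) - X.π x - (X.π y - X.π x) = -X.π (b m) by abel, norm_neg]
    exact (hπb m).trans h3

theorem ball_sl : ∃ K₁ : ℕ, 1 ≤ K₁ ∧ ∀ (n : ℕ), ∀ g ∈ Ball X.Sg n,
    ∃ e ∈ X.Box fun _ => (K₁ * n + K₁ : ℕ), ∃ c ∈ Ball (X.SC : Set G) (K₁ * n),
      ∃ b ∈ Ball X.Sg 1, g = e * c * b := by
  obtain ⟨K₁, h1, H⟩ := X.sl
  obtain ⟨B, hB1, hB⟩ := X.χ_bound
  have hKn : (0 : ℝ) ≤ X.K := Nat.cast_nonneg _
  refine ⟨⌈B * X.K⌉₊ + K₁, by omega, fun n g hg => ?_⟩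
  have hn : (0 : ℝ) ≤ n := Nat.cast_nonneg _
  have hr : Reach X.Sg (BallAt X.Sg 1 n) 1 n g := Reach.of_ball (by rwa [inv_one, one_mul])
  obtain ⟨e, he, c, hc, b, hb, h2, -⟩ := H (fun _ => B * (X.K * n)) 1 g n (hr.mono fun z hz i => by
    have h3 : ‖X.π ((1 : G)⁻¹ * z)‖ ≤ X.K * n := X.π_ball hz
    rw [X.π_hom.inv_mul] at h3
    exact (le_abs_self _).trans ((hB i _).trans (mul_le_mul_of_nonneg_left h3 (by linarith))))
  refine ⟨e, X.box_mono _ _ (fun i => ?_) he, c,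
    Ball.mono subset_rfl (Nat.mul_le_mul_right n (by omega)) hc, b, hb, by rw [← h2]; group⟩
  have h3 : lg n ≤ 1 + n := by
    have := Real.log_le_sub_one_of_pos (x := 1 + (n : ℝ)) (by positivity)
    unfold lg
    linarith
  have h4 := mul_le_mul_of_nonneg_right (Nat.le_ceil (B * X.K)) hn
  have h5 := mul_le_mul_of_nonneg_left h3 (Nat.cast_nonneg (α := ℝ) K₁)
  have h6 : (0 : ℝ) ≤ ⌈B * X.K⌉₊ := Nat.cast_nonneg _
  change B * (X.K * n) + K₁ * lg n ≤ (((⌈B * X.K⌉₊ + K₁) * n + (⌈B * X.K⌉₊ + K₁) : ℕ) : ℝ)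
  push_cast
  nlinarith

/-- `ball_dec` and `count0` -/
theorem pack (R : ℕ) : ∃ N : ℕ, ∀ Y : Finset G, Sep X.Sg 1 Y → (Y : Set G) ⊆ Ball X.Sg R →
    Y.card ≤ N := by
  obtain ⟨KR, hKR⟩ := X.ball_dec R
  obtain ⟨B, hB1, hB⟩ := X.χ_bound
  have hr : (0 : ℝ) ≤ B * (X.K * (X.K * KR : ℕ)) := by
    have : (0 : ℝ) ≤ B := by linarith
    positivity
  have hK : (0 : ℝ) ≤ KR := Nat.cast_nonneg _
  refine ⟨⌈Real.exp (Vol X.wt (fun _ => (KR : ℝ) + B * (X.K * (X.K * KR : ℕ))) + X.K * lg KR)⌉₊,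
    fun Y hY hYR => ?_⟩
  have h := X.count0 _ (X.adm_const (add_nonneg hK hr)) KR Y hY fun y hy => by
    obtain ⟨e, he, c, hc, b, hb, h⟩ := hKR y (hYR hy)
    refine ⟨e, X.box_mono _ _ (fun i => le_add_of_nonneg_right hr) he, c, hc, b, hb, h, fun i => ?_⟩
    have h1 := (le_abs_self _).trans ((hB i (X.π c)).trans
      (mul_le_mul_of_nonneg_left (X.π_ball (X.flat_ball hc)) (by linarith)))
    exact h1.trans (le_add_of_nonneg_left hK)
  exact_mod_cast h.trans (Nat.le_ceil _)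

/-- a maximal separated subset -/
theorem net (R : ℕ) (A : Set G) (hA : A ⊆ Ball X.Sg R) : ∃ F : Finset G, (F : Set G) ⊆ A ∧
    ∀ g ∈ A, ∃ f ∈ F, f⁻¹ * g ∈ Ball X.Sg 1 := by
  classical
  obtain ⟨N, hN⟩ := X.pack R
  have hb : BddAbove {n : ℕ | ∃ Y : Finset G, (Y : Set G) ⊆ A ∧ Sep X.Sg 1 Y ∧ Y.card = n} :=
    ⟨N, by
      rintro _ ⟨Y, h1, h2, rfl⟩
      exact hN Y h2 (h1.trans hA)⟩
  obtain ⟨F, h1, h2, h3⟩ := Nat.sSup_mem (s := {n : ℕ | ∃ Y : Finset G, (Y : Set G) ⊆ A ∧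
    Sep X.Sg 1 Y ∧ Y.card = n}) ⟨0, ∅, by simp, fun x hx => by simp at hx, rfl⟩ hb
  refine ⟨F, h1, fun g hg => ?_⟩
  by_contra hcon
  push Not at hcon
  have hgF : g ∉ F := fun h => hcon g h (by rw [inv_mul_cancel]; exact Ball.one_mem _ _)
  have h4 : (insert g F).card ≤ F.card := by
    rw [h3]
    refine le_csSup hb ⟨insert g F, ?_, fun x hx y hy hxy => ?_, rfl⟩
    · rw [Finset.coe_insert]
      exact Set.insert_subset hg h1
    · rw [Finset.coe_insert] at hx hy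
      rcases hx with rfl | hx
      · rcases hy with rfl | hy
        · exact absurd rfl hxy
        · intro h
          have := Ball.inv_mem h
          rw [mul_inv_rev, inv_inv] at this
          exact hcon y hy this
      · rcases hy with rfl | hy
        · exact hcon x hx
        · exact h2 x hx y hy hxy
  rw [Finset.card_insert_of_notMem hgF] at h4
  omega

/-- integral heights are realised by flat elements -/
theorem h32_lift (r : ℕ) (δ : Fin k → ℤ) (hδ : ∀ l, (δ l).natAbs ≤ r) :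
    ∃ c ∈ Ball (X.SC : Set G) (k * r), X.π c = fun l => (δ l : ℝ) := by
  classical
  have key : ∀ F : Finset (Fin k), ∃ c ∈ Ball (X.SC : Set G) (F.card * r),
      X.π c = ∑ l ∈ F, (δ l : ℝ) • (Pi.single l 1 : Fin k → ℝ) := by
    intro F
    induction F using Finset.induction_on with
    | empty => exact ⟨1, Ball.one_mem _ _, by simp [X.π_hom.one]⟩
    | insert l F hl ih =>
      obtain ⟨c, hc, e⟩ := ih
      obtain ⟨s, hs, es⟩ := X.SC_surj l
      have h1 : s ^ (δ l).natAbs ∈ Ball (X.SC : Set G) r := by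
        have := Ball.pow_mem (Ball.mem_of_mem (Finset.mem_coe.2 hs)) (δ l).natAbs
        exact Ball.mono subset_rfl (by simpa using hδ l) this
      have h2 : s ^ δ l ∈ Ball (X.SC : Set G) r := by
        rcases Int.natAbs_eq (δ l) with h | h
        · rw [h, zpow_natCast]; exact h1
        · rw [h, zpow_neg, zpow_natCast]; exact Ball.inv_mem h1
      refine ⟨c * s ^ δ l, ?_, ?_⟩
      · rw [Finset.card_insert_of_notMem hl, Nat.succ_mul]
        exact Ball.mul_mem hc h2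
      · rw [X.π_hom, e, X.π_hom.zpow, es, Finset.sum_insert hl, add_comm]
  obtain ⟨c, hc, e⟩ := key Finset.univ
  refine ⟨c, by simpa using hc, e.trans ?_⟩
  ext l
  simp [Finset.sum_apply, Pi.single_apply]

theorem h32_floor (x : Fin k → ℝ) : ‖(fun l => ((⌊x l⌋ : ℤ) : ℝ)) - x‖ ≤ 1 := by
  refine (pi_norm_le_iff_of_nonneg zero_le_one).2 fun l => ?_
  rw [Real.norm_eq_abs, abs_le, Pi.sub_apply]
  constructor <;> linarith [Int.floor_le (x l), Int.lt_floor_add_one (x l)]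

/-- staircase paths along a segment (`SC_surj`) -/
theorem stair : ∃ K₂ : ℕ, ∀ v : Fin k → ℝ, ∃ (m : ℕ) (p : ℕ → G), (m : ℝ) ≤ K₂ * (‖v‖ + 1) ∧
    p 0 = 1 ∧ (∀ j, (p j)⁻¹ * p (j + 1) ∈ Ball (X.SC : Set G) 1) ∧ ‖X.π (p m) - v‖ ≤ K₂ ∧
    ∀ j ≤ m, ∃ θ : ℝ, 0 ≤ θ ∧ θ ≤ 1 ∧ ‖X.π (p j) - θ • v‖ ≤ K₂ := by
  obtain ⟨L, hL⟩ := X.π_hom.lip X.SC.finite_toSet
  obtain ⟨K₂, hK₂⟩ := exists_nat_ge (L * k + 2 * k + 1)
  have hL0 := hL.1
  have hk0 : (0 : ℝ) ≤ k := k.cast_nonneg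
  have hLk : 0 ≤ L * k := by positivity
  refine ⟨K₂, fun v => ?_⟩
  set N : ℕ := ⌊‖v‖⌋₊ + 1 with hN
  have hN0 : (0 : ℝ) < N := by positivity
  have hN1 : ‖v‖ < N := by rw [hN]; push_cast; exact Nat.lt_floor_add_one _
  have hN2 : (N : ℝ) ≤ ‖v‖ + 1 := by
    rw [hN]; push_cast; linarith [Nat.floor_le (norm_nonneg v)]
  set a : ℕ → Fin k → ℤ := fun i l => ⌊(((i : ℝ) / N) • v) l⌋ with ha
  have h1 : ∀ i l, (a (i + 1) l - a i l).natAbs ≤ 1 := by
    intro i l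
    have h2 : |v l / N| < 1 := by
      rw [abs_div, abs_of_pos hN0, div_lt_one hN0]
      exact (norm_le_pi_norm v l).trans_lt hN1
    have h3 : ((((i + 1 : ℕ) : ℝ) / N) • v) l = (((i : ℝ) / N) • v) l + v l / N := by
      simp only [Pi.smul_apply, smul_eq_mul]; push_cast; ring
    have h4 : ((a (i + 1) l - a i l : ℤ) : ℝ) < 2 ∧ -2 < ((a (i + 1) l - a i l : ℤ) : ℝ) := by
      simp only [ha, h3]
      push_cast
      have := abs_lt.1 h2
      constructor <;> linarith [Int.floor_le ((((i : ℝ) / N) • v) l),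
        Int.lt_floor_add_one ((((i : ℝ) / N) • v) l),
        Int.floor_le ((((i : ℝ) / N) • v) l + v l / N),
        Int.lt_floor_add_one ((((i : ℝ) / N) • v) l + v l / N)]
    have h5 : a (i + 1) l - a i l < 2 := by exact_mod_cast h4.1
    have h6 : -2 < a (i + 1) l - a i l := by exact_mod_cast h4.2
    omega
  choose c hc hc' using fun i => X.h32_lift 1 _ (h1 i)
  set q : ℕ → G := fun i => Nat.rec 1 (fun i g => g * c i) i with hq
  have hq0 : q 0 = 1 := rfl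
  have hq1 : ∀ i, q (i + 1) = q i * c i := fun i => rfl
  have hπ : ∀ i, X.π (q i) = fun l => (a i l : ℝ) := by
    intro i
    induction i with
    | zero => rw [hq0, X.π_hom.one]; ext l; simp [ha]
    | succ i ih => rw [hq1, X.π_hom, ih, hc']; ext l; simp
  have hπ' : ∀ i : ℕ, ‖X.π (q i) - ((i : ℝ) / N) • v‖ ≤ 1 := fun i => by
    rw [hπ]; exact h32_floor _
  obtain ⟨p, p0, p1, p2, p3⟩ := Reach.chain (T := (X.SC : Set G))
    (A := {g | ∃ θ : ℝ, 0 ≤ θ ∧ θ ≤ 1 ∧ ‖X.π g - θ • v‖ ≤ K₂}) q k N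
    ⟨0, le_rfl, zero_le_one, by simp [hq0, X.π_hom.one]⟩ (fun i hi => by
      have h2 : (q i)⁻¹ * q (i + 1) ∈ Ball (X.SC : Set G) k := by
        rw [hq1, inv_mul_cancel_left]; simpa using hc i
      refine (hL.reach h2).mono fun z hz => ⟨i / N, by positivity, ?_, ?_⟩
      · rw [div_le_one hN0]; exact_mod_cast hi.le
      · have h3 := norm_add_le (X.π z - X.π (q i)) (X.π (q i) - ((i : ℝ) / N) • v)
        rw [sub_add_sub_cancel] at h3
        have h4 : ‖X.π z - X.π (q i)‖ ≤ L * k := hz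
        linarith [hπ' i])
  refine ⟨k * N, fun j => p (min j (k * N)), ?_, by simp [p0, hq0], fun j => ?_, ?_, fun j hj => ?_⟩
  · push_cast
    exact mul_le_mul (by linarith) hN2 hN0.le (by positivity)
  · by_cases hj : j < k * N
    · simp only [min_eq_left hj.le, min_eq_left (Nat.succ_le_of_lt hj)]
      exact p2 j hj
    · simp only [min_eq_right (not_lt.1 hj), min_eq_right ((not_lt.1 hj).trans (Nat.le_succ j)),
        inv_mul_cancel]
      exact Ball.one_mem _ _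
  · have := hπ' N
    rw [div_self hN0.ne', one_smul] at this
    simp only [min_self, p1]
    linarith
  · simp only [min_eq_left hj]
    exact p3 j hj

/-- a flat element with prescribed integral height and linear length -/
theorem flat_lift : ∃ K₂ : ℕ, ∀ (g : G) (r : ℕ), ‖X.π g‖ ≤ r →
    ∃ c ∈ Ball (X.SC : Set G) (K₂ * r), X.π c = X.π g := by
  refine ⟨k, fun g r hr => ?_⟩
  choose δ hδ using X.π_int g
  obtain ⟨c, hc, e⟩ := X.h32_lift r δ fun l => by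
    have h1 : |(δ l : ℝ)| ≤ r := by
      rw [← hδ l]
      exact (norm_le_pi_norm (X.π g) l).trans hr
    have h2 : |δ l| ≤ r := by exact_mod_cast h1
    have h3 := abs_le.1 h2
    omega
  exact ⟨c, hc, e.trans (funext fun l => (hδ l).symm)⟩

/-- generic flat elements in a given direction -/
theorem exists_generic (Φ : Set ((Fin k → ℝ) →ₗ[ℝ] ℝ)) (hΦ : Φ.Finite) (h0 : ∀ φ ∈ Φ, φ ≠ 0)
    (v : Fin k → ℝ) {ε : ℝ} (hε : 0 < ε) : ∃ t ∈ Subgroup.closure (X.SC : Set G), ∃ τ : ℝ,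
      1 ≤ τ ∧ ‖X.π t - τ • v‖ ≤ ε * τ ∧ ∀ φ ∈ Φ, φ (X.π t) ≠ 0 := by
  have ho : ∀ φ ∈ Φ, IsOpen {x : Fin k → ℝ | φ x ≠ 0} := fun φ _ =>
    isOpen_ne_fun φ.continuous_of_finiteDimensional continuous_const
  have hd : Dense (⋂ φ ∈ Φ, {x : Fin k → ℝ | φ x ≠ 0}) := by
    refine dense_biInter_of_isOpen ho hΦ.countable fun φ hφ => ?_
    have h1 : interior (LinearMap.ker φ : Set (Fin k → ℝ)) = ∅ := by
      by_contra h
      exact h0 φ hφ (LinearMap.ker_eq_top.1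
        (Submodule.eq_top_of_nonempty_interior' _ (Set.nonempty_iff_ne_empty.2 h)))
    exact interior_eq_empty_iff_dense_compl.1 h1
  obtain ⟨x, hx⟩ := hd.inter_open_nonempty (Metric.ball v ε) Metric.isOpen_ball
    ⟨v, Metric.mem_ball_self hε⟩
  obtain ⟨r, hr, hsub⟩ := Metric.isOpen_iff.1 (Metric.isOpen_ball.inter (hΦ.isOpen_biInter ho)) x hx
  set τ : ℝ := 1 / r + 1 with hτ
  have hτ1 : 1 ≤ τ := by
    have : 0 < 1 / r := by positivity
    linarith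
  have hτ0 : 0 < τ := by linarith
  obtain ⟨t, ht, et⟩ := X.h32_lift (Finset.univ.sup fun l => ⌊(τ • x) l⌋.natAbs)
    (fun l => ⌊(τ • x) l⌋) (fun l => Finset.le_sup (f := fun l => ⌊(τ • x) l⌋.natAbs)
      (Finset.mem_univ l))
  have key : ∀ y : Fin k → ℝ, ‖X.π t - τ • y‖ = τ * ‖τ⁻¹ • X.π t - y‖ := fun y => by
    rw [← abs_of_pos hτ0, ← Real.norm_eq_abs, ← norm_smul, Real.norm_eq_abs, abs_of_pos hτ0,
      smul_sub, smul_inv_smul₀ hτ0.ne']
  have h1 : τ⁻¹ • X.π t ∈ Metric.ball x r := by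
    have h2 := h32_floor (τ • x)
    rw [← et, key] at h2
    rw [mem_ball_iff_norm]
    have h3 : τ * r = 1 + r := by rw [hτ]; field_simp
    exact lt_of_mul_lt_mul_left (by linarith) hτ0.le
  obtain ⟨h2, h3⟩ := hsub h1
  refine ⟨t, Ball.mem_closure ht, τ, hτ1, ?_, fun φ hφ h => ?_⟩
  · rw [key, mul_comm]
    exact mul_le_mul_of_nonneg_right (mem_ball_iff_norm.1 h2).le hτ0.le
  · have h4 := Set.mem_iInter₂.1 h3 φ hφ
    exact h4 (by rw [map_smul, h, smul_zero])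

theorem QP.symm {X : Geo G k} {c : ℕ} {ψ ψ' : G → G} (h : X.QP c ψ ψ') : X.QP c ψ' ψ :=
  ⟨h.qi', h.qi, h.step', h.step, h.right, h.left⟩

/-- heights of the image are Lipschitz -/
theorem ht_lip {c : ℕ} {ψ : G → G} (h : QI X.Sg X.Sg ψ c) {x y : G} {n : ℕ}
    (hxy : x⁻¹ * y ∈ Ball X.Sg n) : ‖X.π (ψ y) - X.π (ψ x)‖ ≤ X.K * (c * n + c) := by
  have := X.π_ball (h.up x y n hxy)
  rw [X.π_hom.inv_mul] at this
  exact_mod_cast this

theorem Lab.mono {X : Geo G k} {ψ : G → G} {n : ℕ} {ε ε' : ℝ} {z : G}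
    {w : Module.End ℝ (Fin k → ℝ)} (h : X.Lab ψ n ε z w) (hε : ε ≤ ε') : X.Lab ψ n ε' z w := by
  exact fun c hc => (h c hc).trans (mul_le_mul_of_nonneg_right hε (Nat.cast_nonneg _))

/-- labels of overlapping flat balls agree: test on `c * s ^ (n / 2)`, `π s = Pi.single l 1`;
`isW_sep` -/
theorem lab_overlap : ∃ ε₀ : ℝ, 0 < ε₀ ∧ ∀ (ψ : G → G) (n : ℕ) (z c : G) w w', 2 ≤ n →
    X.IsW w → X.IsW w' → c ∈ Ball (X.SC : Set G) (n / 2) → X.Lab ψ n ε₀ z w →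
      X.Lab ψ n ε₀ (z * c) w' → w = w' := by
  obtain ⟨ε₁, h₁, hsep⟩ := X.isW_sep
  refine ⟨ε₁ / 9, by positivity, fun ψ n z c w w' hn hw hw' hc hl hl' => hsep w w' hw hw' fun l => ?_⟩
  obtain ⟨s, hs, hπ⟩ := X.SC_surj l
  have hm : 1 ≤ n / 2 := by omega
  have hm3 : n ≤ 3 * (n / 2) := by omega
  have hm2 : n / 2 + n / 2 ≤ n := by omega
  generalize n / 2 = m at hm hm3 hm2 hc
  have hsm : s ^ m ∈ Ball (X.SC : Set G) m := by
    simpa using Ball.pow_mem (Ball.mem_of_mem (T := (X.SC : Set G)) (Finset.mem_coe.2 hs)) m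
  have h1 := hl c (Ball.mono subset_rfl (by omega) hc)
  have h2 := hl (c * s ^ m) (Ball.mono subset_rfl hm2 (Ball.mul_mem hc hsm))
  have h3 := hl' (s ^ m) (Ball.mono subset_rfl (by omega) hsm)
  rw [X.π_hom, X.π_hom.pow, hπ, map_add, map_smul, ← mul_assoc] at h2
  rw [X.π_hom.pow, hπ, map_smul] at h3
  have e : (m : ℝ) • (w (Pi.single l 1) - w' (Pi.single l 1)) =
      (X.π (ψ (z * c * s ^ m)) - X.π (ψ (z * c)) - (m : ℝ) • w' (Pi.single l 1)) +
        (X.π (ψ (z * c)) - X.π (ψ z) - w (X.π c)) -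
        (X.π (ψ (z * c * s ^ m)) - X.π (ψ z) - (w (X.π c) + (m : ℝ) • w (Pi.single l 1))) := by
    rw [smul_sub]; abel
  have h4 : ‖(m : ℝ) • (w (Pi.single l 1) - w' (Pi.single l 1))‖ ≤ 3 * (ε₁ / 9 * n) := by
    rw [e]
    refine (norm_sub_le _ _).trans ?_
    refine (add_le_add (norm_add_le _ _) le_rfl).trans ?_
    linarith
  rw [norm_smul, Real.norm_natCast] at h4
  have hm' : (0 : ℝ) < m := by exact_mod_cast hm
  have hm3' : (n : ℝ) ≤ 3 * m := by exact_mod_cast hm3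
  refine le_of_mul_le_mul_left (h4.trans ?_) hm'
  nlinarith

variable [MeasurableMul₂ G] [MeasurableInv G]

theorem Inv.mono {X : Geo G k} {ζ : Measure G} {a a' : X.ι → ℝ} {η η' : ℝ} (h : X.Inv ζ a η)
    (ha : a' ≤ a) (hη : η ≤ η') : X.Inv ζ a' η' := by
  intro b hb hle g hg
  exact (h b hb (hle.trans ha) g hg).mono hη

/-- `TVr.map_iff`, `box_conj` -/
theorem Inv.flat {X : Geo G k} {ζ : Measure G} {a : X.ι → ℝ} {η : ℝ} (h : X.Inv ζ a η) {m : ℕ}
    {c : G} (hc : c ∈ Ball (X.SC : Set G) m) :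
    X.Inv (ζ.map fun x => x * c) (fun i => a i - X.χ i (X.π c) - X.K * lg m) η := by
  intro b hb hle g hg
  rw [TVr.map_iff]
  have h0 : (0 : ℝ) ≤ X.K * lg m :=
    mul_nonneg (Nat.cast_nonneg _) (zero_le_one.trans (one_le_lg m))
  refine h _ (X.adm_add_const (hb.add_pt (X.π c)) h0) (fun i => ?_) _ (X.box_conj b hb m c hc g hg)
  have := hle i
  simp only at this ⊢
  linarith

theorem Inv.rb {X : Geo G k} {ζ : Measure G} {a a' : X.ι → ℝ} {η : ℝ} (h : X.Inv ζ a η)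
    (ha : Adm X.χ a') (hle : ∀ j, a' j + X.K ≤ a j) {i : X.ι} {g : G} (hg : g ∈ X.RB i (a' i)) :
    TVr ζ g η := by
  exact h _ (X.adm_add_const ha (Nat.cast_nonneg X.K)) hle g (X.RB_box a' ha i hg)

theorem meas_lab {ψ : G → G} (h : Step ψ) (n : ℕ) (ε : ℝ) (w : Module.End ℝ (Fin k → ℝ)) :
    MeasurableSet {z | X.Lab ψ n ε z w} := by
  have := h.meas_fin (Ball.finite X.SC.finite_toSet n)
    (fun f => ∀ c ∈ Ball (X.SC : Set G) n, ‖X.π (f c) - X.π (f 1) - w (X.π c)‖ ≤ ε * n)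
    fun f f' hf hP c hc => by
      rw [← hf c hc, ← hf 1 (Ball.one_mem _ _)]
      exact hP c hc
  simpa only [mul_one, Lab] using this

theorem meas_exists_lab {ψ : G → G} (h : Step ψ) (n : ℕ) (ε : ℝ)
    (Wp : Module.End ℝ (Fin k → ℝ) → Prop) : MeasurableSet {z | ∃ w, Wp w ∧ X.Lab ψ n ε z w} := by
  have := h.meas_fin (Ball.finite X.SC.finite_toSet n)
    (fun f => ∃ w, Wp w ∧
      ∀ c ∈ Ball (X.SC : Set G) n, ‖X.π (f c) - X.π (f 1) - w (X.π c)‖ ≤ ε * n)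
    fun f f' hf hP => by
      obtain ⟨w, hw, hP⟩ := hP
      refine ⟨w, hw, fun c hc => ?_⟩
      rw [← hf c hc, ← hf 1 (Ball.one_mem _ _)]
      exact hP c hc
  simpa only [mul_one, Lab] using this

end Geo

end Crest.Agent.R182
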