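import Crest.Agent.R182.MVSch
import Crest.Agent.R182.MBasic

/-! Row 182, block M2: image profiles do not lose volume. -/

set_option autoImplicit false
set_option linter.dupNamespace false

namespace Crest.Agent.R182

open MeasureTheory

/-- a set determined by finitely many values of a step map is measurable -/
theorem mv_meas {G : Type} [Group G] [MeasurableSpace G] [MeasurableMul₂ G] [MeasurableInv G] {ψ : G → G}
    (hψ : Step ψ) (p : ℕ → G) (N : ℕ) {A : Set G}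
    (h : ∀ x y, (∀ j ≤ N, ψ (x * p j) = ψ (y * p j)) → x ∈ A → y ∈ A) : MeasurableSet A := by
  have := Step.meas_fin hψ ((Set.finite_Iic N).image p)
    (fun f => ∃ x ∈ A, ∀ j ≤ N, ψ (x * p j) = f (p j))
    (fun f f' hf ⟨x, hx, h1⟩ => ⟨x, hx, fun j hj => (h1 j hj).trans (hf _ ⟨j, hj, rfl⟩)⟩)
  convert this using 1
  ext y
  exact ⟨fun hy => ⟨y, hy, fun _ _ => rfl⟩, fun ⟨x, hx, h1⟩ => h x y h1 hx⟩

/-- `measureReal_iUnion_fintype_le` -/
theorem mv_pigeon {G κ : Type} [MeasurableSpace G] [Fintype κ] [Nonempty κ] (ζ : Measure G)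
    [IsFiniteMeasure ζ] (col : G → κ) (A : Set G) {η : ℝ} (h : η < ζ.real A) :
    ∃ c, η / Fintype.card κ ≤ ζ.real (A ∩ col ⁻¹' {c}) := by
  by_contra hc
  push Not at hc
  have hpos : (0 : ℝ) < Fintype.card κ := by exact_mod_cast Fintype.card_pos
  have e : A = ⋃ c, A ∩ col ⁻¹' {c} := by
    ext x; simp
  have h1 : ζ.real A ≤ ∑ c, ζ.real (A ∩ col ⁻¹' {c}) := by
    conv_lhs => rw [e]
    exact measureReal_iUnion_fintype_le _
  have h2 : ∑ c, ζ.real (A ∩ col ⁻¹' {c}) ≤ ∑ _c : κ, η / Fintype.card κ :=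
    Finset.sum_le_sum fun c _ => (hc c).le
  rw [Finset.sum_const, Finset.card_univ, nsmul_eq_mul, mul_div_cancel₀ _ hpos.ne'] at h2
  linarith

theorem helper52_walk {k : ℕ} (f : ℕ → Fin k → ℝ) {n : ℕ} {Λ : ℝ}
    (hf : ∀ j < n, ‖f (j + 1) - f j‖ ≤ Λ) (i d : ℕ) (h : i + d ≤ n) :
    ‖f (i + d) - f i‖ ≤ Λ * d := by
  induction d with
  | zero => simp
  | succ d ih =>
    have h1 := ih (by omega)
    have h2 := hf (i + d) (by omega)
    have h3 := norm_add_le (f (i + d + 1) - f (i + d)) (f (i + d) - f i)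
    rw [sub_add_sub_cancel] at h3
    rw [← add_assoc]
    push_cast
    linarith

/-- `l = j / s`; the two floors differ by less than `Q` and agree mod `Q`
(`ZMod.intCast_eq_intCast_iff_dvd_sub`, `Int.eq_zero_of_abs_lt_dvd`), so they agree -/
theorem mv_close {k : ℕ} (f g : ℕ → Fin k → ℝ) {n s M Q : ℕ} {m D Λ : ℝ} (hm : 0 < m) (hΛ : 0 ≤ Λ)
    (hn : n < M * s) (hf : ∀ j < n, ‖f (j + 1) - f j‖ ≤ Λ) (hg : ∀ j < n, ‖g (j + 1) - g j‖ ≤ Λ)
    (hD : ∀ j ≤ n, ‖f j - g j‖ ≤ D) (hQ : D / m + 1 ≤ Q)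
    (hcol : ∀ l < M, ∀ a, ((⌊f (l * s) a / m⌋ : ℤ) : ZMod Q) = (⌊g (l * s) a / m⌋ : ℤ)) :
    ∀ j ≤ n, ‖f j - g j‖ ≤ m + 2 * (Λ * s) := by
  intro j hj
  have hs : 0 < s := Nat.pos_of_ne_zero fun h => by simp [h] at hn
  have hl : j / s < M := by
    rw [Nat.div_lt_iff_lt_mul hs]; omega
  have h1 : j / s * s ≤ j := Nat.div_mul_le_self j s
  have h2 : j < j / s * s + s := Nat.lt_div_mul_add hs
  obtain ⟨d, hd⟩ := Nat.exists_eq_add_of_le h1
  have hds : (d : ℝ) ≤ s := by exact_mod_cast (by omega : d ≤ s)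
  have hΛd : Λ * d ≤ Λ * s := mul_le_mul_of_nonneg_left hds hΛ
  have h3 := helper52_walk f hf (j / s * s) d (by omega)
  have h4 := helper52_walk g hg (j / s * s) d (by omega)
  rw [← hd] at h3 h4
  have h5 : ‖f (j / s * s) - g (j / s * s)‖ ≤ m := by
    refine (pi_norm_le_iff_of_nonneg hm.le).2 fun a => ?_
    have h6 : |f (j / s * s) a - g (j / s * s) a| ≤ D :=
      (norm_le_pi_norm (f (j / s * s) - g (j / s * s)) a).trans (hD _ (by omega))
    have h7 := hcol _ hl a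
    rw [ZMod.intCast_eq_intCast_iff_dvd_sub] at h7
    rw [Pi.sub_apply, Real.norm_eq_abs]
    generalize f (j / s * s) a = x at h6 h7 ⊢
    generalize g (j / s * s) a = y at h6 h7 ⊢
    have h8 : |x / m - y / m| ≤ D / m := by
      rw [← sub_div, abs_div, abs_of_pos hm]
      exact div_le_div_of_nonneg_right h6 hm.le
    have a1 := Int.floor_le (x / m)
    have a2 := Int.lt_floor_add_one (x / m)
    have a3 := Int.floor_le (y / m)
    have a4 := Int.lt_floor_add_one (y / m)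
    rw [abs_le] at h8
    have h9 : |⌊y / m⌋ - ⌊x / m⌋| < (Q : ℤ) := by
      have : |((⌊y / m⌋ - ⌊x / m⌋ : ℤ) : ℝ)| < (Q : ℝ) := by
        push_cast
        rw [abs_lt]
        constructor <;> linarith [h8.1, h8.2]
      exact_mod_cast this
    have h10 := Int.eq_zero_of_abs_lt_dvd h7 h9
    have h11 : (⌊y / m⌋ : ℝ) = ⌊x / m⌋ := by exact_mod_cast sub_eq_zero.1 h10
    have h12 : |x / m - y / m| ≤ 1 := by
      rw [abs_le]; constructor <;> linarith
    rwa [← sub_div, abs_div, abs_of_pos hm, div_le_one hm] at h12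
  have e : f j - g j = (f j - f (j / s * s)) + (f (j / s * s) - g (j / s * s)) -
      (g j - g (j / s * s)) := by abel
  rw [e]
  have h6 := norm_sub_le ((f j - f (j / s * s)) + (f (j / s * s) - g (j / s * s)))
    (g j - g (j / s * s))
  have h7 := norm_add_le (f j - f (j / s * s)) (f (j / s * s) - g (j / s * s))
  linarith

namespace Geo

variable {G : Type} [Group G] [MeasurableSpace G] {k : ℕ} (X : Geo G k)

/-- a flat path from `1` -/
def FP (p : ℕ → G) (n : ℕ) : Prop :=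
  p 0 = 1 ∧ ∀ j < n, (p j)⁻¹ * p (j + 1) ∈ Ball (X.SC : Set G) 1

/-- levels of the source profile -/
noncomputable def src (p : ℕ → G) (n : ℕ) : X.ι → ℝ :=
  lev X.χ ((fun j => X.π (p j)) '' Set.Iic n)

/-- levels of the image profile -/
noncomputable def img (ψ : G → G) (p : ℕ → G) (n : ℕ) (x : G) : X.ι → ℝ :=
  lev X.χ ((fun j => X.π (ψ (x * p j))) '' Set.Iic n)

/-- short words in the ray boxes of the source profile -/
def Wd (p : ℕ → G) (n : ℕ) (w : List G) : Prop :=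
  w.length ≤ X.K ∧ ∀ g ∈ w, ∃ i, g ∈ X.RB i (X.src p n i)

/-- points whose height is close to the image profile of `x` -/
def NearP (ψ : G → G) (p : ℕ → G) (n : ℕ) (x : G) (ρ : ℝ) : Set G :=
  {y | ∃ j ≤ n, ‖X.π y - X.π (ψ (x * p j))‖ ≤ ρ}

/-- length of the jump -/
noncomputable def jmp (n : ℕ) : ℕ := X.K * ⌈X.K * lg n⌉₊ + X.K

theorem FP.mem {X : Geo G k} {p : ℕ → G} {n : ℕ} (h : X.FP p n) {j : ℕ} (hj : j ≤ n) :
    p j ∈ Ball (X.SC : Set G) j := by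
  induction j with
  | zero => rw [h.1]; exact Ball.one_mem _ _
  | succ j ih =>
    have := Ball.mul_mem (ih (by omega)) (h.2 j (by omega))
    rwa [mul_inv_cancel_left] at this

/-- `j` = the argmax (`exists_lev`), `RB_conj` with `c = (p j)⁻¹ ∈ Ball SC n`, `RB_mono`, `RB_ball` -/
theorem mv_letter {p : ℕ → G} {n : ℕ} (hp : X.FP p n) {i : X.ι} {g : G}
    (hg : g ∈ X.RB i (X.src p n i)) : ∃ j ≤ n, (p j)⁻¹ * g * p j ∈ Ball X.Sg (X.jmp n) := by
  obtain ⟨_, ⟨j, hj, rfl⟩, he⟩ := exists_lev (χ := X.χ)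
    ((Set.finite_Iic n).image fun j => X.π (p j)) ⟨_, 0, Nat.zero_le n, rfl⟩ i
  refine ⟨j, hj, ?_⟩
  have h1 := X.RB_conj i _ n _ (Ball.inv_mem (Ball.mono subset_rfl hj (hp.mem hj))) g hg
  rw [inv_inv, src, he, X.π_hom.inv, map_neg, add_neg_cancel, zero_add] at h1
  exact X.RB_ball i _ (X.RB_mono i _ _ (Nat.le_ceil _) h1)

/-- `mv_letter`, `flat_ball`, `lg n ≤ 1 + n ≤ 2 n` -/
theorem mv_dist : ∃ C : ℕ, ∀ n, 1 ≤ n → ∀ p : ℕ → G, X.FP p n → ∀ w, X.Wd p n w → ∀ l : ℕ, ∀ j ≤ n,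
    (p j)⁻¹ * (w.take l).prod * p j ∈ Ball X.Sg (C * n) := by
  refine ⟨2 * X.K + X.K * (3 * X.K + 2 * X.K * X.K), fun n hn p hp w hw l j hj => ?_⟩
  have hb : ∀ j ≤ n, p j ∈ Ball X.Sg (X.K * n) := fun j hj =>
    X.flat_ball (Ball.mono subset_rfl hj (hp.mem hj))
  have hc : ⌈X.K * lg n⌉₊ ≤ X.K * (2 * n) := by
    have h1 : (1 : ℝ) ≤ n := by exact_mod_cast hn
    have h2 := Real.log_le_sub_one_of_pos (x := 1 + n) (by positivity)
    have h3 : lg n ≤ 2 * n := by unfold lg; linarith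
    refine Nat.ceil_le.2 ?_
    push_cast
    exact mul_le_mul_of_nonneg_left h3 (Nat.cast_nonneg _)
  have hl : ∀ g ∈ w, g ∈ Ball X.Sg ((3 * X.K + 2 * X.K * X.K) * n) := by
    intro g hg
    obtain ⟨i, hi⟩ := hw.2 g hg
    obtain ⟨j', h1, h2⟩ := X.mv_letter hp hi
    have h3 := Ball.mul_mem (Ball.mul_mem (hb j' h1) h2) (Ball.inv_mem (hb j' h1))
    rw [show p j' * ((p j')⁻¹ * g * p j') * (p j')⁻¹ = g by group] at h3
    refine Ball.mono subset_rfl ?_ h3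
    have h4 := Nat.mul_le_mul_left X.K hc
    have h5 := Nat.mul_le_mul_left X.K hn
    unfold jmp
    linarith
  have hpr : ∀ u : List G, (∀ g ∈ u, g ∈ w) →
      u.prod ∈ Ball X.Sg (u.length * ((3 * X.K + 2 * X.K * X.K) * n)) := by
    intro u
    induction u with
    | nil => exact fun _ => Ball.one_mem _ _
    | cons a u ih =>
      intro h
      rw [List.prod_cons, List.length_cons, Nat.succ_mul, add_comm]
      exact Ball.mul_mem (hl a (h a List.mem_cons_self))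
        (ih fun g hg => h g (List.mem_cons_of_mem _ hg))
  refine Ball.mono subset_rfl ?_ (Ball.mul_mem (Ball.mul_mem (Ball.inv_mem (hb j hj))
    (hpr _ fun g hg => List.mem_of_mem_take hg)) (hb j hj))
  have h1 : (w.take l).length ≤ X.K := (List.length_take_le' _ _).trans hw.1
  have h2 := Nat.mul_le_mul_right ((3 * X.K + 2 * X.K * X.K) * n) h1
  linarith

/-- go along `ψ (z * p ·)` to `j` (`Reach.chain`, `Lip.reach X.π_lip`, `Reach.of_le`), jump, come back along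
`ψ (z * g * p ·)` (`Reach.symm`) -/
theorem mv_reach_letter {c : ℕ} {ψ : G → G} (hψ : QI X.Sg X.Sg ψ c) {p : ℕ → G} {n : ℕ}
    (hp : X.FP p n) {x z g : G} {ρ : ℝ} {j : ℕ} (hj : j ≤ n)
    (hg : (p j)⁻¹ * g * p j ∈ Ball X.Sg (X.jmp n))
    (h1 : ∀ j ≤ n, ‖X.π (ψ (z * p j)) - X.π (ψ (x * p j))‖ ≤ ρ)
    (h2 : ∀ j ≤ n, ‖X.π (ψ (z * g * p j)) - X.π (ψ (x * p j))‖ ≤ ρ) :
    Reach X.Sg (X.NearP ψ p n x (ρ + X.K * (c * (X.K + X.jmp n) + c : ℕ))) (ψ z)
      (2 * ((c * X.K + c) * n) + (c * X.jmp n + c)) (ψ (z * g)) := by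
  have hstep : ∀ (y y' : G) (i m : ℕ), i ≤ n → m ≤ X.K + X.jmp n → y⁻¹ * y' ∈ Ball X.Sg m →
      ‖X.π (ψ y) - X.π (ψ (x * p i))‖ ≤ ρ →
      Reach X.Sg (X.NearP ψ p n x (ρ + X.K * (c * (X.K + X.jmp n) + c : ℕ))) (ψ y) (c * m + c)
        (ψ y') := by
    intro y y' i m hi hm hy hρ
    refine (X.π_lip.reach (hψ.up y y' m hy)).mono fun u hu => ⟨i, hi, ?_⟩
    have h3 : ‖X.π u - X.π (ψ y)‖ ≤ X.K * (c * m + c : ℕ) := hu
    have h4 : ((c * m + c : ℕ) : ℝ) ≤ (c * (X.K + X.jmp n) + c : ℕ) :=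
      Nat.cast_le.2 (Nat.add_le_add_right (Nat.mul_le_mul_left c hm) c)
    have h5 := norm_add_le (X.π u - X.π (ψ y)) (X.π (ψ y) - X.π (ψ (x * p i)))
    rw [sub_add_sub_cancel] at h5
    have h6 := mul_le_mul_of_nonneg_left h4 (Nat.cast_nonneg X.K)
    linarith
  have hgo : ∀ y : G, (∀ j ≤ n, ‖X.π (ψ (y * p j)) - X.π (ψ (x * p j))‖ ≤ ρ) →
      Reach X.Sg (X.NearP ψ p n x (ρ + X.K * (c * (X.K + X.jmp n) + c : ℕ))) (ψ y)
        ((c * X.K + c) * n) (ψ (y * p j)) := by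
    intro y hy
    have h0 : ψ (y * p 0) ∈ X.NearP ψ p n x (ρ + X.K * (c * (X.K + X.jmp n) + c : ℕ)) :=
      ⟨0, Nat.zero_le _, (hy 0 (Nat.zero_le _)).trans (le_add_of_nonneg_right (by positivity))⟩
    have h3 := Reach.chain (T := X.Sg) (fun i => ψ (y * p i)) (c * X.K + c) j h0 fun i hi => by
      refine hstep _ _ i X.K (by omega) (Nat.le_add_right _ _) ?_ (hy i (by omega))
      have := X.flat_ball (hp.2 i (by omega))
      rwa [mul_one, show (p i)⁻¹ * p (i + 1) = (y * p i)⁻¹ * (y * p (i + 1)) by group] at this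
    have h4 := h3.of_le (Nat.mul_le_mul_left (c * X.K + c) hj)
    rwa [hp.1, mul_one] at h4
  have hj2 := hstep (z * p j) (z * g * p j) j (X.jmp n) hj (Nat.le_add_left _ _)
    (by rwa [show (z * p j)⁻¹ * (z * g * p j) = (p j)⁻¹ * g * p j by group]) (h1 j hj)
  exact (((hgo z h1).trans hj2).trans (hgo (z * g) h2).symm).of_le (by omega)

/-- `Reach.chain` with `q l = ψ (x * (w.take l).prod)` (`List.prod_take_succ`), `mv_letter`,
`mv_reach_letter`, `Reach.of_le` -/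
theorem mv_reach_word {c : ℕ} {ψ : G → G} (hψ : QI X.Sg X.Sg ψ c) {p : ℕ → G} {n : ℕ}
    (hp : X.FP p n) {x : G} {ρ : ℝ} {w : List G} (hw : X.Wd p n w)
    (h : ∀ l : ℕ, ∀ j ≤ n, ‖X.π (ψ (x * (w.take l).prod * p j)) - X.π (ψ (x * p j))‖ ≤ ρ) :
    Reach X.Sg (X.NearP ψ p n x (ρ + X.K * (c * (X.K + X.jmp n) + c : ℕ))) (ψ x)
      ((2 * ((c * X.K + c) * n) + (c * X.jmp n + c)) * X.K) (ψ (x * w.prod)) := by
  have h0 : ψ (x * (w.take 0).prod) ∈
      X.NearP ψ p n x (ρ + X.K * (c * (X.K + X.jmp n) + c : ℕ)) := by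
    refine ⟨0, Nat.zero_le _, ?_⟩
    have h1 := h 0 0 (Nat.zero_le _)
    rw [hp.1, mul_one] at h1
    rw [hp.1]
    exact h1.trans (le_add_of_nonneg_right (by positivity))
  have h3 := Reach.chain (T := X.Sg) (fun l => ψ (x * (w.take l).prod))
    (2 * ((c * X.K + c) * n) + (c * X.jmp n + c)) w.length h0 fun l hl => by
      obtain ⟨i, hi⟩ := hw.2 w[l] (List.getElem_mem hl)
      obtain ⟨j, hj, hg⟩ := X.mv_letter hp hi
      have e : x * (w.take (l + 1)).prod = x * (w.take l).prod * w[l] := by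
        rw [List.prod_take_succ w l hl, mul_assoc]
      rw [e]
      exact X.mv_reach_letter hψ hp hj hg (h l) (e ▸ h (l + 1))
  have h4 := h3.of_le (Nat.mul_le_mul_left _ hw.1)
  simpa only [List.take_zero, List.prod_nil, mul_one, List.take_length] using h4

/-- separated endpoints of paths below the levels `a` (`sl` for `a - χ (π y₀)`, `Adm.add_pt`, `adm_add_const`,
`χ_bound`, `count0` for the left translate of `Y` by `y₀⁻¹` (`Sep.mul_left`), `V_add_pt`, `V_lip`, `lg_mul_le`;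
if `Y` is empty there is nothing to prove) -/
theorem mv_count : ∃ C : ℝ, 0 ≤ C ∧ ∀ a, Adm X.χ a → ∀ (y₀ : G) (m : ℕ) (Y : Finset G),
    Sep X.Sg 1 Y → (∀ y ∈ Y, Reach X.Sg {z | ∀ i, X.χ i (X.π z) ≤ a i} y₀ m y) →
      (Y.card : ℝ) ≤ Real.exp (X.V a + C * lg m) := by
  classical
  obtain ⟨K₁, -, hsl⟩ := X.sl
  obtain ⟨B, hB, hχ⟩ := X.χ_bound
  obtain ⟨B', hB', hV⟩ := X.V_lip
  have hl := one_le_lg K₁
  refine ⟨B' * (K₁ + B * K₁) + X.K * lg K₁, by positivity, fun a ha y₀ m Y hY hR => ?_⟩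
  have hm := one_le_lg m
  have hr : (0 : ℝ) ≤ (K₁ + B * K₁) * lg m := by positivity
  have ha' := X.adm_add_const (ha.add_pt (-X.π y₀)) hr
  have h1 := X.count0 _ ha' (K₁ * m) (Y.image fun y => y₀⁻¹ * y)
    (by rw [Finset.coe_image]; exact hY.mul_left _) (by
      intro z hz
      obtain ⟨y, hy, rfl⟩ := Finset.mem_image.1 hz
      obtain ⟨e, he, c, hc, b, hb, h2, h3⟩ := hsl (fun i => a i + X.χ i (-X.π y₀)) y₀ y m
        ((hR y hy).mono fun z hz i => by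
          have := hz i
          simp only [pt, map_sub, map_neg]
          linarith)
      have h4 : (0 : ℝ) ≤ B * K₁ * lg m := by positivity
      refine ⟨e, X.box_mono _ _ (fun i => ?_) he, c, hc, b, hb, h2, fun i => ?_⟩
      · simp only; nlinarith
      · have h5 := (hR y hy).right i
        have h6 := (abs_le.1 (hχ i (X.π c - (X.π y - X.π y₀)))).2
        have h7 : B * ‖X.π c - (X.π y - X.π y₀)‖ ≤ B * K₁ * lg m :=
          (mul_le_mul_of_nonneg_left h3 (by linarith)).trans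
            (le_mul_of_one_le_right (by positivity) hm)
        have h8 : (0 : ℝ) ≤ K₁ * lg m := by positivity
        simp only [pt, map_sub, map_neg] at h6 ⊢
        nlinarith)
  rw [Finset.card_image_of_injective _ (mul_right_injective y₀⁻¹)] at h1
  refine h1.trans (Real.exp_le_exp.2 ?_)
  have h2 := hV (fun i => a i + X.χ i (-X.π y₀)) _ _ hr fun i => le_rfl
  rw [X.V_add_pt] at h2
  have h3 : lg (K₁ * m) ≤ lg K₁ * lg m := (lg_mono (Nat.le_add_right _ _)).trans (lg_mul_le K₁ m)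
  have h4 : (X.K : ℝ) * lg (K₁ * m) ≤ X.K * (lg K₁ * lg m) := by gcongr
  change X.V _ + _ ≤ _
  nlinarith
/-- the deterministic part: `y ↦ ψ (x * y)` is injective on `Y` with `1`-separated image (`Sep.mul_left`, `Sep.qi`);
`mv_reach_word`, `NearP ρ' ⊆ {χ i (π z) ≤ img i + B ρ'}` (`le_lev`, `χ_bound`, `Adm.lev`, `adm_add_const`),
`mv_count`, `V_lip`;
`jmp n ≤ C lg n`, the path length is `≤ C' n + C'`, `lg_mul_le`, `one_le_lg` -/
theorem mv_det (c : ℕ) : ∃ C : ℝ, 0 ≤ C ∧ ∀ (n : ℕ) (p : ℕ → G), X.FP p n → ∀ ψ : G → G,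
    QI X.Sg X.Sg ψ c → ∀ (x : G) (ρ : ℝ) (Y : Finset G), 0 ≤ ρ → Sep X.Sg (c + c) Y →
      (∀ y ∈ Y, ∃ w, X.Wd p n w ∧ y = w.prod ∧ ∀ l : ℕ, ∀ j ≤ n,
        ‖X.π (ψ (x * (w.take l).prod * p j)) - X.π (ψ (x * p j))‖ ≤ ρ) →
      (Y.card : ℝ) ≤ Real.exp (X.V (X.img ψ p n x) + C * (ρ + lg n)) := by
  classical
  obtain ⟨B, hB1, hB⟩ := X.χ_bound
  obtain ⟨BV, hBV1, hBV⟩ := X.V_lip
  obtain ⟨C0, hC0, hcount⟩ := X.mv_count
  have hK : (0 : ℝ) ≤ X.K := Nat.cast_nonneg _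
  have hc : (0 : ℝ) ≤ c := Nat.cast_nonneg _
  set D : ℝ := X.K * (c * (X.K + (X.K * X.K + 2 * X.K)) + c) with hD
  have hD0 : 0 ≤ D := by positivity
  set C' : ℕ := (2 * (c * X.K + c) + c * (X.K * X.K + X.K) + c) * X.K with hC'
  have hlC := one_le_lg C'
  refine ⟨BV * B * (1 + D) + C0 * lg C', by positivity, ?_⟩
  intro n p hp ψ hψ x ρ Y hρ hsep hY
  have hl := one_le_lg n
  have hj1 : (X.jmp n : ℝ) ≤ (X.K * X.K + 2 * X.K) * lg n := by
    have h1 : (⌈X.K * lg n⌉₊ : ℝ) ≤ X.K * lg n + 1 := (Nat.ceil_lt_add_one (by positivity)).le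
    have h2 : (X.K : ℝ) * ⌈X.K * lg n⌉₊ ≤ X.K * (X.K * lg n + 1) := by gcongr
    have h3 : (X.K : ℝ) * 1 ≤ X.K * lg n := by gcongr
    unfold jmp
    push_cast
    nlinarith
  have hj2 : X.jmp n ≤ (X.K * X.K + X.K) * (n + 1) := by
    have h1 : lg n ≤ n + 1 := by
      have := Real.log_le_sub_one_of_pos (x := 1 + (n : ℝ)) (by positivity)
      unfold lg; linarith
    have h2 : ⌈X.K * lg n⌉₊ ≤ X.K * (n + 1) := by
      rw [Nat.ceil_le]; push_cast; gcongr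
    have h3 : X.K * ⌈X.K * lg n⌉₊ ≤ X.K * (X.K * (n + 1)) := Nat.mul_le_mul_left _ h2
    unfold jmp
    nlinarith [Nat.zero_le (X.K * n)]
  set ρ' : ℝ := ρ + X.K * (c * (X.K + X.jmp n) + c : ℕ) with hρ'
  have hρ'0 : 0 ≤ ρ' := by positivity
  have hρ'1 : ρ' ≤ ρ + D * lg n := by
    have h3 : (X.K : ℝ) * 1 ≤ X.K * lg n := by gcongr
    have h4 : (c : ℝ) * 1 ≤ c * lg n := by gcongr
    have h5 : (c : ℝ) * (X.K + X.jmp n) + c ≤
        c * (X.K * lg n + (X.K * X.K + 2 * X.K) * lg n) + c * lg n := by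
      have : (c : ℝ) * (X.K + X.jmp n) ≤ c * (X.K * lg n + (X.K * X.K + 2 * X.K) * lg n) := by
        gcongr; linarith
      linarith
    have h6 := mul_le_mul_of_nonneg_left h5 hK
    rw [hρ', hD]
    push_cast
    linarith
  set m : ℕ := (2 * ((c * X.K + c) * n) + (c * X.jmp n + c)) * X.K with hm
  have hm1 : m ≤ C' * n + C' := by
    have h1 : c * X.jmp n ≤ c * ((X.K * X.K + X.K) * (n + 1)) := Nat.mul_le_mul_left _ hj2
    have h2 : 2 * ((c * X.K + c) * n) + (c * X.jmp n + c) ≤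
        (2 * (c * X.K + c) + c * (X.K * X.K + X.K) + c) * (n + 1) := by
      nlinarith [Nat.zero_le (c * n), Nat.zero_le (c * X.K)]
    calc m ≤ (2 * (c * X.K + c) + c * (X.K * X.K + X.K) + c) * (n + 1) * X.K :=
          Nat.mul_le_mul_right _ h2
      _ = C' * n + C' := by rw [hC']; ring
  have hm2 : lg m ≤ lg C' * lg n := (lg_mono hm1).trans (lg_mul_le C' n)
  have hfin : ((fun j => X.π (ψ (x * p j))) '' Set.Iic n).Finite := (Set.finite_Iic n).image _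
  have hne : ((fun j => X.π (ψ (x * p j))) '' Set.Iic n).Nonempty :=
    ⟨_, 0, Nat.zero_le n, rfl⟩
  have hadm : Adm X.χ (fun i => X.img ψ p n x i + B * ρ') :=
    X.adm_add_const (Adm.lev hfin hne) (by positivity)
  obtain ⟨hs1, hinj⟩ := Sep.qi hψ (hsep.mul_left x)
  have hinj' : Set.InjOn (fun y => ψ (x * y)) Y := fun y hy y' hy' e =>
    mul_left_cancel (hinj ⟨y, hy, rfl⟩ ⟨y', hy', rfl⟩ e)
  have hcard := hcount _ hadm (ψ x) m (Y.image fun y => ψ (x * y))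
    (by rw [Finset.coe_image, ← Set.image_image]; exact hs1) (by
      intro z hz
      obtain ⟨y, hy, rfl⟩ := Finset.mem_image.1 hz
      obtain ⟨w, hw, rfl, h⟩ := hY y hy
      refine (X.mv_reach_word hψ hp hw h).mono ?_
      rintro z ⟨j, hj, hz⟩ i
      have h1 : X.χ i (X.π (ψ (x * p j))) ≤ X.img ψ p n x i := le_lev hfin ⟨j, hj, rfl⟩ i
      have h2 := (le_abs_self _).trans (hB i (X.π z - X.π (ψ (x * p j))))
      rw [map_sub] at h2
      have h3 : B * ‖X.π z - X.π (ψ (x * p j))‖ ≤ B * ρ' :=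
        mul_le_mul_of_nonneg_left hz (by linarith)
      linarith)
  rw [Finset.card_image_of_injOn hinj'] at hcard
  refine hcard.trans (Real.exp_le_exp.2 ?_)
  have h1 := hBV (X.img ψ p n x) (fun i => X.img ψ p n x i + B * ρ') (B * ρ') (by positivity)
    (fun i => le_rfl)
  have hBB : 0 ≤ BV * B := by positivity
  have h2 : BV * B * ρ' ≤ BV * B * (ρ + D * lg n) := mul_le_mul_of_nonneg_left hρ'1 hBB
  have h3 : C0 * lg m ≤ C0 * (lg C' * lg n) := mul_le_mul_of_nonneg_left hm2 hC0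
  have h4 : 0 ≤ BV * B * lg n := by positivity
  have h5 : 0 ≤ BV * B * D * ρ := by positivity
  have h6 : 0 ≤ C0 * lg C' * ρ := by positivity
  nlinarith

/-- the colouring: for `ε₁ > 0` a finite set of colours, independent of `n`, such that two points of the same
colour which differ by a prefix of a word have `ε₁ n`-close profiles.
`κ = Fin M → Fin k → ZMod Q` (`Q ≥ 1`, `NeZero`), `s = n / M + 1`, `N = M * s`,
`col x l a = ⌊π (ψ (x * p (l * s))) a / (ε₁ n / 2)⌋`; `mv_close` with `Λ = K (c K + c)` (`ht_lip`, `flat_ball`),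
`D = K (c C n + c)` (`mv_dist`, `ht_lip`), `8 Λ ≤ ε₁ M`, `8 Λ ≤ ε₁ n₀`, `1 ≤ n₀` -/
theorem mv_colour (c : ℕ) (ε₁ : ℝ) (hε : 0 < ε₁) : ∃ (κ : Type) (_ : Fintype κ) (_ : Nonempty κ)
    (n₀ : ℕ), ∀ n ≥ n₀, ∀ p : ℕ → G, X.FP p n → ∀ ψ : G → G, QI X.Sg X.Sg ψ c →
      ∃ (N : ℕ) (col : G → κ), n ≤ N ∧
        (∀ x y, (∀ j ≤ N, ψ (x * p j) = ψ (y * p j)) → col x = col y) ∧
        ∀ x w, X.Wd p n w → ∀ l : ℕ, col (x * (w.take l).prod) = col x → ∀ j ≤ n,
          ‖X.π (ψ (x * (w.take l).prod * p j)) - X.π (ψ (x * p j))‖ ≤ ε₁ * n := by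
  obtain ⟨C, hC⟩ := X.mv_dist
  have hK : (0 : ℝ) ≤ X.K := Nat.cast_nonneg _
  have hc : (0 : ℝ) ≤ c := Nat.cast_nonneg _
  obtain ⟨Λ, hΛ⟩ : ∃ Λ : ℝ, Λ = X.K * (c * X.K + c) := ⟨_, rfl⟩
  have hΛ0 : 0 ≤ Λ := by rw [hΛ]; positivity
  obtain ⟨M, hM⟩ : ∃ M : ℕ, M = ⌈8 * Λ / ε₁⌉₊ + 1 := ⟨_, rfl⟩
  have hM1 : 1 ≤ M := by omega
  have hM2 : 8 * Λ ≤ ε₁ * M := by
    have h1 := Nat.le_ceil (8 * Λ / ε₁)
    rw [div_le_iff₀ hε] at h1
    rw [hM]
    push_cast
    nlinarith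
  obtain ⟨q, hq⟩ : ∃ q : ℕ, q = ⌈2 * (X.K * (c * C + c)) / ε₁⌉₊ := ⟨_, rfl⟩
  have hq1 : 2 * (X.K * (c * C + c)) / ε₁ ≤ q := hq ▸ Nat.le_ceil _
  refine ⟨Fin M → Fin k → ZMod (q + 1), inferInstance, inferInstance, M, fun n hn p hp ψ hψ => ?_⟩
  have hn1 : 1 ≤ n := hM1.trans hn
  have hnR : (1 : ℝ) ≤ n := by exact_mod_cast hn1
  have hMn : (M : ℝ) ≤ n := by exact_mod_cast hn
  have hlt : n < M * (n / M + 1) := Nat.lt_mul_div_succ n hM1
  refine ⟨M * (n / M + 1),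
    fun x l a => ((⌊X.π (ψ (x * p (l * (n / M + 1)))) a / (ε₁ * n / 2)⌋ : ℤ) : ZMod (q + 1)),
    hlt.le, fun x y hxy => ?_, fun x w hw l hcol => ?_⟩
  · funext l a
    beta_reduce
    rw [hxy _ (Nat.mul_le_mul_right _ l.2.le)]
  · have hstep : ∀ z : G, ∀ j < n, ‖X.π (ψ (z * p (j + 1))) - X.π (ψ (z * p j))‖ ≤ Λ := by
      intro z j hj
      have h1 := X.flat_ball (hp.2 j hj)
      rw [mul_one, show (p j)⁻¹ * p (j + 1) = (z * p j)⁻¹ * (z * p (j + 1)) by group] at h1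
      rw [hΛ]
      exact X.ht_lip hψ h1
    have hm : 0 < ε₁ * n / 2 := by positivity
    have key := mv_close (fun j => X.π (ψ (x * (w.take l).prod * p j))) (fun j => X.π (ψ (x * p j)))
      (n := n) (s := n / M + 1) (M := M) (Q := q + 1) (D := X.K * (c * (C * n : ℕ) + c)) hm hΛ0 hlt
      (hstep _) (hstep _) (fun j hj => by
        have h1 := hC n hn1 p hp w hw l j hj
        rw [show (p j)⁻¹ * (w.take l).prod * p j = (x * p j)⁻¹ * (x * (w.take l).prod * p j) by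
          group] at h1
        exact X.ht_lip hψ h1) (by
        have h1 : (X.K : ℝ) * (c * (C * n : ℕ) + c) / (ε₁ * n / 2) ≤
            2 * (X.K * (c * C + c)) / ε₁ := by
          rw [div_le_div_iff₀ hm hε]
          push_cast
          have h2 : (X.K : ℝ) * c * ε₁ * 1 ≤ X.K * c * ε₁ * n := by gcongr
          nlinarith
        push_cast at h1 ⊢
        linarith) (fun l' hl' a => congrFun (congrFun hcol ⟨l', hl'⟩) a)
    intro j hj
    refine (key j hj).trans ?_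
    have h1 : ((n / M : ℕ) : ℝ) * M ≤ n := by exact_mod_cast Nat.div_mul_le_self n M
    have hMR : (0 : ℝ) < M := by exact_mod_cast hM1
    have h2 : (0 : ℝ) ≤ (n / M : ℕ) := Nat.cast_nonneg _
    have h3 : 8 * Λ * (n / M : ℕ) ≤ ε₁ * n :=
      calc 8 * Λ * (n / M : ℕ) ≤ ε₁ * M * (n / M : ℕ) := by gcongr
        _ = ε₁ * ((n / M : ℕ) * M) := by ring
        _ ≤ ε₁ * n := by gcongr
    have h4 : 8 * Λ ≤ ε₁ * n := hM2.trans (by gcongr)
    push_cast
    linarith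

/-- BLOCK M2 -/
theorem vp [MeasurableMul₂ G] [MeasurableInv G] : X.VP := by
  intro c ε η' hε hη'
  obtain ⟨C, hC0, hC⟩ := X.mv_det c
  obtain ⟨κ, _, _, n₁, hcol⟩ := X.mv_colour c (ε / (4 * (C + 1))) (by positivity)
  have hκ : (0 : ℝ) < Fintype.card κ := by exact_mod_cast Fintype.card_pos
  obtain ⟨τ, η, hτ, -, hη, hpz⟩ := exists_pz (G := G) X.K (η' / Fintype.card κ) (by positivity)
  obtain ⟨Kθ, hzig⟩ := X.zig0 τ hτ (c + c)
  obtain ⟨B, hB0, hB⟩ := lg_le_lin (δ := ε / (4 * (C + 1))) (by positivity)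
  obtain ⟨n₂, hn₂⟩ := exists_nat_ge ((Kθ + C * B) / (ε / 2))
  refine ⟨η, hη, max n₁ n₂, fun n hn p hp0 hp1 ψ hψ hst ζ hζ hinv => ?_⟩
  by_contra hbad
  rw [not_le] at hbad
  have hp : X.FP p n := ⟨hp0, hp1⟩
  obtain ⟨N, col, hN, hc1, hc2⟩ := hcol n ((le_max_left _ _).trans hn) p hp ψ hψ
  obtain ⟨κ₀, hκ₀⟩ := mv_pigeon ζ col _ hbad
  set G₀ : Set G := {x | X.V (X.img ψ p n x) < X.V (X.src p n) - ε * n} ∩ col ⁻¹' {κ₀} with hG₀
  have hm : MeasurableSet G₀ := by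
    refine mv_meas hst p N fun x y hxy hx => ⟨?_, (hc1 x y hxy).symm.trans hx.2⟩
    have e : X.img ψ p n y = X.img ψ p n x := by
      unfold img
      congr 1
      exact Set.image_congr fun j hj => by rw [hxy j ((Set.mem_Iic.1 hj).trans hN)]
    change X.V (X.img ψ p n y) < _
    rw [e]
    exact hx.1
  have hadm : Adm X.χ (X.src p n) :=
    Adm.lev ((Set.finite_Iic n).image _) ((Set.nonempty_Iic (a := n)).image _)
  obtain ⟨Z, hZ1, hZ2, hZ3⟩ := hzig _ hadm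
  have h1 := hpz Z hZ1 ζ hζ (hZ2.mono fun g ⟨i, hi⟩ => hinv i g hi) G₀ G₀ hm hm subset_rfl hκ₀
  obtain ⟨x, hx⟩ := Z.exists_point ζ (fun w => Ev.meas hm hm w) h1
  obtain ⟨Y, hY1, hY2, hY3⟩ := hZ3 _ hx
  have hn0 : (0 : ℝ) ≤ n := n.cast_nonneg
  have hY4 := hC n p hp ψ hψ x (ε / (4 * (C + 1)) * n) Y (by positivity) hY1 fun y hy => by
    obtain ⟨w, hw1, hw2, rfl⟩ := hY2 y hy
    have hw : X.Wd p n w := ⟨hw2.length_le.trans hZ1,
      hw2.letter (fun g ⟨i, hi⟩ => ⟨i, X.RB_inv _ _ _ hi⟩) hZ2⟩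
    exact ⟨w, hw, rfl, fun l => hc2 x w hw l ((hw1.2.2 l).2.trans hw1.1.2.symm)⟩
  have hxG : x ∈ G₀ := by
    have hpos : (0 : ℝ) < Y.card := (Real.exp_pos _).trans_le hY3
    obtain ⟨y, hy⟩ := Finset.card_pos.1 (by exact_mod_cast hpos : 0 < Y.card)
    obtain ⟨w, hw1, -, -⟩ := hY2 y hy
    exact hw1.1
  have h2 : X.V (X.img ψ p n x) < X.V (X.src p n) - ε * n := hxG.1
  have h3 := Real.exp_le_exp.1 (hY3.trans hY4)
  have h4 : Kθ + C * B ≤ n * (ε / 2) := by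
    have : (n₂ : ℝ) ≤ n := by exact_mod_cast (le_max_right _ _).trans hn
    rw [div_le_iff₀ (by positivity)] at hn₂
    nlinarith
  have h5 : C * (ε / (4 * (C + 1))) ≤ ε / 4 := by
    rw [← mul_div_assoc, div_le_div_iff₀ (by positivity) (by positivity)]
    nlinarith
  have h6 := mul_le_mul_of_nonneg_left (hB n) hC0
  have h7 := mul_le_mul_of_nonneg_right h5 hn0
  change X.V (X.src p n) - Kθ ≤ _ at h3
  nlinarith

end Geo

end Crest.Agent.R182
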