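import Crest.Agent.R182.MSA0
import Crest.Agent.R182.MV

/-! Row 182, block M1: `VP` with finitely many letters (the proof of `Geo.vp`). -/

set_option autoImplicit false
set_option linter.dupNamespace false

namespace Crest.Agent.R182

open Crest.GroupTheory MeasureTheory

theorem Sch.exists_lets {G : Type} [Group G] (Z : Sch G) :
    ∃ F : Set G, F.Finite ∧ ∀ p : G → Prop, Z.Let p ↔ ∀ g ∈ F, p g := by
  induction Z with
  | one => exact ⟨∅, Set.finite_empty, fun p => by simp [Sch.Let]⟩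
  | fam g J =>
    refine ⟨(fun i : ℤ => g ^ i) '' Set.Icc (-(J : ℤ)) J, (Set.finite_Icc _ _).image _, fun p => ?_⟩
    simp only [Sch.Let, Set.forall_mem_image, Set.mem_Icc, abs_le]
  | conj X Y hX hY =>
    obtain ⟨F, h1, h2⟩ := hX
    obtain ⟨F', h1', h2'⟩ := hY
    exact ⟨F ∪ F', h1.union h1', fun p => by simp only [Sch.Let, h2, h2', Set.mem_union, or_imp, forall_and]⟩
  | mul X Y hX hY =>
    obtain ⟨F, h1, h2⟩ := hX
    obtain ⟨F', h1', h2'⟩ := hY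
    exact ⟨F ∪ F', h1.union h1', fun p => by simp only [Sch.Let, h2, h2', Set.mem_union, or_imp, forall_and]⟩

namespace Geo

variable {G : Type} [Group G] [MeasurableSpace G] {k : ℕ} (X : Geo G k)

theorem vp' [MeasurableMul₂ G] [MeasurableInv G] : X.VP' := by
  intro c ε η' hε hη'
  obtain ⟨C, hC0, hC⟩ := X.mv_det c
  obtain ⟨κ, _, _, n₁, hcol⟩ := X.mv_colour c (ε / (4 * (C + 1))) (by positivity)
  have hκ : (0 : ℝ) < Fintype.card κ := by exact_mod_cast Fintype.card_pos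
  obtain ⟨τ, η, hτ, -, hη, hpz⟩ := exists_pz (G := G) X.K (η' / Fintype.card κ) (by positivity)
  obtain ⟨Kθ, hzig⟩ := X.zig0 τ hτ (c + c)
  obtain ⟨B, hB0, hB⟩ := lg_le_lin (δ := ε / (4 * (C + 1))) (by positivity)
  obtain ⟨n₂, hn₂⟩ := exists_nat_ge ((Kθ + C * B) / (ε / 2))
  refine ⟨η, hη, max n₁ n₂, fun n hn p hp0 hp1 => ?_⟩
  have hadm : Adm X.χ (X.src p n) :=
    Adm.lev ((Set.finite_Iic n).image _) ((Set.nonempty_Iic (a := n)).image _)
  obtain ⟨Z, hZ1, hZ2, hZ3⟩ := hzig _ hadm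
  obtain ⟨F, hF1, hF2⟩ := Z.exists_lets
  refine ⟨F, hF1, fun g hg => ?_, fun ψ hψ hst ζ hζ hinv => ?_⟩
  · obtain ⟨i, hi⟩ := (hF2 _).1 hZ2 g hg
    exact X.RB_mem_Γ hi
  by_contra hbad
  rw [not_le] at hbad
  have hp : X.FP p n := ⟨hp0, hp1⟩
  obtain ⟨N, col, hN, hc1, hc2⟩ := hcol n ((le_max_left _ _).trans hn) p hp ψ hψ
  obtain ⟨κ₀, hκ₀⟩ := mv_pigeon ζ col _ hbad
  set G₀ : Set G := {x | X.V (X.img ψ p n x) < X.V (X.src p n) - ε * n} ∩ col ⁻¹' {κ₀} with hG₀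
  have hm : MeasurableSet G₀ := by
    refine mv_meas hst p N fun x y hxy hx => ⟨?_, (hc1 x y hxy).symm.trans hx.2⟩
    have e : X.img ψ p n y = X.img ψ p n x := by
      unfold img
      congr 1
      exact Set.image_congr fun j hj => by rw [hxy j ((Set.mem_Iic.1 hj).trans hN)]
    change X.V (X.img ψ p n y) < _
    rw [e]
    exact hx.1
  have h1 := hpz Z hZ1 ζ hζ ((hF2 _).2 hinv) G₀ G₀ hm hm subset_rfl hκ₀
  obtain ⟨x, hx⟩ := Z.exists_point ζ (fun w => Ev.meas hm hm w) h1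
  obtain ⟨Y, hY1, hY2, hY3⟩ := hZ3 _ hx
  have hn0 : (0 : ℝ) ≤ n := n.cast_nonneg
  have hY4 := hC n p hp ψ hψ x (ε / (4 * (C + 1)) * n) Y (by positivity) hY1 fun y hy => by
    obtain ⟨w, hw1, hw2, rfl⟩ := hY2 y hy
    have hw : X.Wd p n w := ⟨hw2.length_le.trans hZ1,
      hw2.letter (fun g ⟨i, hi⟩ => ⟨i, X.RB_inv _ _ _ hi⟩) hZ2⟩
    exact ⟨w, hw, rfl, fun l => hc2 x w hw l ((hw1.2.2 l).2.trans hw1.1.2.symm)⟩
  have hxG : x ∈ G₀ := by
    have hpos : (0 : ℝ) < Y.card := (Real.exp_pos _).trans_le hY3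
    obtain ⟨y, hy⟩ := Finset.card_pos.1 (by exact_mod_cast hpos : 0 < Y.card)
    obtain ⟨w, hw1, -, -⟩ := hY2 y hy
    exact hw1.1
  have h2 : X.V (X.img ψ p n x) < X.V (X.src p n) - ε * n := hxG.1
  have h3 := Real.exp_le_exp.1 (hY3.trans hY4)
  have h4 : Kθ + C * B ≤ n * (ε / 2) := by
    have : (n₂ : ℝ) ≤ n := by exact_mod_cast (le_max_right _ _).trans hn
    rw [div_le_iff₀ (by positivity)] at hn₂
    nlinarith
  have h5 : C * (ε / (4 * (C + 1))) ≤ ε / 4 := by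
    rw [← mul_div_assoc, div_le_div_iff₀ (by positivity) (by positivity)]
    nlinarith
  have h6 := mul_le_mul_of_nonneg_left (hB n) hC0
  have h7 := mul_le_mul_of_nonneg_right h5 hn0
  change X.V (X.src p n) - Kθ ≤ _ at h3
  nlinarith

end Geo

end Crest.Agent.R182
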