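import Crest.Agent.R182.MSAker
import Crest.Agent.R182.MSAvp

/-! Row 182, block M1: the first half. -/

set_option autoImplicit false
set_option linter.dupNamespace false
set_option linter.unusedSectionVars false

namespace Crest.Agent.R182

open Crest.GroupTheory MeasureTheory Filter Topology

theorem BF.integral_le_of_prob {G : Type} [MeasurableSpace G] {k : ℕ} (F : BF G k) {A ε ε' : ℝ}
    (hA : ∀ i x, ‖F.1 i x‖ ≤ A) (hA0 : 0 ≤ A) (hε : 0 ≤ ε) (i : ℕ) (μ : Measure G)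
    [IsProbabilityMeasure μ] (h : μ.real {x | ε < ‖F.1 i x‖} ≤ ε') :
    ∫ x, ‖F.1 i x‖ ∂μ ≤ ε + A * ε' := by
  have hm : MeasurableSet {x | ε < ‖F.1 i x‖} :=
    measurableSet_lt measurable_const (BF.meas F i).norm
  have h1 : ∀ x, ‖F.1 i x‖ ≤ ε + {x | ε < ‖F.1 i x‖}.indicator (fun _ => A) x := by
    intro x
    by_cases hx : ε < ‖F.1 i x‖
    · rw [Set.indicator_of_mem (s := {x | ε < ‖F.1 i x‖}) hx]
      linarith [hA i x]
    · rw [Set.indicator_of_notMem (s := {x | ε < ‖F.1 i x‖}) hx]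
      linarith [not_lt.1 hx]
  have h2 := integral_mono (μ := μ) (BF.integrable F i μ).norm
    ((integrable_const ε).add ((integrable_const A).indicator hm)) h1
  simp only [Pi.add_apply] at h2
  rw [integral_add (integrable_const ε) ((integrable_const A).indicator hm),
    integral_indicator_const _ hm] at h2
  simp only [integral_const, probReal_univ, smul_eq_mul, one_mul] at h2
  nlinarith

namespace Geo

variable {G : Type} [Group G] [MeasurableSpace G] [MeasurableMul₂ G] [MeasurableInv G] {k : ℕ}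
  {X : Geo G k} {c : ℕ} {𝒰 : Ultrafilter ℕ} {ψ ψ' : ℕ → G → G} {ω : ℕ → Measure G}
  {h : X.Hyp c 𝒰 ψ ψ' ω}

theorem HD.small (d : HD h) {q : G} (hq : q ∈ Subgroup.closure (X.SC : Set G)) (h0 : X.π q = 0) :
    ∃ A : ℝ, 0 ≤ A ∧ ∀ ε : ℝ, 0 < ε → ∃ w, ‖w - d.ℓ q‖ ≤ ε ∧ ‖w‖ ^ 2 ≤ A * ε := by
  obtain ⟨m, hm⟩ := Ball.exists_of_mem_closure hq
  set A : ℝ := k * (X.K * (c * X.K + c)) + X.K * (c * (X.K * m) + c) with hA
  have hA1 : (0 : ℝ) ≤ k * (X.K * (c * X.K + c)) := by positivity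
  have hA2 : (0 : ℝ) ≤ X.K * (c * (X.K * m) + c) := by positivity
  have hA0 : 0 ≤ A := by positivity
  refine ⟨k * A * (1 + A), by positivity, fun ε hε => ?_⟩
  obtain ⟨Z, hZ⟩ := X.rank_test A ε hA0 hε
  choose u hu1 hu2 hu3 using d.lift
  have hu4 : ∀ z : (Fin k → ℤ) × ℤ, u z.1 * q ^ z.2 ∈ Subgroup.closure (X.SC : Set G) :=
    fun z => Subgroup.mul_mem _ (hu1 _) (Subgroup.zpow_mem _ hq _)
  obtain ⟨δ, hδ, H⟩ := exists_pos_finset Z (fun z δ => ∀ y : G → BF G k,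
      (∀ v ∈ ({u z.1 * q ^ z.2} : Finset G), ‖d.j (y v) - d.ℓ v‖ ≤ δ) → ∀ᶠ i in (𝒰 : Filter ℕ),
        (ω i).real {x | X.VS {u z.1 * q ^ z.2} (fun v => (y v).1 i x) <
          X.VS {u z.1 * q ^ z.2} X.π - 1} ≤ ε / (Z.card + 1))
    (fun z δ δ' hδ H y hy => H y fun v hv => (hy v hv).trans hδ)
    fun z _ => d.fw X.vp' _ (fun v hv => Finset.mem_singleton.1 hv ▸ hu4 z) one_pos (by positivity)
  obtain ⟨R, hR0, hR⟩ : ∃ R : ℝ, 0 < R ∧ ∀ z ∈ Z, ‖fun l => (z.1 l : ℝ)‖ + ‖(z.2 : ℝ)‖ ≤ R :=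
    ⟨∑ z ∈ Z, (‖fun l => (z.1 l : ℝ)‖ + ‖(z.2 : ℝ)‖) + 1, by positivity, fun z hz =>
      (Finset.single_le_sum (f := fun z : (Fin k → ℤ) × ℤ => ‖fun l => (z.1 l : ℝ)‖ + ‖(z.2 : ℝ)‖)
        (fun _ _ => by positivity) hz).trans (by linarith)⟩
  obtain ⟨r, ⟨h1, h2⟩, h3, h4⟩ := (((d.PB (δ := δ / R) (by positivity)).and
    (d.ph hq (δ := δ / R) (by positivity))).and ((d.ph hq hε).and (eventually_gt_atTop 0))).exists
  refine ⟨_, h3, ?_⟩
  have hb : ∀ i x, ‖(h.ph r q).1 i x‖ ≤ A := fun i x =>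
    (h.norm_ph h4 hm i x).trans (by linarith)
  have h5 := (eventually_all_finset Z).2 fun z hz =>
    H z hz (fun _ => h.PB r (fun l => (z.1 l : ℝ)) + (z.2 : ℝ) • h.ph r q) fun v hv => by
      rw [Finset.mem_singleton.1 hv, d.hom _ (X.flat_le_Γ (hu1 _)) _
        (X.flat_le_Γ (Subgroup.zpow_mem _ hq _)), hom_zpow d.hom (X.flat_le_Γ hq), hu3, map_add,
        map_smul, add_sub_add_comm, ← smul_sub]
      refine (norm_add_le _ _).trans ?_
      rw [norm_smul]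
      have h6 := mul_le_mul_of_nonneg_left h2 (norm_nonneg (z.2 : ℝ))
      have h7 := mul_le_mul_of_nonneg_left (hR z hz) (show 0 ≤ δ / R by positivity)
      rw [div_mul_cancel₀ _ hR0.ne'] at h7
      nlinarith [h1 fun l => (z.1 l : ℝ)]
  refine (d.up _ A (ε + A * ε) hb ?_).trans (le_of_eq (by ring))
  filter_upwards [h5] with i hi
  have := h.prob i
  refine BF.integral_le_of_prob _ hb hA0 hε.le i _ (real_biUnion_le _ Z _ hε.le hi fun x hx => ?_)
  by_contra hc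
  push Not at hc
  refine absurd (hZ (h.Ph r i x) _ (fun v => (h.norm_Ph h4 i x v).trans
    (mul_le_mul_of_nonneg_right (by linarith) (norm_nonneg _))) (hb i x) fun z hz => ?_) (not_le.2 hx)
  have h6 := not_lt.1 (Set.notMem_ofPred_iff.1 (hc z hz))
  rw [VS_single, VS_single, X.π_hom, X.π_hom.zpow, h0, smul_zero, add_zero, hu2] at h6
  rw [← h.PB_apply]
  exact h6

theorem HD.ker (d : HD h) {q : G} (hq : q ∈ Subgroup.closure (X.SC : Set G)) (h0 : X.π q = 0) :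
    d.ℓ q = 0 := by
  obtain ⟨A, hA, H⟩ := d.small hq h0
  by_contra hne
  have ha : 0 < ‖d.ℓ q‖ := norm_pos_iff.2 hne
  obtain ⟨w, h1, h2⟩ := H (min (‖d.ℓ q‖ / 2) (‖d.ℓ q‖ ^ 2 / (8 * (A + 1)))) (by positivity)
  have h3 := h1.trans (min_le_left _ _)
  have h4 := h2.trans (mul_le_mul_of_nonneg_left (min_le_right _ _) hA)
  have h5 : ‖d.ℓ q‖ / 2 ≤ ‖w‖ := by
    have := norm_sub_norm_le (d.ℓ q) w
    rw [norm_sub_rev] at this
    linarith
  rw [← mul_div_assoc, le_div_iff₀ (by positivity)] at h4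
  have h6 : (‖d.ℓ q‖ / 2) ^ 2 ≤ ‖w‖ ^ 2 := pow_le_pow_left₀ (by positivity) h5 2
  nlinarith [mul_pos ha ha, mul_le_mul_of_nonneg_left h6 hA]

theorem HD.eq_L (d : HD h) {g : G} (hg : g ∈ Subgroup.closure (X.SC : Set G)) :
    d.ℓ g = d.L (X.π g) := by
  choose z hz using X.π_int g
  obtain ⟨u, h1, h2, h3⟩ := d.lift z
  have e : X.π g = fun l => (z l : ℝ) := funext hz
  have h4 := d.ker (Subgroup.mul_mem _ (Subgroup.inv_mem _ h1) hg)
    (by rw [X.π_hom.inv_mul, h2, e, sub_self])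
  rw [d.hom _ (X.flat_le_Γ (Subgroup.inv_mem _ h1)) _ (X.flat_le_Γ hg),
    hom_inv d.hom (X.flat_le_Γ h1), neg_add_eq_zero] at h4
  rw [← h4, h3, e]

theorem HD.exp (d : HD h) {ε : ℝ} (hε : 0 < ε) : ∀ᶠ r in atTop, ∀ᶠ i in (𝒰 : Filter ℕ),
    (ω i).real {x | ¬ X.Exp ε (h.Ph r i x)} ≤ ε := by
  classical
  obtain ⟨Z, hZ⟩ := X.exp_test (k * (X.K * (c * X.K + c))) ε (by positivity) hε
  choose u hu1 hu2 hu3 using d.lift
  obtain ⟨δ, hδ, H⟩ := exists_pos_finset Z.powerset (fun S δ => ∀ y : G → BF G k,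
      (∀ v ∈ S.image u, ‖d.j (y v) - d.ℓ v‖ ≤ δ) → ∀ᶠ i in (𝒰 : Filter ℕ),
        (ω i).real {x | X.VS (S.image u) (fun v => (y v).1 i x) <
          X.VS (S.image u) X.π - 1} ≤ ε / (Z.powerset.card + 1))
    (fun z δ δ' hδ H y hy => H y fun v hv => (hy v hv).trans hδ)
    fun S _ => d.fw X.vp' _ (fun v hv => by
      obtain ⟨z, -, rfl⟩ := Finset.mem_image.1 hv
      exact hu1 z) one_pos (by positivity)
  obtain ⟨R, hR0, hR⟩ : ∃ R : ℝ, 0 < R ∧ ∀ z ∈ Z, ‖fun l => (z l : ℝ)‖ ≤ R :=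
    ⟨∑ z ∈ Z, ‖fun l => (z l : ℝ)‖ + 1, by positivity, fun z hz =>
      (Finset.single_le_sum (f := fun z : Fin k → ℤ => ‖fun l => (z l : ℝ)‖)
        (fun _ _ => by positivity) hz).trans (by linarith)⟩
  filter_upwards [d.PB (δ := δ / R) (by positivity), eventually_gt_atTop 0] with r h1 h4
  have h5 := (eventually_all_finset Z.powerset).2 fun S hS =>
    H S hS (fun v => h.PB r (X.π v)) fun v hv => by
      obtain ⟨z, hz, rfl⟩ := Finset.mem_image.1 hv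
      rw [hu3, hu2]
      have h7 := mul_le_mul_of_nonneg_left (hR z (Finset.mem_powerset.1 hS hz))
        (show 0 ≤ δ / R by positivity)
      rw [div_mul_cancel₀ _ hR0.ne'] at h7
      exact (h1 _).trans h7
  filter_upwards [h5] with i hi
  have := h.prob i
  refine real_biUnion_le _ _ _ hε.le hi fun x hx => ?_
  by_contra hc
  push Not at hc
  refine hx (hZ _ (h.norm_Ph h4 i x) fun S hS => ?_)
  have h6 := not_lt.1 (Set.notMem_ofPred_iff.1 (hc S (Finset.mem_powerset.2 hS)))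
  simp only [VS, Finset.coe_image, Set.image_image, h.PB_apply, hu2] at h6
  exact h6

theorem HD.inv_L (d : HD h) {δ : ℝ} (hδ : 0 < δ) : ∀ᶠ r in atTop, ∀ γ ∈ X.Γ, ∀ v,
    ‖d.j (BF.tr γ (h.PB r v) - h.PB r v)‖ ≤ δ * ‖v‖ := by
  have h1 := eventually_all.2 fun l => d.ph (X.cl_flat l) (δ := δ / (2 * (k + 1))) (by positivity)
  filter_upwards [h1] with r hr γ hγ v
  rw [Hyp.PB, map_sum, ← Finset.sum_sub_distrib, map_sum]
  refine (norm_sum_le _ _).trans ((Finset.sum_le_card_nsmul _ _ (‖v‖ * (δ / (k + 1)))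
    fun l _ => ?_).trans ?_)
  · rw [map_smul, map_sub, map_smul, map_smul, ← smul_sub, norm_smul]
    refine mul_le_mul (norm_le_pi_norm v l) ?_ (norm_nonneg _) (norm_nonneg _)
    have h2 := d.inv γ hγ _ (X.flat_le_Γ (X.cl_flat l)) (h.ph r (X.cl l))
    have h3 := norm_sub_le_norm_sub_add_norm_sub (d.j (BF.tr γ (h.ph r (X.cl l)))) (d.ℓ (X.cl l))
      (d.j (h.ph r (X.cl l)))
    rw [norm_sub_rev (d.ℓ _), h2] at h3
    have h4 : δ / (k + 1) = 2 * (δ / (2 * (k + 1))) := by field_simp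
    rw [h4]
    linarith [hr l]
  · rw [Finset.card_univ, Fintype.card_fin, nsmul_eq_mul, ← mul_div_assoc, ← mul_div_assoc,
      div_le_iff₀ (by positivity)]
    nlinarith [mul_nonneg hδ.le (norm_nonneg v)]

theorem h1 (X : Geo G k) : X.H1 := by
  intro c
  have hA : (0 : ℝ) ≤ k * (X.K * (c * X.K + c)) := by positivity
  refine ⟨k * (X.K * (c * X.K + c)) + 1, by linarith, fun 𝒰 ψ ψ' ω h ε hε => ?_⟩
  obtain ⟨d⟩ := h.exists_HD
  have hK : (1 : ℝ) ≤ X.K := by exact_mod_cast X.one_le_K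
  obtain ⟨C, hC⟩ := d.flat (ε / 4) (by positivity)
  obtain ⟨n₀, hn₀⟩ := exists_nat_gt (C / (ε / 4))
  obtain ⟨r, ⟨h1, h2⟩, h3, h4⟩ := (((d.PB (δ := ε / (4 * X.K * X.K)) (by positivity)).and
    (d.exp hε)).and ((d.inv_L (half_pos hε)).and (eventually_gt_atTop 0))).exists
  refine ⟨n₀, h.Ph r, ⟨h.step_Ph r, fun i x v => (h.norm_Ph h4 i x v).trans
    (mul_le_mul_of_nonneg_right (by linarith) (norm_nonneg _)), fun n hn g hg => ?_,
    fun γ hγ v => ?_⟩, h2⟩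
  · have h5 := d.down (h.D g - h.PB r (X.π g)) (ε * n) (by
      have h6 := hC n g hg
      have h7 := h1 (X.π g)
      rw [← d.eq_L (Ball.mem_closure hg)] at h7
      have h8 := norm_sub_le_norm_sub_add_norm_sub (d.j (h.D g)) (d.ℓ g) (d.j (h.PB r (X.π g)))
      rw [norm_sub_rev (d.ℓ _)] at h8
      have h9 := mul_le_mul_of_nonneg_left (X.π_ball (X.flat_ball hg))
        (show 0 ≤ ε / (4 * X.K * X.K) by positivity)
      have h10 : ε / (4 * X.K * X.K) * (X.K * (X.K * n : ℕ)) = ε / 4 * n := by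
        push_cast
        field_simp
      have h11 : (n₀ : ℝ) ≤ n := by exact_mod_cast hn
      rw [div_lt_iff₀ (by positivity)] at hn₀
      have hn0 : (0 : ℝ) ≤ n := n.cast_nonneg
      rw [map_sub]
      nlinarith)
    refine h5.mono fun i hi => le_of_eq_of_le ?_ hi
    congr 1
    funext x
    rw [err, ← h.PB_apply]
    rfl
  · rcases eq_or_ne v 0 with rfl | hv
    · simp
    have h5 := d.down _ (ε * ‖v‖) ((h3 γ hγ v).trans_lt
      (mul_lt_mul_of_pos_right (half_lt_self hε) (norm_pos_iff.2 hv)))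
    refine h5.mono fun i hi => le_of_eq_of_le ?_ hi
    congr 1
    funext x
    rw [← h.PB_apply, ← h.PB_apply]
    rfl

end Geo

end Crest.Agent.R182
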