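import Crest.Agent.R182.MSAll0
import Crest.Agent.R182.MSA
import Crest.Agent.R182.MP
import Crest.Agent.R182.MV

/-! Row 182, blocks M1-M3. -/

set_option autoImplicit false
set_option linter.dupNamespace false

namespace Crest.Agent.R182

open Crest.GroupTheory MeasureTheory

variable {G : Type} [Group G] [MeasurableSpace G] [MeasurableMul₂ G] [MeasurableInv G] {k : ℕ}

/-- block M1 -/
theorem Geo.slopes (X : Geo G k) (hV : X.VP) : X.Slopes := X.slopes_of_h1 hV X.h1

/-- blocks M1, M2, M3 -/
theorem Geo.pure' (X : Geo G k) : X.Pure := X.pure X.vp (X.slopes X.vp)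

end Crest.Agent.R182
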