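import Crest.Agent.R182.MDefs

/-! Row 182, the real model: a nilpotent Lie algebra in weight coordinates, extended by `ℤ^k`. -/

set_option autoImplicit false
set_option linter.dupNamespace false

namespace Crest.Agent.R182

open Crest.GroupTheory

/-- bracket monomials in two letters -/
inductive LTree : Type
  | x : LTree
  | y : LTree
  | node (s t : LTree) : LTree

/-- value of a monomial -/
def LTree.eval {V : Type*} (br : V → V → V) (X Y : V) : LTree → V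
  | .x => X
  | .y => Y
  | .node s t => br (s.eval br X Y) (t.eval br X Y)

/-- `G` is an extension of the simply connected nilpotent group of `(ℝ^d, br)` by `ℤ^k`; the lifts
`c i` act triangularly on the weight spaces with the eigenvalues `exp (wt j eᵢ)`. -/
structure LieModel (G : Type) [Group G] (k : ℕ) where
  /-- dimension of the nilpotent Lie algebra -/
  d : ℕ
  /-- the bracket -/
  br : (Fin d → ℝ) →ₗ[ℝ] (Fin d → ℝ) →ₗ[ℝ] (Fin d → ℝ)
  br_self : ∀ X, br X X = 0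
  jacobi : ∀ X Y Z, br X (br Y Z) = br (br X Y) Z + br Y (br X Z)
  /-- weights of the coordinates -/
  wt : Fin d → (Fin k → ℝ) →ₗ[ℝ] ℝ
  br_tri : ∀ i j l, br (Pi.single i 1) (Pi.single j 1) l ≠ 0 → i < l ∧ j < l ∧ wt l = wt i + wt j
  span : ∀ v, (∀ j, wt j v = 0) → v = 0
  unimod : ∀ v, ∑ j, wt j v = 0
  /-- heights -/
  π : G → Fin k → ℝ
  π_hom : AHom π
  π_int : ∀ g l, ∃ z : ℤ, π g l = z
  /-- the exponential -/
  ex : (Fin d → ℝ) → G
  ex_inj : Function.Injective ex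
  ex_range : ∀ g, π g = 0 ↔ g ∈ Set.range ex
  /-- the higher terms of the Baker-Campbell-Hausdorff series -/
  bch : List (ℝ × LTree × LTree)
  ex_mul : ∀ X Y, ex X * ex Y = ex (X + Y +
    (bch.map fun p => p.1 • (LTree.node p.2.1 p.2.2).eval (fun A B => br A B) X Y).sum)
  /-- the adjoint action -/
  Ad : G →* Module.End ℝ (Fin d → ℝ)
  Ad_conj : ∀ g X, g * ex X * g⁻¹ = ex (Ad g X)
  Ad_br : ∀ g X Y, Ad g (br X Y) = br (Ad g X) (Ad g Y)
  Ad_ex : ∀ X, Ad (ex X) = ∑ n ∈ Finset.range (d + 1), ((n.factorial : ℝ)⁻¹) • (br X) ^ n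
  /-- lifts of the basis of `ℤ^k` -/
  c : Fin k → G
  π_c : ∀ i, π (c i) = Pi.single i 1
  c_diag : ∀ i j, Ad (c i) (Pi.single j 1) j = Real.exp (wt j (Pi.single i 1))
  c_tri : ∀ i j l, Ad (c i) (Pi.single j 1) l ≠ 0 → j ≤ l ∧ wt l = wt j
  c_comm : ∀ i j, ∃ X, (∀ l, wt l ≠ 0 → X l = 0) ∧ c i * c j * (c i)⁻¹ * (c j)⁻¹ = ex X

/-- the compact generating set -/
def LieModel.Sg {G : Type} [Group G] {k : ℕ} (M : LieModel G k) : Set G :=
  M.ex '' Metric.closedBall 0 1 ∪ Set.range M.c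

/-- block L1 -/
def LieStmt (P : Type*) [Group P] : Prop :=
  IsVirtuallyPolycyclic P → ∃ P₀ : Subgroup P, P₀.FiniteIndex ∧ ∃ S : Finset P₀,
    Subgroup.closure (S : Set P₀) = ⊤ ∧ ∃ (G : Type) (_ : Group G) (k : ℕ) (M : LieModel G k)
      (j : P₀ → G) (c : ℕ),
      QI (S : Set P₀) M.Sg j c ∧ AHom (M.π ∘ j) ∧ ∀ l, ∃ t, M.π (j t) = Pi.single l 1

/-- block L2 -/
def LieGeo : Prop :=
  ∀ (G : Type) [Group G] (k : ℕ) (M : LieModel G k), ∃ (_ : MeasurableSpace G)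
    (_ : MeasurableMul₂ G) (_ : MeasurableInv G) (X : Geo G k), X.Sg = M.Sg ∧ X.π = M.π

theorem geoStmt_of {P : Type*} [Group P] (h1 : LieStmt P) (h2 : LieGeo) : GeoStmt P := by
  intro hP
  obtain ⟨P₀, h0, S, hS, G, _, k, M, j, c, hj, hπ, hs⟩ := h1 hP
  obtain ⟨_, _, _, X, e1, e2⟩ := h2 G k M
  exact ⟨P₀, h0, S, hS, G, _, _, ‹_›, ‹_›, k, X, j, c, e1 ▸ hj, e2 ▸ hπ, e2 ▸ hs⟩

end Crest.Agent.R182
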