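import Crest.Agent.R182.MUDefs
import Crest.Agent.R182.EAll

/-! Row 182, assembly: from the real model to the row. -/

set_option autoImplicit false
set_option linter.dupNamespace false

namespace Crest.Agent.R182

open Crest.GroupTheory

/-- the proof of `QI.symm` for a given inverse -/
theorem QI.of_right_inv {H P : Type*} [Group H] [Group P] {T : Set H} {S : Set P} {F : H → P}
    {c : ℕ} (h : QI T S F c) {E : P → H} (hE : ∀ p, (F (E p))⁻¹ * p ∈ Ball S c) :
    QI S T E (3 * c * c + 3 * c + 1) ∧ ∀ x, (E (F x))⁻¹ * x ∈ Ball T (c * c + c) := by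
  have h0 : ∀ x, (E (F x))⁻¹ * x ∈ Ball T (c * c + c) := fun x => h.down _ _ _ (hE (F x))
  refine ⟨⟨fun p q n hn => ?_, fun p q n hn => ?_, fun x => ⟨F x, ?_⟩⟩, h0⟩
  · have := Ball.mul_mem (Ball.mul_mem (hE p) hn) (Ball.inv_mem (hE q))
    rw [show (F (E p))⁻¹ * p * (p⁻¹ * q) * ((F (E q))⁻¹ * q)⁻¹ = (F (E p))⁻¹ * F (E q) by group]
      at this
    refine Ball.mono subset_rfl ?_ (h.down _ _ _ this)
    nlinarith [Nat.zero_le (c * c * n), Nat.zero_le (c * n), Nat.zero_le (c * c)]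
  · have := Ball.mul_mem (Ball.mul_mem (Ball.inv_mem (hE p)) (h.up _ _ _ hn)) (hE q)
    rw [show ((F (E p))⁻¹ * p)⁻¹ * ((F (E p))⁻¹ * F (E q)) * ((F (E q))⁻¹ * q) = p⁻¹ * q by group]
      at this
    refine Ball.mono subset_rfl ?_ this
    nlinarith [Nat.zero_le (c * c * n), Nat.zero_le (c * n), Nat.zero_le (c * c)]
  · exact Ball.mono subset_rfl (by nlinarith [Nat.zero_le (c * c)]) (h0 x)

/-- `P` is countable; take the first point of an enumeration whose image is close -/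
theorem exists_step_inv {P : Type*} [Group P] {G : Type} [Group G] [MeasurableSpace G]
    [MeasurableMul₂ G] {S : Finset P} (hS : Subgroup.closure (S : Set P) = ⊤) {T : Set G}
    (hT : ∀ n, MeasurableSet (Ball T n)) {j : P → G} {c : ℕ} (hj : QI (S : Set P) T j c) :
    ∃ j' : G → P, Step j' ∧ ∀ g, (j (j' g))⁻¹ * g ∈ Ball T c := by
  classical
  have hc : (Set.univ : Set P).Countable := by
    refine (Set.countable_iUnion fun n => (Ball.finite S.finite_toSet n).countable).mono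
      fun x _ => Set.mem_iUnion.2 (Ball.exists_of_mem_closure (hS ▸ Subgroup.mem_top x))
  have : Countable P := Set.countable_univ_iff.1 hc
  obtain ⟨e, he⟩ := exists_surjective_nat P
  have hex : ∀ g : G, ∃ n, (j (e n))⁻¹ * g ∈ Ball T c := fun g => by
    obtain ⟨x, hx⟩ := hj.dense g
    obtain ⟨n, rfl⟩ := he x
    exact ⟨n, hx⟩
  have hm : Measurable fun g => Nat.find (hex g) :=
    measurable_find hex fun n => measurable_const_mul _ (hT c)
  exact ⟨fun g => e (Nat.find (hex g)), ⟨Set.to_countable _, fun y =>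
    hm (MeasurableSet.of_discrete (s := e ⁻¹' {y}))⟩, fun g => Nat.find_spec (hex g)⟩

namespace Geo

variable {G : Type} [Group G] [MeasurableSpace G] {k : ℕ} (X : Geo G k) {P : Type*} [Group P]

omit [MeasurableSpace G] in
theorem h73_qp_close {S : Set P} {T : Set G} {j : P → G} {c : ℕ} (hj : QI S T j c) {j' : G → P}
    (hE : ∀ g, (j (j' g))⁻¹ * g ∈ Ball T c) {A B : P → P} {a e : ℕ} (hA : QI S S A a)
    (hAB : ∀ p, (A (B p))⁻¹ * p ∈ Ball S e) (x : G) :
    x⁻¹ * (j ∘ A ∘ j') ((j ∘ B ∘ j') x) ∈ Ball T (c * (a * (c * c + c) + a + e) + c + c) := by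
  have h1 := hA.up _ _ _ ((hj.of_right_inv hE).2 (B (j' x)))
  have h2 := Ball.mul_mem h1 (hAB (j' x))
  have e2 : (A (j' (j (B (j' x)))))⁻¹ * A (B (j' x)) * ((A (B (j' x)))⁻¹ * j' x) =
      (A (j' (j (B (j' x)))))⁻¹ * j' x := by group
  rw [e2] at h2
  have h3 := Ball.inv_mem (Ball.mul_mem (hj.up _ _ _ h2) (hE x))
  have e3 : ((j (A (j' (j (B (j' x))))))⁻¹ * j (j' x) * ((j (j' x))⁻¹ * x))⁻¹ =
      x⁻¹ * j (A (j' (j (B (j' x))))) := by group
  rw [e3] at h3
  exact h3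

/-- `QI.symm`, `QI.comp`, `QI.mono`, `QI.of_right_inv`, `Step.comp` -/
theorem mu_qp [MeasurableMul₂ G] [MeasurableInv G] {S : Set P}
    {j : P → G} {c : ℕ} (hj : QI S X.Sg j c) {j' : G → P} (hs : Step j')
    (hE : ∀ g, (j (j' g))⁻¹ * g ∈ Ball X.Sg c) (c₁ : ℕ) : ∃ c₂ : ℕ, ∀ ψ : P → P, QI S S ψ c₁ →
      ∃ ψ' : P → P, X.QP c₂ (j ∘ ψ ∘ j') (j ∘ ψ' ∘ j') := by
  have hq : ∀ a : ℕ, ∃ n : ℕ, ∀ ψ : P → P, QI S S ψ a → QI X.Sg X.Sg (j ∘ ψ ∘ j') n :=
    fun a => ⟨_, fun ψ hψ => (((hj.of_right_inv hE).1).comp hψ).comp hj⟩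
  obtain ⟨n₁, h₁⟩ := hq c₁
  obtain ⟨n₂, h₂⟩ := hq (3 * c₁ * c₁ + 3 * c₁ + 1)
  refine ⟨n₁ + n₂ + (c * ((3 * c₁ * c₁ + 3 * c₁ + 1) * (c * c + c) + (3 * c₁ * c₁ + 3 * c₁ + 1) +
    (c₁ * c₁ + c₁)) + c + c) + (c * (c₁ * (c * c + c) + c₁ + c₁) + c + c), fun ψ hψ => ?_⟩
  obtain ⟨ψ', hψ', hr, hl⟩ := hψ.symm
  refine ⟨ψ', (h₁ ψ hψ).mono (by omega), (h₂ ψ' hψ').mono (by omega),
    hs.comp (fun p => j (ψ p)), hs.comp (fun p => j (ψ' p)), fun x => ?_, fun y => ?_⟩
  · exact Ball.mono subset_rfl (by omega) (h73_qp_close hj hE hψ' hl x)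
  · exact Ball.mono subset_rfl (by omega) (h73_qp_close hj hE hψ hr y)

/-- `isW_finite`, `exists_step_inv`, `mu_qp`, `QI.reach`, `lg_mul_le` -/
theorem mu_selfU [MeasurableMul₂ G] [MeasurableInv G] (hus : X.US) {S : Finset P}
    (hS : Subgroup.closure (S : Set P) = ⊤) {j : P → G} {c : ℕ} (hj : QI (S : Set P) X.Sg j c) :
    SelfU (S : Set P) (X.π ∘ j) := by
  intro c₁
  obtain ⟨j', hs, hE⟩ := exists_step_inv hS X.ball_meas hj
  obtain ⟨c₂, hqp⟩ := X.mu_qp hj hs hE c₁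
  refine ⟨X.isW_finite.toFinset, fun ε hε => ?_⟩
  obtain ⟨C, hC⟩ := hus c₂ ε hε
  obtain ⟨m, hm⟩ : ∃ m : ℕ, m = c * (c₁ * (c * c + c) + c₁) + c := ⟨_, rfl⟩
  refine ⟨ε * (X.K * (2 * c)) + 2 * (X.K * m) + |C| * lg (2 * c), fun ψ hψ => ?_⟩
  obtain ⟨ψ', hq⟩ := hqp ψ hψ
  obtain ⟨w, hw, h⟩ := hC _ _ hq
  refine ⟨w, X.isW_finite.mem_toFinset.2 hw, fun x y n ρ hr => ?_⟩
  have h1 := h _ _ _ _ (hj.reach X.π_lip hr)
  have h2 : ∀ z, ‖X.π (j (ψ z)) - X.π (j (ψ (j' (j z))))‖ ≤ X.K * m := fun z =>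
    X.π_lip.ball (hm ▸ hj.up _ _ _ (hψ.up _ _ _ ((hj.of_right_inv hE).2 z)))
  have h3 : lg (2 * c * n) ≤ lg (2 * c) * lg n :=
    (lg_mono (Nat.le_add_right _ _)).trans (lg_mul_le (2 * c) n)
  have h4 := one_le_lg n
  have h5 := one_le_lg (2 * c * n)
  have h6 : C * lg (2 * c * n) ≤ |C| * (lg (2 * c) * lg n) :=
    mul_le_mul (le_abs_self C) h3 (by linarith) (abs_nonneg C)
  have h7 : (0 : ℝ) ≤ ε * (X.K * (2 * c)) + 2 * (X.K * m) := by positivity
  have h8 := mul_le_mul_of_nonneg_left h4 h7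
  simp only [Function.comp] at h1 ⊢
  have e : X.π (j (ψ y)) - X.π (j (ψ x)) - w (X.π (j y) - X.π (j x)) =
      (X.π (j (ψ (j' (j y)))) - X.π (j (ψ (j' (j x)))) - w (X.π (j y) - X.π (j x))) +
        ((X.π (j (ψ y)) - X.π (j (ψ (j' (j y))))) - (X.π (j (ψ x)) - X.π (j (ψ (j' (j x)))))) := by
    abel
  rw [e]
  refine (norm_add_le_of_le h1 (norm_sub_le_of_le (h2 y) (h2 x))).trans ?_
  linarith

/-- a finite set has a separated subset of comparable size -/
theorem mu_sep {S : Finset P} {T : Set G} {j : P → G} {c : ℕ} (hj : QI (S : Set P) T j c) :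
    ∃ B : ℕ, ∀ (g : G) (A : Finset P), ∃ A' ⊆ A, A.card ≤ B * A'.card ∧
      ∀ x ∈ A', ∀ y ∈ A', x ≠ y → (g * j x)⁻¹ * (g * j y) ∉ Ball T 1 := by
  classical
  have hfin := Ball.finite S.finite_toSet (c * 1 + c)
  refine ⟨hfin.toFinset.card, fun g A => ?_⟩
  induction A using Finset.strongInduction with
  | H A ih =>
    rcases A.eq_empty_or_nonempty with rfl | ⟨x, hx⟩
    · exact ⟨∅, Finset.Subset.refl _, by simp, by simp⟩
    have hx1 : x ∉ A.filter fun y => x⁻¹ * y ∉ Ball (S : Set P) (c * 1 + c) := by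
      rw [Finset.mem_filter, inv_mul_cancel]
      exact fun h => h.2 (Ball.one_mem _ _)
    obtain ⟨A', hA', hc, hs⟩ := ih (A.filter fun y => x⁻¹ * y ∉ Ball (S : Set P) (c * 1 + c))
      (Finset.ssubset_iff_of_subset (Finset.filter_subset _ _) |>.2 ⟨x, hx, hx1⟩)
    have hxA : x ∉ A' := fun h => hx1 (hA' h)
    have key : ∀ y ∈ A', (g * j x)⁻¹ * (g * j y) ∉ Ball T 1 := by
      intro y hy h
      rw [show (g * j x)⁻¹ * (g * j y) = (j x)⁻¹ * j y by group] at h
      exact (Finset.mem_filter.1 (hA' hy)).2 (hj.down x y 1 h)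
    refine ⟨insert x A', Finset.insert_subset hx (hA'.trans (Finset.filter_subset _ _)), ?_, ?_⟩
    · have h1 : (A.filter fun y => x⁻¹ * y ∈ Ball (S : Set P) (c * 1 + c)).card ≤
          hfin.toFinset.card :=
        Finset.card_le_card_of_injOn (fun y => x⁻¹ * y)
          (fun y hy => by
            rw [Finset.mem_coe, Set.Finite.mem_toFinset]
            exact (Finset.mem_filter.1 hy).2)
          (fun y _ y' _ e => mul_left_cancel e)
      have h2 := Finset.card_filter_add_card_filter_not (s := A)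
        (fun y => x⁻¹ * y ∈ Ball (S : Set P) (c * 1 + c))
      rw [Finset.card_insert_of_notMem hxA, Nat.mul_succ]
      omega
    · intro y hy z hz hne
      rcases Finset.mem_insert.1 hy with rfl | hy'
      · rcases Finset.mem_insert.1 hz with rfl | hz'
        · exact absurd rfl hne
        · exact key z hz'
      · rcases Finset.mem_insert.1 hz with rfl | hz'
        · intro h
          have h1 := Ball.inv_mem h
          rw [mul_inv_rev, inv_inv] at h1
          exact key y hy' h1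
        · exact hs y hy' z hz' hne

/-- `QI.reach`, `sl` with a constant level, `mu_sep`, `count0` -/
theorem mu_count {S : Finset P} {j : P → G} {c : ℕ} (hj : QI (S : Set P) X.Sg j c) :
    Count (S : Set P) (X.π ∘ j) := by
  classical
  obtain ⟨M, hM⟩ := mu_sep hj
  obtain ⟨K₁, -, hsl⟩ := X.sl
  obtain ⟨B, hB, hχ⟩ := X.χ_bound
  obtain ⟨B', hB', hV⟩ := X.V_lip
  have hl1 := one_le_lg K₁
  have hl2 := one_le_lg (2 * c)
  have hM0 : (0 : ℝ) ≤ M := M.cast_nonneg
  have hD : (0 : ℝ) ≤ M + B' * B * (X.K * (2 * c) + K₁) := by positivity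
  have hE : (0 : ℝ) ≤ (B' * K₁ + X.K * lg K₁) * lg (2 * c) := by positivity
  have hBB : (0 : ℝ) ≤ B' * B := by positivity
  refine ⟨B' * B + (M + B' * B * (X.K * (2 * c) + K₁)) + (B' * K₁ + X.K * lg K₁) * lg (2 * c),
    by positivity, fun a n ρ hρ => ?_⟩
  have hfin := Reach.finite S.finite_toSet (Slab (X.π ∘ j) a ρ) a n
  obtain ⟨A', hA', hc, hs⟩ := hM (j a)⁻¹ hfin.toFinset
  have hm := one_le_lg (2 * c * n)
  have hn := one_le_lg n
  have hρ' : (0 : ℝ) ≤ ρ + X.K * (2 * c) := by positivity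
  have hr : (0 : ℝ) ≤ B * (ρ + X.K * (2 * c)) + K₁ * lg (2 * c * n) + B * K₁ := by positivity
  have h1 := X.count0 _ (X.adm_const hr) (K₁ * (2 * c * n)) (A'.image fun y => (j a)⁻¹ * j y)
    (by
      intro u hu v hv hne
      obtain ⟨x, hx, rfl⟩ := Finset.mem_image.1 (Finset.mem_coe.1 hu)
      obtain ⟨y, hy, rfl⟩ := Finset.mem_image.1 (Finset.mem_coe.1 hv)
      exact hs x hx y hy fun e => hne (by rw [e]))
    (by
      intro z hz
      obtain ⟨y, hy, rfl⟩ := Finset.mem_image.1 hz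
      have hy1 := hj.reach X.π_lip ((Set.Finite.mem_toFinset hfin).1 (hA' hy))
      obtain ⟨e, he, c', hc', b, hb, h2, h3⟩ := hsl (fun _ => B * (ρ + X.K * (2 * c))) (j a) (j y)
        (2 * c * n) (hy1.mono fun z hz i => by
          have h4 : ‖X.π z - X.π (j a)‖ ≤ ρ + X.K * (2 * c) := hz
          exact (le_abs_self _).trans ((hχ i _).trans
            (mul_le_mul_of_nonneg_left h4 (by linarith))))
      have h5 : (0 : ℝ) ≤ B * K₁ := by positivity
      refine ⟨e, X.box_mono _ _ (fun i => ?_) he, c', hc', b, hb, h2, fun i => ?_⟩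
      · simp only; linarith
      · have h6 : ‖X.π (j y) - X.π (j a)‖ ≤ ρ + X.K * (2 * c) := hy1.right
        have h7 := norm_add_le (X.π c' - (X.π (j y) - X.π (j a))) (X.π (j y) - X.π (j a))
        rw [sub_add_cancel] at h7
        have h8 : B * ‖X.π c'‖ ≤ B * (K₁ + (ρ + X.K * (2 * c))) :=
          mul_le_mul_of_nonneg_left (by linarith) (by linarith)
        have h9 := (le_abs_self _).trans (hχ i (X.π c'))
        have h10 : (0 : ℝ) ≤ K₁ * lg (2 * c * n) := by positivity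
        simp only [pt]
        linarith)
  rw [Finset.card_image_of_injOn (fun x hx y hy e => by
    by_contra hne
    refine hs x hx y hy hne ?_
    rw [show (j a)⁻¹ * j x = (j a)⁻¹ * j y from e, inv_mul_cancel]
    exact Ball.one_mem _ _)] at h1
  have h0 : X.V (fun _ => 0) = 0 := by simpa using X.V_smul (fun _ => 0) (le_refl (0 : ℝ))
  have h2 := hV (fun _ => 0) (fun _ => B * (ρ + X.K * (2 * c)) + K₁ * lg (2 * c * n) + B * K₁) _ hr
    fun i => by rw [zero_add]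
  rw [h0, zero_add] at h2
  have h3 : lg (K₁ * (2 * c * n)) ≤ lg K₁ * lg (2 * c * n) :=
    (lg_mono (Nat.le_add_right _ _)).trans (lg_mul_le K₁ _)
  have h4 : (X.K : ℝ) * lg (K₁ * (2 * c * n)) ≤ X.K * (lg K₁ * lg (2 * c * n)) := by gcongr
  have h5 : lg (2 * c * n) ≤ lg (2 * c) * lg n :=
    (lg_mono (Nat.le_add_right _ _)).trans (lg_mul_le (2 * c) n)
  have h6 : (B' * K₁ + X.K * lg K₁) * lg (2 * c * n) ≤
      (B' * K₁ + X.K * lg K₁) * (lg (2 * c) * lg n) := by gcongr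
  have h7 : (M : ℝ) ≤ Real.exp M := by linarith [Real.add_one_le_exp (M : ℝ)]
  have h8 : (({y | Reach (S : Set P) (Slab (X.π ∘ j) a ρ) a n y}.ncard : ℕ) : ℝ) ≤ M * A'.card := by
    rw [Set.ncard_eq_toFinset_card _ hfin]
    exact_mod_cast hc
  refine h8.trans ((mul_le_mul h7 h1 (Nat.cast_nonneg _) (Real.exp_pos _).le).trans ?_)
  rw [← Real.exp_add]
  refine Real.exp_le_exp.2 ?_
  have e1 := le_mul_of_one_le_right hD (show 1 ≤ ρ + lg n by linarith)
  have e2 := mul_nonneg hBB (show 0 ≤ lg n by linarith)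
  have e3 := mul_nonneg hE hρ
  change (M : ℝ) + (X.V _ + _) ≤ _
  linarith

end Geo

/-- THE ROW from the real model and the strong form of height preservation -/
theorem row_of {P H : Type*} [Group P] [Group H] (S : Finset P)
    (hS : Subgroup.closure (S : Set P) = ⊤) (T : Finset H)
    (hT : Subgroup.closure (T : Set H) = ⊤) (hP : IsVirtuallyPolycyclic P) (F : H → P)
    (hF : Crest.Geometry.IsQuasiIsometry (wordDist (T : Set H)) (wordDist (S : Set P)) F)
    (hgeo : GeoStmt P)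
    (hmid : ∀ (G : Type) [Group G] [MeasurableSpace G] [MeasurableMul₂ G] [MeasurableInv G]
      (k : ℕ) (X : Geo G k), X.US) : IsVirtuallyPolycyclic H := by
  obtain ⟨P₀, h0, S₀, hS₀, G, _, _, _, _, k, X, j, cj, hj, hπ, hsurj⟩ := hgeo hP
  obtain ⟨c, hc⟩ := QI.of_isQuasiIsometry hT hS hF
  haveI : P₀.subtype.range.FiniteIndex := by rwa [Subgroup.range_subtype]
  obtain ⟨c₀, hc₀⟩ := QI.of_hom S₀.finite_toSet hS₀ S.finite_toSet hS P₀.subtype
    P₀.subtype_injective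
  obtain ⟨E, hE, -⟩ := hc₀.symm
  exact end_all S₀ hS₀ (vp_subgroup hP P₀) hπ (fun g l => X.π_int _ l) hsurj (X.mu_count hj)
    (X.mu_selfU (hmid G k X) hS₀ hj) T hT (hc.comp hE)

end Crest.Agent.R182
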