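import Crest.Agent.R182.EDefs

/-! Row 182, the middle: the geometric interface `Geo` of the real model and the block statements. -/

set_option autoImplicit false
set_option linter.dupNamespace false

namespace Crest.Agent.R182

open Crest.GroupTheory MeasureTheory

/-! ### zigzag schemes -/

/-- random words: `fam g J` is the one-letter word `g ^ i`, `i` uniform in `[-J, J]`;
`conj X Y` is `u v u⁻¹`, `mul X Y` is `u v` with `u`, `v` independent -/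
inductive Sch (G : Type) : Type
  | one : Sch G
  | fam (g : G) (J : ℕ) : Sch G
  | conj (X Y : Sch G) : Sch G
  | mul (X Y : Sch G) : Sch G

namespace Sch

variable {G : Type} [Group G]

/-- the formal inverse of a word -/
def winv (u : List G) : List G := (u.map fun x => x⁻¹).reverse

/-- complexity; every word has length at most `size` -/
def size : Sch G → ℕ
  | one => 1
  | fam _ _ => 1
  | conj X Y => 2 * X.size + Y.size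
  | mul X Y => X.size + Y.size

/-- the words of the scheme -/
def Mem : Sch G → List G → Prop
  | one, w => w = []
  | fam g J, w => ∃ i : ℤ, |i| ≤ J ∧ w = [g ^ i]
  | conj X Y, w => ∃ u v, X.Mem u ∧ Y.Mem v ∧ w = u ++ v ++ winv u
  | mul X Y, w => ∃ u v, X.Mem u ∧ Y.Mem v ∧ w = u ++ v

/-- expectation -/
noncomputable def avg : Sch G → (List G → ℝ) → ℝ
  | one, f => f []
  | fam g J, f => (∑ i ∈ Finset.Icc (-(J : ℤ)) J, f [g ^ i]) / (2 * J + 1)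
  | conj X Y, f => X.avg fun u => Y.avg fun v => f (u ++ v ++ winv u)
  | mul X Y, f => X.avg fun u => Y.avg fun v => f (u ++ v)

/-- all letters satisfy `p` -/
def Let (p : G → Prop) : Sch G → Prop
  | one => True
  | fam g J => ∀ i : ℤ, |i| ≤ J → p (g ^ i)
  | conj X Y => X.Let p ∧ Y.Let p
  | mul X Y => X.Let p ∧ Y.Let p

end Sch

/-! ### levels and volumes -/

section lev

variable {k : ℕ} {ι β : Type}

/-- the level vector of a point -/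
def pt (χ : ι → (Fin k → ℝ) →ₗ[ℝ] ℝ) (v : Fin k → ℝ) : ι → ℝ := fun i => χ i v

/-- the level vector (support function) of a set of heights -/
noncomputable def lev (χ : ι → (Fin k → ℝ) →ₗ[ℝ] ℝ) (S : Set (Fin k → ℝ)) : ι → ℝ :=
  fun i => sSup (χ i '' S)

/-- admissible level vectors: support functions -/
def Adm (χ : ι → (Fin k → ℝ) →ₗ[ℝ] ℝ) (a : ι → ℝ) : Prop :=
  ∃ S : Set (Fin k → ℝ), S.Nonempty ∧ ∀ i, IsLUB (χ i '' S) (a i)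

/-- log-volume of the box with levels `a` -/
noncomputable def Vol [Fintype ι] (wt : β → ι → ℝ) (a : ι → ℝ) : ℝ := ⨆ b, ∑ i, wt b i * a i

end lev

/-! ### measures -/

section meas

variable {G : Type} [Group G] [MeasurableSpace G]

/-- `ζ` is `η`-invariant under right multiplication by `g` -/
def TVr (ζ : Measure G) (g : G) (η : ℝ) : Prop :=
  ∀ A, MeasurableSet A → |ζ.real ((fun x => x * g) ⁻¹' A) - ζ.real A| ≤ η

/-- `ζ` is `η`-invariant under left multiplication by `g` -/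
def TVl (ζ : Measure G) (g : G) (η : ℝ) : Prop :=
  ∀ A, MeasurableSet A → |ζ.real ((fun x => g * x) ⁻¹' A) - ζ.real A| ≤ η

/-- a map with countable range and measurable fibres -/
def Step {Y : Type*} (ψ : G → Y) : Prop :=
  (Set.range ψ).Countable ∧ ∀ y, MeasurableSet (ψ ⁻¹' {y})

end meas

/-- `Y` is `σ`-separated -/
def Sep {G : Type*} [Group G] (T : Set G) (σ : ℕ) (Y : Set G) : Prop :=
  ∀ x ∈ Y, ∀ y ∈ Y, x ≠ y → x⁻¹ * y ∉ Ball T σ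

/-- The geometric interface of the real model.
`Sg` compact generating set, `π` heights, `SC` generators of the flat (nilpotent) subgroup,
`χ i` the classes (rays of weights of `𝔢 / [𝔢, 𝔢]`), `Box a ⊆ exp 𝔢` the box with levels `a`,
`RB i b` the box of level `b` in the group of all weight spaces on the open ray of `χ i`. -/
structure Geo (G : Type) [Group G] [MeasurableSpace G] (k : ℕ) where
  /-- generators -/
  Sg : Set G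
  gen : Subgroup.closure Sg = ⊤
  /-- heights -/
  π : G → Fin k → ℝ
  π_hom : AHom π
  π_int : ∀ g l, ∃ z : ℤ, π g l = z
  /-- the constant -/
  K : ℕ
  one_le_K : 1 ≤ K
  π_lip : Lip Sg π K
  /-- Haar measure -/
  μ : Measure G
  μ_left : ∀ g A, MeasurableSet A → μ ((fun x => g * x) ⁻¹' A) = μ A
  μ_right : ∀ g A, MeasurableSet A → μ ((fun x => x * g) ⁻¹' A) = μ A
  μ_sfin : SFinite μ
  ball_meas : ∀ n, MeasurableSet (Ball Sg n)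
  ball_fin : ∀ n, μ (Ball Sg n) ≠ ⊤
  ball_pos : μ (Ball Sg 1) ≠ 0
  /-- controlled Følner sets -/
  folner : ∀ R : ℕ, ∃ KR : ℝ, ∀ n₀ : ℕ, ∃ n ≥ n₀, ∃ D : Set G, MeasurableSet D ∧ D ⊆ Ball Sg n ∧
    μ D ≠ 0 ∧ μ.real {y | (∃ b ∈ Ball Sg R, y * b ∈ D) ∧ ∃ b ∈ Ball Sg R, y * b ∉ D} ≤
      KR / n * μ.real D
  /-- generators of the flat subgroup -/
  SC : Finset G
  nil : Group.IsNilpotent (Subgroup.closure (SC : Set G))
  SC_ball : ∀ c ∈ SC, c ∈ Ball Sg K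
  SC_surj : ∀ l, ∃ c ∈ SC, π c = Pi.single l 1
  /-- classes -/
  ι : Type
  [fι : Fintype ι]
  [dι : DecidableEq ι]
  /-- the class covectors -/
  χ : ι → (Fin k → ℝ) →ₗ[ℝ] ℝ
  span : ∀ v, (∀ i, χ i v = 0) → v = 0
  /-- exposing directions -/
  u : ι → Fin k → ℝ
  u_self : ∀ i, χ i (u i) = 1
  u_ne : ∀ i j, j ≠ i → χ j (u i) < 1
  /-- monomial bases -/
  β : Type
  [fβ : Fintype β]
  [nβ : Nonempty β]
  /-- total weight of class `i` in the basis `b` -/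
  wt : β → ι → ℝ
  wt_pos : ∀ b i, 0 < wt b i
  wt_sum : ∀ b v, ∑ i, wt b i * χ i v = 0
  /-- homogeneous dimension of the quotient of class `i` -/
  dim : ι → ℝ
  dim_pos : ∀ i, 0 < dim i
  /-- boxes -/
  Box : (ι → ℝ) → Set G
  /-- ray boxes -/
  RB : ι → ℝ → Set G
  box_one : ∀ a, (1 : G) ∈ Box a
  box_inv : ∀ a, ∀ g ∈ Box a, g⁻¹ ∈ Box a
  box_mono : ∀ a a', a ≤ a' → Box a ⊆ Box a'
  box_π : ∀ a, ∀ g ∈ Box a, π g = 0
  box_prod : ∀ a, ∀ l : List G, (∀ g ∈ l, g ∈ Box a) → l.prod ∈ Box (fun i => a i + K * lg l.length)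
  box_conj : ∀ a, Adm χ a → ∀ m, ∀ c ∈ Ball (SC : Set G) m, ∀ g ∈ Box a,
    c * g * c⁻¹ ∈ Box (fun i => a i + χ i (π c) + K * lg m)
  box_shear : ∀ (a : ι → ℝ) (s t : ℝ), 0 ≤ s → K * s + K ≤ t → ∀ m ∈ Box (fun i => a i + t + s),
    ∀ g ∈ Box a, m * g * m⁻¹ ∈ Box (fun i => a i + t)
  box_ball : ∀ r : ℕ, Box (fun _ => r) ⊆ Ball Sg (K * r + K)
  box_gen : ∀ a, ∀ g ∈ Box a, ∃ l : List G, l.length ≤ K ∧
    (∀ x ∈ l, ∃ i, x ∈ RB i (a i + K)) ∧ l.prod = g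
  ball_dec : ∀ R : ℕ, ∃ KR : ℕ, ∀ g ∈ Ball Sg R, ∃ e ∈ Box (fun _ => KR),
    ∃ c ∈ Ball (SC : Set G) KR, ∃ b ∈ Ball Sg 1, g = e * c * b
  RB_one : ∀ i b, (1 : G) ∈ RB i b
  RB_inv : ∀ i b, ∀ g ∈ RB i b, g⁻¹ ∈ RB i b
  RB_mono : ∀ i b b', b ≤ b' → RB i b ⊆ RB i b'
  RB_box : ∀ a, Adm χ a → ∀ i, RB i (a i) ⊆ Box (fun j => a j + K)
  RB_conj : ∀ i b m, ∀ c ∈ Ball (SC : Set G) m, ∀ g ∈ RB i b,
    c * g * c⁻¹ ∈ RB i (b + χ i (π c) + K * lg m)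
  RB_ball : ∀ i (r : ℕ), RB i r ⊆ Ball Sg (K * r + K)
  /-- the part of a box transverse to class `i` stays in the bigger box under conjugation by
  much larger elements of class `i` -/
  split : ∀ i (a a' : ι → ℝ) (b D : ℝ), Adm χ a → Adm χ a' → K ≤ D → (∀ j, j ≠ i → a' j + K * D ≤ a j) →
    a' i ≤ b → b ≤ a i + D → ∀ g ∈ Box a', ∃ x, ∃ r ∈ RB i (a' i + K), g = x * r ∧
      ∀ n ∈ RB i b, n * x * n⁻¹ ∈ Box a
  /-- uniform measure on a box -/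
  ν : (ι → ℝ) → Measure G
  ν_prob : ∀ a, IsProbabilityMeasure (ν a)
  ν_box : ∀ a, ∀ᵐ g ∂(ν a), g ∈ Box a
  ν_inv : ∀ η : ℝ, 0 < η → ∃ t₀ : ℝ, ∀ (a : ι → ℝ) (t : ℝ), t₀ ≤ t → ∀ g ∈ Box a,
    TVr (ν fun i => a i + t) g η ∧ TVl (ν fun i => a i + t) g η
  /-- uniform measure on a ray box -/
  νR : ι → ℝ → Measure G
  νR_prob : ∀ i b, IsProbabilityMeasure (νR i b)
  νR_box : ∀ i b, ∀ᵐ g ∂(νR i b), g ∈ RB i b
  νR_inv : ∀ η : ℝ, 0 < η → ∃ t₀ : ℝ, ∀ i (b t : ℝ), t₀ ≤ t → ∀ g ∈ RB i b,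
    TVr (νR i (b + t)) g η ∧ TVl (νR i (b + t)) g η
  /-- plain upper count -/
  count0 : ∀ a, Adm χ a → ∀ (m : ℕ) (Y : Finset G), Sep Sg 1 Y →
    (∀ y ∈ Y, ∃ e ∈ Box a, ∃ c ∈ Ball (SC : Set G) m, ∃ b ∈ Ball Sg 1, y = e * c * b ∧
      pt χ (π c) ≤ a) → (Y.card : ℝ) ≤ Real.exp (Vol wt a + K * lg m)
  /-- upper count with a constraint on the class `i` -/
  count1 : ∀ a, Adm χ a → ∀ (i : ι) (B : ℝ) (m : ℕ) (g₀ : G) (Y : Finset G),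
    g₀ ∈ Ball Sg m → Sep Sg 1 Y →
    (∀ y ∈ Y, ∃ e ∈ Box a, ∃ c ∈ Ball (SC : Set G) m, ∃ b ∈ Ball Sg 1, y = e * c * b ∧
      pt χ (π c) ≤ a ∧ χ i (π c) ≤ B ∧ ∃ a', Adm χ a' ∧ 0 ≤ a' i ∧ a' i + χ i (π g₀) ≤ B ∧
        ∃ e' ∈ Box a', ∃ c' ∈ Ball (SC : Set G) m, ∃ b' ∈ Ball Sg 1, y = g₀ * e' * c' * b') →
    (Y.card : ℝ) ≤ Real.exp (Vol wt a + dim i * (B - a i) + K * lg m)
  /-- the same after a jump of size `D` at the height `s` -/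
  count2 : ∀ a, Adm χ a → ∀ (i : ι) (s : Fin k → ℝ) (D B : ℝ) (m : ℕ) (g₀ : G) (Y : Finset G),
    0 ≤ D → χ i s ≤ a i → (∀ j, j ≠ i → χ j s + K * D ≤ a j) → g₀ ∈ Ball Sg m → Sep Sg 1 Y →
    (∀ y ∈ Y, ∃ e₁ ∈ Box a, ∃ e₂ ∈ Box (fun j => χ j s + D), ∃ c ∈ Ball (SC : Set G) m,
      ∃ b ∈ Ball Sg 1, y = e₁ * e₂ * c * b ∧ (∀ j, χ j (π c) ≤ χ j s + D) ∧
      χ i (π c) ≤ B ∧ ∃ a', Adm χ a' ∧ 0 ≤ a' i ∧ a' i + χ i (π g₀) ≤ B ∧ ∃ e' ∈ Box a',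
        ∃ c' ∈ Ball (SC : Set G) m, ∃ b' ∈ Ball Sg 1, y = g₀ * e' * c' * b') →
    (Y.card : ℝ) ≤ Real.exp (Vol wt a + dim i * (B - a i) + K * lg m)
  /-- lower count for zigzags -/
  zig0 : ∀ θ : ℝ, 0 < θ → ∀ σ : ℕ, ∃ Kθ : ℝ, ∀ a, Adm χ a → ∃ Z : Sch G, Z.size ≤ K ∧
    Z.Let (fun g => ∃ j, g ∈ RB j (a j)) ∧ ∀ A : Set (List G),
      θ ≤ Z.avg (A.indicator 1) → ∃ Y : Finset G, Sep Sg σ Y ∧
        (∀ y ∈ Y, ∃ w ∈ A, Z.Mem w ∧ y = w.prod) ∧ Real.exp (Vol wt a - Kθ) ≤ Y.card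
  /-- lower count for a zigzag followed by a large move of class `i` -/
  zig : ∀ θ : ℝ, 0 < θ → ∀ σ : ℕ, ∃ Kθ : ℝ, ∀ a, Adm χ a → ∀ i (b : ℝ), a i ≤ b →
    ∃ Z : Sch G, Z.size ≤ K ∧ Z.Let (fun g => ∃ j, g ∈ RB j (a j)) ∧ ∀ A : List G → Set G,
      (∀ w, MeasurableSet (A w)) → θ ≤ Z.avg (fun w => (νR i b).real (A w)) →
      ∃ Y : Finset G, Sep Sg σ Y ∧
        (∀ y ∈ Y, ∃ w, Z.Mem w ∧ ∃ n ∈ A w, n ∈ RB i b ∧ y = w.prod * n) ∧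
        Real.exp (Vol wt a + dim i * (b - a i) - Kθ) ≤ Y.card
  /-- one abelian coordinate of class `i` -/
  abel : ∀ i, ∃ (E : ℝ → G) (κ : ℝ), 0 < κ ∧ (∀ τ, |τ| ≤ 1 → E τ ∈ RB i 0) ∧
    ∀ (m : ℕ) (U : ℝ) (g₀ : G) (τ : Fin 2 → ℝ), g₀ ∈ Ball Sg m →
      (∀ l, ∃ c ∈ Ball (SC : Set G) m, χ i (π c) ≤ -U ∧ ∃ a', Adm χ a' ∧ 0 ≤ a' i ∧
        a' i + χ i (π g₀) ≤ -U ∧ ∃ e' ∈ Box a', ∃ c' ∈ Ball (SC : Set G) m,
          ∃ b' ∈ Ball Sg 1, E (τ l) * c = g₀ * e' * c' * b') →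
      |τ 0 - τ 1| ≤ Real.exp (-(κ * U) + K * lg m)

attribute [instance] Geo.fι Geo.dι Geo.fβ Geo.nβ

namespace Geo

variable {G : Type} [Group G] [MeasurableSpace G] {k : ℕ} (X : Geo G k)

/-- log-volume -/
noncomputable def V (a : X.ι → ℝ) : ℝ := Vol X.wt a

/-- linear maps preserving all box volumes -/
def IsW (w : Module.End ℝ (Fin k → ℝ)) : Prop :=
  ∀ S : Set (Fin k → ℝ), S.Finite → S.Nonempty → X.V (lev X.χ (w '' S)) = X.V (lev X.χ S)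

/-- ... which also permute the classes and preserve their dimensions -/
def IsW' (w : Module.End ℝ (Fin k → ℝ)) : Prop :=
  X.IsW w ∧ ∀ i, ∃ j, ∃ t : ℝ, 0 < t ∧ (∀ v, X.χ j (w v) = t * X.χ i v) ∧ X.dim i = t * X.dim j

/-- regular flat elements -/
def Reg (t : G) : Prop := t ∈ Subgroup.closure (X.SC : Set G) ∧ ∀ i, X.χ i (X.π t) ≠ 0

/-- the group generated by the ray boxes and the flat generators -/
def Γ : Subgroup G := Subgroup.closure ((X.SC : Set G) ∪ ⋃ i, ⋃ b, X.RB i b)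

/-- a pair of mutually inverse measurable quasi-isometries -/
structure QP (c : ℕ) (ψ ψ' : G → G) : Prop where
  qi : QI X.Sg X.Sg ψ c
  qi' : QI X.Sg X.Sg ψ' c
  step : Step ψ
  step' : Step ψ'
  left : ∀ x, x⁻¹ * ψ' (ψ x) ∈ Ball X.Sg c
  right : ∀ y, y⁻¹ * ψ (ψ' y) ∈ Ball X.Sg c

/-- `ζ` is almost invariant under all admissible boxes below the level `a` -/
def Inv (ζ : Measure G) (a : X.ι → ℝ) (η : ℝ) : Prop :=
  ∀ a', Adm X.χ a' → a' ≤ a → ∀ g ∈ X.Box a', TVr ζ g η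

/-- on the flat ball of radius `n` at `z` the image heights have slope `w` -/
def Lab (ψ : G → G) (n : ℕ) (ε : ℝ) (z : G) (w : Module.End ℝ (Fin k → ℝ)) : Prop :=
  ∀ c ∈ Ball (X.SC : Set G) n, ‖X.π (ψ (z * c)) - X.π (ψ z) - w (X.π c)‖ ≤ ε * n

/-- block M2: image profiles do not lose volume -/
def VP : Prop :=
  ∀ (c : ℕ) (ε η' : ℝ), 0 < ε → 0 < η' → ∃ η : ℝ, 0 < η ∧ ∃ n₀ : ℕ, ∀ n ≥ n₀, ∀ p : ℕ → G,
    p 0 = 1 → (∀ j < n, (p j)⁻¹ * p (j + 1) ∈ Ball (X.SC : Set G) 1) →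
    ∀ ψ : G → G, QI X.Sg X.Sg ψ c → Step ψ → ∀ ζ : Measure G, IsProbabilityMeasure ζ →
      (∀ i, ∀ g ∈ X.RB i (lev X.χ ((fun j => X.π (p j)) '' Set.Iic n) i), TVr ζ g η) →
      ζ.real {x | X.V (lev X.χ ((fun j => X.π (ψ (x * p j))) '' Set.Iic n)) <
        X.V (lev X.χ ((fun j => X.π (p j)) '' Set.Iic n)) - ε * n} ≤ η'

/-- block M1: local slopes lie in the finite group `IsW` -/
def Slopes : Prop :=
  ∀ (c : ℕ) (𝒰 : Ultrafilter ℕ) (ψ ψ' : ℕ → G → G) (ω : ℕ → Measure G),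
    (∀ i, X.QP c (ψ i) (ψ' i)) → (∀ i, IsProbabilityMeasure (ω i)) →
    (∀ γ ∈ X.Γ, ∀ η : ℝ, 0 < η → ∀ᶠ i in (𝒰 : Filter ℕ), TVr (ω i) γ η) →
    ∀ (ε : ℝ), 0 < ε → ∀ 𝒯 : Finset G, (∀ t ∈ 𝒯, X.Reg t) → ∀ r₀ : ℕ, ∃ r ≥ r₀,
      ∃ lab : ℕ → G → Module.End ℝ (Fin k → ℝ), (∀ i x, X.IsW (lab i x)) ∧ (∀ i, Step (lab i)) ∧
        (∀ t ∈ 𝒯, ∀ j ≤ r, ∀ᶠ i in (𝒰 : Filter ℕ),
          ∫ x, ‖X.π (ψ i (x * t ^ j)) - X.π (ψ i x) - (j : ℝ) • lab i x (X.π t)‖ ∂(ω i) ≤ ε * r) ∧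
        ∀ γ ∈ X.Γ, ∀ᶠ i in (𝒰 : Filter ℕ), (ω i).real {x | lab i (x * γ) ≠ lab i x} ≤ ε

/-- purity on flat balls, with labels in the class `Wp` and invariance level `A n` -/
def PLoc (Wp : Module.End ℝ (Fin k → ℝ) → Prop) (c A : ℕ) : Prop :=
  ∀ ε η' : ℝ, 0 < ε → 0 < η' → ∃ η : ℝ, 0 < η ∧ ∀ n₀ : ℕ, ∃ n ≥ n₀, ∀ ψ ψ' : G → G, X.QP c ψ ψ' →
    ∀ ζ : Measure G, IsProbabilityMeasure ζ → X.Inv ζ (fun _ => A * n) η →
      ζ.real {z | ¬ ∃ w, Wp w ∧ X.Lab ψ n ε z w} ≤ η'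

/-- block M3 -/
def Pure : Prop := ∀ c : ℕ, ∃ A : ℕ, X.PLoc X.IsW c A

/-- block M4: heights are preserved up to a sublinear error -/
def UL : Prop :=
  ∀ (c : ℕ) (ε : ℝ), 0 < ε → ∃ C : ℝ, ∀ ψ ψ' : G → G, X.QP c ψ ψ' → ∃ w, X.IsW w ∧
    ∀ (x y : G) (n : ℕ), x⁻¹ * y ∈ Ball X.Sg n →
      ‖X.π (ψ y) - X.π (ψ x) - w (X.π y - X.π x)‖ ≤ ε * n + C

/-- block M5: the strong form -/
def US : Prop :=
  ∀ (c : ℕ) (ε : ℝ), 0 < ε → ∃ C : ℝ, ∀ ψ ψ' : G → G, X.QP c ψ ψ' → ∃ w, X.IsW w ∧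
    ∀ (x y : G) (n : ℕ) (ρ : ℝ), Reach X.Sg (Slab X.π x ρ) x n y →
      ‖X.π (ψ y) - X.π (ψ x) - w (X.π y - X.π x)‖ ≤ ε * ρ + C * lg n

end Geo

/-- blocks L1 + L2: existence of the real model -/
def GeoStmt (P : Type*) [Group P] : Prop :=
  IsVirtuallyPolycyclic P → ∃ P₀ : Subgroup P, P₀.FiniteIndex ∧ ∃ S : Finset P₀,
    Subgroup.closure (S : Set P₀) = ⊤ ∧ ∃ (G : Type) (_ : Group G) (_ : MeasurableSpace G)
      (_ : MeasurableMul₂ G) (_ : MeasurableInv G) (k : ℕ) (X : Geo G k) (j : P₀ → G) (c : ℕ),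
      QI (S : Set P₀) X.Sg j c ∧ AHom (X.π ∘ j) ∧ ∀ l, ∃ t, X.π (j t) = Pi.single l 1

/-! ### block NIL: finitely generated nilpotent groups -/

/-- polynomial growth -/
def NilGrow (G : Type*) [Group G] : Prop :=
  ∀ T : Finset G, Group.IsNilpotent (Subgroup.closure (T : Set G)) →
    ∃ C d : ℕ, ∀ n, (Ball (T : Set G) n).ncard ≤ C * (n + 1) ^ d

/-- bounded generation by powers with linear exponents -/
def NilPow (G : Type*) [Group G] : Prop :=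
  ∀ T : Finset G, Group.IsNilpotent (Subgroup.closure (T : Set G)) →
    ∃ C : ℕ, ∀ n, ∀ g ∈ Ball (T : Set G) n, ∃ l : List (G × ℤ), l.length ≤ C ∧
      (∀ p ∈ l, p.1 ∈ T ∧ |p.2| ≤ C * n) ∧ (l.map fun p => p.1 ^ p.2).prod = g

/-- conjugates are sublinear -/
def NilConj (G : Type*) [Group G] : Prop :=
  ∀ T : Finset G, Group.IsNilpotent (Subgroup.closure (T : Set G)) →
    ∀ s ∈ Subgroup.closure (T : Set G), ∀ t ∈ Subgroup.closure (T : Set G), ∀ q : ℕ, ∃ C : ℕ,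
      ∀ n : ℕ, (t ^ n)⁻¹ * s * t ^ n ∈ Ball (T : Set G) (n / (q + 1) + C)

end Crest.Agent.R182
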