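import Crest.Agent.R182.NilB
import Crest.Agent.R182.MDefs

/-! Row 182, block NIL: growth, bounded generation by powers, sublinear conjugates. -/

set_option autoImplicit false
set_option linter.dupNamespace false

namespace Crest.Agent.R182

open Nil

variable {G : Type*} [Group G]

theorem Nil.ball_pb {T : Set G} (hT : T.Finite) (h : Group.IsNilpotent (Subgroup.closure T)) :
    ∃ C : ℕ, ∀ n, ∀ g ∈ Ball T n, g ∈ PB T C n := by
  obtain ⟨C, hC⟩ := exists_pb hT h 1
  refine ⟨C, fun n g hg => ?_⟩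
  rcases Nat.eq_zero_or_pos n with rfl | hn
  · rw [h31_ball_zero] at hg
    rw [Set.mem_singleton_iff.1 hg]; exact PB.one_mem _ _
  · refine hC n hn g ((Wd.of_ball (by positivity) hg).mono (le_of_eq ?_))
    exact mul_inv_cancel₀ (by positivity)

theorem nilPow : NilPow G := fun T h => Nil.ball_pb T.finite_toSet h

/-- crude exponential bound -/
theorem Nil.ncard_ball_le {A : Set G} (hA : A.Finite) (r : ℕ) :
    (Ball A r).ncard ≤ (2 * A.ncard + 1) ^ r := by
  induction r with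
  | zero => rw [h31_ball_zero, Set.ncard_singleton, pow_zero]
  | succ r ih =>
    have hf := Ball.finite hA r
    have hA' : (insert 1 (A ∪ A⁻¹) : Set G).Finite := (hA.union hA.inv).insert 1
    have h1 : Ball A (r + 1) ⊆ Set.image2 (· * ·) (insert 1 (A ∪ A⁻¹)) (Ball A r) := by
      intro g hg
      rcases h31_ball_succ hg with rfl | ⟨x, hx, b, hb, rfl⟩
      · exact ⟨1, Set.mem_insert _ _, 1, Ball.one_mem _ _, mul_one _⟩
      · exact ⟨x, Set.mem_insert_of_mem _ hx, b, hb, rfl⟩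
    have h2 : (insert 1 (A ∪ A⁻¹) : Set G).ncard ≤ 2 * A.ncard + 1 := by
      have h3 := Set.ncard_insert_le (1 : G) (A ∪ A⁻¹)
      have h4 := Set.ncard_union_le A A⁻¹
      rw [Set.ncard_inv] at h4
      omega
    calc (Ball A (r + 1)).ncard ≤ _ := Set.ncard_le_ncard h1 (hA'.image2 _ hf)
      _ ≤ (insert 1 (A ∪ A⁻¹) : Set G).ncard * (Ball A r).ncard := by
          rw [← Set.image_prod, ← Set.ncard_prod]
          exact Set.ncard_image_le (hA'.prod hf)
      _ ≤ (2 * A.ncard + 1) * (2 * A.ncard + 1) ^ r := Nat.mul_le_mul h2 ih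
      _ = _ := (pow_succ' _ _).symm

theorem nilGrow : NilGrow G := by
  classical
  intro T h
  obtain ⟨C, hC⟩ := Nil.ball_pb T.finite_toSet h
  refine ⟨(2 * (T.card * (2 * C + 1)) + 1) ^ C, C, fun n => ?_⟩
  set A : Finset G := (T ×ˢ Finset.Icc (-(C * n : ℤ)) (C * n)).image fun p => p.1 ^ p.2 with hA
  have h1 : Ball (T : Set G) n ⊆ Ball (A : Set G) C := by
    intro g hg
    obtain ⟨l, h1, h2, rfl⟩ := hC n g hg
    refine ⟨_, by rwa [List.length_map], fun x hx => Or.inl ?_, rfl⟩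
    obtain ⟨p, hp, rfl⟩ := List.mem_map.1 hx
    exact Finset.mem_coe.2 (Finset.mem_image.2 ⟨p, Finset.mem_product.2
      ⟨(h2 p hp).1, Finset.mem_Icc.2 (abs_le.1 (h2 p hp).2)⟩, rfl⟩)
  have h2 : A.card ≤ T.card * (2 * (C * n) + 1) := by
    refine Finset.card_image_le.trans (le_of_eq ?_)
    rw [Finset.card_product, Int.card_Icc]
    congr 1
    have : (C * n : ℤ) + 1 - -(C * n : ℤ) = ((2 * (C * n) + 1 : ℕ) : ℤ) := by push_cast; ring
    rw [this, Int.toNat_natCast]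
  calc (Ball (T : Set G) n).ncard ≤ (Ball (A : Set G) C).ncard :=
        Set.ncard_le_ncard h1 (Ball.finite A.finite_toSet _)
    _ ≤ (2 * (A : Set G).ncard + 1) ^ C := Nil.ncard_ball_le A.finite_toSet C
    _ ≤ ((2 * (T.card * (2 * C + 1)) + 1) * (n + 1)) ^ C := by
      rw [Set.ncard_coe_finset]
      refine Nat.pow_le_pow_left ?_ _
      nlinarith [Nat.zero_le (T.card * n), Nat.zero_le (T.card * C), Nat.zero_le n]
    _ = _ := mul_pow _ _ _

/-- uniform form: conjugating a short element by an element of length `b * n` -/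
theorem Nil.conj_ball {T : Set G} (hT : T.Finite) (h : Group.IsNilpotent (Subgroup.closure T))
    (a b q : ℕ) : ∃ C : ℕ, ∀ n : ℕ, ∀ s ∈ Ball T a, ∀ g ∈ Ball T (n * b),
      g⁻¹ * s * g ∈ Ball T (n / (q + 1) + C) := by
  obtain ⟨N, -, hN⟩ := exists_triv h
  obtain ⟨C, hC⟩ := exists_pb hT h 1
  set M : ℕ := (q + 1) * (C * C + 1) with hM
  have hM0 : 0 < M := by positivity
  obtain ⟨n₀, hn₀⟩ := exists_nat_ge ((M : ℝ) ^ N * (Real.exp b * a))
  refine ⟨C * C + (n₀ * b + a + n₀ * b), fun n s hs g hg => ?_⟩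
  rcases le_or_gt n n₀ with hn | hn
  · have hg' := Ball.mono subset_rfl (Nat.mul_le_mul_right b hn) hg
    exact Ball.mono subset_rfl ((Nat.le_add_left _ _).trans (Nat.le_add_left _ _))
      (Ball.mul_mem (Ball.mul_mem (Ball.inv_mem hg') hs) hg')
  have hn1 : (0 : ℝ) < (n : ℝ) + 1 := by positivity
  have hx : (0 : ℝ) ≤ ((n : ℝ) + 1)⁻¹ := by positivity
  have h1 : Wd (L T 1) ((n : ℝ) + 1)⁻¹ b g := (Wd.of_ball hx hg).mono (by
    rw [← div_eq_mul_inv, div_le_iff₀ hn1]; push_cast; nlinarith [Nat.cast_nonneg (α := ℝ) b])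
  have h2 := Wd.conj (cl_L T 1) hx h1 (Wd.of_ball hx hs)
  set r : ℕ := n / M + 1 with hr
  have hr0 : (0 : ℝ) < r := by positivity
  have hc1 : (1 : ℝ) ≤ ((n : ℝ) + 1) / r := by
    rw [le_div_iff₀ hr0, one_mul]
    exact_mod_cast Nat.succ_le_succ (Nat.div_le_self n M)
  have hc2 : ((n : ℝ) + 1) / r ≤ M := by
    rw [div_le_iff₀ hr0]
    have := Nat.lt_mul_div_succ n hM0
    exact_mod_cast this
  have h3 := h2.rescale hN hc1 hx
  have e : ((n : ℝ) + 1) / r * ((n : ℝ) + 1)⁻¹ = (r : ℝ)⁻¹ := by field_simp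
  rw [e] at h3
  have h4 := PB.mem_ball (hC r (Nat.le_add_left _ _) _ (h3.mono (K' := 1) (by
    have h5 : (n₀ : ℝ) ≤ (n : ℝ) + 1 := by exact_mod_cast (hn.le.trans (Nat.le_succ n))
    calc (((n : ℝ) + 1) / r) ^ N * (Real.exp b * (a * ((n : ℝ) + 1)⁻¹))
        ≤ (M : ℝ) ^ N * (Real.exp b * (a * ((n : ℝ) + 1)⁻¹)) := by gcongr
      _ = (M : ℝ) ^ N * (Real.exp b * a) / ((n : ℝ) + 1) := by ring
      _ ≤ 1 := by rw [div_le_one hn1]; exact hn₀.trans h5)))
  refine Ball.mono subset_rfl ?_ h4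
  have h6 : C * C * (n / M) ≤ n / (q + 1) := by
    rw [Nat.le_div_iff_mul_le (Nat.succ_pos q)]
    calc C * C * (n / M) * (q + 1) ≤ (C * C + 1) * (n / M) * (q + 1) := by gcongr; omega
      _ = M * (n / M) := by rw [hM]; ring
      _ ≤ n := Nat.mul_div_le n M
  have h7 : C * (C * r) = C * C * (n / M) + C * C := by rw [hr]; ring
  omega

theorem nilConj : NilConj G := by
  intro T h s hs t ht q
  obtain ⟨a, ha⟩ := Ball.exists_of_mem_closure hs
  obtain ⟨b, hb⟩ := Ball.exists_of_mem_closure ht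
  obtain ⟨C, hC⟩ := Nil.conj_ball T.finite_toSet h a b q
  exact ⟨C, fun n => hC n s ha _ (Ball.pow_mem hb n)⟩

end Crest.Agent.R182
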