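import Crest.Agent.R182.MUNeu
import Crest.Agent.R182.MUAsm
import Crest.Agent.R182.NAll
import Crest.Agent.R182.LDefs

/-! Row 182: block M5 and the reduction of the row to `LieStmt`, `LieGeo` and `UL`. -/

set_option autoImplicit false
set_option linter.dupNamespace false

namespace Crest.Agent.R182

open Crest.GroupTheory

/-- block M5 -/
theorem Geo.us {G : Type} [Group G] [MeasurableSpace G] {k : ℕ} (X : Geo G k) (h : X.UL) : X.US :=
  X.us_of nilGrow h

/-- THE ROW from the blocks L1, L2 and M1-M4 -/
theorem row_of_ul {P H : Type*} [Group P] [Group H] (S : Finset P)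
    (hS : Subgroup.closure (S : Set P) = ⊤) (T : Finset H)
    (hT : Subgroup.closure (T : Set H) = ⊤) (hP : IsVirtuallyPolycyclic P) (F : H → P)
    (hF : Crest.Geometry.IsQuasiIsometry (wordDist (T : Set H)) (wordDist (S : Set P)) F)
    (h1 : LieStmt P) (h2 : LieGeo)
    (hul : ∀ (G : Type) [Group G] [MeasurableSpace G] [MeasurableMul₂ G] [MeasurableInv G]
      (k : ℕ) (X : Geo G k), X.UL) : IsVirtuallyPolycyclic H :=
  row_of S hS T hT hP F hF (geoStmt_of h1 h2) fun G _ _ _ _ k X => X.us (hul G k X)

end Crest.Agent.R182
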