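import Crest.Agent.R182.LA
import Crest.Agent.R182.LB
import Crest.Agent.R182.MSAll
import Crest.Agent.R182.MUAll

/-! Row 182: reduction of the row to block M4 (`Pure → UL`). -/

set_option autoImplicit false
set_option linter.dupNamespace false

namespace Crest.Agent.R182

open Crest.GroupTheory

/-- THE ROW from block M4 -/
theorem row_of_m4 {P H : Type*} [Group P] [Group H] (S : Finset P)
    (hS : Subgroup.closure (S : Set P) = ⊤) (T : Finset H)
    (hT : Subgroup.closure (T : Set H) = ⊤) (hP : IsVirtuallyPolycyclic P) (F : H → P)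
    (hF : Crest.Geometry.IsQuasiIsometry (wordDist (T : Set H)) (wordDist (S : Set P)) F)
    (hul : ∀ (G : Type) [Group G] [MeasurableSpace G] [MeasurableMul₂ G] [MeasurableInv G]
      (k : ℕ) (X : Geo G k), X.Pure → X.UL) : IsVirtuallyPolycyclic H :=
  row_of_ul S hS T hT hP F hF (lieStmt P) lieGeo fun G _ _ _ _ k X => hul G k X X.pure'

end Crest.Agent.R182
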