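import Crest.Agent.R182.GA0

/-! Row 182, block [G], part A: Hilbert space lemmas. -/

set_option autoImplicit false

open scoped Pointwise InnerProductSpace

namespace Crest.Agent.R182.GA

universe u

/-- type synonym carrying the pre-Hilbert structure of a kernel -/
def HilbPre (X : Type u) : Type u := X →₀ ℝ

noncomputable instance hilbPreGrp (X : Type u) : AddCommGroup (HilbPre X) :=
  inferInstanceAs (AddCommGroup (X →₀ ℝ))

noncomputable instance hilbPreMod (X : Type u) : Module ℝ (HilbPre X) :=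
  inferInstanceAs (Module ℝ (X →₀ ℝ))

/-- the identity map to the synonym -/
noncomputable def hilbTo (X : Type u) : (X →₀ ℝ) ≃ₗ[ℝ] HilbPre X := LinearEquiv.refl ℝ (X →₀ ℝ)

theorem hilb_symm {X : Type u} (K : X → X → ℝ) (hs : ∀ x y, K x y = K y x) (f g : X →₀ ℝ) :
    Ex f (fun x => Ex g (fun y => K x y)) = Ex g (fun x => Ex f (fun y => K x y)) := by
  simp only [Ex_def, smul_eq_mul, Finset.mul_sum]
  rw [Finset.sum_comm]
  refine Finset.sum_congr rfl fun x _ => Finset.sum_congr rfl fun y _ => ?_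
  rw [hs]; ring

/-- Moore's theorem.  Proof: `RKHS.OfKernel` for the matrix
`Matrix.of fun x y => K x y • (1 : ℝ →L[ℝ] ℝ)` (`RKHS.posSemidef_tfae`, `Fact`), `e x = RKHS.kerFun H x 1`,
`RKHS.kernel_inner`, `RKHS.OfKernel.kernel_ofKernel`, `RKHS.kerFun_dense`; to have `H : Type u` and not
`Type (max u 0)` no work is needed.  Alternatively: a type synonym of `X →₀ ℝ` with a
`PreInnerProductSpace.Core` and `UniformSpace.Completion` (see `R120/GroupGNS.lean`). -/
theorem exists_hilb {X : Type u} (K : X → X → ℝ) (hs : ∀ x y, K x y = K y x)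
    (hp : ∀ f : X →₀ ℝ, 0 ≤ Ex f (fun x => Ex f (fun y => K x y))) :
    ∃ (H : Type u) (_ : NormedAddCommGroup H) (_ : InnerProductSpace ℝ H) (_ : CompleteSpace H)
      (e : X → H), (∀ x y, ⟪e x, e y⟫_ℝ = K x y) ∧ DenseRange (Finsupp.linearCombination ℝ e) := by
  letI core : PreInnerProductSpace.Core ℝ (HilbPre X) :=
    { inner := fun f g => Ex ((hilbTo X).symm f) (fun x => Ex ((hilbTo X).symm g) (fun y => K x y))
      conj_inner_symm := fun f g => by simpa using hilb_symm K hs _ _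
      re_inner_nonneg := fun f => by simpa using hp _
      add_left := fun f g h => by simp only [Ex, map_add]
      smul_left := fun f g r => by simp [Ex] }
  letI : SeminormedAddCommGroup (HilbPre X) := InnerProductSpace.Core.toSeminormedAddCommGroup (𝕜 := ℝ)
  letI : InnerProductSpace ℝ (HilbPre X) := .ofCore core
  refine ⟨UniformSpace.Completion (HilbPre X), inferInstance, inferInstance, inferInstance,
    fun x => ((hilbTo X (Finsupp.single x 1) : HilbPre X) : UniformSpace.Completion (HilbPre X)),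
    fun x y => ?_, ?_⟩
  · rw [UniformSpace.Completion.inner_coe]
    show Ex ((hilbTo X).symm (hilbTo X (Finsupp.single x 1)))
      (fun x => Ex ((hilbTo X).symm (hilbTo X (Finsupp.single y 1))) (fun y => K x y)) = _
    simp only [LinearEquiv.symm_apply_apply, Ex_single]
  · have h : ∀ f : X →₀ ℝ, Finsupp.linearCombination ℝ (fun x =>
        ((hilbTo X (Finsupp.single x 1) : HilbPre X) : UniformSpace.Completion (HilbPre X))) f =
        ((hilbTo X f : HilbPre X) : UniformSpace.Completion (HilbPre X)) := by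
      intro f
      induction f using Finsupp.induction_linear with
      | zero => simp [UniformSpace.Completion.coe_zero]
      | add f g hf hg => rw [map_add, map_add, hf, hg, UniformSpace.Completion.coe_add]
      | single x r =>
        rw [Finsupp.linearCombination_single, ← UniformSpace.Completion.coe_smul, ← map_smul,
          Finsupp.smul_single_one]
    refine (UniformSpace.Completion.denseRange_coe (α := HilbPre X)).mono ?_
    rintro _ ⟨v, rfl⟩
    exact ⟨(hilbTo X).symm v, by rw [h, LinearEquiv.apply_symm_apply]⟩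

/-- Proof: `‖linearCombination e' f‖ = ‖linearCombination e f‖` (expand the inner product), then
`LinearMap.extendOfNorm`, `LinearMap.extendOfNorm_eq`; the identity for inner products extends by
density (`DenseRange.induction_on₂`). -/
theorem exists_iso {X H : Type*} [NormedAddCommGroup H] [InnerProductSpace ℝ H] [CompleteSpace H]
    (e e' : X → H) (hd : DenseRange (Finsupp.linearCombination ℝ e))
    (h : ∀ x y, ⟪e' x, e' y⟫_ℝ = ⟪e x, e y⟫_ℝ) :
    ∃ L : H →L[ℝ] H, (∀ x, L (e x) = e' x) ∧ ∀ v w, ⟪L v, L w⟫_ℝ = ⟪v, w⟫_ℝ := by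
  have hin : ∀ f g : X →₀ ℝ,
      ⟪Finsupp.linearCombination ℝ e' f, Finsupp.linearCombination ℝ e' g⟫_ℝ =
        ⟪Finsupp.linearCombination ℝ e f, Finsupp.linearCombination ℝ e g⟫_ℝ := by
    intro f g
    simp only [Finsupp.linearCombination_apply, Finsupp.sum, sum_inner, inner_sum,
      real_inner_smul_left, real_inner_smul_right, h]
  have hn : ∃ C : ℝ, ∀ f : X →₀ ℝ,
      ‖Finsupp.linearCombination ℝ e' f‖ ≤ C * ‖Finsupp.linearCombination ℝ e f‖ := by
    refine ⟨1, fun f => le_of_eq ?_⟩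
    rw [one_mul, norm_eq_sqrt_real_inner, norm_eq_sqrt_real_inner, hin]
  have hL := LinearMap.extendOfNorm_eq (f := Finsupp.linearCombination ℝ e') hd hn
  refine ⟨(Finsupp.linearCombination ℝ e').extendOfNorm (Finsupp.linearCombination ℝ e),
    fun x => ?_, fun v w => ?_⟩
  · simpa using hL (Finsupp.single x 1)
  · refine hd.induction_on₂ (p := fun v w =>
      ⟪(Finsupp.linearCombination ℝ e').extendOfNorm (Finsupp.linearCombination ℝ e) v,
        (Finsupp.linearCombination ℝ e').extendOfNorm (Finsupp.linearCombination ℝ e) w⟫_ℝ =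
        ⟪v, w⟫_ℝ) (isClosed_eq (by fun_prop) (by fun_prop)) (fun f g => ?_) v w
    rw [hL, hL, hin]

/-- two operators that agree on a total family are equal -/
theorem clm_ext {X H : Type*} [NormedAddCommGroup H] [InnerProductSpace ℝ H]
    (e : X → H) (hd : DenseRange (Finsupp.linearCombination ℝ e)) {L L' : H →L[ℝ] H}
    (h : ∀ x, L (e x) = L' (e x)) : L = L' := by
  ext v
  refine hd.induction_on (p := fun v => L v = L' v) v (isClosed_eq L.continuous L'.continuous)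
    fun f => ?_
  simp only [Finsupp.linearCombination_apply, Finsupp.sum, map_sum, map_smul, h]

/-- Proof: `exists_hilb` gives `b`; `b 1 = 0` as `K 1 1 = 0` (`inv 1 1 1`); `exists_iso` with
`e' x = b (g x) - b g` gives `π g` (`choose`); `π 1 = 1`, `π (g h) = π g π h` by `clm_ext`;
`harm`: `‖∑ b s‖² = ∑_y ∑_s K s y = 0`. -/
theorem exists_coc {G : Type u} [Group G] {S : Finset G} {K : G → G → ℝ} (hK : HarmKer S K) :
    ∃ (H : Type u) (_ : NormedAddCommGroup H) (_ : InnerProductSpace ℝ H) (_ : CompleteSpace H),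
      Nonempty (Coc S H) := by
  obtain ⟨H, i1, i2, i3, b, hb, hd⟩ := exists_hilb K hK.symm hK.psd
  have hb1 : b 1 = 0 := by
    have h := hK.inv 1 1 1
    rw [mul_one] at h
    rw [← inner_self_eq_zero (𝕜 := ℝ), hb]
    linarith
  have hex : ∀ g : G, ∃ L : H →L[ℝ] H, (∀ x, L (b x) = b (g * x) - b g) ∧
      ∀ v w, ⟪L v, L w⟫_ℝ = ⟪v, w⟫_ℝ := fun g =>
    exists_iso b (fun x => b (g * x) - b g) hd fun x y => by
      simp only [inner_sub_left, inner_sub_right, hb]
      linarith [hK.inv g x y]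
  choose L hL hiso using hex
  refine ⟨H, i1, i2, i3, ⟨⟨⟨⟨L, ?_⟩, fun g h => ?_⟩, hiso, b, fun g x => ?_, ?_, ?_⟩⟩⟩
  · refine clm_ext b hd fun x => ?_
    rw [hL, one_mul, hb1, sub_zero]
    rfl
  · refine clm_ext b hd fun x => ?_
    change L (g * h) (b x) = L g (L h (b x))
    rw [hL, hL, map_sub, hL, hL, mul_assoc]
    abel
  · change b (g * x) = b g + L g (b x)
    rw [hL]
    abel
  · rw [← inner_self_eq_zero (𝕜 := ℝ), inner_sum]
    refine Finset.sum_eq_zero fun y _ => ?_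
    rw [sum_inner]
    simp only [hb]
    exact hK.harm y
  · obtain ⟨s, hs, hne⟩ := hK.ne
    refine ⟨s, hs, fun h0 => hne ?_⟩
    rw [← hb, h0, inner_zero_left]

section Op
variable {H : Type*} [NormedAddCommGroup H] [InnerProductSpace ℝ H] [CompleteSpace H]

omit [CompleteSpace H] in
/-- Cauchy-Schwarz for a positive operator.  Proof: `⟪W y, z⟫² ≤ ⟪W y, y⟫ ⟪W z, z⟫`
(`discrim_le_zero` for `t ↦ ⟪W (y + t z), y + t z⟫`) with `z = W y`, and `⟪W z, z⟫ ≤ ‖W‖ ‖z‖²`. -/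
theorem norm_sq_le_form (W : H →L[ℝ] H) (hs : ∀ v w, ⟪W v, w⟫_ℝ = ⟪v, W w⟫_ℝ)
    (hp : ∀ v, 0 ≤ ⟪W v, v⟫_ℝ) (y : H) : ‖W y‖ ^ 2 ≤ ‖W‖ * ⟪W y, y⟫_ℝ := by
  have h1 : discrim ⟪W (W y), W y⟫_ℝ (2 * ‖W y‖ ^ 2) ⟪W y, y⟫_ℝ ≤ 0 := by
    refine discrim_le_zero fun t => ?_
    have h := hp (y + t • W y)
    rw [map_add, map_smul, inner_add_left, inner_add_right, inner_add_right, inner_smul_left,
      inner_smul_left, inner_smul_right, inner_smul_right, hs (W y) y,
      real_inner_self_eq_norm_sq] at h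
    simp only [conj_trivial] at h
    linarith
  have h2 : ⟪W (W y), W y⟫_ℝ ≤ ‖W‖ * ‖W y‖ ^ 2 := by
    refine (real_inner_le_norm _ _).trans ?_
    rw [pow_two, ← mul_assoc]
    exact mul_le_mul_of_nonneg_right (W.le_opNorm _) (norm_nonneg _)
  unfold discrim at h1
  have h3 := mul_le_mul_of_nonneg_right h2 (hp y)
  rcases (sq_nonneg ‖W y‖).eq_or_lt with h0 | h0
  · rw [← h0]
    exact mul_nonneg (norm_nonneg _) (hp y)
  · refine le_of_mul_le_mul_left ?_ h0
    nlinarith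

omit [CompleteSpace H] in
/-- Proof: among the finsets `F` of orthonormal vectors with `ε < ⟪W v, v⟫` on `F` (their
cardinality is `≤ β/ε`) take one of maximal cardinality (`Nat.findGreatest` or
`Set.Finite.exists_maximal`...); `E = span F`.  A unit vector `y ∈ Eᗮ` with `ε < ⟪W y, y⟫` could be
inserted (`orthonormal_subtype_iff_ite`, or `Orthonormal.insert`-like lemmas); scale a general `y ≠ 0`. -/
theorem exists_fd_small (W : H →L[ℝ] H) (hp : ∀ v, 0 ≤ ⟪W v, v⟫_ℝ) {β : ℝ}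
    (htr : ∀ F : Finset H, Orthonormal ℝ (fun v : F => (v : H)) → ∑ v ∈ F, ⟪W v, v⟫_ℝ ≤ β)
    {ε : ℝ} (hε : 0 < ε) :
    ∃ E : Submodule ℝ H, FiniteDimensional ℝ E ∧ ∀ y ∈ Eᗮ, ⟪W y, y⟫_ℝ ≤ ε * ‖y‖ ^ 2 := by
  classical
  by_contra hn
  push Not at hn
  have key : ∀ n : ℕ, ∃ F : Finset H, F.card = n ∧
      (∀ v ∈ F, ∀ w ∈ F, ⟪v, w⟫_ℝ = if v = w then 1 else 0) ∧ ∀ v ∈ F, ε ≤ ⟪W v, v⟫_ℝ := by
    intro n
    induction n with
    | zero => exact ⟨∅, rfl, by simp, by simp⟩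
    | succ n ih =>
      obtain ⟨F, h1, h2, h3⟩ := ih
      obtain ⟨y, hy, hlt⟩ := hn (Submodule.span ℝ (F : Set H)) inferInstance
      have hy0 : y ≠ 0 := by
        rintro rfl
        simp at hlt
      have hny : 0 < ‖y‖ := norm_pos_iff.2 hy0
      obtain ⟨u, hu⟩ : ∃ u : H, u = ‖y‖⁻¹ • y := ⟨_, rfl⟩
      have a1 : ⟪u, u⟫_ℝ = 1 := by
        rw [hu, inner_smul_left, inner_smul_right, real_inner_self_eq_norm_sq, conj_trivial]
        field_simp
      have a2 : ∀ v ∈ F, ⟪v, u⟫_ℝ = 0 := fun v hv => by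
        rw [hu, inner_smul_right,
          (Submodule.mem_orthogonal _ _).1 hy v (Submodule.subset_span hv), mul_zero]
      have a3 : u ∉ F := fun h => by
        rw [a2 u h] at a1
        exact zero_ne_one a1
      have a4 : ε ≤ ⟪W u, u⟫_ℝ := by
        rw [hu, map_smul, inner_smul_left, inner_smul_right, conj_trivial, ← mul_assoc, ← sq,
          inv_pow, le_inv_mul_iff₀ (by positivity), mul_comm]
        exact hlt.le
      refine ⟨insert u F, by rw [Finset.card_insert_of_notMem a3, h1], ?_, ?_⟩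
      · intro v hv w hw
        rcases Finset.mem_insert.1 hv with hv' | hv' <;>
          rcases Finset.mem_insert.1 hw with hw' | hw'
        · rw [hv', hw', if_pos rfl, a1]
        · rw [hv', if_neg (fun h : u = w => a3 (by rw [h]; exact hw')), real_inner_comm, a2 w hw']
        · rw [hw', if_neg (fun h : v = u => a3 (by rw [← h]; exact hv')), a2 v hv']
        · exact h2 v hv' w hw'
      · intro v hv
        rcases Finset.mem_insert.1 hv with rfl | hv
        · exact a4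
        · exact h3 v hv
  obtain ⟨n, hn'⟩ := exists_nat_gt (β / ε)
  obtain ⟨F, h1, h2, h3⟩ := key n
  have h4 := htr F ((orthonormal_subtype_iff_ite (s := (F : Set H))).2 h2)
  have h5 := Finset.card_nsmul_le_sum F _ _ h3
  rw [h1, nsmul_eq_mul] at h5
  rw [div_lt_iff₀ hε] at hn'
  linarith

/-- Proof: `W ∘ E.starProjection` is compact (finite rank: `isCompactOperator_of_locallyCompactSpace_dom`
composed with `E.orthogonalProjection`), `‖W - W ∘ P‖² ≤ ‖W‖ ε` by `norm_sq_le_form`,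
`exists_fd_small` (`v - P v ∈ Eᗮ`, `‖v - P v‖ ≤ ‖v‖`); `isClosed_setOf_isCompactOperator`. -/
theorem compact_of_trace (W : H →L[ℝ] H) (hs : ∀ v w, ⟪W v, w⟫_ℝ = ⟪v, W w⟫_ℝ)
    (hp : ∀ v, 0 ≤ ⟪W v, v⟫_ℝ) {β : ℝ}
    (htr : ∀ F : Finset H, Orthonormal ℝ (fun v : F => (v : H)) → ∑ v ∈ F, ⟪W v, v⟫_ℝ ≤ β) :
    IsCompactOperator W := by
  -- h29_ compact_of_trace
  have hcl : IsClosed {f : H →L[ℝ] H | IsCompactOperator f} := isClosed_setOfPred_isCompactOperator
  have hmem : W ∈ closure {f : H →L[ℝ] H | IsCompactOperator f} := by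
    rw [Metric.mem_closure_iff]
    intro δ hδ
    have hW1 : 0 < ‖W‖ + 1 := by positivity
    have hε : 0 < (δ / 2) ^ 2 / (‖W‖ + 1) := by positivity
    obtain ⟨E, hE, hsmall⟩ := exists_fd_small W hp htr hε
    have hc : IsCompactOperator (W ∘L E.starProjection) := by
      have h1 : IsCompactOperator (E.orthogonalProjectionOnto) :=
        isCompactOperator_of_locallyCompactSpace_dom _
      have h2 := h1.clm_comp (W ∘L E.subtypeL)
      exact h2
    refine ⟨W ∘L E.starProjection, hc, ?_⟩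
    rw [dist_eq_norm]
    refine lt_of_le_of_lt (ContinuousLinearMap.opNorm_le_bound _ (M := δ / 2) (by positivity) ?_)
      (by linarith)
    intro v
    have hy : v - E.starProjection v ∈ Eᗮ := Submodule.sub_starProjection_mem_orthogonal v
    have hn : ‖v - E.starProjection v‖ ≤ ‖v‖ := by
      rw [← Submodule.starProjection_orthogonal_val]
      exact Submodule.norm_starProjection_apply_le _ v
    have he : (W - W ∘L E.starProjection) v = W (v - E.starProjection v) := by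
      simp [map_sub]
    rw [he]
    set y := v - E.starProjection v with hyd
    have h1 := norm_sq_le_form W hs hp y
    have h2 := hsmall y hy
    have h3 : ‖W‖ * ⟪W y, y⟫_ℝ ≤ (‖W‖ + 1) * ((δ / 2) ^ 2 / (‖W‖ + 1) * ‖y‖ ^ 2) :=
      mul_le_mul (by linarith) h2 (hp y) hW1.le
    have h4 : (‖W‖ + 1) * ((δ / 2) ^ 2 / (‖W‖ + 1) * ‖y‖ ^ 2) = (δ / 2 * ‖y‖) ^ 2 := by
      field_simp
    have h5 : ‖W y‖ ≤ δ / 2 * ‖y‖ :=
      le_of_sq_le_sq (by linarith) (by positivity)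
    exact h5.trans (mul_le_mul_of_nonneg_left hn (by positivity))
  rwa [hcl.closure_eq] at hmem

/-- The top eigenspace.  Proof: `lam = ‖W‖ > 0`, `E = eigenspace W lam`
(`ContinuousLinearMap.finite_dimensional_eigenspace`).  The spectrum is nonempty
(`ContinuousLinearMap.eq_zero_of_forall_hasEigenvalue_eq_zero`), so some `μ` in it has
`‖μ‖₊ = spectralRadius = ‖W‖₊` (`spectrum.exists_nnnorm_eq_spectralRadius_of_nonempty`,
`ContinuousLinearMap.spectralRadius_eq_nnnorm`); it is an eigenvalue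
(`IsCompactOperator.hasEigenvalue_iff_mem_spectrum`), `≥ 0` by `hp`.  If `⟪W v, v⟫ = lam ‖v‖²` then
`‖W v - lam v‖² ≤ lam²‖v‖² - 2 lam²‖v‖² + lam²‖v‖² = 0`. -/
theorem exists_top (W : H →L[ℝ] H) (hc : IsCompactOperator W)
    (hs : ∀ v w, ⟪W v, w⟫_ℝ = ⟪v, W w⟫_ℝ) (hp : ∀ v, 0 ≤ ⟪W v, v⟫_ℝ) (hW : W ≠ 0) :
    ∃ (lam : ℝ) (E : Submodule ℝ H), 0 < lam ∧ FiniteDimensional ℝ E ∧ (∃ v ∈ E, ‖v‖ = 1) ∧
      (∀ v, ⟪W v, v⟫_ℝ ≤ lam * ‖v‖ ^ 2) ∧ ∀ v, v ∈ E ↔ ⟪W v, v⟫_ℝ = lam * ‖v‖ ^ 2 := by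
  have hsym : (W : H →ₗ[ℝ] H).IsSymmetric := fun v w => hs v w
  have hpos : 0 < ‖W‖ := norm_pos_iff.2 hW
  have hne : (spectrum ℝ W).Nonempty := by
    by_contra h0
    refine hW ((ContinuousLinearMap.eq_zero_of_forall_hasEigenvalue_eq_zero hc hsym).1
      fun μ hμ => ?_)
    by_contra hμ0
    exact h0 ⟨μ, (hc.hasEigenvalue_iff_mem_spectrum hμ0).1 hμ⟩
  obtain ⟨μ, hμ, hμn⟩ := spectrum.exists_nnnorm_eq_spectralRadius_of_nonempty hne
  rw [W.spectralRadius_eq_nnnorm hsym.isSelfAdjoint, ENNReal.coe_inj] at hμn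
  have hab : |μ| = ‖W‖ := by
    have := congrArg NNReal.toReal hμn
    simpa using this
  have hμ0 : μ ≠ 0 := by
    rintro rfl
    rw [abs_zero] at hab
    exact hpos.ne hab
  obtain ⟨v, hv⟩ := ((hc.hasEigenvalue_iff_mem_spectrum hμ0).2 hμ).exists_hasEigenvector
  have hv0 : 0 < ‖v‖ := norm_pos_iff.2 hv.2
  have hWv : W v = μ • v := hv.apply_eq_smul
  have hμp : 0 ≤ μ := by
    have h1 := hp v
    rw [hWv, real_inner_smul_left, real_inner_self_eq_norm_sq] at h1
    exact nonneg_of_mul_nonneg_left h1 (by positivity)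
  have hμW : μ = ‖W‖ := by rw [← hab, abs_of_nonneg hμp]
  refine ⟨‖W‖, Module.End.eigenspace (W : H →ₗ[ℝ] H) ‖W‖, hpos,
    ContinuousLinearMap.finite_dimensional_eigenspace hc _ hpos.ne', ⟨‖v‖⁻¹ • v, ?_, ?_⟩,
    fun u => ?_, fun u => ?_⟩
  · refine Submodule.smul_mem _ _ ?_
    rw [← hμW]
    exact hv.1
  · rw [norm_smul, norm_inv, norm_norm, inv_mul_cancel₀ hv0.ne']
  · have h1 := real_inner_le_norm (W u) u
    have h2 := mul_le_mul_of_nonneg_right (W.le_opNorm u) (norm_nonneg u)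
    nlinarith
  · rw [Module.End.mem_eigenspace_iff]
    constructor
    · intro h1
      have h2 : W u = ‖W‖ • u := h1
      rw [h2, real_inner_smul_left, real_inner_self_eq_norm_sq]
    · intro h1
      have h2 : ‖W u - ‖W‖ • u‖ ^ 2 ≤ 0 := by
        rw [norm_sub_sq_real, real_inner_smul_right, h1, norm_smul, norm_norm]
        have h3 := pow_le_pow_left₀ (norm_nonneg _) (W.le_opNorm u) 2
        nlinarith
      have h4 : ‖W u - ‖W‖ • u‖ = 0 := pow_eq_zero_iff two_ne_zero |>.1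
        (le_antisymm h2 (sq_nonneg _))
      exact sub_eq_zero.1 (norm_eq_zero.1 h4)

omit [CompleteSpace H] in
/-- Passage to matrices.  Proof: `e = stdOrthonormalBasis ℝ E`, `n = finrank ℝ E`,
`ρ g i j = ⟪e i, π g (e j)⟫`, `b x i = ⟪e i, c.b x⟫`.  For `u ∈ E`, `u = ∑ ⟪e j, u⟫ e j`
(`OrthonormalBasis.sum_repr'`); `⟪e i, π g w⟫ = ⟪π g⁻¹ (e i), w⟫ = ∑ j, ⟪e j, π g⁻¹ (e i)⟫ ⟪e j, w⟫
= ∑ j, ρ g i j * ⟪e j, w⟫` for EVERY `w : H` (as `π g⁻¹ (e i) ∈ E`).  This gives `ρ (g h) = ρ g ρ h`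
(`w = π h (e k)`), the cocycle identity (`w = c.b x`), and `(ρ g)ᵀ = ρ g⁻¹` gives unitarity.
Unbounded: `⟪c.b g, v⟫ = ∑ j, ⟪e j, v⟫ b g j`, so `|⟪c.b g, v⟫| ≤ (∑ |⟪e j, v⟫|) ‖b g‖`. -/
theorem to_matrix {G : Type*} [Group G] {S : Finset G} (c : Coc S H) (E : Submodule ℝ H)
    [FiniteDimensional ℝ E] (hE : ∀ g, ∀ v ∈ E, c.π g v ∈ E) {v : H} (hv : v ∈ E)
    (hub : ∀ M : ℝ, ∃ g, M < |⟪c.b g, v⟫_ℝ|) :
    ∃ (n : ℕ) (ρ : G →* Matrix.unitaryGroup (Fin n) ℝ) (b : G → Fin n → ℝ),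
      (∀ g x, b (g * x) = b g + (ρ g : Matrix (Fin n) (Fin n) ℝ).mulVec (b x)) ∧
      ∀ M : ℝ, ∃ g, M < ‖b g‖ := by
  let e : Fin (Module.finrank ℝ E) → H := fun i => (stdOrthonormalBasis ℝ E i : H)
  have heE : ∀ i, e i ∈ E := fun i => (stdOrthonormalBasis ℝ E i).2
  have hexp : ∀ u ∈ E, ∀ w : H, ⟪u, w⟫_ℝ = ∑ j, ⟪e j, u⟫_ℝ * ⟪e j, w⟫_ℝ := by
    intro u hu w
    have h1 := (stdOrthonormalBasis ℝ E).sum_repr' ⟨u, hu⟩
    have h2 : u = ∑ j, ⟪e j, u⟫_ℝ • e j := by
      have h3 := congrArg (fun z : E => (z : H)) h1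
      simp only [Submodule.coe_sum, Submodule.coe_smul, Submodule.coe_inner] at h3
      exact h3.symm
    conv_lhs => rw [h2]
    rw [sum_inner]
    exact Finset.sum_congr rfl fun j _ => by rw [real_inner_smul_left]
  have hinv : ∀ (g : G) (u w : H), ⟪u, c.π g w⟫_ℝ = ⟪c.π g⁻¹ u, w⟫_ℝ := by
    intro g u w
    rw [← c.iso g (c.π g⁻¹ u) w, ← ContinuousLinearMap.mul_apply, ← map_mul, mul_inv_cancel,
      map_one, ContinuousLinearMap.one_apply]
  let R : G → Matrix (Fin (Module.finrank ℝ E)) (Fin (Module.finrank ℝ E)) ℝ :=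
    fun g => Matrix.of fun i j => ⟪e i, c.π g (e j)⟫_ℝ
  have hkey : ∀ (g : G) (i : Fin (Module.finrank ℝ E)) (w : H),
      ⟪e i, c.π g w⟫_ℝ = ∑ j, R g i j * ⟪e j, w⟫_ℝ := by
    intro g i w
    rw [hinv, hexp _ (hE _ _ (heE i))]
    refine Finset.sum_congr rfl fun j _ => ?_
    congr 1
    show _ = ⟪e i, c.π g (e j)⟫_ℝ
    rw [hinv g (e i) (e j), real_inner_comm]
  have hmul : ∀ g h, R (g * h) = R g * R h := by
    intro g h
    ext i k
    show ⟪e i, c.π (g * h) (e k)⟫_ℝ = _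
    rw [map_mul, ContinuousLinearMap.mul_apply, hkey, Matrix.mul_apply]
    rfl
  have hone : R 1 = 1 := by
    ext i j
    show ⟪e i, c.π 1 (e j)⟫_ℝ = _
    rw [map_one, ContinuousLinearMap.one_apply, Matrix.one_apply]
    have := orthonormal_iff_ite.1 (stdOrthonormalBasis ℝ E).orthonormal i j
    rw [Submodule.coe_inner] at this
    exact this
  have hstar : ∀ g, star (R g) = R g⁻¹ := by
    intro g
    ext i j
    rw [Matrix.star_apply, star_trivial]
    show ⟪e j, c.π g (e i)⟫_ℝ = ⟪e i, c.π g⁻¹ (e j)⟫_ℝ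
    rw [hinv, real_inner_comm]
  have hU : ∀ g, R g ∈ Matrix.unitaryGroup (Fin (Module.finrank ℝ E)) ℝ := by
    intro g
    rw [Matrix.mem_unitaryGroup_iff, hstar, ← hmul, mul_inv_cancel, hone]
  refine ⟨Module.finrank ℝ E,
    { toFun := fun g => ⟨R g, hU g⟩
      map_one' := Subtype.ext hone
      map_mul' := fun g h => Subtype.ext (hmul g h) },
    fun x i => ⟪e i, c.b x⟫_ℝ, ?_, ?_⟩
  · intro g x
    funext i
    show ⟪e i, c.b (g * x)⟫_ℝ = ⟪e i, c.b g⟫_ℝ + ∑ j, R g i j * ⟪e j, c.b x⟫_ℝ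
    rw [c.coc, inner_add_right, hkey]
  · intro M
    have hA : 0 ≤ ∑ j, |⟪e j, v⟫_ℝ| := Finset.sum_nonneg fun j _ => abs_nonneg _
    obtain ⟨g, hg⟩ := hub ((∑ j, |⟪e j, v⟫_ℝ|) * max M 0)
    refine ⟨g, ?_⟩
    by_contra hM
    have hM' : ‖fun i => ⟪e i, c.b g⟫_ℝ‖ ≤ max M 0 := (not_lt.1 hM).trans (le_max_left _ _)
    have h1 : |⟪c.b g, v⟫_ℝ| ≤ (∑ j, |⟪e j, v⟫_ℝ|) * max M 0 := by
      rw [real_inner_comm, hexp v hv, Finset.sum_mul]
      refine (Finset.abs_sum_le_sum_abs _ _).trans (Finset.sum_le_sum fun j _ => ?_)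
      rw [abs_mul]
      refine mul_le_mul_of_nonneg_left ?_ (abs_nonneg _)
      exact (norm_le_pi_norm (fun i => ⟪e i, c.b g⟫_ℝ) j).trans hM'
    linarith

end Op

end Crest.Agent.R182.GA
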