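import Crest.Agent.R182.GA0

/-! Row 182, block [G], part A: Ozawa's entropy argument (G3). -/

set_option autoImplicit false

open scoped Pointwise InnerProductSpace
open Filter Topology

namespace Crest.Agent.R182.GA

variable {G : Type*} [Group G]

/-- Shannon entropy -/
noncomputable def ent (m : G →₀ ℝ) : ℝ := Ex m (fun x => -Real.log (m x))

omit [Group G] in
/-- Proof: with `M = #supp`, `∑ p (-log p - log M) = ∑ p log (1/(p M)) ≤ ∑ p (1/(p M) - 1) = 0`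
(`Real.log_le_sub_one_of_pos`). -/
theorem ent_le (m : G →₀ ℝ) (h0 : ∀ x, 0 ≤ m x) (h1 : ∑ x ∈ m.support, m x = 1) :
    ent m ≤ Real.log m.support.card := by
  have hne : m.support.Nonempty := by
    rw [Finset.nonempty_iff_ne_empty]
    intro h
    rw [h] at h1
    simp at h1
  have hM : (0 : ℝ) < m.support.card := by exact_mod_cast hne.card_pos
  have key : ∀ x ∈ m.support, m x • -Real.log (m x) ≤
      m x * Real.log m.support.card + ((m.support.card : ℝ)⁻¹ - m x) := by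
    intro x hx
    have hp : 0 < m x := lt_of_le_of_ne (h0 x) (Finsupp.mem_support_iff.1 hx).symm
    have h2 := Real.log_le_sub_one_of_pos (inv_pos.2 (mul_pos hp hM))
    rw [Real.log_inv, Real.log_mul hp.ne' hM.ne'] at h2
    have h3 := mul_le_mul_of_nonneg_left h2 hp.le
    have h4 : m x * ((m x * m.support.card)⁻¹ - 1) = (m.support.card : ℝ)⁻¹ - m x := by
      field_simp
    rw [h4] at h3
    rw [smul_eq_mul]
    linarith
  rw [ent, Ex_def]
  refine (Finset.sum_le_sum key).trans (le_of_eq ?_)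
  rw [Finset.sum_add_distrib, Finset.sum_sub_distrib, ← Finset.sum_mul, h1, Finset.sum_const,
    nsmul_eq_mul, mul_inv_cancel₀ hM.ne']
  ring

/-- Proof: otherwise for `n ≥ n0`, `ent (n+1) - ent n > (d+1)/(n+1) ≥ (d+1)(log (n+2) - log (n+1))`
(`Real.log_le_sub_one_of_pos` for `(n+2)/(n+1)`), so by induction
`ent m ≥ ent n0 + (d+1)(log (m+1) - log (n0+1))`, while `ent m ≤ log (C m^d) ≤ log C + d log (m+1)`
(`ent_le`, `card_mu_support`; the support is nonempty, so `C ≥ 1`); `log (m+1) → ∞`. -/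
theorem ent_freq {S : Finset G} (hS : Sym S) {C d : ℕ} (hG : Gro S C d) :
    ∃ᶠ n : ℕ in atTop, ((n : ℝ) + 1) * (ent (mu S (n + 1)) - ent (mu S n)) ≤ d + 1 := by
  by_contra hcon
  rw [Filter.not_frequently, Filter.eventually_atTop] at hcon
  obtain ⟨n0, hn0⟩ := hcon
  have hstep : ∀ n, n0 ≤ n → ((d : ℝ) + 1) * (Real.log ((n : ℝ) + 2) - Real.log ((n : ℝ) + 1)) ≤
      ent (mu S (n + 1)) - ent (mu S n) := by
    intro n hn
    have h1 := not_le.1 (hn0 n hn)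
    have hp : (0 : ℝ) < n + 1 := by positivity
    have h2 := Real.log_le_sub_one_of_pos (div_pos (show (0 : ℝ) < n + 2 by positivity) hp)
    rw [Real.log_div (by positivity) hp.ne'] at h2
    have h3 : ((n : ℝ) + 2) / (n + 1) - 1 = 1 / (n + 1) := by
      field_simp
      ring
    rw [h3, le_div_iff₀ hp] at h2
    refine le_of_mul_le_mul_left ?_ hp
    have h4 := mul_le_mul_of_nonneg_left h2 (show (0 : ℝ) ≤ d + 1 by positivity)
    nlinarith
  have hlow : ∀ k : ℕ, ent (mu S n0) + ((d : ℝ) + 1) *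
      (Real.log (((n0 + k : ℕ) : ℝ) + 1) - Real.log ((n0 : ℝ) + 1)) ≤ ent (mu S (n0 + k)) := by
    intro k
    induction k with
    | zero => simp
    | succ k ih =>
      have h1 := hstep (n0 + k) (Nat.le_add_right _ _)
      have e : (((n0 + (k + 1) : ℕ) : ℝ) + 1) = ((n0 + k : ℕ) : ℝ) + 2 := by push_cast; ring
      rw [e, ← add_assoc n0 k 1]
      linarith
  have hup : ∀ n : ℕ, 1 ≤ n → ent (mu S n) ≤ Real.log C + d * Real.log ((n : ℝ) + 1) := by
    intro n hn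
    have h1 := ent_le (mu S n) (mu_nonneg S n) (sum_mu hS n)
    have hne : (mu S n).support.Nonempty := by
      rw [Finset.nonempty_iff_ne_empty]
      intro h
      have h2 := sum_mu hS n
      rw [h] at h2
      simp at h2
    have h2 := card_mu_support hG hn
    have h3 : 0 < (mu S n).support.card := hne.card_pos
    have hC : 0 < C := Nat.pos_of_ne_zero fun h => by
      rw [h, zero_mul] at h2
      omega
    have h4 : ((mu S n).support.card : ℝ) ≤ C * ((n : ℝ) + 1) ^ d := by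
      have h5 : ((mu S n).support.card : ℝ) ≤ C * (n : ℝ) ^ d := by exact_mod_cast h2
      refine h5.trans (mul_le_mul_of_nonneg_left ?_ (Nat.cast_nonneg _))
      exact pow_le_pow_left₀ (Nat.cast_nonneg _) (by linarith) d
    have h6 := Real.log_le_log (by exact_mod_cast h3) h4
    rw [Real.log_mul (by exact_mod_cast hC.ne') (by positivity), Real.log_pow] at h6
    linarith
  have hlim : Tendsto (fun k : ℕ => Real.log (((n0 + k : ℕ) : ℝ) + 1)) atTop atTop :=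
    Real.tendsto_log_atTop.comp (tendsto_atTop_add_const_right _ _
      (tendsto_natCast_atTop_atTop.comp (tendsto_atTop_mono (fun k => Nat.le_add_left k n0)
        tendsto_id)))
  obtain ⟨k, hk1, hk2⟩ := ((hlim.eventually_gt_atTop (Real.log C - ent (mu S n0) +
    ((d : ℝ) + 1) * Real.log ((n0 : ℝ) + 1))).and (eventually_ge_atTop 1)).exists
  have h1 := hlow k
  have h2 := hup (n0 + k) (by omega)
  linarith

/-- Proof: `p log (p/q) = 2 p log (√p/√q) ≥ 2 p (1 - √q/√p)` (`Real.one_sub_inv_le_log_of_pos`);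
the case `p = 0` is trivial. -/
theorem sqrt_sub_sq_le {p q : ℝ} (hp : 0 ≤ p) (hq : 0 < q) :
    (√p - √q) ^ 2 ≤ p * (Real.log p - Real.log q) - p + q := by
  have hb : 0 < √q := Real.sqrt_pos.2 hq
  have hb2 : √q ^ 2 = q := Real.sq_sqrt hq.le
  rcases hp.eq_or_lt with rfl | hp'
  · simp [hb2]
  have ha : 0 < √p := Real.sqrt_pos.2 hp'
  have ha2 : √p ^ 2 = p := Real.sq_sqrt hp
  have h1 := Real.log_le_sub_one_of_pos (div_pos hb ha)
  rw [Real.log_div hb.ne' ha.ne', Real.log_sqrt hq.le, Real.log_sqrt hp] at h1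
  have h2 := mul_le_mul_of_nonneg_left h1 hp
  have h3 : p * (√q / √p - 1) = √p * √q - p := by
    have : p * (√q / √p) = √p * √q := by
      conv_lhs => rw [← ha2]
      rw [Real.sqrt_sq ha.le]
      field_simp
    rw [mul_sub, this, mul_one]
  nlinarith

/-- Hellinger distance against the entropy increment.  Proof: put `q = mu (n+1)`, `p s = tr s (mu n)`,
`A = supp q ⊇ supp (p s)` (`tr_mu_le`).  `kl s = ∑_{x ∈ A} (p s x (log (p s x) - log (q x)) - p s x + q x)`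
is `≥ ∑ (√p - √q)² ≥ 0` (`sqrt_sub_sq_le`), and `∑_{s ∈ S} kl s = #S (ent q - ent (mu n))` because
`∑_A p s = ∑_A q = 1`, `∑_A p s log (p s) = Ex (p s) (log ∘ p s) = - ent (mu n)` (`Ex_eq_sum`, `Ex_tr`,
`tr_apply`) and `∑_s Ex (p s) (log ∘ q) = #S Ex q (log ∘ q)` (`Ex_av`, `Ex_tr`). -/
theorem hell_le {S : Finset G} (hS : Sym S) (n : ℕ) {s : G} (hs : s ∈ S) :
    ∑ x ∈ (mu S (n + 1)).support, (√(tr s (mu S n) x) - √(mu S (n + 1) x)) ^ 2 ≤
      S.card * (ent (mu S (n + 1)) - ent (mu S n)) := by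
  set q := mu S (n + 1) with hq
  set m := mu S n with hm
  have hc := hS.card_pos
  have hp0 : ∀ t x, 0 ≤ tr t m x := fun t x => by rw [tr_apply]; exact mu_nonneg S n _
  have hq0 : ∀ x ∈ q.support, 0 < q x := fun x hx =>
    (mu_nonneg S (n + 1) x).lt_of_ne' (Finsupp.mem_support_iff.1 hx)
  have hsub : ∀ t ∈ S, (tr t m).support ⊆ q.support := by
    intro t ht x hx
    rw [Finsupp.mem_support_iff] at hx ⊢
    intro h0
    have := tr_mu_le hS n ht x
    rw [← hq, h0, mul_zero] at this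
    exact hx (le_antisymm this (hp0 t x))
  have hent : ∀ r : G →₀ ℝ, Ex r (fun x => Real.log (r x)) = -ent r := fun r => by
    simp only [ent, Ex_def, smul_eq_mul, mul_neg, Finset.sum_neg_distrib, neg_neg]
  have hkl : ∀ t ∈ S, ∑ x ∈ q.support, (√(tr t m x) - √(q x)) ^ 2 ≤
      -ent m - Ex m (fun x => Real.log (q (t * x))) := by
    intro t ht
    refine (Finset.sum_le_sum fun x hx => sqrt_sub_sq_le (hp0 t x) (hq0 x hx)).trans (le_of_eq ?_)
    have e1 : ∑ x ∈ q.support, tr t m x * Real.log (tr t m x) = -ent m := by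
      have := Ex_eq_sum (tr t m) (fun x => Real.log (tr t m x)) (hsub t ht)
      simp only [smul_eq_mul] at this
      rw [← this, Ex_tr, ← hent]
      simp only [tr_apply, inv_mul_cancel_left]
    have e2 : ∑ x ∈ q.support, tr t m x * Real.log (q x) =
        Ex m (fun x => Real.log (q (t * x))) := by
      have := Ex_eq_sum (tr t m) (fun x => Real.log (q x)) (hsub t ht)
      simp only [smul_eq_mul] at this
      rw [← this, Ex_tr]
    have e3 : ∑ x ∈ q.support, tr t m x = 1 := by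
      have := Ex_eq_sum (tr t m) (fun _ => (1 : ℝ)) (hsub t ht)
      simp only [smul_eq_mul, mul_one] at this
      rw [← this, Ex_tr]
      exact Ex_mu_one hS n
    have e4 : ∑ x ∈ q.support, q x = 1 := sum_mu hS (n + 1)
    simp only [mul_sub, Finset.sum_add_distrib, Finset.sum_sub_distrib, e1, e2, e3, e4]
    ring
  have hsum : ∑ t ∈ S, Ex m (fun x => Real.log (q (t * x))) = S.card * (-ent q) := by
    have := Ex_av S m (fun x => Real.log (q x))
    rw [← mu_succ, ← hq, hent, smul_eq_mul] at this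
    rw [this, ← mul_assoc, mul_inv_cancel₀ hc.ne', one_mul]
  calc ∑ x ∈ q.support, (√(tr s m x) - √(q x)) ^ 2
      ≤ ∑ t ∈ S, ∑ x ∈ q.support, (√(tr t m x) - √(q x)) ^ 2 :=
        Finset.single_le_sum (f := fun t => ∑ x ∈ q.support, (√(tr t m x) - √(q x)) ^ 2)
          (fun t _ => Finset.sum_nonneg fun x _ => sq_nonneg _) hs
    _ ≤ ∑ t ∈ S, (-ent m - Ex m (fun x => Real.log (q (t * x)))) := Finset.sum_le_sum hkl
    _ = _ := by
        rw [Finset.sum_sub_distrib, hsum, Finset.sum_const, nsmul_eq_mul]; ring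

/-- Proof: with `p, q, A` as above the left side is `(∑_A (p - q) a)²`, `p - q = (√p - √q)(√p + √q)`,
Cauchy-Schwarz (`Finset.sum_mul_sq_le_sq_mul_sq`), `(√p + √q)² ≤ 2 (p + q) ≤ 2 (1 + #S) q`
(`tr_mu_le`), `hell_le`. -/
theorem Ex_diff_sq {S : Finset G} (hS : Sym S) (n : ℕ) {s : G} (hs : s ∈ S) (a : G → ℝ) :
    (Ex (tr s (mu S n)) a - Ex (mu S (n + 1)) a) ^ 2 ≤
      S.card * (ent (mu S (n + 1)) - ent (mu S n)) *
        (2 * (1 + S.card) * Ex (mu S (n + 1)) (fun x => a x ^ 2)) := by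
  have hp : ∀ x, 0 ≤ tr s (mu S n) x := fun x => by rw [tr_apply]; exact mu_nonneg S n _
  have hq := mu_nonneg S (n + 1)
  have hpq := tr_mu_le hS n hs
  have hh := hell_le hS n hs
  generalize tr s (mu S n) = p at hp hpq hh ⊢
  generalize (S.card : ℝ) * (ent (mu S (n + 1)) - ent (mu S n)) = E at hh ⊢
  generalize mu S (n + 1) = q at hq hpq hh ⊢
  have hsub : p.support ⊆ q.support := by
    intro x hx
    rw [Finsupp.mem_support_iff] at hx ⊢
    intro h0
    have h1 := hpq x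
    rw [h0, mul_zero] at h1
    exact hx (le_antisymm h1 (hp x))
  rw [Ex_eq_sum p a hsub, Ex_def q a, Ex_def q, ← Finset.sum_sub_distrib]
  have e : ∀ x, p x • a x - q x • a x = (√(p x) - √(q x)) * ((√(p x) + √(q x)) * a x) := by
    intro x
    have h1 := Real.mul_self_sqrt (hp x)
    have h2 := Real.mul_self_sqrt (hq x)
    simp only [smul_eq_mul]
    linear_combination (-a x) * h1 + a x * h2
  simp only [e]
  refine (Finset.sum_mul_sq_le_sq_mul_sq _ _ _).trans ?_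
  refine mul_le_mul hh ?_ (Finset.sum_nonneg fun _ _ => sq_nonneg _)
    ((Finset.sum_nonneg fun _ _ => sq_nonneg _).trans hh)
  rw [Finset.mul_sum]
  refine Finset.sum_le_sum fun x _ => ?_
  have h1 := Real.mul_self_sqrt (hp x)
  have h2 := Real.mul_self_sqrt (hq x)
  have h3 : (√(p x) + √(q x)) ^ 2 ≤ 2 * (1 + S.card) * q x := by
    nlinarith [sq_nonneg (√(p x) - √(q x)), hpq x]
  rw [mul_pow, smul_eq_mul, ← mul_assoc]
  exact mul_le_mul_of_nonneg_right h3 (sq_nonneg _)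

variable {S : Finset G} {H : Type*} [NormedAddCommGroup H] [InnerProductSpace ℝ H]

theorem Coc.b_one (c : Coc S H) : c.b 1 = 0 := by
  have h := c.coc 1 1
  rw [mul_one, map_one] at h
  simpa using h

theorem Coc.adj (c : Coc S H) (g : G) (u v : H) : ⟪c.π g u, v⟫_ℝ = ⟪u, c.π g⁻¹ v⟫_ℝ := by
  rw [← c.iso g u (c.π g⁻¹ v), ← ContinuousLinearMap.mul_apply, ← map_mul, mul_inv_cancel, map_one]
  rfl

theorem Coc.norm_π (c : Coc S H) (g : G) (v : H) : ‖c.π g v‖ = ‖v‖ := by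
  rw [norm_eq_sqrt_real_inner, c.iso, ← norm_eq_sqrt_real_inner]

/-- Proof: induction; `Ex_av`, `c.coc`, `Ex_add`, `Ex_mu_const`, `Ex_map (c.π s).toLinearMap`, `c.harm`. -/
theorem Coc.mean (c : Coc S H) (hS : Sym S) (n : ℕ) : Ex (mu S n) c.b = 0 := by
  induction n with
  | zero => exact (Ex_single 1 c.b).trans c.b_one
  | succ n ih =>
    rw [mu_succ, Ex_av]
    have h : ∀ s, Ex (mu S n) (fun x => c.b (s * x)) = c.b s := by
      intro s
      have h1 := Ex_map (c.π s).toLinearMap (mu S n) c.b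
      rw [ih, map_zero] at h1
      simp only [c.coc]
      rw [Ex_add, Ex_mu_const hS]
      exact add_eq_left.2 h1
    simp only [h, c.harm, smul_zero]

/-- the second moments -/
noncomputable def Coc.R (c : Coc S H) (n : ℕ) (v w : H) : ℝ :=
  Ex (mu S n) (fun x => ⟪c.b x, v⟫_ℝ * ⟪c.b x, w⟫_ℝ)

/-- the mean square step -/
noncomputable def Coc.β (c : Coc S H) : ℝ := (S.card : ℝ)⁻¹ * ∑ s ∈ S, ‖c.b s‖ ^ 2

/-- Proof: `Ex_av`; `⟪b (s x), v⟫ = ⟪b s, v⟫ + ⟪b x, π s⁻¹ v⟫` (`c.coc`, `Coc.adj`); expand the product;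
the mixed terms vanish since `Ex (mu n) (fun x => ⟪b x, u⟫) = ⟪Ex (mu n) b, u⟫ = 0` (`Ex_map`, `Coc.mean`). -/
theorem Coc.R_succ (c : Coc S H) (hS : Sym S) (n : ℕ) (v w : H) :
    c.R (n + 1) v w = (S.card : ℝ)⁻¹ *
      ∑ s ∈ S, (⟪c.b s, v⟫_ℝ * ⟪c.b s, w⟫_ℝ + c.R n (c.π s⁻¹ v) (c.π s⁻¹ w)) := by
  have h0 : ∀ (a : ℝ) (u : H), Ex (mu S n) (fun x => a * ⟪c.b x, u⟫_ℝ) = 0 := by
    intro a u
    have h := Ex_map (innerₛₗ ℝ (a • u)) (mu S n) c.b
    rw [c.mean hS n, map_zero] at h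
    rw [← h]
    congr 1
    funext x
    rw [innerₛₗ_apply_apply, real_inner_smul_left, real_inner_comm]
  unfold Coc.R
  rw [mu_succ, Ex_av, smul_eq_mul]
  congr 1
  refine Finset.sum_congr rfl fun s _ => ?_
  have e : (fun x => ⟪c.b (s * x), v⟫_ℝ * ⟪c.b (s * x), w⟫_ℝ) = fun x =>
      (⟪c.b s, v⟫_ℝ * ⟪c.b s, w⟫_ℝ + ⟪c.b x, c.π s⁻¹ v⟫_ℝ * ⟪c.b x, c.π s⁻¹ w⟫_ℝ) +
        (⟪c.b s, v⟫_ℝ * ⟪c.b x, c.π s⁻¹ w⟫_ℝ + ⟪c.b s, w⟫_ℝ * ⟪c.b x, c.π s⁻¹ v⟫_ℝ) := by
    funext x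
    simp only [c.coc, inner_add_left, c.adj]
    ring
  rw [e, Ex_add, Ex_add, Ex_add, h0, h0, Ex_mu_const hS, add_zero, add_zero]

/-- Proof: induction on `n` for all `v`: `R 0 = 0`; `D (n+1) v = avg_s D n (π s⁻¹ v)` by `R_succ`
twice; `⟪b s, v⟫² ≤ ‖b s‖²‖v‖²`; `Coc.norm_π`. -/
theorem Coc.R_step (c : Coc S H) (hS : Sym S) (n : ℕ) (v : H) :
    0 ≤ c.R (n + 1) v v - c.R n v v ∧ c.R (n + 1) v v - c.R n v v ≤ c.β * ‖v‖ ^ 2 := by
  have hN := hS.card_pos
  have hi : (0 : ℝ) ≤ (S.card : ℝ)⁻¹ := inv_nonneg.2 hN.le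
  induction n generalizing v with
  | zero =>
    have h0 : ∀ u, c.R 0 u u = 0 := fun u => by
      unfold Coc.R
      refine (Ex_single 1 _).trans ?_
      rw [c.b_one, inner_zero_left, zero_mul]
    rw [c.R_succ hS 0 v v]
    simp only [h0, add_zero, sub_zero]
    refine ⟨mul_nonneg hi (Finset.sum_nonneg fun s _ => mul_self_nonneg _), ?_⟩
    rw [Coc.β, mul_assoc, Finset.sum_mul]
    refine mul_le_mul_of_nonneg_left (Finset.sum_le_sum fun s _ => ?_) hi
    have h := abs_real_inner_le_norm (c.b s) v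
    rw [← sq, ← sq_abs, ← mul_pow]
    exact pow_le_pow_left₀ (abs_nonneg _) h 2
  | succ n ih =>
    have e : c.R (n + 1 + 1) v v - c.R (n + 1) v v = (S.card : ℝ)⁻¹ *
        ∑ s ∈ S, (c.R (n + 1) (c.π s⁻¹ v) (c.π s⁻¹ v) - c.R n (c.π s⁻¹ v) (c.π s⁻¹ v)) := by
      rw [c.R_succ hS (n + 1) v v, c.R_succ hS n v v, ← mul_sub, ← Finset.sum_sub_distrib]
      congr 1
      exact Finset.sum_congr rfl fun s _ => by ring
    rw [e]
    refine ⟨mul_nonneg hi (Finset.sum_nonneg fun s _ => (ih _).1), ?_⟩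
    have h : ∑ s ∈ S, (c.R (n + 1) (c.π s⁻¹ v) (c.π s⁻¹ v) - c.R n (c.π s⁻¹ v) (c.π s⁻¹ v)) ≤
        ∑ _s ∈ S, c.β * ‖v‖ ^ 2 :=
      Finset.sum_le_sum fun s _ => by
        have := (ih (c.π s⁻¹ v)).2
        rwa [c.norm_π] at this
    rw [Finset.sum_const, nsmul_eq_mul] at h
    refine (mul_le_mul_of_nonneg_left h hi).trans (le_of_eq ?_)
    rw [← mul_assoc, inv_mul_cancel₀ hN.ne', one_mul]

/-- Proof: induction as for `R_succ`: `‖b s + π s (b x)‖² = ‖b s‖² + 2⟪b x, π s⁻¹ (b s)⟫ + ‖b x‖²`. -/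
theorem Coc.normsq (c : Coc S H) (hS : Sym S) (n : ℕ) :
    Ex (mu S n) (fun x => ‖c.b x‖ ^ 2) = n * c.β := by
  induction n with
  | zero =>
    have h : Ex (mu S 0) (fun x => ‖c.b x‖ ^ 2) = ‖c.b 1‖ ^ 2 := Ex_single 1 _
    rw [h, c.b_one]
    simp
  | succ n ih =>
    have hc := hS.card_pos
    have h1 : ∀ s : G, Ex (mu S n) (fun x => ‖c.b (s * x)‖ ^ 2) = ‖c.b s‖ ^ 2 + n * c.β := by
      intro s
      have h2 : (fun x => ‖c.b (s * x)‖ ^ 2) = fun x =>
          (‖c.b s‖ ^ 2 + ((2 : ℝ) • (innerₛₗ ℝ (c.π s⁻¹ (c.b s)) : H →ₗ[ℝ] ℝ)) (c.b x)) +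
            ‖c.b x‖ ^ 2 := by
        funext x
        rw [c.coc, norm_add_sq_real, c.norm_π, real_inner_comm, c.adj, real_inner_comm]
        simp
      rw [h2, Ex_add, Ex_add, Ex_mu_const hS, Ex_map, c.mean hS, map_zero, add_zero, ih]
    rw [mu_succ, Ex_av]
    simp only [h1, Finset.sum_add_distrib, Finset.sum_const, nsmul_eq_mul, smul_eq_mul]
    have h3 : ∑ s ∈ S, ‖c.b s‖ ^ 2 = S.card * c.β := by
      rw [Coc.β, ← mul_assoc, mul_inv_cancel₀ hc.ne', one_mul]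
    rw [h3]
    push_cast
    field_simp
    ring

/-- Proof: exchange the sums (`Ex_def`), Bessel (`Orthonormal.sum_inner_products_le`), `Ex_mono`,
`Coc.normsq`. -/
theorem Coc.R_trace (c : Coc S H) (hS : Sym S) (n : ℕ) (F : Finset H)
    (hF : Orthonormal ℝ (fun v : F => (v : H))) : ∑ v ∈ F, c.R n v v ≤ n * c.β := by
  rw [← c.normsq hS n]
  have h1 : ∑ v ∈ F, c.R n v v = Ex (mu S n) (fun x => ∑ v ∈ F, ⟪c.b x, v⟫_ℝ * ⟪c.b x, v⟫_ℝ) := by
    simp only [Coc.R, Ex_def, smul_eq_mul, Finset.mul_sum]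
    exact Finset.sum_comm
  rw [h1]
  refine Ex_mono (mu_nonneg S n) fun x => ?_
  have h2 := hF.sum_inner_products_le (s := Finset.univ) (c.b x)
  refine le_trans (le_of_eq ?_) h2
  rw [← Finset.sum_coe_sort F]
  refine Finset.sum_congr rfl fun v _ => ?_
  rw [Real.norm_eq_abs, sq_abs, real_inner_comm, sq]

/-- Proof: `|⟪b x, v⟫ ⟪b x, w⟫| ≤ ‖b x‖² ‖v‖ ‖w‖`, `Ex_mono` twice, `Coc.normsq`. -/
theorem Coc.R_abs (c : Coc S H) (hS : Sym S) (n : ℕ) (v w : H) :
    |c.R n v w| ≤ n * c.β * (‖v‖ * ‖w‖) := by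
  have h1 : Ex (mu S n) (fun x => (‖v‖ * ‖w‖) * ‖c.b x‖ ^ 2) = n * c.β * (‖v‖ * ‖w‖) := by
    rw [← c.normsq hS n]
    simp only [Ex_def, smul_eq_mul, Finset.sum_mul]
    exact Finset.sum_congr rfl fun x _ => by ring
  have h2 : ∀ x, |⟪c.b x, v⟫_ℝ * ⟪c.b x, w⟫_ℝ| ≤ (‖v‖ * ‖w‖) * ‖c.b x‖ ^ 2 := by
    intro x
    rw [abs_mul]
    calc |⟪c.b x, v⟫_ℝ| * |⟪c.b x, w⟫_ℝ| ≤ (‖c.b x‖ * ‖v‖) * (‖c.b x‖ * ‖w‖) :=
          mul_le_mul (abs_real_inner_le_norm _ _) (abs_real_inner_le_norm _ _) (abs_nonneg _)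
            (by positivity)
      _ = (‖v‖ * ‖w‖) * ‖c.b x‖ ^ 2 := by ring
  rw [← h1, Coc.R, abs_le]
  constructor
  · have h3 : -Ex (mu S n) (fun x => (‖v‖ * ‖w‖) * ‖c.b x‖ ^ 2) =
        Ex (mu S n) (fun x => -((‖v‖ * ‖w‖) * ‖c.b x‖ ^ 2)) := by
      simp only [Ex_def, smul_eq_mul, mul_neg, Finset.sum_neg_distrib]
    rw [h3]
    exact Ex_mono (mu_nonneg S n) fun x => (abs_le.1 (h2 x)).1
  · exact Ex_mono (mu_nonneg S n) fun x => (abs_le.1 (h2 x)).2

/-- Proof: `Ex_diff_sq` with `a x = ⟪b x, b s⟫`: `Ex (tr s (mu n)) a = ‖b s‖²` (`Ex_tr`, `c.coc`,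
`Coc.adj`, `Coc.mean`) and `Ex (mu (n+1)) a = 0`. -/
theorem Coc.R_lower (c : Coc S H) (hS : Sym S) (n : ℕ) {s : G} (hs : s ∈ S) :
    ‖c.b s‖ ^ 4 ≤ S.card * (ent (mu S (n + 1)) - ent (mu S n)) *
      (2 * (1 + S.card) * c.R (n + 1) (c.b s) (c.b s)) := by
  have h0 : ∀ (k : ℕ) (u : H), Ex (mu S k) (fun x => ⟪c.b x, u⟫_ℝ) = 0 := by
    intro k u
    have h := Ex_map (innerₛₗ ℝ u) (mu S k) c.b
    rw [c.mean hS k, map_zero] at h
    simpa only [innerₛₗ_apply_apply, real_inner_comm] using h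
  have h := Ex_diff_sq hS n hs (fun x => ⟪c.b x, c.b s⟫_ℝ)
  have h1 : Ex (tr s (mu S n)) (fun x => ⟪c.b x, c.b s⟫_ℝ) = ‖c.b s‖ ^ 2 := by
    rw [Ex_tr]
    simp only [c.coc, inner_add_left, c.adj]
    rw [Ex_add, Ex_mu_const hS, h0, add_zero, real_inner_self_eq_norm_sq]
  rw [h1, h0, sub_zero, ← pow_mul] at h
  simpa only [Coc.R, sq] using h

theorem Coc.h13_R_add (c : Coc S H) (n : ℕ) (v v' w : H) :
    c.R n (v + v') w = c.R n v w + c.R n v' w := by
  simp only [Coc.R, inner_add_right, add_mul, Ex_add]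

theorem Coc.h13_R_smul (c : Coc S H) (n : ℕ) (a : ℝ) (v w : H) :
    c.R n (a • v) w = a * c.R n v w := by
  simp only [Coc.R, inner_smul_right, Ex_def, smul_eq_mul, Finset.mul_sum]
  exact Finset.sum_congr rfl fun x _ => by ring

theorem Coc.h13_R_symm (c : Coc S H) (n : ℕ) (v w : H) : c.R n v w = c.R n w v := by
  simp only [Coc.R, mul_comm]

theorem Coc.h13_R_nonneg (c : Coc S H) (n : ℕ) (v : H) : 0 ≤ c.R n v v := by
  simp only [Coc.R, Ex_def, smul_eq_mul]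
  exact Finset.sum_nonneg fun x _ => mul_nonneg (mu_nonneg S n x) (mul_self_nonneg _)

/-- The limit form. -/
theorem Coc.exists_W [CompleteSpace H] (c : Coc S H) (hS : Sym S) {C d : ℕ} (hG : Gro S C d) :
    ∃ W : H →L[ℝ] H, (∀ v w, ⟪W v, w⟫_ℝ = ⟪v, W w⟫_ℝ) ∧ (∀ v, 0 ≤ ⟪W v, v⟫_ℝ) ∧ W ≠ 0 ∧
      (∀ F : Finset H, Orthonormal ℝ (fun v : F => (v : H)) → ∑ v ∈ F, ⟪W v, v⟫_ℝ ≤ c.β) ∧
      (∀ v, ⟪W v, v⟫_ℝ = (S.card : ℝ)⁻¹ * ∑ s ∈ S, ⟪W (c.π s⁻¹ v), c.π s⁻¹ v⟫_ℝ) ∧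
      ∀ (v : H) (M : ℝ), (∀ g, |⟪c.b g, v⟫_ℝ| ≤ M) → ⟪W v, v⟫_ℝ = 0 := by
  obtain ⟨s0, hs0, hb0⟩ := c.ne
  have hN := hS.card_pos
  have hfr := ent_freq hS hG
  have hne := Filter.frequently_iff_neBot.1 hfr
  obtain ⟨U, hU⟩ := Ultrafilter.exists_le
    (atTop ⊓ 𝓟 {n : ℕ | ((n : ℝ) + 1) * (ent (mu S (n + 1)) - ent (mu S n)) ≤ d + 1})
  have hU1 : (U : Filter ℕ) ≤ atTop := hU.trans inf_le_left
  have hU2 : ∀ᶠ n : ℕ in U, ((n : ℝ) + 1) * (ent (mu S (n + 1)) - ent (mu S n)) ≤ d + 1 :=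
    Filter.le_principal_iff.1 (hU.trans inf_le_right)
  set q : ℕ → H → H → ℝ := fun n v w => c.R (n + 1) v w / ((n : ℝ) + 1) with hq
  have hpos : ∀ n : ℕ, (0 : ℝ) < (n : ℝ) + 1 := fun n => by positivity
  have hqb : ∀ n v w, |q n v w| ≤ c.β * (‖v‖ * ‖w‖) := by
    intro n v w
    have h := c.R_abs hS (n + 1) v w
    rw [hq]
    simp only [abs_div, abs_of_pos (hpos n)]
    rw [div_le_iff₀ (hpos n)]
    push_cast at h
    linarith
  have hex : ∀ v w, ∃ a : ℝ, Tendsto (fun n => q n v w) U (𝓝 a) := by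
    intro v w
    obtain ⟨a, -, ha⟩ := (isCompact_Icc (a := -(c.β * (‖v‖ * ‖w‖))) (b := c.β * (‖v‖ * ‖w‖))
      ).ultrafilter_le_nhds (U.map fun n => q n v w)
      (by
        rw [Ultrafilter.coe_map, Filter.le_principal_iff, Filter.mem_map]
        exact Filter.Eventually.of_forall fun n => abs_le.1 (hqb n v w))
    exact ⟨a, ha⟩
  choose B hB using hex
  have hadd : ∀ v v' w, B (v + v') w = B v w + B v' w := by
    intro v v' w
    refine tendsto_nhds_unique (hB _ _) (((hB v w).add (hB v' w)).congr fun n => ?_)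
    simp only [hq, c.h13_R_add, add_div]
  have hsmul : ∀ (a : ℝ) v w, B (a • v) w = a * B v w := by
    intro a v w
    refine tendsto_nhds_unique (hB _ _) (((hB v w).const_mul a).congr fun n => ?_)
    simp only [hq, c.h13_R_smul, mul_div_assoc]
  have hsymm : ∀ v w, B v w = B w v := by
    intro v w
    refine tendsto_nhds_unique (hB _ _) ((hB w v).congr fun n => ?_)
    simp only [hq, c.h13_R_symm (n + 1) w v]
  have hbd : ∀ v w, |B v w| ≤ c.β * (‖v‖ * ‖w‖) := fun v w =>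
    le_of_tendsto' (hB v w).abs fun n => hqb n v w
  let B2 : H →ₗ[ℝ] H →ₗ[ℝ] ℝ := LinearMap.mk₂ ℝ B hadd hsmul
    (fun v w w' => by rw [hsymm, hadd, hsymm w, hsymm w'])
    (fun a v w => by rw [hsymm, hsmul, hsymm w]; rfl)
  let B3 : H →L[ℝ] H →L[ℝ] ℝ := B2.mkContinuous₂ c.β fun v w => by
    have := hbd v w
    rw [← mul_assoc] at this
    exact this
  have hW : ∀ v w, ⟪InnerProductSpace.continuousLinearMapOfBilin (𝕜 := ℝ) B3 v, w⟫_ℝ = B v w :=
    fun v w => InnerProductSpace.continuousLinearMapOfBilin_apply (𝕜 := ℝ) B3 v w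
  refine ⟨InnerProductSpace.continuousLinearMapOfBilin (𝕜 := ℝ) B3, fun v w => ?_, fun v => ?_, ?_,
    fun F hF => ?_, fun v => ?_, fun v M hM => ?_⟩
  · rw [hW, real_inner_comm, hW, hsymm]
  · rw [hW]
    exact ge_of_tendsto' (hB v v) fun n => div_nonneg (c.h13_R_nonneg _ v) (hpos n).le
  · intro h0
    have h1 : B (c.b s0) (c.b s0) = 0 := by rw [← hW, h0]; simp
    have h2 : ‖c.b s0‖ ^ 4 ≤ S.card * (d + 1) * (2 * (1 + S.card)) * B (c.b s0) (c.b s0) := by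
      refine ge_of_tendsto ((hB _ _).const_mul _) ?_
      filter_upwards [hU2] with n hn
      have h3 := c.R_lower hS n hs0
      have h4 : c.R (n + 1) (c.b s0) (c.b s0) = ((n : ℝ) + 1) * q n (c.b s0) (c.b s0) := by
        rw [hq]; field_simp
      have h5 : 0 ≤ q n (c.b s0) (c.b s0) := div_nonneg (c.h13_R_nonneg _ _) (hpos n).le
      rw [h4] at h3
      have h6 : 0 ≤ (S.card : ℝ) * (2 * (1 + S.card)) * q n (c.b s0) (c.b s0) :=
        mul_nonneg (mul_nonneg hN.le (by linarith)) h5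
      have h7 := mul_le_mul_of_nonneg_left hn h6
      nlinarith
    rw [h1, mul_zero] at h2
    have : 0 < ‖c.b s0‖ ^ 4 := pow_pos (norm_pos_iff.2 hb0) 4
    linarith
  · simp only [hW]
    refine le_of_tendsto' (tendsto_finset_sum F fun v _ => hB v v) fun n => ?_
    have h := c.R_trace hS (n + 1) F hF
    simp only [hq]
    rw [← Finset.sum_div, div_le_iff₀ (hpos n)]
    push_cast at h
    linarith
  · simp only [hW]
    set w0 : ℝ := (S.card : ℝ)⁻¹ * ∑ s ∈ S, ⟪c.b s, v⟫_ℝ * ⟪c.b s, v⟫_ℝ with hw0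
    have e1 : Tendsto (fun n : ℕ => (c.R (n + 1 + 1) v v - c.R (n + 1) v v - w0) / ((n : ℝ) + 1))
        atTop (𝓝 0) := by
      have t0 : Tendsto (fun n : ℕ => (c.β * ‖v‖ ^ 2 + |w0|) / ((n : ℝ) + 1)) atTop (𝓝 0) :=
        tendsto_const_nhds.div_atTop (tendsto_natCast_atTop_atTop.atTop_add tendsto_const_nhds)
      refine squeeze_zero_norm (fun n => ?_) t0
      rw [Real.norm_eq_abs, abs_div, abs_of_pos (hpos n)]
      refine div_le_div_of_nonneg_right ?_ (hpos n).le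
      obtain ⟨a1, a2⟩ := c.R_step hS (n + 1) v
      rw [abs_le]
      constructor <;> linarith [le_abs_self w0, neg_abs_le w0]
    have e2 := (hB v v).add (e1.mono_left hU1)
    rw [add_zero] at e2
    refine tendsto_nhds_unique e2 ?_
    refine ((tendsto_finset_sum S fun s _ => hB (c.π s⁻¹ v) (c.π s⁻¹ v)).const_mul
      (S.card : ℝ)⁻¹).congr fun n => ?_
    simp only [hq]
    rw [c.R_succ hS (n + 1) v v, hw0, Finset.sum_add_distrib, ← Finset.sum_div]
    ring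
  · rw [hW]
    have t0 : Tendsto (fun n : ℕ => M ^ 2 / ((n : ℝ) + 1)) atTop (𝓝 0) :=
      tendsto_const_nhds.div_atTop (tendsto_natCast_atTop_atTop.atTop_add tendsto_const_nhds)
    refine tendsto_nhds_unique (hB v v) (Tendsto.mono_left ?_ hU1)
    refine squeeze_zero (fun n => div_nonneg (c.h13_R_nonneg _ v) (hpos n).le) (fun n => ?_) t0
    refine div_le_div_of_nonneg_right ?_ (hpos n).le
    calc c.R (n + 1) v v ≤ Ex (mu S (n + 1)) (fun _ => M ^ 2) := by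
          refine Ex_mono (mu_nonneg S _) fun x => ?_
          rw [← sq, ← sq_abs]
          exact pow_le_pow_left₀ (abs_nonneg _) (hM x) 2
      _ = M ^ 2 := by rw [Ex_mu_const hS]

end Crest.Agent.R182.GA
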