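import Crest.Agent.R182.GA1
import Crest.Agent.R182.GA2
import Crest.Agent.R182.GA3

/-! Row 182, block [G], part A: an infinite group of polynomial growth has an unbounded cocycle in a
finite dimensional orthogonal representation (Ozawa). -/

set_option autoImplicit false

open scoped Pointwise InnerProductSpace
open Crest.GroupTheory

namespace Crest.Agent.R182

namespace GA

variable {G : Type*} [Group G]

theorem list_mem_pow {S : Set G} : ∀ l : List G, (∀ x ∈ l, x ∈ S) → l.prod ∈ S ^ l.length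
  | [], _ => by simp
  | a :: l, h => by
    rw [List.prod_cons, List.length_cons, pow_succ']
    exact ⟨a, h a (by simp), l.prod, list_mem_pow l fun x hx => h x (by simp [hx]), rfl⟩

theorem exists_list {S : Set G} : ∀ (n : ℕ) (g : G), g ∈ S ^ n →
    ∃ l : List G, l.length = n ∧ (∀ x ∈ l, x ∈ S) ∧ l.prod = g
  | 0, g, h => ⟨[], rfl, by simp, by rw [pow_zero] at h; exact (Set.mem_one.1 h).symm⟩
  | n + 1, g, h => by
    rw [pow_succ'] at h
    obtain ⟨a, ha, y, hy, rfl⟩ := h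
    obtain ⟨l, h1, h2, h3⟩ := exists_list n y hy
    refine ⟨a :: l, by simp [h1], ?_, by simp [h3]⟩
    intro x hx
    rcases List.mem_cons.1 hx with rfl | hx
    exacts [ha, h2 x hx]

theorem exists_sym (T : Finset G) (hT : Subgroup.closure (T : Set G) = ⊤) (C d : ℕ)
    (h : ∀ r : ℕ, 1 ≤ r → Set.ncard {g | wordDist (T : Set G) 1 g ≤ r} ≤ C * r ^ d) :
    ∃ S : Finset G, Sym S ∧ Gro S C d := by
  classical
  set S : Finset G := insert 1 (T ∪ T.image fun x => x⁻¹) with hSd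
  have hmem : ∀ x, x ∈ S ↔ x = 1 ∨ x ∈ T ∨ x⁻¹ ∈ T := by
    intro x
    simp only [hSd, Finset.mem_insert, Finset.mem_union, Finset.mem_image]
    refine or_congr_right (or_congr_right ⟨?_, fun hx => ⟨_, hx, inv_inv x⟩⟩)
    rintro ⟨y, hy, rfl⟩
    rwa [inv_inv]
  have hS : Sym S := by
    refine ⟨(hmem 1).2 (Or.inl rfl), fun s hs => ?_, ?_⟩
    · rw [hmem] at hs ⊢
      rcases hs with rfl | hs | hs
      · exact Or.inl inv_one
      · exact Or.inr (Or.inr (by rwa [inv_inv]))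
      · exact Or.inr (Or.inl hs)
    · rw [eq_top_iff, ← hT]
      exact Subgroup.closure_mono fun x hx => (hmem x).2 (Or.inr (Or.inl hx))
  have key : ∀ (n : ℕ) (g : G), g ∈ (S : Set G) ^ n →
      ∃ l : List G, l.length ≤ n ∧ (∀ x ∈ l, x ∈ (T : Set G) ∨ x⁻¹ ∈ (T : Set G)) ∧ l.prod = g := by
    intro n g hg
    obtain ⟨l, h1, h2, h3⟩ := exists_list n g hg
    refine ⟨l.filter (fun x => x != 1), h1 ▸ List.length_filter_le _ _, fun x hx => ?_, ?_⟩
    · obtain ⟨a1, a2⟩ := List.mem_filter.1 hx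
      rcases (hmem x).1 (h2 x a1) with e | e
      · simp [e] at a2
      · exact e
    · rw [← h3]
      exact List.prod_filter_bne_one l
  refine ⟨S, hS, fun n hn => le_trans (le_of_eq ?_) (h n hn)⟩
  congr 1
  ext g
  simp only [Set.mem_setOf_eq, wordDist, inv_one, one_mul, Nat.cast_le]
  constructor
  · intro hg
    obtain ⟨l, h1, h2, h3⟩ := key n g hg
    exact le_trans (Nat.sInf_le ⟨l, rfl, h2, h3⟩) h1
  · intro hg
    obtain ⟨m, hm⟩ := hS.exists_pow g
    obtain ⟨l0, -, h2, h3⟩ := key m g hm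
    obtain ⟨l, h4, h5, h6⟩ := Nat.sInf_mem (s := {n : ℕ | ∃ l : List G, l.length = n ∧
      (∀ x ∈ l, x ∈ (T : Set G) ∨ x⁻¹ ∈ (T : Set G)) ∧ l.prod = g}) ⟨_, l0, rfl, h2, h3⟩
    have h7 : l.prod ∈ (S : Set G) ^ l.length :=
      list_mem_pow l fun x hx => (hmem x).2 (Or.inr (h5 x hx))
    rw [h6] at h7
    exact Set.pow_subset_pow_right hS.one (h4.le.trans hg) h7

theorem fd_of_sym [Infinite G] {S : Finset G} (hS : Sym S) {C d : ℕ} (hG : Gro S C d) :
    ∃ (n : ℕ) (ρ : G →* Matrix.unitaryGroup (Fin n) ℝ) (b : G → Fin n → ℝ),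
      (∀ g x, b (g * x) = b g + (ρ g : Matrix (Fin n) (Fin n) ℝ).mulVec (b x)) ∧
      ∀ M : ℝ, ∃ g, M < ‖b g‖ := by
  obtain ⟨K, hK⟩ := exists_harmKer hS hG
  obtain ⟨H, _, _, _, ⟨c⟩⟩ := exists_coc hK
  obtain ⟨W, hs, hp, hW, htr, hinv, hbd⟩ := c.exists_W hS hG
  obtain ⟨lam, E, hlam, hfd, ⟨v, hv, hv1⟩, hle, hE⟩ :=
    exists_top W (compact_of_trace W hs hp htr) hs hp hW
  have hN := hS.card_pos
  have h1 : ∀ s ∈ S, ∀ u ∈ E, c.π s u ∈ E := by
    intro s hs' u hu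
    have e := hinv u
    rw [(hE u).1 hu, hS.sum_inv (fun t => ⟪W (c.π t u), c.π t u⟫_ℝ)] at e
    have e2 : ∑ t ∈ S, (lam * ‖u‖ ^ 2 - ⟪W (c.π t u), c.π t u⟫_ℝ) = 0 := by
      rw [Finset.sum_sub_distrib, Finset.sum_const, nsmul_eq_mul, e, ← mul_assoc,
        mul_inv_cancel₀ hN.ne', one_mul, sub_self]
    have e3 := (Finset.sum_eq_zero_iff_of_nonneg fun t _ => by
      have := hle (c.π t u)
      rw [c.norm_π] at this
      linarith).1 e2 s hs'
    rw [hE, c.norm_π]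
    linarith
  have h2 : ∀ g, ∀ u ∈ E, c.π g u ∈ E := by
    intro g
    obtain ⟨n, hn⟩ := hS.exists_pow g
    induction n generalizing g with
    | zero =>
      intro u hu
      rw [pow_zero] at hn
      rw [Set.mem_one.1 hn, map_one]
      exact hu
    | succ n ih =>
      intro u hu
      rw [pow_succ'] at hn
      obtain ⟨a, ha, y, hy, rfl⟩ := hn
      rw [map_mul]
      exact h1 a ha _ (ih y hy u hu)
  refine to_matrix c E h2 hv fun M => ?_
  by_contra hM
  have h3 := hbd v M fun g => not_lt.1 fun hg => hM ⟨g, hg⟩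
  rw [(hE v).1 hv, hv1] at h3
  linarith

end GA

theorem exists_fd_cocycle {G : Type*} [Group G] [Infinite G] (T : Finset G)
    (hT : Subgroup.closure (T : Set G) = ⊤) (C d : ℕ)
    (h : ∀ r : ℕ, 1 ≤ r → Set.ncard {g | wordDist (T : Set G) 1 g ≤ r} ≤ C * r ^ d) :
    ∃ (n : ℕ) (ρ : G →* Matrix.unitaryGroup (Fin n) ℝ) (b : G → Fin n → ℝ),
      (∀ g x, b (g * x) = b g + (ρ g : Matrix (Fin n) (Fin n) ℝ).mulVec (b x)) ∧
      ∀ M : ℝ, ∃ g, M < ‖b g‖ := by
  obtain ⟨S, hS, hG⟩ := GA.exists_sym T hT C d h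
  exact GA.fd_of_sym hS hG

end Crest.Agent.R182
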