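import Mathlib
import Crest.Prelude.Def_WordHyperbolic

/-! Row 182, block [G] (Gromov-lite), part A: random walk measures on a group. -/

set_option autoImplicit false

open scoped Pointwise InnerProductSpace

namespace Crest.Agent.R182.GA

variable {G : Type*} [Group G]

/-- A finite symmetric generating set containing `1`. -/
structure Sym (S : Finset G) : Prop where
  one : (1 : G) ∈ S
  inv : ∀ s ∈ S, s⁻¹ ∈ S
  gen : Subgroup.closure (S : Set G) = ⊤

/-- Polynomial growth of the products of `n` elements of `S`. -/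
def Gro (S : Finset G) (C d : ℕ) : Prop :=
  ∀ n : ℕ, 1 ≤ n → ((S : Set G) ^ n).ncard ≤ C * n ^ d

/-- left translation of finitely supported functions -/
noncomputable def tr (g : G) : (G →₀ ℝ) →ₗ[ℝ] (G →₀ ℝ) :=
  Finsupp.lmapDomain ℝ ℝ (fun x => g * x)

/-- the averaging operator -/
noncomputable def av (S : Finset G) : (G →₀ ℝ) →ₗ[ℝ] (G →₀ ℝ) :=
  (S.card : ℝ)⁻¹ • ∑ s ∈ S, tr s

/-- the law of the random walk after `n` steps -/
noncomputable def mu (S : Finset G) : ℕ → (G →₀ ℝ)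
  | 0 => Finsupp.single 1 1
  | n + 1 => av S (mu S n)

/-- the integral of `F` against the finitely supported weight `m` -/
noncomputable def Ex {V : Type*} [AddCommGroup V] [Module ℝ V] (m : G →₀ ℝ) (F : G → V) : V :=
  Finsupp.linearCombination ℝ F m

theorem tr_apply (g : G) (f : G →₀ ℝ) (x : G) : tr g f x = f (g⁻¹ * x) := by
  have h := Finsupp.mapDomain_apply (f := fun x => g * x) (mul_right_injective g) f (g⁻¹ * x)
  simpa [tr] using h

theorem tr_mul (g h : G) (f : G →₀ ℝ) : tr (g * h) f = tr g (tr h f) := by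
  ext x; simp only [tr_apply, mul_inv_rev, mul_assoc]

theorem tr_one (f : G →₀ ℝ) : tr 1 f = f := by
  ext x; simp only [tr_apply, inv_one, one_mul]

theorem av_eq (S : Finset G) (f : G →₀ ℝ) : av S f = (S.card : ℝ)⁻¹ • ∑ s ∈ S, tr s f := by
  simp only [av, LinearMap.smul_apply, LinearMap.sum_apply]

theorem av_apply (S : Finset G) (f : G →₀ ℝ) (x : G) :
    av S f x = (S.card : ℝ)⁻¹ * ∑ s ∈ S, f (s⁻¹ * x) := by
  simp only [av_eq, Finsupp.smul_apply, Finsupp.finset_sum_apply, tr_apply, smul_eq_mul]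

section Ex
variable {V : Type*} [AddCommGroup V] [Module ℝ V]

omit [Group G] in
theorem Ex_eq_sum (m : G →₀ ℝ) (F : G → V) {A : Finset G} (hA : m.support ⊆ A) :
    Ex m F = ∑ x ∈ A, m x • F x := by
  rw [Ex, Finsupp.linearCombination_apply, Finsupp.sum_of_support_subset m hA]
  intro x _; simp

omit [Group G] in
theorem Ex_def (m : G →₀ ℝ) (F : G → V) : Ex m F = ∑ x ∈ m.support, m x • F x :=
  Ex_eq_sum m F subset_rfl

omit [Group G] in
theorem Ex_single (x : G) (F : G → V) : Ex (Finsupp.single x 1) F = F x := by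
  simp [Ex]

theorem Ex_tr (g : G) (m : G →₀ ℝ) (F : G → V) : Ex (tr g m) F = Ex m (fun x => F (g * x)) := by
  simp only [Ex, tr, Finsupp.lmapDomain_apply, Finsupp.linearCombination_mapDomain]
  rfl

theorem Ex_av (S : Finset G) (m : G →₀ ℝ) (F : G → V) :
    Ex (av S m) F = (S.card : ℝ)⁻¹ • ∑ s ∈ S, Ex m (fun x => F (s * x)) := by
  rw [av_eq, Ex, map_smul, map_sum]
  congr 1
  exact Finset.sum_congr rfl fun s _ => Ex_tr s m F

omit [Group G] in
theorem Ex_add (m : G →₀ ℝ) (F F' : G → V) :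
    Ex m (fun x => F x + F' x) = Ex m F + Ex m F' := by
  simp only [Ex_def, smul_add, Finset.sum_add_distrib]

omit [Group G] in
theorem Ex_map {W : Type*} [AddCommGroup W] [Module ℝ W] (L : V →ₗ[ℝ] W) (m : G →₀ ℝ)
    (F : G → V) : Ex m (fun x => L (F x)) = L (Ex m F) := by
  simp only [Ex_def, map_sum, map_smul]

omit [Group G] in
theorem Ex_const (m : G →₀ ℝ) (v : V) : Ex m (fun _ => v) = Ex m (fun _ => (1 : ℝ)) • v := by
  simp only [Ex_def, Finset.sum_smul, smul_eq_mul, mul_one]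

end Ex

omit [Group G] in
theorem Ex_mono {m : G →₀ ℝ} (hm : ∀ x, 0 ≤ m x) {F F' : G → ℝ} (h : ∀ x, F x ≤ F' x) :
    Ex m F ≤ Ex m F' := by
  simp only [Ex_def, smul_eq_mul]
  exact Finset.sum_le_sum fun x _ => mul_le_mul_of_nonneg_left (h x) (hm x)

theorem Sym.card_pos {S : Finset G} (hS : Sym S) : (0 : ℝ) < S.card := by
  exact_mod_cast Finset.card_pos.2 ⟨1, hS.one⟩

theorem Sym.one_le_card {S : Finset G} (hS : Sym S) : (1 : ℝ) ≤ S.card := by
  exact_mod_cast Finset.card_pos.2 ⟨1, hS.one⟩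

/-- sums over a symmetric set are invariant under inversion -/
theorem Sym.sum_inv {S : Finset G} (hS : Sym S) {M : Type*} [AddCommMonoid M] (F : G → M) :
    ∑ s ∈ S, F s⁻¹ = ∑ s ∈ S, F s :=
  Finset.sum_bij' (fun s _ => s⁻¹) (fun s _ => s⁻¹) (fun s hs => hS.inv s hs)
    (fun s hs => hS.inv s hs) (fun s _ => inv_inv s) (fun s _ => inv_inv s) (fun _ _ => rfl)

theorem mu_succ (S : Finset G) (n : ℕ) : mu S (n + 1) = av S (mu S n) := rfl

theorem mu_nonneg (S : Finset G) : ∀ (n : ℕ) (x : G), 0 ≤ mu S n x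
  | 0, x => by
    classical
    simp only [mu, Finsupp.single_apply]
    split_ifs <;> norm_num
  | n + 1, x => by
    rw [mu_succ, av_apply]
    exact mul_nonneg (by positivity) (Finset.sum_nonneg fun s _ => mu_nonneg S n _)

theorem Ex_mu_one {S : Finset G} (hS : Sym S) : ∀ n : ℕ, Ex (mu S n) (fun _ => (1 : ℝ)) = 1
  | 0 => Ex_single 1 _
  | n + 1 => by
    have h := hS.card_pos
    rw [mu_succ, Ex_av]
    simp only [Ex_mu_one hS n, Finset.sum_const, nsmul_eq_mul, mul_one, smul_eq_mul]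
    exact inv_mul_cancel₀ h.ne'

theorem Ex_mu_const {V : Type*} [AddCommGroup V] [Module ℝ V] {S : Finset G} (hS : Sym S) (n : ℕ)
    (v : V) : Ex (mu S n) (fun _ => v) = v := by
  rw [Ex_const, Ex_mu_one hS, one_smul]

theorem sum_mu {S : Finset G} (hS : Sym S) (n : ℕ) : ∑ x ∈ (mu S n).support, mu S n x = 1 := by
  simpa only [Ex_def, smul_eq_mul, mul_one] using Ex_mu_one hS n

theorem mu_support (S : Finset G) : ∀ (n : ℕ) (x : G), mu S n x ≠ 0 → x ∈ (S : Set G) ^ n
  | 0, x, h => by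
    classical
    simp only [mu, Finsupp.single_apply] at h
    rw [pow_zero]
    by_contra hx
    exact h (if_neg fun e => hx (by rw [← e]; exact Set.mem_one.2 rfl))
  | n + 1, x, h => by
    rw [mu_succ, av_apply] at h
    obtain ⟨s, hs, h2⟩ := Finset.exists_ne_zero_of_sum_ne_zero (right_ne_zero_of_mul h)
    rw [pow_succ']
    exact ⟨s, hs, s⁻¹ * x, mu_support S n _ h2, by simp⟩

theorem finite_pow (S : Finset G) : ∀ n : ℕ, ((S : Set G) ^ n).Finite
  | 0 => by rw [pow_zero]; exact Set.finite_one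
  | n + 1 => by rw [pow_succ]; exact (finite_pow S n).mul S.finite_toSet

theorem card_mu_support {S : Finset G} {C d : ℕ} (hG : Gro S C d) {n : ℕ} (hn : 1 ≤ n) :
    (mu S n).support.card ≤ C * n ^ d := by
  refine le_trans ?_ (hG n hn)
  rw [← Set.ncard_coe_finset]
  exact Set.ncard_le_ncard (fun x hx => mu_support S n x (Finsupp.mem_support_iff.1 hx))
    (finite_pow S n)

/-- a translate of `mu n` is dominated by `mu (n+1)` -/
theorem tr_mu_le {S : Finset G} (hS : Sym S) (n : ℕ) {s : G} (hs : s ∈ S) (x : G) :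
    tr s (mu S n) x ≤ S.card * mu S (n + 1) x := by
  rw [mu_succ, av_apply, ← mul_assoc, mul_inv_cancel₀ hS.card_pos.ne', one_mul, tr_apply]
  exact Finset.single_le_sum (f := fun s => mu S n (s⁻¹ * x)) (fun s _ => mu_nonneg S n _) hs

/-- every element is a product of elements of `S` -/
theorem Sym.exists_pow {S : Finset G} (hS : Sym S) (g : G) : ∃ n : ℕ, g ∈ (S : Set G) ^ n := by
  have hg : g ∈ Subgroup.closure (S : Set G) := hS.gen ▸ Subgroup.mem_top g
  refine Subgroup.closure_induction_left (p := fun g _ => ∃ n : ℕ, g ∈ (S : Set G) ^ n)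
    ⟨0, by rw [pow_zero]; exact Set.mem_one.2 rfl⟩ ?_ ?_ hg
  · rintro x hx y _ ⟨n, hn⟩
    exact ⟨n + 1, by rw [pow_succ']; exact ⟨x, hx, y, hn, rfl⟩⟩
  · rintro x hx y _ ⟨n, hn⟩
    exact ⟨n + 1, by rw [pow_succ']; exact ⟨x⁻¹, hS.inv x hx, y, hn, rfl⟩⟩

/-- A positive semidefinite kernel coming from a harmonic cocycle. -/
structure HarmKer (S : Finset G) (K : G → G → ℝ) : Prop where
  symm : ∀ x y, K x y = K y x
  psd : ∀ f : G →₀ ℝ, 0 ≤ Ex f (fun x => Ex f (fun y => K x y))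
  inv : ∀ g x y, K (g * x) (g * y) - K (g * x) g - K g (g * y) + K g g = K x y
  harm : ∀ y, ∑ s ∈ S, K s y = 0
  ne : ∃ s ∈ S, K s s ≠ 0

/-- A harmonic cocycle for an orthogonal representation on a real inner product space. -/
structure Coc (S : Finset G) (H : Type*) [NormedAddCommGroup H] [InnerProductSpace ℝ H] where
  π : G →* (H →L[ℝ] H)
  iso : ∀ g v w, ⟪π g v, π g w⟫_ℝ = ⟪v, w⟫_ℝ
  b : G → H
  coc : ∀ g x, b (g * x) = b g + π g (b x)
  harm : ∑ s ∈ S, b s = 0
  ne : ∃ s ∈ S, b s ≠ 0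

end Crest.Agent.R182.GA
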