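import Crest.Agent.R182.GA0

/-! Row 182, block [G], part A: existence of a harmonic kernel (G2). -/

set_option autoImplicit false

open scoped Pointwise InnerProductSpace

namespace Crest.Agent.R182.GA

variable {G : Type*} [Group G]

open Classical in
/-- the embedding of the finitely supported functions in `ℓ²(G)` -/
noncomputable def io : (G →₀ ℝ) →ₗ[ℝ] lp (fun _ : G => ℝ) 2 :=
  Finsupp.linearCombination ℝ fun x : G => lp.single 2 x (1 : ℝ)

omit [Group G] in
private theorem h52_io_apply (g : G →₀ ℝ) (x : G) : (io g : G → ℝ) x = g x := by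
  classical
  induction g using Finsupp.induction_linear with
  | zero => simp
  | add f g hf hg => rw [map_add, lp.coeFn_add, Pi.add_apply, hf, hg, Finsupp.add_apply]
  | single a b =>
    simp only [io, Finsupp.linearCombination_single, lp.coeFn_smul, Pi.smul_apply, lp.single_apply,
      Finsupp.single_apply, Pi.single_apply, smul_eq_mul]
    by_cases h : a = x
    · simp [h]
    · simp [h, Ne.symm h]

omit [Group G] in
/-- Proof: the family `lp.single 2 x 1` is orthonormal (`orthonormal_iff_ite`, `lp.inner_single_left`),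
then `Orthonormal.inner_finsupp_eq_sum_left` (or: `Finsupp.induction_linear`). -/
theorem inner_io (f g : G →₀ ℝ) : ⟪io f, io g⟫_ℝ = Ex f (fun x => g x) := by
  classical
  induction f using Finsupp.induction_linear with
  | zero => simp [Ex]
  | add f f' hf hf' =>
    rw [map_add, inner_add_left, hf, hf']
    simp only [Ex, map_add]
  | single a b =>
    have h1 : io (Finsupp.single a b) = b • lp.single 2 a (1 : ℝ) := by
      simp only [io, Finsupp.linearCombination_single]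
    rw [h1, real_inner_smul_left, lp.inner_single_left, h52_io_apply]
    simp [Ex]

/-- Proof: `inner_io`, `Ex_tr`, `tr_apply`. -/
theorem inner_io_tr (k : G) (f g : G →₀ ℝ) : ⟪io (tr k f), io (tr k g)⟫_ℝ = ⟪io f, io g⟫_ℝ := by
  rw [inner_io, inner_io, Ex_tr]
  simp only [tr_apply, inv_mul_cancel_left]

theorem norm_io_tr (k : G) (f : G →₀ ℝ) : ‖io (tr k f)‖ = ‖io f‖ := by
  rw [@norm_eq_sqrt_real_inner _ _ _ (io (tr k f)), @norm_eq_sqrt_real_inner _ _ _ (io f),
    inner_io_tr]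

/-- Proof: `⟪tr s f, g⟫ = ⟪f, tr s⁻¹ g⟫` (`inner_io_tr`, `tr_mul`, `tr_one`), `av_eq`, `Sym.sum_inv`. -/
theorem inner_io_av {S : Finset G} (hS : Sym S) (f g : G →₀ ℝ) :
    ⟪io (av S f), io g⟫_ℝ = ⟪io f, io (av S g)⟫_ℝ := by
  have h : ∀ s : G, ⟪io (tr s f), io g⟫_ℝ = ⟪io f, io (tr s⁻¹ g)⟫_ℝ := fun s => by
    rw [← inner_io_tr s f (tr s⁻¹ g), ← tr_mul, mul_inv_cancel, tr_one]
  rw [av_eq, av_eq, map_smul, map_smul, real_inner_smul_left, real_inner_smul_right, map_sum,
    map_sum, sum_inner, inner_sum]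
  simp only [h]
  rw [hS.sum_inv (fun s => ⟪io f, io (tr s g)⟫_ℝ)]

/-- the Dirichlet energy -/
noncomputable def En (S : Finset G) (f : G →₀ ℝ) : ℝ := ⟪io (f - av S f), io f⟫_ℝ

/-- Proof: `‖a - b‖² = ‖a‖² - 2⟪a,b⟫ + ‖b‖²`, `norm_io_tr`, `av_eq`. -/
theorem sum_sq_tr {S : Finset G} (hS : Sym S) (f : G →₀ ℝ) :
    ∑ s ∈ S, ‖io (f - tr s f)‖ ^ 2 = 2 * S.card * En S f := by
  have h0 := hS.card_pos
  have h1 : ∀ s, ‖io (f - tr s f)‖ ^ 2 = 2 * ‖io f‖ ^ 2 - 2 * ⟪io (tr s f), io f⟫_ℝ := by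
    intro s
    rw [map_sub, norm_sub_sq_real, norm_io_tr, real_inner_comm]
    ring
  simp only [h1]
  rw [En, map_sub, inner_sub_left, av_eq, map_smul, map_sum, real_inner_smul_left, sum_inner,
    real_inner_self_eq_norm_sq, Finset.sum_sub_distrib, Finset.sum_const, nsmul_eq_mul,
    ← Finset.mul_sum]
  field_simp

/-- Proof: `sum_sq_tr`; the term `s = 1` vanishes (`tr_one`), the others are `≤ (2‖f‖)²`
(`norm_sub_le`, `norm_io_tr`). -/
theorem En_le {S : Finset G} (hS : Sym S) (f : G →₀ ℝ) :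
    S.card * En S f ≤ 2 * (S.card - 1) * ‖io f‖ ^ 2 := by
  classical
  have h1 := sum_sq_tr hS f
  rw [← Finset.sum_erase S (a := 1) (by simp [tr_one])] at h1
  have h2 : ∑ s ∈ S.erase 1, ‖io (f - tr s f)‖ ^ 2 ≤ (S.erase 1).card • (2 * ‖io f‖) ^ 2 := by
    refine Finset.sum_le_card_nsmul _ _ _ fun s _ => pow_le_pow_left₀ (norm_nonneg _) ?_ 2
    rw [map_sub]
    refine (norm_sub_le _ _).trans (le_of_eq ?_)
    rw [norm_io_tr]
    ring
  rw [Finset.card_erase_of_mem hS.one, nsmul_eq_mul,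
    Nat.cast_sub (Finset.card_pos.2 ⟨1, hS.one⟩), Nat.cast_one] at h2
  linarith

/-- Proof: with `D f = f - av f` one has `av f = f - D f`, `D` is linear and symmetric
(`inner_io_av`), so `En (av f) = En f - 2‖D f‖² + En (D f)`; then `En_le` for `D f`. -/
theorem En_av {S : Finset G} (hS : Sym S) (f : G →₀ ℝ) :
    S.card * En S (av S f) ≤ S.card * En S f - 2 * ‖io (f - av S f)‖ ^ 2 := by
  have h1 := En_le hS (f - av S f)
  have e1 : av S f - av S (av S f) = av S (f - av S f) := (map_sub _ _ _).symm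
  have e2 : io (av S f) = io f - io (f - av S f) := by rw [map_sub]; abel
  have h2 : En S (av S f) = En S f - 2 * ‖io (f - av S f)‖ ^ 2 + En S (f - av S f) := by
    have a1 := inner_io_av hS (f - av S f) f
    rw [e2, inner_sub_right, real_inner_self_eq_norm_sq] at a1
    have a2 : En S (f - av S f) =
        ‖io (f - av S f)‖ ^ 2 - ⟪io (av S (f - av S f)), io (f - av S f)⟫_ℝ := by
      rw [En, map_sub io (f - av S f), inner_sub_left, real_inner_self_eq_norm_sq]
    have a3 : En S (av S f) = ⟪io (av S (f - av S f)), io f⟫_ℝ -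
        ⟪io (av S (f - av S f)), io (f - av S f)⟫_ℝ := by
      rw [En, e1, e2, inner_sub_right]
    have a4 : En S f = ⟪io (f - av S f), io f⟫_ℝ := rfl
    linarith
  rw [h2]
  linarith

/-- Proof: induction on `m` (`pow_succ'`): `f - tr (s * x) f = (f - tr s f) + tr s (f - tr x f)`,
`norm_io_tr`. -/
theorem norm_tr_pow {S : Finset G} (f : G →₀ ℝ) {a : ℝ} (ha : ∀ s ∈ S, ‖io (f - tr s f)‖ ≤ a)
    (m : ℕ) {g : G} (hg : g ∈ (S : Set G) ^ m) : ‖io (f - tr g f)‖ ≤ m * a := by
  induction m generalizing g with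
  | zero =>
    rw [pow_zero] at hg
    rw [Set.mem_one.1 hg, tr_one]
    simp
  | succ m ih =>
    rw [pow_succ'] at hg
    obtain ⟨s, hs, x, hx, rfl⟩ := hg
    have h1 : f - tr (s * x) f = (f - tr s f) + tr s (f - tr x f) := by
      rw [map_sub, tr_mul]; abel
    have h2 := ih hx
    have h3 := ha s hs
    show ‖io (f - tr (s * x) f)‖ ≤ _
    rw [h1, map_add]
    refine (norm_add_le _ _).trans ?_
    rw [norm_io_tr]
    push_cast
    linarith

/-- Proof: otherwise `S^(m+1) ⊆ S^m`, hence `S^k ⊆ S^m` for all `k ≥ m` by induction, and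
`S^k ⊆ S^(k+m)` as `1 ∈ S` (`Set.pow_subset_pow_right`); `Sym.exists_pow` gives `univ ⊆ S^m`, finite. -/
theorem exists_far [Infinite G] {S : Finset G} (hS : Sym S) (m : ℕ) :
    ∃ g ∈ (S : Set G) ^ (m + 1), g ∉ (S : Set G) ^ m := by
  by_contra hcon
  have h1 : (S : Set G) ^ (m + 1) ⊆ (S : Set G) ^ m := fun g hg => by
    by_contra h
    exact hcon ⟨g, hg, h⟩
  have h2 : ∀ k : ℕ, (S : Set G) ^ k ⊆ (S : Set G) ^ m := by
    intro k
    induction k with
    | zero =>
      rw [pow_zero]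
      exact Set.one_subset.2 (Set.one_mem_pow (Finset.mem_coe.2 hS.one))
    | succ k ih =>
      rw [pow_succ]
      refine (Set.mul_subset_mul_right ih).trans ?_
      rw [← pow_succ]
      exact h1
  refine Set.infinite_univ ((finite_pow S m).subset fun g _ => ?_)
  obtain ⟨k, hk⟩ := hS.exists_pow g
  exact h2 k hk

/-- Proof: take `g ∈ S^(2n+1) \ S^(2n)`.  The supports of `f = mu S n` and `tr g f` are disjoint
(`x, g⁻¹ x ∈ S^n` gives `g = x (g⁻¹x)⁻¹ ∈ S^n S^n` since `(S^n)⁻¹ = S^n`), so `⟪f, tr g f⟫ = 0`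
(`inner_io`) and `‖f - tr g f‖² = 2‖f‖²`.  Cauchy-Schwarz: `1 = (∑ f)² ≤ #supp * ‖f‖²`
(`sum_mu`, `card_mu_support`, `sq_sum_le_card_mul_sum_sq`).  Finally
`‖f - tr g f‖² ≤ (2n+1)² * (2 #S En f)` by `norm_tr_pow` with `a = √(2 #S En f)` and `sum_sq_tr`. -/
theorem En_mu_ge [Infinite G] {S : Finset G} (hS : Sym S) {C d : ℕ} (hG : Gro S C d) {n : ℕ}
    (hn : 1 ≤ n) : 1 ≤ (C * (n : ℝ) ^ d) * ((2 * n + 1) ^ 2 * (S.card * En S (mu S n))) := by
  obtain ⟨g, hg, hg'⟩ := exists_far hS (2 * n)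
  set f := mu S n with hf
  have hinv : ((S : Set G) ^ n)⁻¹ = (S : Set G) ^ n := by
    rw [← inv_pow]
    congr 1
    ext x
    simp only [Set.mem_inv, Finset.mem_coe]
    exact ⟨fun h => by simpa using hS.inv _ h, hS.inv x⟩
  have h0 : ⟪io f, io (tr g f)⟫_ℝ = 0 := by
    rw [inner_io, Ex_def]
    refine Finset.sum_eq_zero fun x hx => ?_
    have h1 := mu_support S n x (Finsupp.mem_support_iff.1 hx)
    have h2 : f (g⁻¹ * x) = 0 := by
      by_contra h
      have h3 := mu_support S n _ h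
      rw [← hinv, Set.mem_inv] at h3
      refine hg' ?_
      rw [two_mul, pow_add]
      exact ⟨x, h1, _, h3, by simp⟩
    rw [tr_apply, h2, smul_zero]
  have h1 : ‖io (f - tr g f)‖ ^ 2 = 2 * ‖io f‖ ^ 2 := by
    rw [map_sub, norm_sub_sq_real, h0, norm_io_tr]
    ring
  have h2 : 1 ≤ (C * (n : ℝ) ^ d) * ‖io f‖ ^ 2 := by
    have a1 : ‖io f‖ ^ 2 = ∑ x ∈ f.support, f x ^ 2 := by
      rw [← real_inner_self_eq_norm_sq, inner_io, Ex_def]
      exact Finset.sum_congr rfl fun x _ => by rw [smul_eq_mul, sq]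
    have a2 := sq_sum_le_card_mul_sum_sq (s := f.support) (f := fun x => f x)
    rw [sum_mu hS n, one_pow, ← a1] at a2
    have a3 : (f.support.card : ℝ) ≤ C * (n : ℝ) ^ d := by exact_mod_cast card_mu_support hG hn
    exact a2.trans (mul_le_mul_of_nonneg_right a3 (sq_nonneg _))
  have h3 := sum_sq_tr hS f
  have h4 : 0 ≤ 2 * S.card * En S f := h3 ▸ Finset.sum_nonneg fun _ _ => sq_nonneg _
  have h5 := norm_tr_pow (S := S) f (a := √(2 * S.card * En S f)) (fun s hs => by
    refine Real.le_sqrt_of_sq_le ?_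
    rw [← h3]
    exact Finset.single_le_sum (f := fun s => ‖io (f - tr s f)‖ ^ 2) (fun _ _ => sq_nonneg _) hs)
    (2 * n + 1) hg
  have h6 := pow_le_pow_left₀ (norm_nonneg _) h5 2
  rw [h1, mul_pow, Real.sq_sqrt h4] at h6
  push_cast at h6
  have h7 : ‖io f‖ ^ 2 ≤ (2 * n + 1) ^ 2 * (S.card * En S f) := by linarith
  exact h2.trans (mul_le_mul_of_nonneg_left h7 (by positivity))

/-- Proof: otherwise `ε' * En f ≤ ‖f - av f‖²` for all `f` with `En f > 0` (scale `f` by
`(En f)^(-1/2)`; `En` is quadratic), where `ε' = min ε 1/2`...; by `En_av`,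
`En (mu (n+1)) ≤ q En (mu n)` with `q = 1 - 2 ε / #S < 1` (all `En (mu n) > 0`, `n ≥ 1`, by `En_mu_ge`,
hence `q > 0`), so `En (mu (n+1)) ≤ q^n En (mu 1)`, which contradicts `En_mu_ge`
(`tendsto_pow_const_mul_const_pow_of_abs_lt_one`). -/
theorem exists_almost [Infinite G] {S : Finset G} (hS : Sym S) {C d : ℕ} (hG : Gro S C d)
    {ε : ℝ} (hε : 0 < ε) : ∃ f : G →₀ ℝ, En S f = 1 ∧ ‖io (f - av S f)‖ ≤ ε := by
  by_contra hcon
  have hk := hS.card_pos
  have h1 : ∀ f : G →₀ ℝ, 0 < En S f → ε ^ 2 * En S f ≤ ‖io (f - av S f)‖ ^ 2 := by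
    intro f hf
    have hs : 0 < √(En S f) := Real.sqrt_pos.2 hf
    have h2 : (√(En S f))⁻¹ • f - av S ((√(En S f))⁻¹ • f) = (√(En S f))⁻¹ • (f - av S f) := by
      rw [map_smul, smul_sub]
    have h3 : En S ((√(En S f))⁻¹ • f) = 1 := by
      have h4 : En S ((√(En S f))⁻¹ • f) = (√(En S f))⁻¹ * ((√(En S f))⁻¹ * En S f) := by
        rw [En, h2, map_smul, map_smul, real_inner_smul_left, real_inner_smul_right]
        rfl
      rw [h4, ← mul_assoc, ← mul_inv, Real.mul_self_sqrt hf.le, inv_mul_cancel₀ hf.ne']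
    have h4 : ε < ‖io ((√(En S f))⁻¹ • f - av S ((√(En S f))⁻¹ • f))‖ := by
      by_contra h5
      exact hcon ⟨_, h3, not_lt.1 h5⟩
    rw [h2, map_smul, norm_smul, Real.norm_of_nonneg (inv_pos.2 hs).le, lt_inv_mul_iff₀ hs] at h4
    have h5 := pow_le_pow_left₀ (mul_pos hs hε).le h4.le 2
    rw [mul_pow, Real.sq_sqrt hf.le] at h5
    linarith
  have hpos : ∀ n, 1 ≤ n → 0 < En S (mu S n) := by
    intro n hn
    by_contra h2
    have h3 := En_mu_ge hS hG hn
    have h4 : (C * (n : ℝ) ^ d) * ((2 * n + 1) ^ 2 * (S.card * En S (mu S n))) ≤ 0 :=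
      mul_nonpos_of_nonneg_of_nonpos (by positivity) (mul_nonpos_of_nonneg_of_nonpos (by positivity)
        (mul_nonpos_of_nonneg_of_nonpos hk.le (not_lt.1 h2)))
    linarith
  obtain ⟨q, hq⟩ : ∃ q : ℝ, q = 1 - 2 * ε ^ 2 / S.card := ⟨_, rfl⟩
  have hq1 : q < 1 := by
    have : 0 < 2 * ε ^ 2 / S.card := by positivity
    linarith
  have hstep : ∀ n, 1 ≤ n → En S (mu S (n + 1)) ≤ q * En S (mu S n) := by
    intro n hn
    have h2 := En_av hS (mu S n)
    have h3 := h1 _ (hpos n hn)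
    rw [← mu_succ] at h2
    refine le_of_mul_le_mul_left ?_ hk
    have h4 : S.card * (q * En S (mu S n)) =
        S.card * En S (mu S n) - 2 * (ε ^ 2 * En S (mu S n)) := by
      rw [hq]
      field_simp
    rw [h4, mu_succ]
    rw [mu_succ] at h2
    linarith
  have hq0 : 0 < q := by
    have h2 := (hpos 2 (by norm_num)).trans_le (hstep 1 le_rfl)
    exact (mul_pos_iff_of_pos_right (hpos 1 le_rfl)).1 h2
  have hdec : ∀ n, En S (mu S (n + 1)) ≤ q ^ n * En S (mu S 1) := by
    intro n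
    induction n with
    | zero => simp
    | succ n ih =>
      refine (hstep (n + 1) (by omega)).trans ?_
      rw [pow_succ', mul_assoc]
      exact mul_le_mul_of_nonneg_left ih hq0.le
  have ht := (tendsto_pow_const_mul_const_pow_of_abs_lt_one (d + 2)
    (show |q| < 1 by rwa [abs_of_pos hq0])).const_mul (9 * C * S.card * En S (mu S 1) / q)
  rw [mul_zero] at ht
  obtain ⟨N, hN1, hN⟩ := ((Filter.eventually_ge_atTop 1).and
    (ht.eventually (gt_mem_nhds one_pos))).exists
  obtain ⟨n, rfl⟩ : ∃ n, N = n + 1 := ⟨N - 1, by omega⟩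
  have h2 := En_mu_ge hS hG hN1
  have hn1 : (1 : ℝ) ≤ ((n + 1 : ℕ) : ℝ) := by exact_mod_cast hN1
  generalize ((n + 1 : ℕ) : ℝ) = x at h2 hN hn1
  have h3 : (2 * x + 1) ^ 2 * (S.card * En S (mu S (n + 1))) ≤
      9 * x ^ 2 * (S.card * (q ^ n * En S (mu S 1))) :=
    mul_le_mul (by nlinarith) (mul_le_mul_of_nonneg_left (hdec n) hk.le)
      (mul_pos hk (hpos _ hN1)).le (by positivity)
  have h4 := h2.trans (mul_le_mul_of_nonneg_left h3 (by positivity))
  have h5 : (C * x ^ d) * (9 * x ^ 2 * (S.card * (q ^ n * En S (mu S 1)))) =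
      9 * C * S.card * En S (mu S 1) / q * (x ^ (d + 2) * q ^ (n + 1)) := by
    field_simp
    ring
  linarith

/-- Proof: `f j` from `exists_almost` with `ε = 1/(j+1)`; `c j x = io (f j - tr x (f j))`,
`‖c j x‖ ≤ m x * a` (`Sym.exists_pow`, `norm_tr_pow`, `a = √(2 #S)` by `sum_sq_tr`).  `K j x y = ⟪c j x, c j y⟫`
lies in a compact box of `G → G → ℝ` (or: pointwise limit along `hyperfilter ℕ`,
`isCompact_Icc.ultrafilter_le_nhds`); `K x y` = the limit.  `psd`: `Ex f (Ex f K j) = ‖Ex f (c j)‖² ≥ 0`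
and finite sums commute with limits (`Ex_def`, `tendsto_finset_sum`, `ge_of_tendsto'`);
`inv`: `c j (g x) - c j g = io (tr g (f j - tr x (f j)))` and `inner_io_tr`;
`harm`: `∑ s, c j s = #S • io (f j - av (f j))`, of norm `≤ #S/(j+1)`;
`ne`: `∑ s, K j s s = 2 #S` (`sum_sq_tr`). -/
theorem exists_harmKer [Infinite G] {S : Finset G} (hS : Sym S) {C d : ℕ} (hG : Gro S C d) :
    ∃ K : G → G → ℝ, HarmKer S K := by
  have hcard := hS.card_pos
  choose f hf1 hf2 using fun j : ℕ =>
    exists_almost hS hG (ε := 1 / ((j : ℝ) + 1)) (by positivity)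
  obtain ⟨c, hc⟩ : ∃ c : ℕ → G → lp (fun _ : G => ℝ) 2, ∀ j x, c j x = io (f j - tr x (f j)) :=
    ⟨_, fun _ _ => rfl⟩
  have hsum : ∀ j, ∑ s ∈ S, ‖c j s‖ ^ 2 = 2 * S.card := by
    intro j
    simp only [hc]
    rw [sum_sq_tr hS, hf1, mul_one]
  have hB : ∀ x, ∃ B : ℝ, ∀ j, ‖c j x‖ ≤ B := by
    intro x
    obtain ⟨m, hm⟩ := hS.exists_pow x
    refine ⟨m * √(2 * S.card), fun j => ?_⟩
    rw [hc]
    refine norm_tr_pow (f j) (fun s hs => ?_) m hm
    rw [← hc]
    refine Real.le_sqrt_of_sq_le ?_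
    rw [← hsum j]
    exact Finset.single_le_sum (f := fun s => ‖c j s‖ ^ 2) (fun _ _ => sq_nonneg _) hs
  choose B hB using hB
  have hK : ∀ x y, ∃ k : ℝ, Filter.Tendsto (fun j => ⟪c j x, c j y⟫_ℝ)
      (Filter.hyperfilter ℕ) (nhds k) := by
    intro x y
    obtain ⟨k, -, hk⟩ := (isCompact_Icc (a := -(B x * B y)) (b := B x * B y)).ultrafilter_le_nhds
      ((Filter.hyperfilter ℕ).map fun j => ⟪c j x, c j y⟫_ℝ) (by
        rw [Filter.le_principal_iff, Ultrafilter.coe_map, Filter.mem_map]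
        refine Filter.univ_mem' fun j => abs_le.mp ((abs_real_inner_le_norm _ _).trans ?_)
        exact mul_le_mul (hB x j) (hB y j) (norm_nonneg _) ((norm_nonneg _).trans (hB x j)))
    exact ⟨k, hk⟩
  choose K hK using hK
  refine ⟨K, fun x y => ?_, fun g => ?_, fun g x y => ?_, fun y => ?_, ?_⟩
  · refine tendsto_nhds_unique (hK x y) ((hK y x).congr fun j => real_inner_comm _ _)
  · simp only [Ex_def, smul_eq_mul]
    refine ge_of_tendsto' (tendsto_finsetSum _ fun x _ => Filter.Tendsto.const_mul (g x)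
      (tendsto_finsetSum _ fun y _ => (hK x y).const_mul (g y))) fun j => ?_
    have h := real_inner_self_nonneg (x := ∑ x ∈ g.support, g x • c j x)
    simp only [sum_inner, inner_sum, real_inner_smul_left, real_inner_smul_right] at h
    simp only [Finset.mul_sum] at h ⊢
    rw [Finset.sum_comm] at h
    refine h.trans (le_of_eq (Finset.sum_congr rfl fun x _ => Finset.sum_congr rfl fun y _ => ?_))
    ring
  · refine tendsto_nhds_unique ((((hK (g * x) (g * y)).sub (hK (g * x) g)).sub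
      (hK g (g * y))).add (hK g g)) ((hK x y).congr fun j => ?_)
    have e : ∀ z, c j (g * z) - c j g = io (tr g (f j - tr z (f j))) := by
      intro z
      rw [hc, hc, ← map_sub, map_sub (tr g), ← tr_mul]
      congr 1
      abel
    rw [hc j x, hc j y, ← inner_io_tr g, ← e, ← e, inner_sub_left, inner_sub_right,
      inner_sub_right]
    ring
  · refine tendsto_nhds_unique (tendsto_finsetSum _ fun s _ => hK s y) ?_
    have h0 : Filter.Tendsto (fun j : ℕ => (S.card : ℝ) * (1 / ((j : ℝ) + 1)) * B y)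
        (Filter.hyperfilter ℕ) (nhds 0) := by
      have h := ((tendsto_one_div_add_atTop_nhds_zero_nat (𝕜 := ℝ)).const_mul
        (S.card : ℝ)).mul_const (B y)
      rw [mul_zero, zero_mul] at h
      exact h.mono_left Nat.hyperfilter_le_atTop
    refine squeeze_zero_norm (fun j => ?_) h0
    have e : ∑ s ∈ S, c j s = (S.card : ℝ) • io (f j - av S (f j)) := by
      simp only [hc]
      rw [← map_sum, ← map_smul, av_eq, smul_sub, smul_smul, mul_inv_cancel₀ hcard.ne', one_smul,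
        Finset.sum_sub_distrib, Finset.sum_const, Nat.cast_smul_eq_nsmul]
    rw [← sum_inner, e, Real.norm_eq_abs]
    refine (abs_real_inner_le_norm _ _).trans ?_
    rw [norm_smul, Real.norm_eq_abs, abs_of_pos hcard]
    exact mul_le_mul (mul_le_mul_of_nonneg_left (hf2 j) hcard.le) (hB y j) (norm_nonneg _)
      (by positivity)
  · have h : ∑ s ∈ S, K s s = 2 * S.card := by
      refine tendsto_nhds_unique (tendsto_finsetSum _ fun s _ => hK s s)
        (tendsto_const_nhds.congr fun j => ?_)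
      rw [← hsum j]
      exact Finset.sum_congr rfl fun s _ => (real_inner_self_eq_norm_sq _).symm
    refine Finset.exists_ne_zero_of_sum_ne_zero ?_
    rw [h]
    positivity

end Crest.Agent.R182.GA
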