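import Crest.Agent.R182.GBDefs

/-! Row 182, block G4 (abstract part): shrinking commutators force fast growth. -/

set_option autoImplicit false
set_option linter.dupNamespace false

namespace Crest.Agent.R182

variable {G : Type*} [Group G]

/-- a bi-invariant seminorm of the type `‖ρ g - 1‖` -/
structure BN (N : G → ℝ) : Prop where
  nonneg : ∀ g, 0 ≤ N g
  one : N 1 = 0
  mul : ∀ g h, N (g * h) ≤ N g + N h
  inv : ∀ g, N g⁻¹ = N g
  comm : ∀ g h, N (g * h * g⁻¹ * h⁻¹) ≤ 2 * N g * N h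
  pow : ∀ g (i : ℕ), i * N g ≤ 1 → i * N g / 2 ≤ N (g ^ i)

theorem BN.pow_le {N : G → ℝ} (hN : BN N) (g : G) (i : ℕ) : N (g ^ i) ≤ i * N g := by
  induction i with
  | zero => simp [hN.one]
  | succ i ih =>
    rw [pow_succ]
    have := hN.mul (g ^ i) g
    push_cast
    linarith

open Classical in
/-- the products `h j ^ a₀ * h (j+1) ^ a₁ * ⋯` with `m` factors, `aᵢ < M` -/
noncomputable def cw (h : ℕ → G) (M : ℕ) : ℕ → ℕ → Finset G
  | 0, _ => {1}
  | m + 1, j => (Finset.range M ×ˢ cw h M m (j + 1)).image fun p => h j ^ p.1 * p.2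

/-- induction on `m` generalising `j`:
`N (h j ^ a * w) ≤ M δ_j + 2 M δ_{j+1} ≤ 2 M δ_j` -/
theorem cw_norm {N : G → ℝ} (hN : BN N) {h : ℕ → G} (M : ℕ)
    (hd : ∀ k, N (h (k + 1)) ≤ N (h k) / 2) (m j : ℕ) :
    ∀ w ∈ cw h M m j, N w ≤ 2 * M * N (h j) := by
  classical
  induction m generalizing j with
  | zero =>
    intro w hw
    rw [cw, Finset.mem_singleton] at hw
    rw [hw, hN.one]
    have := hN.nonneg (h j)
    positivity
  | succ m ih =>
    intro w hw
    rw [cw, Finset.mem_image] at hw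
    obtain ⟨⟨a, v⟩, hp, rfl⟩ := hw
    rw [Finset.mem_product, Finset.mem_range] at hp
    have h1 := hN.mul (h j ^ a) v
    have h2 := hN.pow_le (h j) a
    have h3 := ih (j + 1) v hp.2
    have h4 : (a : ℝ) ≤ M := by exact_mod_cast hp.1.le
    have h5 := hN.nonneg (h j)
    have h6 := hd j
    have h7 : (0 : ℝ) ≤ M := Nat.cast_nonneg M
    have h8 := mul_le_mul_of_nonneg_left h6 h7
    have h9 := mul_le_mul_of_nonneg_right h4 h5
    simp only
    linarith

/-- induction on `m` generalising `j` (`Finset.card_image_of_injOn`): if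
`h j ^ a * w = h j ^ a' * w'` with `a' < a < M` then `h j ^ (a - a') = w' * w⁻¹` up to order, and
`δ_j / 2 ≤ N (h j ^ (a - a')) ≤ 4 M δ_{j+1} < δ_j / 2` -/
theorem cw_card {N : G → ℝ} (hN : BN N) {h : ℕ → G} {M : ℕ} (hM : 1 ≤ M)
    (hpos : ∀ k, 0 < N (h k)) (hsm : ∀ k, M * N (h k) ≤ 1)
    (hd : ∀ k, 8 * M * N (h (k + 1)) < N (h k)) (m j : ℕ) : (cw h M m j).card = M ^ m := by
  classical
  have hM' : (1 : ℝ) ≤ M := by exact_mod_cast hM
  have hd' : ∀ k, N (h (k + 1)) ≤ N (h k) / 2 := fun k => by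
    have := hd k
    have := hpos (k + 1)
    nlinarith
  induction m generalizing j with
  | zero => simp [cw]
  | succ m ih =>
    have key : ∀ (a a' : ℕ) (w w' : G), a' < a → a < M → w ∈ cw h M m (j + 1) →
        w' ∈ cw h M m (j + 1) → h j ^ a * w ≠ h j ^ a' * w' := by
      intro a a' w w' h1 h2 hw hw' he
      obtain ⟨c, rfl⟩ := Nat.exists_eq_add_of_lt h1
      have e : h j ^ (c + 1) = w' * w⁻¹ := by
        rw [add_assoc, pow_add, mul_assoc] at he
        rw [← mul_left_cancel he, mul_inv_cancel_right]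
      have h3 := hN.mul w' w⁻¹
      rw [hN.inv, ← e] at h3
      have h4 := cw_norm hN M hd' m (j + 1) w hw
      have h5 := cw_norm hN M hd' m (j + 1) w' hw'
      have h6 : ((c + 1 : ℕ) : ℝ) ≤ M := by exact_mod_cast (by omega : c + 1 ≤ M)
      have h7 := hN.pow (h j) (c + 1)
        ((mul_le_mul_of_nonneg_right h6 (hpos j).le).trans (hsm j))
      have h8 : (1 : ℝ) ≤ ((c + 1 : ℕ) : ℝ) := by exact_mod_cast (by omega : 1 ≤ c + 1)
      have h9 := mul_le_mul_of_nonneg_right h8 (hpos j).le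
      have := hd j
      linarith
    rw [cw, Finset.card_image_of_injOn, Finset.card_product, Finset.card_range, ih, pow_succ']
    rintro ⟨a, w⟩ hp ⟨a', w'⟩ hp' he
    rw [Finset.mem_coe, Finset.mem_product, Finset.mem_range] at hp hp'
    rcases lt_trichotomy a a' with hlt | rfl | hlt
    · exact absurd he.symm (key a' a w' w hlt hp'.1 hp'.2 hp.2)
    · rw [show w = w' from mul_left_cancel he]
    · exact absurd he (key a a' w w' hlt hp.1 hp.2 hp'.2)

/-- induction on `m` generalising `j`: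
`M * (3 * 2 ^ j) + M * (3 * (2 ^ (j + 1 + m) - 2 ^ (j + 1)))`, stated additively -/
theorem cw_ball {T : Set G} {h : ℕ → G} (M : ℕ) (hb : ∀ k, h k ∈ Ball T (3 * 2 ^ k)) (m j : ℕ) :
    ∀ w ∈ cw h M m j, ∃ r, r + 3 * M * 2 ^ j = 3 * M * 2 ^ (j + m) ∧ w ∈ Ball T r := by
  classical
  induction m generalizing j with
  | zero =>
    intro w hw
    rw [cw, Finset.mem_singleton] at hw
    exact ⟨0, by simp, hw ▸ Ball.one_mem T 0⟩
  | succ m ih =>
    intro w hw
    rw [cw, Finset.mem_image] at hw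
    obtain ⟨⟨a, v⟩, hp, rfl⟩ := hw
    rw [Finset.mem_product, Finset.mem_range] at hp
    obtain ⟨r, hr, hv⟩ := ih (j + 1) v hp.2
    refine ⟨M * (3 * 2 ^ j) + r, ?_, Ball.mul_mem (Ball.mono subset_rfl
      (Nat.mul_le_mul_right _ hp.1.le) (Ball.pow_mem (hb j) a)) hv⟩
    rw [show j + (m + 1) = j + 1 + m by ring, ← hr, pow_succ]
    ring

/-- `h k ∈ Ball T (3 * 2 ^ k - 2)` by induction -/
theorem chain_ball {T : Set G} {h s : ℕ → G} (h0 : h 0 ∈ T) (hs : ∀ k, s k ∈ T)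
    (hh : ∀ k, h (k + 1) = s k * h k * (s k)⁻¹ * (h k)⁻¹) (k : ℕ) :
    h k ∈ Ball T (3 * 2 ^ k) := by
  have key : ∀ k, ∃ r, r + 2 = 3 * 2 ^ k ∧ h k ∈ Ball T r := by
    intro k
    induction k with
    | zero => exact ⟨1, by norm_num, Ball.mem_of_mem h0⟩
    | succ k ih =>
      obtain ⟨r, hr, hm⟩ := ih
      refine ⟨1 + r + 1 + r, by rw [pow_succ]; omega, ?_⟩
      rw [hh]
      have h1 := Ball.mem_of_mem (hs k)
      exact Ball.mul_mem (Ball.mul_mem (Ball.mul_mem h1 hm) (Ball.inv_mem h1)) (Ball.inv_mem hm)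
  obtain ⟨r, hr, hm⟩ := key k
  exact Ball.mono subset_rfl (by omega) hm

/-- `M = 2 ^ d + 1`; `N (h (k+1)) ≤ 2 ε N (h k)`; `M ^ m = |cw h M m 0| ≤ C * (3 M 2 ^ m) ^ d`
contradicts `exists_pow_gt` (`b = 2`, `A = 3 M`). -/
theorem no_chain {d : ℕ} (hG : PG G d) {N : G → ℝ} (hN : BN N) (T : Finset G)
    (hT : ∀ t ∈ T, N t < 1 / (16 * (2 ^ d + 1))) {h s : ℕ → G} (h0 : h 0 ∈ T) (hs : ∀ k, s k ∈ T)
    (hh : ∀ k, h (k + 1) = s k * h k * (s k)⁻¹ * (h k)⁻¹) (hpos : ∀ k, 0 < N (h k)) : False := by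
  obtain ⟨M, hM⟩ : ∃ M : ℕ, M = 2 ^ d + 1 := ⟨_, rfl⟩
  have hM1 : 1 ≤ M := by rw [hM]; exact Nat.le_add_left _ _
  have hMr : (M : ℝ) = 2 ^ d + 1 := by rw [hM]; push_cast; ring
  have hM1r : (1 : ℝ) ≤ M := by exact_mod_cast hM1
  have hT' : ∀ t ∈ T, 16 * M * N t < 1 := by
    intro t ht
    have h1 := hT t ht
    rw [← hMr, lt_div_iff₀ (by positivity)] at h1
    linarith
  have hd : ∀ k, 8 * M * N (h (k + 1)) < N (h k) := by
    intro k
    have h1 : N (h (k + 1)) ≤ 2 * N (s k) * N (h k) := by rw [hh]; exact hN.comm _ _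
    have h2 := hT' _ (hs k)
    have h3 := hpos k
    calc 8 * M * N (h (k + 1)) ≤ 8 * M * (2 * N (s k) * N (h k)) :=
          mul_le_mul_of_nonneg_left h1 (by positivity)
      _ = (16 * M * N (s k)) * N (h k) := by ring
      _ < 1 * N (h k) := mul_lt_mul_of_pos_right h2 h3
      _ = N (h k) := one_mul _
  have hsm : ∀ k, M * N (h k) ≤ 1 := by
    intro k
    induction k with
    | zero =>
      have h1 := hT' _ h0
      have h2 : 0 ≤ M * N (h 0) := mul_nonneg (by positivity) (hN.nonneg _)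
      linarith
    | succ k ih =>
      have h1 := hd k
      have h2 : 0 ≤ M * N (h (k + 1)) := mul_nonneg (by positivity) (hN.nonneg _)
      have h3 : N (h k) ≤ M * N (h k) := le_mul_of_one_le_left (hN.nonneg _) hM1r
      linarith
  obtain ⟨C, hC⟩ := hG T
  obtain ⟨m, -, hm⟩ := exists_pow_gt C (3 * M) d 2 M (by norm_num) (by omega)
  have hb : ∀ k, h k ∈ Ball (T : Set G) (3 * 2 ^ k) :=
    chain_ball (T := (T : Set G)) (s := s) h0 hs hh
  have hsub : (cw h M m 0 : Set G) ⊆ Ball (T : Set G) (3 * M * 2 ^ m) := by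
    intro w hw
    obtain ⟨r, hr, hw'⟩ := cw_ball M hb m 0 w hw
    rw [zero_add] at hr
    exact Ball.mono subset_rfl (by omega) hw'
  have h1 := Set.ncard_le_ncard hsub (Ball.finite T.finite_toSet _)
  rw [Set.ncard_coe_finset, cw_card hN hM1 hpos hsm hd] at h1
  have h2 := hC (3 * M * 2 ^ m) (Nat.succ_le_of_lt (by positivity))
  omega

end Crest.Agent.R182
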