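import Mathlib
import Crest.Prelude.Def_WordHyperbolic
import Crest.Prelude.Def_Polycyclic

/-! Row 182, block G: balls and polynomial growth (generator-free form). -/

set_option autoImplicit false
set_option linter.dupNamespace false

namespace Crest.Agent.R182

open Crest.GroupTheory

variable {G G' : Type*} [Group G] [Group G']

/-- products of at most `r` elements of `T ∪ T⁻¹` -/
def Ball (T : Set G) (r : ℕ) : Set G :=
  {g | ∃ l : List G, l.length ≤ r ∧ (∀ x ∈ l, x ∈ T ∨ x⁻¹ ∈ T) ∧ l.prod = g}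

/-- polynomial growth of degree at most `d`, for EVERY finite subset (generating or not) -/
def PG (G : Type*) [Group G] (d : ℕ) : Prop :=
  ∀ T : Finset G, ∃ C : ℕ, ∀ r : ℕ, 1 ≤ r → (Ball (T : Set G) r).ncard ≤ C * r ^ d

theorem h31_ball_zero (T : Set G) : Ball T 0 = {1} := by
  ext g
  constructor
  · rintro ⟨l, hl, -, rfl⟩
    rw [List.length_eq_zero_iff.1 (Nat.le_zero.1 hl)]
    rfl
  · rintro rfl
    exact ⟨[], le_rfl, fun _ h => absurd h List.not_mem_nil, rfl⟩

theorem h31_ball_succ {T : Set G} {r : ℕ} {g : G} (h : g ∈ Ball T (r + 1)) :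
    g = 1 ∨ ∃ x, (x ∈ T ∨ x⁻¹ ∈ T) ∧ ∃ b ∈ Ball T r, x * b = g := by
  obtain ⟨l, hl, hT, rfl⟩ := h
  cases l with
  | nil => exact Or.inl rfl
  | cons x l =>
    exact Or.inr ⟨x, hT x List.mem_cons_self, l.prod, ⟨l, Nat.le_of_succ_le_succ hl,
      fun y hy => hT y (List.mem_cons_of_mem _ hy), rfl⟩, List.prod_cons.symm⟩

/-- image of the finite set of lists of length `≤ r` over `T ∪ T⁻¹`
(`List.finite_length_le` on the subtype, or induction on `r`) -/
theorem Ball.finite {T : Set G} (hT : T.Finite) (r : ℕ) : (Ball T r).Finite := by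
  induction r with
  | zero => rw [h31_ball_zero]; exact Set.finite_singleton _
  | succ r ih =>
    refine (((hT.union hT.inv).image2 (· * ·) ih).insert 1).subset fun g hg => ?_
    rcases h31_ball_succ hg with rfl | ⟨x, hx, b, hb, rfl⟩
    · exact Set.mem_insert _ _
    · exact Set.mem_insert_of_mem _ ⟨x, hx, b, hb, rfl⟩

theorem Ball.one_mem (T : Set G) (r : ℕ) : (1 : G) ∈ Ball T r := by
  exact ⟨[], Nat.zero_le _, fun _ h => absurd h List.not_mem_nil, rfl⟩

theorem Ball.mem_of_mem {T : Set G} {g : G} (h : g ∈ T) : g ∈ Ball T 1 := by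
  exact ⟨[g], le_rfl, fun x hx => Or.inl (List.mem_singleton.1 hx ▸ h), List.prod_singleton⟩

theorem Ball.mono {T T' : Set G} (hT : T ⊆ T') {r r' : ℕ} (h : r ≤ r') :
    Ball T r ⊆ Ball T' r' := by
  rintro _ ⟨l, hl, hx, rfl⟩
  exact ⟨l, hl.trans h, fun x hxl => (hx x hxl).imp (fun h => hT h) fun h => hT h, rfl⟩

theorem Ball.mul_mem {T : Set G} {a b : G} {r s : ℕ} (ha : a ∈ Ball T r) (hb : b ∈ Ball T s) :
    a * b ∈ Ball T (r + s) := by
  obtain ⟨l, hl, hx, rfl⟩ := ha
  obtain ⟨l', hl', hx', rfl⟩ := hb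
  refine ⟨l ++ l', by rw [List.length_append]; omega, fun x h => ?_, List.prod_append⟩
  rcases List.mem_append.1 h with h | h
  · exact hx x h
  · exact hx' x h

theorem Ball.inv_mem {T : Set G} {a : G} {r : ℕ} (ha : a ∈ Ball T r) : a⁻¹ ∈ Ball T r := by
  obtain ⟨l, hl, hx, rfl⟩ := ha
  refine ⟨(l.map fun x => x⁻¹).reverse, by rwa [List.length_reverse, List.length_map],
    fun x h => ?_, (List.prod_inv_reverse l).symm⟩
  obtain ⟨y, hy, rfl⟩ := List.mem_map.1 (List.mem_reverse.1 h)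
  rw [inv_inv]
  exact (hx y hy).symm

theorem Ball.pow_mem {T : Set G} {a : G} {r : ℕ} (ha : a ∈ Ball T r) (k : ℕ) :
    a ^ k ∈ Ball T (k * r) := by
  induction k with
  | zero => rw [pow_zero]; exact Ball.one_mem _ _
  | succ k ih => rw [pow_succ, Nat.succ_mul]; exact Ball.mul_mem ih ha

theorem Ball.mem_closure {T : Set G} {a : G} {r : ℕ} (ha : a ∈ Ball T r) :
    a ∈ Subgroup.closure T := by
  obtain ⟨l, -, hx, rfl⟩ := ha
  refine Subgroup.list_prod_mem _ fun x h => ?_
  rcases hx x h with h | h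
  · exact Subgroup.subset_closure h
  · exact (Subgroup.inv_mem_iff _).1 (Subgroup.subset_closure h)

theorem Ball.exists_of_mem_closure {T : Set G} {a : G} (ha : a ∈ Subgroup.closure T) :
    ∃ r, a ∈ Ball T r := by
  induction ha using Subgroup.closure_induction with
  | mem x hx => exact ⟨1, Ball.mem_of_mem hx⟩
  | one => exact ⟨0, Ball.one_mem _ _⟩
  | mul x y _ _ hx hy =>
    obtain ⟨r, hr⟩ := hx
    obtain ⟨s, hs⟩ := hy
    exact ⟨r + s, Ball.mul_mem hr hs⟩
  | inv x _ hx =>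
    obtain ⟨r, hr⟩ := hx
    exact ⟨r, Ball.inv_mem hr⟩

/-- change of generators -/
theorem Ball.subset_of {T T' : Set G} {m : ℕ} (h : ∀ t ∈ T', t ∈ Ball T m) (r : ℕ) :
    Ball T' r ⊆ Ball T (r * m) := by
  induction r with
  | zero => rw [h31_ball_zero, Set.singleton_subset_iff]; exact Ball.one_mem _ _
  | succ r ih =>
    intro g hg
    rcases h31_ball_succ hg with rfl | ⟨x, hx, b, hb, rfl⟩
    · exact Ball.one_mem _ _
    · rw [Nat.succ_mul, add_comm]
      refine Ball.mul_mem ?_ (ih hb)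
      rcases hx with hx | hx
      · exact h x hx
      · exact inv_inv x ▸ Ball.inv_mem (h _ hx)

theorem Ball.image (f : G →* G') (T : Set G) (r : ℕ) : f '' Ball T r = Ball (f '' T) r := by
  induction r with
  | zero => rw [h31_ball_zero, h31_ball_zero, Set.image_singleton, map_one]
  | succ r ih =>
    refine Set.Subset.antisymm ?_ fun g hg => ?_
    · rintro _ ⟨_, ⟨l, hl, hx, rfl⟩, rfl⟩
      refine ⟨l.map f, by rwa [List.length_map], fun y hy => ?_, (map_list_prod f l).symm⟩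
      obtain ⟨x, hxl, rfl⟩ := List.mem_map.1 hy
      rw [← map_inv]
      exact (hx x hxl).imp (Set.mem_image_of_mem f) (Set.mem_image_of_mem f)
    · rcases h31_ball_succ hg with rfl | ⟨x, hx, b, hb, rfl⟩
      · exact ⟨1, Ball.one_mem _ _, map_one f⟩
      · rw [← ih] at hb
        obtain ⟨b, hb, rfl⟩ := hb
        rw [add_comm]
        rcases hx with ⟨y, hy, rfl⟩ | ⟨y, hy, e⟩
        · exact ⟨y * b, Ball.mul_mem (Ball.mem_of_mem hy) hb, map_mul f y b⟩
        · exact ⟨y⁻¹ * b, Ball.mul_mem (Ball.inv_mem (Ball.mem_of_mem hy)) hb, by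
            rw [map_mul, map_inv, e, inv_inv]⟩

/-- for a generating set the balls are the balls of the word metric -/
theorem Ball.eq_wordDist {T : Set G} (hT : Subgroup.closure T = ⊤) (r : ℕ) :
    Ball T r = {g | wordDist T 1 g ≤ r} := by
  ext g
  have hne : {n : ℕ | ∃ l : List G, l.length = n ∧ (∀ x ∈ l, x ∈ T ∨ x⁻¹ ∈ T) ∧
      l.prod = g}.Nonempty := by
    obtain ⟨s, l, -, h2, h3⟩ :=
      Ball.exists_of_mem_closure (T := T) (a := g) (hT ▸ Subgroup.mem_top g)
    exact ⟨l.length, l, rfl, h2, h3⟩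
  simp only [Set.mem_ofPred_eq, GroupTheory.wordDist, inv_one, one_mul, Nat.cast_le, wordLength]
  constructor
  · rintro ⟨l, h1, h2, h3⟩
    refine le_trans (Nat.sInf_le ?_) h1
    exact ⟨l, rfl, h2, h3⟩
  · intro h
    obtain ⟨l, h1, h2, h3⟩ := Nat.sInf_mem hne
    exact ⟨l, h1.le.trans h, h2, h3⟩

/-- any finite `T'` lies in `Ball T m` for some `m ≥ 1`; constant `C * m ^ d` -/
theorem PG.of_wordDist (T : Finset G) (hT : Subgroup.closure (T : Set G) = ⊤) (C d : ℕ)
    (h : ∀ r : ℕ, 1 ≤ r → Set.ncard {g | wordDist (T : Set G) 1 g ≤ r} ≤ C * r ^ d) :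
    PG G d := by
  intro T'
  have h1 : ∀ t : G, ∃ s, t ∈ Ball (T : Set G) s := fun t =>
    Ball.exists_of_mem_closure (hT ▸ Subgroup.mem_top t)
  choose s hs using h1
  set m : ℕ := T'.sup s + 1 with hm
  have h2 : ∀ t ∈ (T' : Set G), t ∈ Ball (T : Set G) m := fun t ht =>
    Ball.mono subset_rfl ((Finset.le_sup (f := s) ht).trans (Nat.le_succ _)) (hs t)
  refine ⟨C * m ^ d, fun r hr => ?_⟩
  have h3 := h (r * m) (Nat.mul_pos hr (Nat.succ_pos _))
  rw [← Ball.eq_wordDist hT] at h3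
  calc (Ball (T' : Set G) r).ncard ≤ (Ball (T : Set G) (r * m)).ncard :=
        Set.ncard_le_ncard (Ball.subset_of h2 r) (Ball.finite T.finite_toSet _)
    _ ≤ C * (r * m) ^ d := h3
    _ = C * m ^ d * r ^ d := by rw [mul_pow, mul_comm (r ^ d), mul_assoc]

theorem PG.wordDist {d : ℕ} (h : PG G d) (T : Finset G)
    (hT : Subgroup.closure (T : Set G) = ⊤) :
    ∃ C : ℕ, ∀ r : ℕ, 1 ≤ r → Set.ncard {g | wordDist (T : Set G) 1 g ≤ r} ≤ C * r ^ d := by
  obtain ⟨C, hC⟩ := h T
  exact ⟨C, fun r hr => by rw [← Ball.eq_wordDist hT]; exact hC r hr⟩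

/-- `Ball.image`, `Set.ncard_image_of_injective` -/
theorem PG.of_injective {d : ℕ} (h : PG G' d) (f : G →* G') (hf : Function.Injective f) :
    PG G d := by
  classical
  intro T
  obtain ⟨C, hC⟩ := h (T.image f)
  refine ⟨C, fun r hr => ?_⟩
  have := hC r hr
  rwa [Finset.coe_image, ← Ball.image, Set.ncard_image_of_injective _ hf] at this

theorem PG.subgroup {d : ℕ} (h : PG G d) (H : Subgroup G) : PG H d :=
  h.of_injective H.subtype H.subtype_injective

/-- degree `0`: the balls of a generating set are increasing, cover `G`, and have at most `C`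
elements (any finite subset of `G` lies in one ball) -/
theorem PG.finite_of_zero (hG : Group.FG G) (h : PG G 0) : Finite G := by
  obtain ⟨T, hT⟩ := hG.out
  obtain ⟨C, hC⟩ := h T
  by_contra hinf
  rw [not_finite_iff_infinite] at hinf
  obtain ⟨S, hS⟩ := Infinite.exists_subset_card_eq G (C + 1)
  have h1 : ∀ t : G, ∃ s, t ∈ Ball (T : Set G) s := fun t =>
    Ball.exists_of_mem_closure (hT ▸ Subgroup.mem_top t)
  choose s hs using h1
  have h2 : (S : Set G) ⊆ Ball (T : Set G) (S.sup s + 1) := fun t ht =>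
    Ball.mono subset_rfl ((Finset.le_sup (f := s) ht).trans (Nat.le_succ _)) (hs t)
  have h3 := (Set.ncard_le_ncard h2 (Ball.finite T.finite_toSet _)).trans
    (hC _ (Nat.succ_pos _))
  rw [Set.ncard_coe_finset, hS, pow_zero, mul_one] at h3
  omega

/-- exponential beats polynomial -/
theorem exists_pow_gt (C A d b M : ℕ) (hb : 1 ≤ b) (hM : b ^ d < M) :
    ∃ m : ℕ, 1 ≤ m ∧ C * (A * b ^ m) ^ d < M ^ m := by
  have hb0 : (0 : ℝ) < (b : ℝ) ^ d := by positivity
  have hq : (1 : ℝ) < (M : ℝ) / (b : ℝ) ^ d := by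
    rw [one_lt_div hb0]; exact_mod_cast hM
  obtain ⟨m, hm⟩ := ((tendsto_pow_atTop_atTop_of_one_lt hq).eventually_gt_atTop
    ((C * A ^ d : ℕ) : ℝ)).and (Filter.eventually_ge_atTop 1) |>.exists
  refine ⟨m, hm.2, ?_⟩
  have h1 := hm.1
  rw [div_pow, lt_div_iff₀ (by positivity)] at h1
  have h2 : C * (A * b ^ m) ^ d = C * A ^ d * (b ^ d) ^ m := by
    rw [mul_pow, ← pow_mul, ← pow_mul, mul_comm m d, mul_assoc]
  rw [h2]
  exact_mod_cast h1

/-- exponential beats polynomial -/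
theorem exists_two_pow_gt (C d : ℕ) : ∃ m : ℕ, 1 ≤ m ∧ C * (2 * m) ^ d < 2 ^ m := by
  have h := tendsto_pow_const_div_const_pow_of_one_lt d (r := 2) one_lt_two
  have h0 : (0 : ℝ) < 1 / ((C * 2 ^ d : ℕ) + 1 : ℝ) := by positivity
  obtain ⟨m, hm⟩ := ((h.eventually_lt_const h0).and (Filter.eventually_ge_atTop 1)).exists
  refine ⟨m, hm.2, ?_⟩
  have h1 := hm.1
  rw [div_lt_div_iff₀ (by positivity) (by positivity), one_mul] at h1
  have h2 : ((C * (2 * m) ^ d : ℕ) : ℝ) < (2 : ℝ) ^ m := by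
    refine lt_of_le_of_lt ?_ h1
    push_cast
    have : (0 : ℝ) ≤ (m : ℝ) ^ d := by positivity
    rw [mul_pow]
    nlinarith
  exact_mod_cast h2

end Crest.Agent.R182
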