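import Crest.Agent.R182.GBChain

/-! Row 182, block G4: unitary images of groups of polynomial growth are virtually abelian. -/

set_option autoImplicit false
set_option linter.dupNamespace false

namespace Crest.Agent.R182

universe u v

section

variable {G : Type*} [Group G] {V : Type*} [NormedAddCommGroup V] [InnerProductSpace ℂ V]
  {ρ : G →* (V →L[ℂ] V)}

/-- `‖ρ g * A‖ = ‖A‖ = ‖A * ρ g‖` (use `ρ g⁻¹` and `‖ρ g‖ ≤ 1`) -/
theorem norm_rho_mul (hρ : ∀ g v, ‖ρ g v‖ = ‖v‖) (g : G) (A : V →L[ℂ] V) :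
    ‖ρ g * A‖ = ‖A‖ ∧ ‖A * ρ g‖ = ‖A‖ := by
  have key : ∀ (g : G) (A : V →L[ℂ] V), ‖A * ρ g‖ ≤ ‖A‖ := fun g A =>
    ContinuousLinearMap.opNorm_le_bound _ (norm_nonneg _) fun v => by
      have := A.le_opNorm (ρ g v)
      rwa [hρ] at this
  refine ⟨ContinuousLinearMap.opNorm_ext _ _ fun v => hρ g (A v), le_antisymm (key g A) ?_⟩
  have := key g⁻¹ (A * ρ g)
  rwa [mul_assoc, ← map_mul, mul_inv_cancel, map_one, mul_one] at this

/-- `ρ(gh) - 1 = ρ g (ρ h - 1) + (ρ g - 1)`;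
`ρ [g,h] - 1 = ((ρ g - 1)(ρ h - 1) - (ρ h - 1)(ρ g - 1)) ρ(g⁻¹ h⁻¹)`;
`ρ g ^ (i+1) - 1 = (ρ g ^ i - 1) + (ρ g - 1) + (ρ g ^ i - 1)(ρ g - 1)` gives by induction
`‖ρ g ^ i - 1 - i • (ρ g - 1)‖ ≤ i ^ 2 δ ^ 2 / 2`. -/
theorem bn_rho (hρ : ∀ g v, ‖ρ g v‖ = ‖v‖) : BN fun g => ‖ρ g - 1‖ := by
  have hmul : ∀ g h : G, ‖ρ (g * h) - 1‖ ≤ ‖ρ g - 1‖ + ‖ρ h - 1‖ := fun g h => by
    have e : ρ (g * h) - 1 = (ρ g - 1) + ρ g * (ρ h - 1) := by
      rw [map_mul, mul_sub, mul_one]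
      abel
    rw [e, ← (norm_rho_mul hρ g (ρ h - 1)).1]
    exact norm_add_le _ _
  have hle : ∀ (g : G) (i : ℕ), ‖ρ (g ^ i) - 1‖ ≤ i * ‖ρ g - 1‖ := fun g i => by
    induction i with
    | zero => simp
    | succ i ih =>
      have := hmul (g ^ i) g
      rw [pow_succ]
      push_cast
      linarith
  refine ⟨fun g => norm_nonneg _, by simp, hmul, fun g => ?_, fun g h => ?_, fun g i hi => ?_⟩
  · have e : ρ g⁻¹ - 1 = ρ g⁻¹ * (1 - ρ g) := by
      rw [mul_sub, ← map_mul, inv_mul_cancel, map_one, mul_one]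
    show ‖ρ g⁻¹ - 1‖ = ‖ρ g - 1‖
    rw [e, (norm_rho_mul hρ _ _).1, norm_sub_rev]
  · have e : ρ (g * h * g⁻¹ * h⁻¹) - 1 =
        ((ρ g - 1) * (ρ h - 1) - (ρ h - 1) * (ρ g - 1)) * ρ (g⁻¹ * h⁻¹) := by
      have e1 : (ρ g - 1) * (ρ h - 1) - (ρ h - 1) * (ρ g - 1) = ρ (g * h) - ρ (h * g) := by
        simp only [map_mul]
        noncomm_ring
      rw [e1, sub_mul, ← map_mul, ← map_mul]
      have e2 : h * g * (g⁻¹ * h⁻¹) = 1 := by group
      rw [e2, map_one, mul_assoc (g * h)]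
    show ‖ρ (g * h * g⁻¹ * h⁻¹) - 1‖ ≤ 2 * ‖ρ g - 1‖ * ‖ρ h - 1‖
    rw [e, (norm_rho_mul hρ _ _).2]
    have h1 := norm_sub_le ((ρ g - 1) * (ρ h - 1)) ((ρ h - 1) * (ρ g - 1))
    have h2 := norm_mul_le (ρ g - 1) (ρ h - 1)
    have h3 := norm_mul_le (ρ h - 1) (ρ g - 1)
    linarith
  · show (i : ℝ) * ‖ρ g - 1‖ / 2 ≤ ‖ρ (g ^ i) - 1‖
    replace hi : (i : ℝ) * ‖ρ g - 1‖ ≤ 1 := hi
    have hd := norm_nonneg (ρ g - 1)
    have key : ∀ k : ℕ, ‖ρ (g ^ k) - 1 - k • (ρ g - 1)‖ ≤ (k * ‖ρ g - 1‖) ^ 2 / 2 := fun k => by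
      induction k with
      | zero => simp
      | succ k ih =>
        have e : ρ (g ^ (k + 1)) - 1 - (k + 1) • (ρ g - 1) =
            (ρ (g ^ k) - 1 - k • (ρ g - 1)) + (ρ (g ^ k) - 1) * (ρ g - 1) := by
          rw [pow_succ, map_mul, succ_nsmul]
          noncomm_ring
        rw [e]
        have h1 := norm_add_le (ρ (g ^ k) - 1 - k • (ρ g - 1)) ((ρ (g ^ k) - 1) * (ρ g - 1))
        have h2 := norm_mul_le (ρ (g ^ k) - 1) (ρ g - 1)
        have h3 := mul_le_mul_of_nonneg_right (hle g k) hd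
        push_cast
        nlinarith [sq_nonneg ‖ρ g - 1‖]
    have h1 := key i
    have h2 : ‖i • (ρ g - 1)‖ = i * ‖ρ g - 1‖ := by
      rw [← Nat.cast_smul_eq_nsmul ℂ, norm_smul, Complex.norm_natCast]
    have h3 := norm_sub_norm_le (i • (ρ g - 1)) (ρ (g ^ i) - 1)
    rw [norm_sub_rev (i • (ρ g - 1)), h2] at h3
    have h4 : 0 ≤ (i : ℝ) * ‖ρ g - 1‖ := by positivity
    nlinarith

/-- If `ρ [s, h] = c • 1` then `ρ (s ^ k h s ^ (-k)) = c ^ k • ρ h`, so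
`‖c ^ k - 1‖ * ‖ρ h‖ ≤ 2 ‖ρ h - 1‖ < 1` for all `k`, `‖ρ h‖ = 1` (if `V` is trivial the claim is
trivial).  A complex number all of whose powers are within `1` of `1` is `1`: `‖c‖ = 1`, and
`‖c ^ (2 k) - 1‖ = ‖c ^ k - 1‖ ‖c ^ k + 1‖`; e.g. `∑_{k<n} c ^ k` has real part `≥ n / 2` (from
`‖c ^ k - 1‖ < 1`, `‖c ^ k‖ = 1`) but is bounded when `c ≠ 1`. -/
theorem comm_scalar (hρ : ∀ g v, ‖ρ g v‖ = ‖v‖) {s h : G} (hh : ‖ρ h - 1‖ < 1 / 2) {c : ℂ}
    (hc : ρ (s * h * s⁻¹ * h⁻¹) = c • (1 : V →L[ℂ] V)) : ρ (s * h * s⁻¹ * h⁻¹) = 1 := by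
  rcases subsingleton_or_nontrivial V with hV | hV
  · exact Subsingleton.elim _ _
  obtain ⟨v, hv⟩ := exists_ne (0 : V)
  have hv' : 0 < ‖v‖ := norm_pos_iff.2 hv
  have h1 : ρ (s * h * s⁻¹) = c • ρ h := by
    have e : s * h * s⁻¹ = s * h * s⁻¹ * h⁻¹ * h := by group
    rw [e, map_mul, hc, smul_mul_assoc, one_mul]
  have h2 : ∀ k : ℕ, ρ (s ^ k * h * (s ^ k)⁻¹) = c ^ k • ρ h := fun k => by
    induction k with
    | zero => simp
    | succ k ih =>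
      have e : s ^ (k + 1) * h * (s ^ (k + 1))⁻¹ = s * (s ^ k * h * (s ^ k)⁻¹) * s⁻¹ := by group
      rw [e, map_mul, map_mul, ih, mul_smul_comm, smul_mul_assoc, ← map_mul, ← map_mul, h1,
        smul_smul, pow_succ]
  have h3 : ∀ k : ℕ, ‖c ^ k - 1‖ ≤ 2 * ‖ρ h - 1‖ := fun k => by
    have e : c ^ k • ρ h - 1 = ρ (s ^ k) * (ρ h - 1) * ρ (s ^ k)⁻¹ := by
      rw [← h2, mul_sub, sub_mul, mul_one, ← map_mul, ← map_mul, ← map_mul, mul_inv_cancel,
        map_one]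
    have e1 : ‖c ^ k • ρ h - 1‖ = ‖ρ h - 1‖ := by
      rw [e, (norm_rho_mul hρ _ _).2, (norm_rho_mul hρ _ _).1]
    have e2 : (c ^ k - 1) • ρ h = (c ^ k • ρ h - 1) - (ρ h - 1) := by
      rw [sub_smul, one_smul]
      abel
    have e3 : ‖(c ^ k - 1) • ρ h‖ ≤ 2 * ‖ρ h - 1‖ := by
      rw [e2]
      have := norm_sub_le (c ^ k • ρ h - 1) (ρ h - 1)
      linarith
    have e4 := ((c ^ k - 1) • ρ h).le_opNorm v
    rw [smul_apply, norm_smul, hρ] at e4
    exact (le_of_mul_le_mul_right e4 hv').trans e3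
  have h4 : c = 1 := by
    by_contra hne
    have hc1 : 0 < ‖c - 1‖ := norm_pos_iff.2 (sub_ne_zero.2 hne)
    have hη : 0 < 1 - 2 * ‖ρ h - 1‖ := by linarith
    obtain ⟨n, hn⟩ := exists_nat_gt (1 / ((1 - 2 * ‖ρ h - 1‖) * ‖c - 1‖))
    rw [div_lt_iff₀ (by positivity)] at hn
    have e1 : (n : ℝ) * (1 - 2 * ‖ρ h - 1‖) ≤ (∑ k ∈ Finset.range n, c ^ k).re := by
      rw [Complex.re_sum]
      have : ∀ k ∈ Finset.range n, 1 - 2 * ‖ρ h - 1‖ ≤ (c ^ k).re := fun k _ => by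
        have a1 := Complex.abs_re_le_norm (c ^ k - 1)
        have a2 := h3 k
        rw [Complex.sub_re, Complex.one_re] at a1
        have a3 := neg_abs_le ((c ^ k).re - 1)
        linarith
      have := Finset.sum_le_sum this
      rwa [Finset.sum_const, Finset.card_range, nsmul_eq_mul] at this
    have e2 : ‖∑ k ∈ Finset.range n, c ^ k‖ * ‖c - 1‖ = ‖c ^ n - 1‖ := by
      rw [← norm_mul, geom_sum_mul]
    have e3 := Complex.re_le_norm (∑ k ∈ Finset.range n, c ^ k)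
    have e4 := mul_le_mul_of_nonneg_right (e1.trans e3) hc1.le
    have e5 := h3 n
    nlinarith
  rw [hc, h4, one_smul]

/-- total boundedness of the unit ball of `V →L[ℂ] V`: finitely many `f` with every `ρ g` within
`ε` of some `ρ f`, and then `f⁻¹ * g` is `ε`-small -/
theorem small_finiteIndex [FiniteDimensional ℂ V] (hρ : ∀ g v, ‖ρ g v‖ = ‖v‖) {ε : ℝ}
    (hε : 0 < ε) : (Subgroup.closure {g : G | ‖ρ g - 1‖ < ε}).FiniteIndex := by
  classical
  have hle : ∀ g, ‖ρ g‖ ≤ 1 := fun g =>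
    ContinuousLinearMap.opNorm_le_bound _ zero_le_one fun v => by rw [hρ, one_mul]
  have htb : TotallyBounded (Set.range ρ) := by
    refine (isCompact_closedBall (0 : V →L[ℂ] V) 1).totallyBounded.subset ?_
    rintro _ ⟨g, rfl⟩
    simpa using hle g
  obtain ⟨t, hts, htf, hcov⟩ := Metric.finite_approx_of_totallyBounded htb ε hε
  set H := Subgroup.closure {g : G | ‖ρ g - 1‖ < ε} with hH
  have : Finite t := htf
  choose f hf using fun y : t => hts y.2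
  have : Finite (G ⧸ H) := by
    refine Finite.of_surjective (fun y : t => (QuotientGroup.mk (f y) : G ⧸ H)) fun q => ?_
    obtain ⟨g, rfl⟩ := QuotientGroup.mk_surjective q
    obtain ⟨y, hy, hg⟩ := Set.mem_iUnion₂.1 (hcov ⟨g, rfl⟩)
    refine ⟨⟨y, hy⟩, QuotientGroup.eq.2 (Subgroup.subset_closure ?_)⟩
    have e : ρ ((f ⟨y, hy⟩)⁻¹ * g) - 1 = ρ (f ⟨y, hy⟩)⁻¹ * (ρ g - y) := by
      have h1 : ρ (f ⟨y, hy⟩)⁻¹ * y = 1 := by
        have h2 : ρ (f ⟨y, hy⟩)⁻¹ * ρ (f ⟨y, hy⟩) = 1 := by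
          rw [← map_mul, inv_mul_cancel, map_one]
        rwa [hf ⟨y, hy⟩] at h2
      rw [mul_sub, ← map_mul, h1]
    change ‖ρ ((f ⟨y, hy⟩)⁻¹ * g) - 1‖ < ε
    rw [e, (norm_rho_mul hρ _ _).1, ← dist_eq_norm]
    exact hg
  exact Subgroup.finiteIndex_of_finite_quotient

/-- a finitely generated subgroup is generated by a finite part of any generating set -/
theorem exists_finset_closure {s : Set G} (h : (Subgroup.closure s).FG) :
    ∃ T : Finset G, (T : Set G) ⊆ s ∧ Subgroup.closure (T : Set G) = Subgroup.closure s := by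
  classical
  have key : ∀ g ∈ Subgroup.closure s, ∃ T : Finset G, (T : Set G) ⊆ s ∧
      g ∈ Subgroup.closure (T : Set G) := by
    intro g hg
    induction hg using Subgroup.closure_induction with
    | mem x hx => exact ⟨{x}, by simpa using hx, Subgroup.subset_closure (by simp)⟩
    | one => exact ⟨∅, by simp, Subgroup.one_mem _⟩
    | mul x y _ _ hx hy =>
      obtain ⟨A, hA, hx⟩ := hx
      obtain ⟨B, hB, hy⟩ := hy
      refine ⟨A ∪ B, by rw [Finset.coe_union]; exact Set.union_subset hA hB, ?_⟩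
      exact Subgroup.mul_mem _ (Subgroup.closure_mono (by simp) hx)
        (Subgroup.closure_mono (by simp) hy)
    | inv x _ hx =>
      obtain ⟨A, hA, hx⟩ := hx
      exact ⟨A, hA, Subgroup.inv_mem _ hx⟩
  obtain ⟨S, hS⟩ := h
  have hmem : ∀ g : S, (g : G) ∈ Subgroup.closure s := fun g =>
    hS ▸ Subgroup.subset_closure (Finset.mem_coe.2 g.2)
  choose T hT using fun g : S => key g (hmem g)
  have hsub : ((Finset.univ.biUnion T : Finset G) : Set G) ⊆ s := by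
    intro x hx
    obtain ⟨g, -, hg⟩ := Finset.mem_biUnion.1 (Finset.mem_coe.1 hx)
    exact (hT g).1 (Finset.mem_coe.2 hg)
  refine ⟨Finset.univ.biUnion T, hsub, le_antisymm (Subgroup.closure_mono hsub) ?_⟩
  rw [← hS, Subgroup.closure_le]
  intro g hg
  refine Subgroup.closure_mono ?_ (hT ⟨g, Finset.mem_coe.1 hg⟩).2
  exact Finset.coe_subset.2 (Finset.subset_biUnion_of_mem T (Finset.mem_univ _))

/-- Suppose neither alternative holds.  Some `h 0 ∈ T` is not scalar (otherwise all of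
`closure T` acts by scalars).  Invariant: `h k ∈ closure T`, `ρ (h k)` not scalar,
`‖ρ (h k) - 1‖ < ε`.  It is not central, so some `s k ∈ T` does not commute with it
(`Subgroup.closure_induction`); `h (k+1) = [s k, h k]` has `ρ ≠ 1`, is not scalar (`comm_scalar`),
and is small (`BN.comm`).  Contradiction with `no_chain`. -/
theorem comm_or_central {d : ℕ} (hG : PG G d) (hρ : ∀ g v, ‖ρ g v‖ = ‖v‖) (T : Finset G)
    (hT : ∀ t ∈ T, ‖ρ t - 1‖ < 1 / (16 * (2 ^ d + 1))) :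
    (∀ a ∈ Subgroup.closure (T : Set G), ∀ b ∈ Subgroup.closure (T : Set G),
        ρ a * ρ b = ρ b * ρ a) ∨
      ∃ z ∈ Subgroup.closure (T : Set G), (∀ c : ℂ, ρ z ≠ c • (1 : V →L[ℂ] V)) ∧
        ∀ a ∈ Subgroup.closure (T : Set G), ρ a * ρ z = ρ z * ρ a := by
  by_contra hcon
  rw [not_or] at hcon
  obtain ⟨h1, h2⟩ := hcon
  have hN := bn_rho hρ
  set ε : ℝ := 1 / (16 * (2 ^ d + 1)) with hε
  have hε2 : ε < 1 / 2 := by
    have : (0 : ℝ) < 2 ^ d := by positivity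
    rw [hε]
    exact one_div_lt_one_div_of_lt (by norm_num) (by linarith)
  have hcomm : ∀ z : G, (∀ t ∈ T, ρ t * ρ z = ρ z * ρ t) →
      ∀ a ∈ Subgroup.closure (T : Set G), ρ a * ρ z = ρ z * ρ a := by
    intro z hz a ha
    induction ha using Subgroup.closure_induction with
    | mem x hx => exact hz x (Finset.mem_coe.1 hx)
    | one => simp
    | mul x y _ _ hx hy => rw [map_mul, mul_assoc, hy, ← mul_assoc, hx, mul_assoc]
    | inv x _ hx =>
      have e1 : ρ x⁻¹ * ρ x = 1 := by rw [← map_mul, inv_mul_cancel, map_one]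
      have e2 : ρ x * ρ x⁻¹ = 1 := by rw [← map_mul, mul_inv_cancel, map_one]
      calc ρ x⁻¹ * ρ z = ρ x⁻¹ * (ρ z * ρ x) * ρ x⁻¹ := by
            rw [mul_assoc, mul_assoc, e2, mul_one]
        _ = ρ z * ρ x⁻¹ := by rw [← hx, ← mul_assoc, e1, one_mul]
  -- a non-scalar generator
  have h0 : ∃ t ∈ T, ∀ c : ℂ, ρ t ≠ c • (1 : V →L[ℂ] V) := by
    by_contra hn
    push Not at hn
    refine h1 fun a ha b _ => hcomm b (fun t ht => ?_) a ha
    obtain ⟨c, hc⟩ := hn t ht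
    rw [hc, smul_mul_assoc, mul_smul_comm, one_mul, mul_one]
  let P : G → Prop := fun z => z ∈ Subgroup.closure (T : Set G) ∧
    (∀ c : ℂ, ρ z ≠ c • (1 : V →L[ℂ] V)) ∧ ‖ρ z - 1‖ < ε
  have hstep : ∀ z : G, P z → ∃ t ∈ T, P (t * z * t⁻¹ * z⁻¹) := by
    rintro z ⟨hz1, hz2, hz3⟩
    have hex : ∃ t ∈ T, ρ t * ρ z ≠ ρ z * ρ t := by
      by_contra hn
      push Not at hn
      exact h2 ⟨z, hz1, hz2, hcomm z hn⟩
    obtain ⟨t, ht, hne⟩ := hex
    have htm : t ∈ Subgroup.closure (T : Set G) := Subgroup.subset_closure (Finset.mem_coe.2 ht)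
    refine ⟨t, ht, Subgroup.mul_mem _ (Subgroup.mul_mem _ (Subgroup.mul_mem _ htm hz1)
      (Subgroup.inv_mem _ htm)) (Subgroup.inv_mem _ hz1), fun c hc => hne ?_, ?_⟩
    · have h3 := comm_scalar hρ (hz3.trans hε2) hc
      have e : t * z = t * z * t⁻¹ * z⁻¹ * (z * t) := by group
      rw [← map_mul, e, map_mul _ _ (z * t), h3, one_mul, map_mul]
    · have h3 := hN.comm t z
      have h4 := (hT t ht).trans hε2
      have h5 := norm_nonneg (ρ z - 1)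
      have h6 := norm_nonneg (ρ t - 1)
      nlinarith
  obtain ⟨t0, ht0, hs0⟩ := h0
  choose nx hnx using hstep
  let h : ℕ → {z : G // P z} := fun k => Nat.rec
    ⟨t0, Subgroup.subset_closure (Finset.mem_coe.2 ht0), hs0, hT t0 ht0⟩
    (fun _ z => ⟨nx z.1 z.2 * z.1 * (nx z.1 z.2)⁻¹ * z.1⁻¹, (hnx z.1 z.2).2⟩) k
  refine no_chain hG hN T hT (h := fun k => (h k).1) (s := fun k => nx (h k).1 (h k).2) ht0
    (fun k => (hnx _ _).1) (fun k => rfl) fun k => ?_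
  refine norm_pos_iff.2 fun e => (h k).2.2.1 1 ?_
  rw [one_smul]
  exact sub_eq_zero.1 e

/-- an eigenspace of a non-scalar operator commuting with the representation
(`Module.End.exists_eigenvalue`; `V` is nontrivial since `A ≠ 0 • 1`) -/
theorem exists_invariant [FiniteDimensional ℂ V] (ρ : G →* (V →L[ℂ] V)) {A : V →L[ℂ] V}
    (hA : ∀ c : ℂ, A ≠ c • (1 : V →L[ℂ] V)) (hc : ∀ a, ρ a * A = A * ρ a) :
    ∃ E : Submodule ℂ V, E ≠ ⊥ ∧ E ≠ ⊤ ∧ ∀ g, ∀ v ∈ E, ρ g v ∈ E := by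
  have hV : Nontrivial V := by
    by_contra h
    have : Subsingleton V := not_nontrivial_iff_subsingleton.1 h
    exact hA 0 (Subsingleton.elim _ _)
  obtain ⟨c, hc'⟩ := Module.End.exists_eigenvalue (A : V →ₗ[ℂ] V)
  refine ⟨Module.End.eigenspace (A : V →ₗ[ℂ] V) c, hc', fun h => hA c ?_, fun g v hv => ?_⟩
  · ext v
    have : v ∈ Module.End.eigenspace (A : V →ₗ[ℂ] V) c := h ▸ Submodule.mem_top
    simpa using Module.End.mem_eigenspace_iff.1 this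
  · rw [Module.End.mem_eigenspace_iff] at hv ⊢
    have h1 : A v = c • v := hv
    have h2 : (ρ g * A) v = (A * ρ g) v := by rw [hc]
    change ρ g (A v) = A (ρ g v) at h2
    change A (ρ g v) = c • ρ g v
    rw [← h2, h1, map_smul]

/-- `⟪e, ρ g v⟫ = ⟪ρ g⁻¹ e, v⟫` (`LinearIsometry.inner_map_map`) -/
theorem orthogonal_invariant (hρ : ∀ g v, ‖ρ g v‖ = ‖v‖) {E : Submodule ℂ V}
    (hE : ∀ g, ∀ v ∈ E, ρ g v ∈ E) : ∀ g, ∀ v ∈ Eᗮ, ρ g v ∈ Eᗮ := by
  intro g v hv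
  rw [Submodule.mem_orthogonal] at hv ⊢
  intro e he
  let L : V →ₗᵢ[ℂ] V := ⟨(ρ g : V →ₗ[ℂ] V), hρ g⟩
  have h1 : ρ g (ρ g⁻¹ e) = e := by
    change (ρ g * ρ g⁻¹) e = e
    rw [← map_mul, mul_inv_cancel, map_one]
    rfl
  have h2 := L.inner_map_map (ρ g⁻¹ e) v
  change inner ℂ (ρ g (ρ g⁻¹ e)) (ρ g v) = _ at h2
  rw [h1] at h2
  rw [h2]
  exact hv _ (hE _ _ he)

/-- restriction to an invariant subspace (`ContinuousLinearMap.restrict`) -/
theorem exists_restrict (ρ : G →* (V →L[ℂ] V)) {E : Submodule ℂ V}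
    (hE : ∀ g, ∀ v ∈ E, ρ g v ∈ E) :
    ∃ σ : G →* (E →L[ℂ] E), ∀ g (v : E), (σ g v : V) = ρ g v := by
  refine ⟨⟨⟨fun g => (ρ g).restrict (hE g), ?_⟩, fun a b => ?_⟩, fun g v => rfl⟩
  · ext v
    change ρ 1 v = v
    rw [map_one]
    rfl
  · ext v
    change ρ (a * b) v = ρ a (ρ b v)
    rw [map_mul]
    rfl

end

/-- Strong induction on `n`.  `Γ' = closure {g | ‖ρ g - 1‖ < ε}` has finite index, is finitely
generated (`Subgroup.fg_of_index_ne_zero`, `Group.fg_iff_subgroup_fg`), `= closure T`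
(`exists_finset_closure`).  In the second case of `comm_or_central` apply `exists_invariant` to
`ρ.comp Γ'.subtype`, the induction hypothesis to `E` and `Eᗮ` (`Submodule.finrank_lt`,
`Submodule.orthogonal_eq_top_iff`), and take `(Γ₁ ⊓ Γ₂).map Γ'.subtype`; every `v` is a sum
`e + e'` (`Submodule.exists_add_mem_mem_orthogonal`). -/
theorem virt_comm (d n : ℕ) : ∀ (V : Type v) [NormedAddCommGroup V] [InnerProductSpace ℂ V]
    [FiniteDimensional ℂ V], Module.finrank ℂ V = n → ∀ (G : Type u) [Group G], Group.FG G →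
    PG G d → ∀ ρ : G →* (V →L[ℂ] V), (∀ g v, ‖ρ g v‖ = ‖v‖) →
    ∃ Γ : Subgroup G, Γ.FiniteIndex ∧ ∀ a ∈ Γ, ∀ b ∈ Γ, ρ a * ρ b = ρ b * ρ a := by
  induction n using Nat.strong_induction_on with
  | _ n ih =>
  intro V _ _ _ hn G _ hG h ρ hρ
  have hε : (0 : ℝ) < 1 / (16 * (2 ^ d + 1)) := by positivity
  have hfi := small_finiteIndex hρ hε
  have hfg : Group.FG (Subgroup.closure {g : G | ‖ρ g - 1‖ < 1 / (16 * (2 ^ d + 1))}) :=
    Subgroup.fg_of_index_ne_zero _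
  obtain ⟨T, hT, hcl⟩ := exists_finset_closure ((Group.fg_iff_subgroup_fg _).1 hfg)
  rw [← hcl] at hfi hfg
  rcases comm_or_central h hρ T (fun t ht => hT ht) with hc | ⟨z, -, hz, hc⟩
  · exact ⟨_, hfi, hc⟩
  set Γ' := Subgroup.closure (T : Set G)
  let ρ' : Γ' →* (V →L[ℂ] V) := ρ.comp Γ'.subtype
  have hρ' : ∀ g v, ‖ρ' g v‖ = ‖v‖ := fun g v => hρ g v
  obtain ⟨E, hE0, hE1, hE⟩ := exists_invariant ρ' hz fun a => hc a a.2
  have hE' := orthogonal_invariant hρ' hE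
  obtain ⟨σ₁, hσ₁⟩ := exists_restrict ρ' hE
  obtain ⟨σ₂, hσ₂⟩ := exists_restrict ρ' hE'
  have hlt₁ : Module.finrank ℂ E < n := hn ▸ Submodule.finrank_lt hE1
  have hlt₂ : Module.finrank ℂ Eᗮ < n :=
    hn ▸ Submodule.finrank_lt fun h' => hE0 ((Submodule.orthogonal_eq_top_iff E).1 h')
  obtain ⟨Γ₁, hΓ₁, h₁⟩ := ih _ hlt₁ E rfl Γ' hfg (h.subgroup Γ') σ₁ fun g v => by
    rw [← Submodule.norm_coe, hσ₁, hρ', Submodule.norm_coe]
  obtain ⟨Γ₂, hΓ₂, h₂⟩ := ih _ hlt₂ Eᗮ rfl Γ' hfg (h.subgroup Γ') σ₂ fun g v => by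
    rw [← Submodule.norm_coe, hσ₂, hρ', Submodule.norm_coe]
  refine ⟨(Γ₁ ⊓ Γ₂).map Γ'.subtype, ⟨?_⟩, ?_⟩
  · rw [Subgroup.index_map_subtype]
    exact mul_ne_zero Subgroup.FiniteIndex.index_ne_zero Subgroup.FiniteIndex.index_ne_zero
  · rintro _ ⟨a, ha, rfl⟩ _ ⟨b, hb, rfl⟩
    ext v
    obtain ⟨e, he, e', he', rfl⟩ := Submodule.exists_add_mem_mem_orthogonal (K := E) v
    have k₁ : ρ' a (ρ' b e) = ρ' b (ρ' a e) := by
      have := congrArg (fun f : E →L[ℂ] E => (f ⟨e, he⟩ : V)) (h₁ a ha.1 b hb.1)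
      simp only [ContinuousLinearMap.mul_def, ContinuousLinearMap.comp_apply, hσ₁] at this
      exact this
    have k₂ : ρ' a (ρ' b e') = ρ' b (ρ' a e') := by
      have := congrArg (fun f : Eᗮ →L[ℂ] Eᗮ => (f ⟨e', he'⟩ : V)) (h₂ a ha.2 b hb.2)
      simp only [ContinuousLinearMap.mul_def, ContinuousLinearMap.comp_apply, hσ₂] at this
      exact this
    change ρ' a (ρ' b (e + e')) = ρ' b (ρ' a (e + e'))
    simp only [map_add, k₁, k₂]

/-- Complexify: `g ↦ Matrix.toEuclideanCLM ((ρ g).map ofReal)` is a homomorphism into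
`EuclideanSpace ℂ (Fin n) →L[ℂ] _` by isometries (the complex matrix is unitary), and the
construction is injective on matrices. -/
theorem virt_comm_real {G : Type*} [Group G] {d n : ℕ} (hG : Group.FG G) (h : PG G d)
    (ρ : G →* Matrix.unitaryGroup (Fin n) ℝ) :
    ∃ Γ : Subgroup G, Γ.FiniteIndex ∧ ∀ a ∈ Γ, ∀ b ∈ Γ, ρ a * ρ b = ρ b * ρ a := by
  let φ : Matrix (Fin n) (Fin n) ℝ →+* Matrix (Fin n) (Fin n) ℂ := Complex.ofRealHom.mapMatrix
  have hφ : Function.Injective φ := Matrix.map_injective Complex.ofReal_injective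
  have hstar : ∀ A, φ (star A) = star (φ A) := fun A => by
    ext i j
    simp [φ, Matrix.star_apply]
  let e := Matrix.toEuclideanCLM (n := Fin n) (𝕜 := ℂ)
  let σ : G →* (EuclideanSpace ℂ (Fin n) →L[ℂ] EuclideanSpace ℂ (Fin n)) :=
    { toFun := fun g => e (φ (ρ g))
      map_one' := by simp
      map_mul' := fun a b => by simp }
  have hu : ∀ g, σ g ∈ unitary (EuclideanSpace ℂ (Fin n) →L[ℂ] EuclideanSpace ℂ (Fin n)) := by
    intro g
    have h1 : star (ρ g : Matrix (Fin n) (Fin n) ℝ) * ρ g = 1 := (ρ g).2.1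
    have h2 : (ρ g : Matrix (Fin n) (Fin n) ℝ) * star (ρ g : Matrix (Fin n) (Fin n) ℝ) = 1 :=
      (ρ g).2.2
    constructor
    · change star (e (φ (ρ g))) * e (φ (ρ g)) = 1
      rw [← map_star, ← hstar, ← map_mul, ← map_mul, h1, map_one, map_one]
    · change e (φ (ρ g)) * star (e (φ (ρ g))) = 1
      rw [← map_star, ← hstar, ← map_mul, ← map_mul, h2, map_one, map_one]
  obtain ⟨Γ, hΓ, hc⟩ := virt_comm d _ (EuclideanSpace ℂ (Fin n)) rfl G hG h σ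
    fun g v => Unitary.norm_map ⟨σ g, hu g⟩ v
  refine ⟨Γ, hΓ, fun a ha b hb => Subtype.ext (hφ (e.injective ?_))⟩
  have : e (φ (ρ a)) * e (φ (ρ b)) = e (φ (ρ b)) * e (φ (ρ a)) := hc a ha b hb
  rw [← map_mul, ← map_mul, ← map_mul, ← map_mul] at this
  exact this

end Crest.Agent.R182
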