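import Crest.Agent.R182.LAChar0

/-! Row 182, block L1 (c): integral characteristic polynomials. -/

set_option autoImplicit false
set_option linter.dupNamespace false

namespace Crest.Agent.R182

open Module Polynomial

variable {P G : Type*} [Group P] [Group G] {N : Subgroup P} {d : ℕ}

/-- `LinearMap.charpoly_toMatrix` for `b`, `Matrix.charpoly_of_upperTriangular`, `mem_low` -/
theorem charpoly_tri {b : Basis (Fin d) ℂ (Fin d → ℂ)} {T : End ℂ (Fin d → ℂ)} {c : Fin d → ℂ}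
    (h : ∀ i : Fin d, T (b i) - c i • b i ∈ low b i) :
    LinearMap.charpoly T = ∏ i, (X - C (c i)) := by
  have hr : ∀ i j : Fin d, j ≤ i → LinearMap.toMatrix b b T i j = if i = j then c j else 0 := by
    intro i j hij
    have h1 := mem_low.1 (h j) i hij
    rw [map_sub, map_smul, Finsupp.sub_apply, Finsupp.smul_apply, Basis.repr_self,
      Finsupp.single_apply, sub_eq_zero] at h1
    rw [LinearMap.toMatrix_apply, h1]
    by_cases e : i = j
    · simp [e]
    · simp [e, Ne.symm e]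
  rw [← LinearMap.charpoly_toMatrix T b, Matrix.charpoly_of_isUpperTriangular]
  · refine Finset.prod_congr rfl fun i _ => ?_
    rw [hr i i le_rfl, if_pos rfl]
  · intro i j hij
    have hij' : j < i := hij
    rw [hr i j hij'.le, if_neg hij'.ne']

/-- `cx_eq`, `Matrix.charpoly_toLin'`, `Matrix.charpoly_map` -/
theorem charpoly_cx (T : End ℝ (Fin d → ℝ)) :
    LinearMap.charpoly (cx T) = (LinearMap.charpoly T).map Complex.ofRealHom := by
  rw [cx_eq, Matrix.charpoly_toLin', Matrix.charpoly_map, ← LinearMap.toMatrix_eq_toMatrix',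
    LinearMap.charpoly_toMatrix]

/-- as `NumberField.Embeddings.finite_of_norm_le`: `Polynomial.coeff_bdd_of_roots_le` (or
`coeff_le_of_roots_le`) and `Polynomial.bUnion_roots_finite` -/
theorem finite_roots (d : ℕ) (R : ℝ) :
    {z : ℂ | ∃ (c : Fin d → ℂ) (p : ℤ[X]), p.map (Int.castRingHom ℂ) = ∏ i, (X - C (c i)) ∧
      (∀ i, ‖c i‖ ≤ R) ∧ ∃ i, z = c i}.Finite := by
  classical
  let C₀ := Nat.ceil (max R 1 ^ d * (d.choose (d / 2) : ℝ))
  have := bUnion_roots_finite (Int.castRingHom ℂ) d (Set.finite_Icc (-C₀ : ℤ) C₀)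
  refine this.subset ?_
  rintro z ⟨c, p, hp, hc, i, rfl⟩
  have hm : (∏ i, (X - C (c i)) : ℂ[X]).Monic := monic_prod_of_monic _ _ fun i _ => monic_X_sub_C _
  have hdeg : (∏ i, (X - C (c i)) : ℂ[X]).natDegree = d := by
    rw [natDegree_prod_of_monic _ _ fun i _ => monic_X_sub_C _]
    simp
  have hroot : ∀ z, z ∈ (∏ i, (X - C (c i)) : ℂ[X]).roots ↔ ∃ i, z = c i := by
    intro z
    rw [mem_roots hm.ne_zero, IsRoot.def, eval_prod, Finset.prod_eq_zero_iff]
    simp [sub_eq_zero]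
  simp only [Set.mem_iUnion]
  refine ⟨p, ⟨?_, fun n => ?_⟩, ?_⟩
  · rw [← natDegree_map_eq_of_injective (Int.castRingHom ℂ).injective_int, hp, hdeg]
  · have hb := coeff_bdd_of_roots_le (B := R) (d := d) (RingHom.id ℂ) hm
      (IsAlgClosed.splits _) hdeg.le (by
        intro z hz
        rw [Polynomial.map_id, hroot] at hz
        obtain ⟨i, rfl⟩ := hz
        exact hc i) n
    rw [Polynomial.map_id, ← hp, coeff_map, eq_intCast, Complex.norm_intCast] at hb
    rw [Set.mem_Icc, ← abs_le, ← @Int.cast_le ℝ, Int.cast_abs]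
    exact hb.trans (by exact_mod_cast Nat.le_ceil _)
  · rw [Finset.mem_coe, Multiset.mem_toFinset, hp, hroot]
    exact ⟨i, rfl⟩

/-- `Λ` is discrete (points of norm `< 1 / D` vanish) and spans, so `IsZLattice ℝ Λ`; the matrix of `T`
in `(Free.chooseBasis ℤ Λ).ofZLatticeBasis ℝ Λ` is the image of the integer matrix of the restriction
(`ofZLatticeBasis_repr_apply`); `LinearMap.charpoly_toMatrix`, `Matrix.charpoly_map`. -/
theorem charpoly_int (Λ : Submodule ℤ (Fin d → ℝ)) {D : ℕ} (hD : 0 < D)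
    (hΛ : ∀ v ∈ Λ, ∀ i, ∃ z : ℤ, (D : ℝ) * v i = z) (hb : ∀ i, Pi.single i 1 ∈ Λ)
    (T : End ℝ (Fin d → ℝ)) (hT : ∀ v ∈ Λ, T v ∈ Λ) :
    ∃ p : ℤ[X], LinearMap.charpoly T = p.map (Int.castRingHom ℝ) := by
  classical
  have hD' : (0 : ℝ) < D := by exact_mod_cast hD
  have : DiscreteTopology Λ := by
    refine DiscreteTopology.of_forall_le_norm (r := (D : ℝ)⁻¹) (by positivity) fun x hx => ?_
    obtain ⟨i, hi⟩ : ∃ i, (x : Fin d → ℝ) i ≠ 0 := by
      by_contra h
      push Not at h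
      exact hx (Subtype.ext (funext h))
    obtain ⟨z, hz⟩ := hΛ x x.2 i
    have hz0 : z ≠ 0 := by
      rintro rfl
      rw [Int.cast_zero, mul_eq_zero] at hz
      exact hz.elim hD'.ne' hi
    have h1 : (1 : ℝ) ≤ |(z : ℝ)| := by exact_mod_cast Int.one_le_abs hz0
    rw [← hz, abs_mul, abs_of_pos hD'] at h1
    have h2 : |(x : Fin d → ℝ) i| ≤ ‖x‖ := norm_le_pi_norm (x : Fin d → ℝ) i
    rw [inv_le_iff_one_le_mul₀' hD']
    nlinarith
  have : IsZLattice ℝ Λ := ⟨eq_top_iff.2 <| by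
    rw [← (Pi.basisFun ℝ (Fin d)).span_eq]
    refine Submodule.span_mono ?_
    rintro _ ⟨i, rfl⟩
    rw [Pi.basisFun_apply]
    exact hb i⟩
  let B := Free.chooseBasis ℤ Λ
  let T' : Λ →ₗ[ℤ] Λ := (T.restrictScalars ℤ).restrict hT
  refine ⟨(LinearMap.toMatrix B B T').charpoly, ?_⟩
  rw [← Matrix.charpoly_map, ← LinearMap.charpoly_toMatrix T (B.ofZLatticeBasis ℝ Λ)]
  congr 1
  ext i j
  rw [LinearMap.toMatrix_apply, Matrix.map_apply, LinearMap.toMatrix_apply,
    Basis.ofZLatticeBasis_apply]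
  exact Basis.ofZLatticeBasis_repr_apply ℝ Λ B (T' (B j)) i

/-- `charpoly_int` for `Λ = span ℤ {v | ∃ n, j n = ex v}` (`lat`, `basis`, `Ad_conj`) -/
theorem Hull.int_poly (H : Hull N G) (p : P) {b : Basis (Fin H.d) ℂ (Fin H.d → ℂ)}
    {c : Fin H.d → ℂ} (h : ∀ i : Fin H.d, cx (H.Ad (H.j p)) (b i) - c i • b i ∈ low b i) :
    ∃ q : ℤ[X], q.map (Int.castRingHom ℂ) = ∏ i, (X - C (c i)) := by
  obtain ⟨D, hD, hlat⟩ := H.lat
  have h1 : ∀ v ∈ Submodule.span ℤ {v | ∃ n, H.j n = H.ex v}, ∀ i, ∃ z : ℤ, (D : ℝ) * v i = z := by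
    intro v hv i
    induction hv using Submodule.span_induction with
    | mem x hx =>
      obtain ⟨n, hn⟩ := hx
      exact hlat n x hn i
    | zero => exact ⟨0, by simp⟩
    | add x y _ _ hx hy =>
      obtain ⟨z, hz⟩ := hx
      obtain ⟨w, hw⟩ := hy
      exact ⟨z + w, by rw [Pi.add_apply, mul_add, hz, hw, Int.cast_add]⟩
    | smul a x _ hx =>
      obtain ⟨z, hz⟩ := hx
      exact ⟨a * z, by rw [Pi.smul_apply, zsmul_eq_mul, mul_left_comm, hz, Int.cast_mul]⟩
  have h2 : ∀ i, Pi.single i 1 ∈ Submodule.span ℤ {v | ∃ n, H.j n = H.ex v} := by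
    intro i
    obtain ⟨n, -, hn⟩ := H.basis i
    exact Submodule.subset_span ⟨n, hn⟩
  have h3 : ∀ v ∈ Submodule.span ℤ {v | ∃ n, H.j n = H.ex v},
      H.Ad (H.j p) v ∈ Submodule.span ℤ {v | ∃ n, H.j n = H.ex v} := by
    intro v hv
    induction hv using Submodule.span_induction with
    | mem x hx =>
      obtain ⟨n, hn⟩ := hx
      refine Submodule.subset_span ⟨p * n * p⁻¹, ?_⟩
      rw [map_mul, map_mul, map_inv, hn, H.Ad_conj]
    | zero => rw [map_zero]; exact zero_mem _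
    | add x y _ _ hx hy => rw [map_add]; exact add_mem hx hy
    | smul a x _ hx => rw [map_zsmul]; exact Submodule.smul_mem _ a hx
  obtain ⟨q, hq⟩ := charpoly_int _ hD h1 h2 _ h3
  refine ⟨q, ?_⟩
  rw [← charpoly_tri h, charpoly_cx, hq, Polynomial.map_map]
  exact congrArg q.map (RingHom.ext_int _ _)

end Crest.Agent.R182
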