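import Crest.Agent.R182.SEDefs

/-! Row 182, block S1: virtual Lie–Kolchin theorem for polycyclic groups. -/

set_option autoImplicit false
set_option linter.dupNamespace false

namespace Crest.Agent.R182

variable {G : Type*} [Group G]

/-- induction on `PC`; `Subgroup.FG.sup`, `Subgroup.zpowers_eq_closure` -/
theorem PC.fg {H : Subgroup G} (h : PC H) : H.FG := by
  induction h with
  | bot => exact ⟨∅, by simp⟩
  | step H g _ _ _ ih => exact ih.sup ⟨{g}, by rw [Finset.coe_singleton, Subgroup.zpowers_eq_closure]⟩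

/-- A finite-index subgroup `H₀` of a finitely generated `H` normalised by `t` contains a
finite-index subgroup normalised by `t` (copy the proof of `exists_pc_norm` in GBPoly:
`exists_char_le` in `↥H` applied to `H₀.subgroupOf H`). -/
theorem exists_norm_le {H H₀ : Subgroup G} (hH : H.FG) (h0 : H₀ ≤ H) (hi : H₀.relIndex H ≠ 0)
    (t : G) (h1 : ∀ x ∈ H, t * x * t⁻¹ ∈ H) (h2 : ∀ x ∈ H, t⁻¹ * x * t ∈ H) :
    ∃ H₁ : Subgroup G, H₁ ≤ H₀ ∧ H₁.relIndex H ≠ 0 ∧ (∀ x ∈ H₁, t * x * t⁻¹ ∈ H₁) ∧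
      ∀ x ∈ H₁, t⁻¹ * x * t ∈ H₁ := by
  have : (H₀.subgroupOf H).FiniteIndex := ⟨hi⟩
  obtain ⟨Q, hQc, hQf, hQP⟩ :=
    exists_char_le ((Group.fg_iff_subgroup_fg H).2 hH) (H₀.subgroupOf H)
  let φ : H ≃* H :=
    { toFun := fun x => ⟨t * x * t⁻¹, h1 x x.2⟩
      invFun := fun x => ⟨t⁻¹ * x * t, h2 x x.2⟩
      left_inv := fun x => Subtype.ext (by simp only; group)
      right_inv := fun x => Subtype.ext (by simp only; group)
      map_mul' := fun x y => Subtype.ext (by simp only [Subgroup.coe_mul]; group) }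
  refine ⟨Q.map H.subtype, ?_, ?_, ?_, ?_⟩
  · rw [← Subgroup.map_subgroupOf_eq_of_le h0]
    exact Subgroup.map_mono hQP
  · rw [Subgroup.relIndex, Subgroup.subgroupOf,
      Subgroup.comap_map_eq_self_of_injective H.subtype_injective]
    exact hQf.index_ne_zero
  · rintro _ ⟨x, hx, rfl⟩
    exact ⟨φ x, Subgroup.characteristic_iff_le_comap.1 hQc φ hx, rfl⟩
  · rintro _ ⟨x, hx, rfl⟩
    exact ⟨φ.symm x, Subgroup.characteristic_iff_le_comap.1 hQc φ.symm hx, rfl⟩

/-- `H₁ ⊔ ⟨t ^ m⟩` has finite index in `H ⊔ ⟨t⟩`.  By `mem_sup_zpowers` every element is `x * t ^ k`,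
`x ∈ H`; write `k = a + m q` with `0 ≤ a < m` (`Int.emod`); `x * t ^ k = t ^ a * x' * (t ^ m) ^ q` with
`x' = t ^ (-a) x t ^ a ∈ H` (`conj_mem_of_mem_sup`), so the map
`Fin m × (H ⧸ H₁.subgroupOf H) → (H ⊔ ⟨t⟩) ⧸ (H₁ ⊔ ⟨t ^ m⟩).subgroupOf _`, `(a, x') ↦ t ^ a * x'`
is onto (compare `vp_step` in GBPoly; one may use `Quotient.out` instead of `Quotient.map'`:
`x' = out ⟦x'⟧ * h₁`). -/
theorem relIndex_sup_zpowers {H H₁ : Subgroup G} (hle : H₁ ≤ H) (hi : H₁.relIndex H ≠ 0) (t : G)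
    (h1 : ∀ x ∈ H, t * x * t⁻¹ ∈ H) (h2 : ∀ x ∈ H, t⁻¹ * x * t ∈ H) {m : ℕ} (hm : 0 < m) :
    (H₁ ⊔ Subgroup.zpowers (t ^ m)).relIndex (H ⊔ Subgroup.zpowers t) ≠ 0 := by
  have _ := hle
  have : (H₁.subgroupOf H).FiniteIndex := ⟨hi⟩
  have hk : ∀ k : ℤ, t ^ k ∈ H ⊔ Subgroup.zpowers t := fun k =>
    Subgroup.mem_sup_right (Subgroup.zpow_mem_zpowers t k)
  let f : Fin m × (H ⧸ H₁.subgroupOf H) → (H ⊔ Subgroup.zpowers t : Subgroup G) ⧸
      (H₁ ⊔ Subgroup.zpowers (t ^ m)).subgroupOf (H ⊔ Subgroup.zpowers t) := fun p =>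
    QuotientGroup.mk ⟨t ^ ((p.1 : ℕ) : ℤ) * (p.2.out : H),
      Subgroup.mul_mem _ (hk _) (Subgroup.mem_sup_left p.2.out.2)⟩
  have hf : Function.Surjective f := by
    intro y
    obtain ⟨y, rfl⟩ := QuotientGroup.mk_surjective y
    obtain ⟨x, hx, k, hy⟩ := (mem_sup_zpowers h1 h2).1 y.2
    have hm' : (0 : ℤ) < m := by exact_mod_cast hm
    obtain ⟨a, ha⟩ := Int.eq_ofNat_of_zero_le (Int.emod_nonneg k hm'.ne')
    have ham : a < m := by
      have := Int.emod_lt_of_pos k hm'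
      omega
    have hx' : t ^ (-(a : ℤ)) * x * (t ^ (-(a : ℤ)))⁻¹ ∈ H := conj_mem_of_mem_sup h1 h2 (hk _) x hx
    refine ⟨(⟨a, ham⟩, QuotientGroup.mk ⟨_, hx'⟩), ?_⟩
    obtain ⟨h, hh⟩ := QuotientGroup.mk_out_eq_mul (H₁.subgroupOf H) ⟨_, hx'⟩
    change QuotientGroup.mk _ = QuotientGroup.mk _
    rw [QuotientGroup.eq, Subgroup.mem_subgroupOf]
    change (t ^ (a : ℤ) * (((QuotientGroup.mk ⟨_, hx'⟩ : H ⧸ H₁.subgroupOf H).out : H) : G))⁻¹ *
      (y : G) ∈ _
    have e1 : t ^ k = t ^ (a : ℤ) * (t ^ m) ^ (k / m) := by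
      rw [← zpow_natCast, ← zpow_mul, ← zpow_add, ← ha, Int.emod_add_mul_ediv]
    have e2 : (t ^ (a : ℤ) * (t ^ (-(a : ℤ)) * x * (t ^ (-(a : ℤ)))⁻¹ * ((h : H) : G)))⁻¹ *
        (x * (t ^ (a : ℤ) * (t ^ m) ^ (k / m))) = ((h : H) : G)⁻¹ * (t ^ m) ^ (k / m) := by
      generalize (t ^ m) ^ (k / m) = u
      group
    rw [hh, hy, e1, Subgroup.coe_mul, e2]
    exact Subgroup.mul_mem _ (Subgroup.mem_sup_left (H₁.inv_mem h.2))
      (Subgroup.mem_sup_right (Subgroup.zpow_mem_zpowers _ _))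
  have := Finite.of_surjective f hf
  exact (Subgroup.finiteIndex_of_finite_quotient (H := (H₁ ⊔ Subgroup.zpowers (t ^ m)).subgroupOf
    (H ⊔ Subgroup.zpowers t))).index_ne_zero

/-- the elements having `u ≠ 0` and `v` as eigenvectors with the same eigenvalue -/
def h29_eig {F V : Type*} [Field F] [AddCommGroup V] [Module F V] (π : G →* Module.End F V)
    {u : V} (hu : u ≠ 0) (v : V) : Subgroup G where
  carrier := {g | ∃ c : F, π g u = c • u ∧ π g v = c • v}
  one_mem' := ⟨1, by simp, by simp⟩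
  mul_mem' := by
    rintro a b ⟨c, h1, h2⟩ ⟨d, h3, h4⟩
    refine ⟨d * c, ?_, ?_⟩
    · rw [map_mul, Module.End.mul_apply, h3, map_smul, h1, smul_smul]
    · rw [map_mul, Module.End.mul_apply, h4, map_smul, h2, smul_smul]
  inv_mem' := by
    rintro a ⟨c, h1, h2⟩
    have key : ∀ x : V, π a x = c • x → c • π a⁻¹ x = x := fun x hx => by
      rw [← map_smul, ← hx, ← Module.End.mul_apply, ← map_mul, inv_mul_cancel, map_one,
        Module.End.one_apply]
    have hc : c ≠ 0 := by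
      rintro rfl
      exact hu (by rw [← key u h1, zero_smul])
    refine ⟨c⁻¹, ?_, ?_⟩
    · rw [eq_inv_smul_iff₀ hc, key u h1]
    · rw [eq_inv_smul_iff₀ hc, key v h2]

/-- One step of Lie–Kolchin.  For `c : H₁ → F` let `E c = {v | ∀ h : H₁, π h v = c h • v}`.
The set of `c` with `E c ≠ 0` is finite: such a `c` is multiplicative with `c 1 = 1`, hence determined by
its values on a finite generating set `s` of `H₁` (`Subgroup.closure_induction`: the set of `h` where two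
such `c`, `c'` agree is closed under products and inverses, `c h⁻¹ * c h = 1`), and `c h` is an eigenvalue of
`π h` (`Module.End.finite_hasEigenvalue`).  The vectors `π (t ^ n) w ≠ 0`, `n : ℕ`, are common
eigenvectors with characters `c_n h = c (t ^ (-n) * h * t ^ n)`; pigeonhole gives `a < b` with
`c_a = c_b =: c'`, then `π (t ^ (b - a))` maps the nonzero space `E c'` into itself (for `v ∈ E c'`,
`π h (π (t ^ m) v) = π (t ^ m) (π (t ^ (-m) h t ^ m) v) = c_a (t ^ (-m) h t ^ m) • _ = c_{a+m} h • _`),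
so it has an eigenvector there (`Module.End.exists_eigenvalue` for `LinearMap.restrict`).  Finish with
`mem_sup_zpowers` (the set of `g` having `w'` as an eigenvector is a subgroup). -/
theorem lk_step {F V : Type*} [Field F] [IsAlgClosed F] [AddCommGroup V] [Module F V]
    [FiniteDimensional F V] (π : G →* Module.End F V) {H₁ : Subgroup G} (hfg : H₁.FG) (t : G)
    (h1 : ∀ x ∈ H₁, t * x * t⁻¹ ∈ H₁) (h2 : ∀ x ∈ H₁, t⁻¹ * x * t ∈ H₁) {w : V} (hw : w ≠ 0)
    (he : ∀ g ∈ H₁, ∃ c : F, π g w = c • w) :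
    ∃ m : ℕ, 0 < m ∧ ∃ w' : V, w' ≠ 0 ∧
      ∀ g ∈ H₁ ⊔ Subgroup.zpowers (t ^ m), ∃ c : F, π g w' = c • w' := by
  obtain ⟨s, hs⟩ := hfg
  have hinj : ∀ g : G, Function.Injective (π g) := fun g => by
    refine Function.LeftInverse.injective (g := π g⁻¹) fun x => ?_
    rw [← Module.End.mul_apply, ← map_mul, inv_mul_cancel, map_one, Module.End.one_apply]
  have hconj : ∀ (n : ℕ), ∀ x ∈ H₁, (t ^ n)⁻¹ * x * t ^ n ∈ H₁ := by
    intro n
    induction n with
    | zero => intro x hx; simpa using hx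
    | succ n ih =>
      intro x hx
      have e : (t ^ (n + 1))⁻¹ * x * t ^ (n + 1) = t⁻¹ * ((t ^ n)⁻¹ * x * t ^ n) * t := by
        rw [pow_succ]; group
      rw [e]
      exact h2 _ (ih x hx)
  have hcomm : ∀ (g x : G) (v : V), π x (π g v) = π g (π (g⁻¹ * x * g) v) := fun g x v => by
    rw [← Module.End.mul_apply, ← Module.End.mul_apply, ← map_mul, ← map_mul]
    congr 2
    group
  have hne : ∀ n : ℕ, π (t ^ n) w ≠ 0 := fun n h => hw (hinj _ (by rw [h, map_zero]))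
  have hev : ∀ n : ℕ, ∀ x ∈ H₁, ∃ c : F, π x (π (t ^ n) w) = c • π (t ^ n) w := by
    intro n x hx
    obtain ⟨c, hc⟩ := he _ (hconj n x hx)
    exact ⟨c, by rw [hcomm, hc, map_smul]⟩
  have hsH : ∀ x : s, (x : G) ∈ H₁ := fun x => hs ▸ Subgroup.subset_closure x.2
  choose e he' using fun (n : ℕ) (x : s) => hev n x (hsH x)
  have hfin : ∀ x : s, Finite {c : F // (π x).HasEigenvalue c} := fun x =>
    (Module.End.finite_hasEigenvalue (π (x : G))).to_subtype
  have key : ∀ a b : ℕ, a < b → e a = e b → ∃ m : ℕ, 0 < m ∧ ∃ w' : V, w' ≠ 0 ∧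
      ∀ g ∈ H₁ ⊔ Subgroup.zpowers (t ^ m), ∃ c : F, π g w' = c • w' := by
    intro a b hab hE
    obtain ⟨m, rfl⟩ := Nat.exists_eq_add_of_lt hab
    set u := π (t ^ a) w with hu
    have hu0 : u ≠ 0 := hne a
    have hu' : π (t ^ (a + m + 1)) w = π (t ^ (m + 1)) u := by
      rw [hu, ← Module.End.mul_apply, ← map_mul, ← pow_add]
      congr 3
      omega
    have hK : H₁ ≤ h29_eig π hu0 (π (t ^ (m + 1)) u) := by
      rw [← hs, Subgroup.closure_le]
      intro x hx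
      refine ⟨e a ⟨x, hx⟩, he' a ⟨x, hx⟩, ?_⟩
      rw [← hu', hE]
      exact he' _ ⟨x, hx⟩
    let E : Submodule F V :=
      { carrier := {v | ∀ x ∈ H₁, ∀ c : F, π x u = c • u → π x v = c • v}
        add_mem' := fun {v v'} hv hv' x hx c hc => by
          rw [map_add, hv x hx c hc, hv' x hx c hc, smul_add]
        zero_mem' := fun x _ c _ => by simp
        smul_mem' := fun d v hv x hx c hc => by rw [map_smul, hv x hx c hc, smul_comm] }
    have huE : u ∈ E := fun x _ c hc => hc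
    have hmaps : ∀ v ∈ E, π (t ^ (m + 1)) v ∈ E := by
      intro v hv x hx c hc
      obtain ⟨c', k1, k2⟩ := hK hx
      have hcc : c' = c := smul_left_injective F hu0 (k1.symm.trans hc)
      subst hcc
      have k3 : π ((t ^ (m + 1))⁻¹ * x * t ^ (m + 1)) u = c' • u :=
        hinj (t ^ (m + 1)) (by rw [← hcomm, k2, map_smul])
      rw [hcomm, hv _ (hconj _ x hx) c' k3, map_smul]
    have : Nontrivial E := ⟨⟨⟨u, huE⟩, 0, fun h => hu0 (congrArg Subtype.val h)⟩⟩
    obtain ⟨μ, hμ⟩ := Module.End.exists_eigenvalue ((π (t ^ (m + 1))).restrict hmaps)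
    obtain ⟨v, hv⟩ := hμ.exists_hasEigenvector
    have hv0 : (v : V) ≠ 0 := fun h => hv.2 (Subtype.ext h)
    have hv1 : π (t ^ (m + 1)) v = μ • (v : V) := congrArg Subtype.val hv.apply_eq_smul
    refine ⟨m + 1, Nat.succ_pos m, v, hv0, fun g hg => ?_⟩
    have hle : H₁ ⊔ Subgroup.zpowers (t ^ (m + 1)) ≤ h29_eig π hv0 v := by
      refine sup_le (fun x hx => ?_) ?_
      · obtain ⟨c, k1, -⟩ := hK hx
        exact ⟨c, v.2 x hx c k1, v.2 x hx c k1⟩
      · rw [Subgroup.zpowers_le]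
        exact ⟨μ, hv1, hv1⟩
    obtain ⟨c, k1, -⟩ := hle hg
    exact ⟨c, k1⟩
  obtain ⟨a, b, hab, hE⟩ := Finite.exists_ne_map_eq_of_infinite
    (fun (n : ℕ) (x : s) => (⟨e n x, Module.End.hasEigenvalue_of_hasEigenvector
      ⟨Module.End.mem_eigenspace_iff.2 (he' n x), hne n⟩⟩ : {c : F // (π x).HasEigenvalue c}))
  have hE' : e a = e b := funext fun x => congrArg Subtype.val (congrFun hE x)
  rcases lt_or_gt_of_ne hab with h | h
  · exact key a b h hE'
  · exact key b a h hE'.symm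

/-- virtual Lie–Kolchin -/
theorem lk {F V : Type*} [Field F] [IsAlgClosed F] [AddCommGroup V] [Module F V]
    [FiniteDimensional F V] [Nontrivial V] (π : G →* Module.End F V) {H : Subgroup G} (hH : PC H) :
    ∃ H₀ : Subgroup G, H₀ ≤ H ∧ H₀.relIndex H ≠ 0 ∧ ∃ w : V, w ≠ 0 ∧
      ∀ g ∈ H₀, ∃ c : F, π g w = c • w := by
  induction hH with
  | bot =>
    obtain ⟨w, hw⟩ := exists_ne (0 : V)
    refine ⟨⊥, le_rfl, by simp, w, hw, fun g hg => ⟨1, ?_⟩⟩
    rw [Subgroup.mem_bot.1 hg]; simp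
  | step H t hH h1 h2 ih =>
    obtain ⟨H₀, h0, hi, w, hw, he⟩ := ih
    obtain ⟨H₁, h10, hi1, k1, k2⟩ := exists_norm_le hH.fg h0 hi t h1 h2
    obtain ⟨m, hm, w', hw', he'⟩ := lk_step π (hH.of_le (h10.trans h0)).fg t k1 k2 hw
      fun g hg => he g (h10 hg)
    refine ⟨H₁ ⊔ Subgroup.zpowers (t ^ m), sup_le_sup (h10.trans h0) ?_,
      relIndex_sup_zpowers (h10.trans h0) hi1 t h1 h2 hm, w', hw', he'⟩
    rw [Subgroup.zpowers_le]
    exact Subgroup.pow_mem _ (Subgroup.mem_zpowers t) m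

/-- Relative form.  Apply `lk` to the group `↥P` (`PC ⊤` by `pc_iff`, `isPolycyclic_iff`) acting on the
quotient `↥W ⧸ U.submoduleOf W` (`Representation.subrepresentation`, `Representation.quotient`, or
`LinearMap.restrict` and `Submodule.mapQ` by hand), and map the subgroup back with `P.subtype`
(`Subgroup.comap_map_eq_self_of_injective` for the index, see `exists_pc_norm`). -/
theorem lk_rel {F V : Type*} [Field F] [IsAlgClosed F] [AddCommGroup V] [Module F V]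
    (π : G →* Module.End F V) {P : Subgroup G} (hP : PC P) {U W : Submodule F V}
    [FiniteDimensional F W] (hUW : U < W) (hU : ∀ g ∈ P, ∀ u ∈ U, π g u ∈ U)
    (hW : ∀ g ∈ P, ∀ u ∈ W, π g u ∈ W) :
    ∃ P' : Subgroup G, P' ≤ P ∧ P'.relIndex P ≠ 0 ∧ ∃ w ∈ W, w ∉ U ∧
      ∀ g ∈ P', ∃ c : F, π g w - c • w ∈ U := by
  let ρ0 : Representation F P V := π.comp P.subtype
  let ρ1 : Representation F P W := ρ0.subrepresentation W fun g u hu => hW g g.2 u hu
  let ρ2 : Representation F P (W ⧸ U.comap W.subtype) :=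
    ρ1.quotient (U.comap W.subtype) fun g u hu => hU g g.2 u hu
  have hnt : Nontrivial (W ⧸ U.comap W.subtype) := by
    refine Submodule.Quotient.nontrivial_iff.2 fun h => hUW.not_ge fun w hw => ?_
    have : (⟨w, hw⟩ : W) ∈ U.comap W.subtype := by rw [h]; trivial
    exact this
  obtain ⟨Q, -, hi, w, hw, he⟩ := lk (G := P) (F := F) (V := W ⧸ U.comap W.subtype) ρ2
    (isPolycyclic_iff.1 ((pc_iff P).1 hP))
  obtain ⟨w, rfl⟩ := Submodule.Quotient.mk_surjective _ w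
  refine ⟨Q.map P.subtype, Subgroup.map_subtype_le Q, ?_, w, w.2, ?_, ?_⟩
  · rw [Subgroup.relIndex_top_right] at hi
    rwa [Subgroup.relIndex, ← Subgroup.comap_subtype,
      Subgroup.comap_map_eq_self_of_injective P.subtype_injective]
  · intro h
    exact hw ((Submodule.Quotient.mk_eq_zero _).2 h)
  · rintro _ ⟨g, hg, rfl⟩
    obtain ⟨c, hc⟩ := he g hg
    refine ⟨c, ?_⟩
    have h1 : (Submodule.Quotient.mk (ρ1 g w) : W ⧸ U.comap W.subtype) =
        Submodule.Quotient.mk (c • w) := hc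
    exact (Submodule.Quotient.eq (U.comap W.subtype)).1 h1

end Crest.Agent.R182
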