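import Crest.Agent.R182.LAChar0
import Crest.Agent.R182.SELK

/-! Row 182, block L1 (c): group lemmas. -/

set_option autoImplicit false
set_option linter.dupNamespace false

namespace Crest.Agent.R182

open Module

variable {P G : Type*} [Group P] [Group G] {N : Subgroup P}

/-- `(CommGroup.torsion A).comap ψ` is finitely generated (`PC.of_le`, `PC.fg`); `m` = product of the
orders of the images of the generators; `Subgroup.closure_induction` -/
theorem exists_exponent (hP : PC (⊤ : Subgroup P)) {A : Type*} [CommGroup A] (ψ : P →* A) :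
    ∃ m : ℕ, 0 < m ∧ ∀ g, IsOfFinOrder (ψ g) → ψ g ^ m = 1 := by
  obtain ⟨T, hT⟩ := PC.fg (hP.of_le (K := (CommGroup.torsion A).comap ψ) le_top)
  have hmem : ∀ t ∈ T, IsOfFinOrder (ψ t) := fun t ht => by
    have h1 : t ∈ (CommGroup.torsion A).comap ψ := hT ▸ Subgroup.subset_closure ht
    exact h1
  refine ⟨∏ t ∈ T, orderOf (ψ t), Finset.prod_pos fun t ht => (hmem t ht).orderOf_pos,
    fun g hg => ?_⟩
  have h1 : g ∈ Subgroup.closure (T : Set P) := by
    rw [hT]
    exact hg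
  clear hg
  induction h1 using Subgroup.closure_induction with
  | mem x hx => exact orderOf_dvd_iff_pow_eq_one.1 (Finset.dvd_prod_of_mem _ hx)
  | one => rw [map_one, one_pow]
  | mul x y _ _ hx hy => rw [map_mul, mul_pow, hx, hy, one_mul]
  | inv x _ hx => rw [map_inv, inv_pow, hx, inv_one]

/-- `P ⧸ N` is commutative and finitely generated; `P₀` = preimage of the `m`-th powers
(`Subgroup.finiteIndex_range_powMonoidHom_of_fg`) -/
theorem exists_pow_subgroup (hP : Group.FG P) [N.Normal] (hc : ∀ a b : P, a * b * a⁻¹ * b⁻¹ ∈ N)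
    {m : ℕ} (hm : 0 < m) : ∃ P₀ : Subgroup P, P₀.FiniteIndex ∧ N ≤ P₀ ∧ (∀ g, g ^ m ∈ P₀) ∧
      ∀ p ∈ P₀, ∃ n ∈ N, ∃ g, p = n * g ^ m := by
  letI : CommGroup (P ⧸ N) :=
    { (inferInstance : Group (P ⧸ N)) with
      mul_comm := fun a b => by
        obtain ⟨a, rfl⟩ := QuotientGroup.mk_surjective a
        obtain ⟨b, rfl⟩ := QuotientGroup.mk_surjective b
        rw [← QuotientGroup.mk_mul, ← QuotientGroup.mk_mul, QuotientGroup.eq]
        have h := hc b⁻¹ a⁻¹
        rwa [show b⁻¹ * a⁻¹ * b⁻¹⁻¹ * a⁻¹⁻¹ = (a * b)⁻¹ * (b * a) by group] at h }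
  have hfi := Subgroup.finiteIndex_range_powMonoidHom_of_fg (P ⧸ N) hm.ne'
  refine ⟨(powMonoidHom (α := P ⧸ N) m).range.comap (QuotientGroup.mk' N), ⟨?_⟩, fun n hn => ?_,
    fun g => ⟨QuotientGroup.mk' N g, (map_pow _ g m).symm⟩, fun p hp => ?_⟩
  · rw [Subgroup.index_comap_of_surjective _ (QuotientGroup.mk'_surjective N)]
    exact hfi.index_ne_zero
  · rw [Subgroup.mem_comap, QuotientGroup.mk'_apply, (QuotientGroup.eq_one_iff n).2 hn]
    exact Subgroup.one_mem _
  · obtain ⟨x, hx⟩ := hp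
    obtain ⟨g, rfl⟩ := QuotientGroup.mk'_surjective N x
    refine ⟨p * (g ^ m)⁻¹, ?_, g, (inv_mul_cancel_right _ _).symm⟩
    rw [← QuotientGroup.eq_one_iff, ← QuotientGroup.mk'_apply, map_mul, map_inv, map_pow, ← hx]
    exact mul_inv_cancel _

/-- induction on a finset of indices: if `a` works for `S` and `ψ t b ≠ 1`, `b ∈ P₀`, then each
nontrivial `ψ s`, `s ∈ insert t S`, kills `a ^ n * b` for at most one `n : ℕ` -/
theorem exists_sep {A ι : Type*} [CommGroup A] [Finite ι] (P₀ : Subgroup P) (ψ : ι → P →* A)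
    (h : ∀ s, ∀ p ∈ P₀, IsOfFinOrder (ψ s p) → ψ s p = 1) :
    ∃ a ∈ P₀, ∀ s, ψ s a = 1 → ∀ p ∈ P₀, ψ s p = 1 := by
  classical
  have key : ∀ S : Finset ι, ∃ a ∈ P₀, ∀ s ∈ S, ψ s a = 1 → ∀ p ∈ P₀, ψ s p = 1 := by
    intro S
    induction S using Finset.induction_on with
    | empty => exact ⟨1, P₀.one_mem, fun s hs => absurd hs (Finset.notMem_empty s)⟩
    | insert t S _ ih =>
      obtain ⟨a, ha, hS⟩ := ih
      by_cases ht : ∀ p ∈ P₀, ψ t p = 1
      · refine ⟨a, ha, fun s hs => ?_⟩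
        rcases Finset.mem_insert.1 hs with rfl | hs
        · exact fun _ => ht
        · exact hS s hs
      · push Not at ht
        obtain ⟨b, hb, hbt⟩ := ht
        have hfin : ∀ s, {n : ℕ | ψ s (a ^ n * b) = 1 ∧ ¬ (ψ s a = 1 ∧ ψ s b = 1)}.Finite := by
          intro s
          refine Set.Subsingleton.finite fun n hn n' hn' => ?_
          by_contra hne
          have h1 : ψ s a ^ n = ψ s a ^ n' := by
            have h2 := hn.1.trans hn'.1.symm
            rw [map_mul, map_mul, map_pow, map_pow] at h2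
            exact mul_right_cancel h2
          have h2 : ψ s a = 1 := h s a ha (by
            by_contra h3
            exact hne (injective_pow_iff_not_isOfFinOrder.2 h3 h1))
          have h3 := hn.1
          rw [map_mul, map_pow, h2, one_pow, one_mul] at h3
          exact hn.2 ⟨h2, h3⟩
        obtain ⟨n, hn⟩ := (Set.finite_iUnion hfin).exists_notMem
        refine ⟨a ^ n * b, P₀.mul_mem (P₀.pow_mem ha n) hb, fun s hs h1 => ?_⟩
        have h2 : ψ s a = 1 ∧ ψ s b = 1 := by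
          by_contra h3
          exact hn (Set.mem_iUnion.2 ⟨s, h1, h3⟩)
        rcases Finset.mem_insert.1 hs with rfl | hs
        · exact absurd h2.2 hbt
        · exact hS s hs h2.1
  obtain ⟨a, ha, h1⟩ := key (Set.toFinite (Set.univ : Set ι)).toFinset
  exact ⟨a, ha, fun s => h1 s ((Set.Finite.mem_toFinset _).2 (Set.mem_univ s))⟩

private theorem h15_ex_neg (H : Hull N G) (Y : Fin H.d → ℝ) : H.ex Y * H.ex (-Y) = H.ex 0 := by
  have h1 : ∀ t : LTree, ∃ r : ℝ, t.eval (fun A B => H.br A B) Y (-Y) = r • Y := by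
    intro t
    induction t with
    | x => exact ⟨1, (one_smul _ _).symm⟩
    | y => exact ⟨-1, (neg_one_smul _ _).symm⟩
    | node s t hs ht =>
      obtain ⟨r, hr⟩ := hs
      obtain ⟨r', hr'⟩ := ht
      refine ⟨0, ?_⟩
      simp only [LTree.eval, hr, hr', map_smul, LinearMap.smul_apply, H.br_self, smul_zero,
        zero_smul]
  have h2 : ∀ s t : LTree, (LTree.node s t).eval (fun A B => H.br A B) Y (-Y) = 0 := by
    intro s t
    obtain ⟨r, hr⟩ := h1 s
    obtain ⟨r', hr'⟩ := h1 t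
    simp only [LTree.eval, hr, hr', map_smul, LinearMap.smul_apply, H.br_self, smul_zero]
  rw [H.ex_mul]
  congr 1
  rw [add_neg_cancel, zero_add]
  refine List.sum_eq_zero fun v hv => ?_
  obtain ⟨q, -, rfl⟩ := List.mem_map.1 hv
  rw [h2, smul_zero]

private theorem h15_ex_zero (H : Hull N G) : H.ex 0 = 1 := by
  have h := h15_ex_neg H 0
  rw [neg_zero] at h
  exact mul_eq_left.1 h

private theorem h15_ex_inv (H : Hull N G) (Y : Fin H.d → ℝ) : (H.ex Y)⁻¹ = H.ex (-Y) :=
  inv_eq_of_mul_eq_one_right ((h15_ex_neg H Y).trans (h15_ex_zero H))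

private theorem h15_step (H : Hull N G) {b : Basis (Fin H.d) ℂ (Fin H.d → ℂ)}
    (hb : ∀ X (i : Fin H.d), cx (H.br X) (b i) ∈ low b i) (g : G)
    (hg : ∀ i : Fin H.d, cx (H.Ad g) (b i) - b i ∈ low b i) (n : ℕ) (Y : Fin H.d → ℝ)
    (hY : io Y ∈ low b (n + 1)) :
    ∃ Z, g * H.ex Y * g⁻¹ * (H.ex Y)⁻¹ = H.ex Z ∧ io Z ∈ low b n := by
  rw [H.Ad_conj, h15_ex_inv, H.ex_mul]
  refine ⟨_, rfl, ?_⟩
  have h1 : io (H.Ad g Y + -Y) ∈ low b n := by
    have := low_succ_of (b := b) (T := cx (H.Ad g) - 1) (fun i => hg i) n hY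
    rwa [LinearMap.sub_apply, Module.End.one_apply, cx_io, ← io_sub, sub_eq_add_neg] at this
  have h2 : io (H.Ad g Y) ∈ low b (n + 1) := by
    have := (low b (n + 1)).add_mem (low_mono b (Nat.le_succ n) h1) hY
    rwa [← io_add, neg_add_cancel_right] at this
  have h3 : io (-Y) ∈ low b (n + 1) := by
    rw [io_neg]; exact (low b (n + 1)).neg_mem hY
  have h4 : ∀ A B, io B ∈ low b (n + 1) → io (H.br A B) ∈ low b n := fun A B hB => by
    rw [← cx_io]; exact low_succ_of (hb A) n hB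
  have h5 : ∀ t : LTree, io (t.eval (fun A B => H.br A B) (H.Ad g Y) (-Y)) ∈ low b (n + 1) := by
    intro t
    induction t with
    | x => exact h2
    | y => exact h3
    | node s t _ ht => exact low_mono b (Nat.le_succ n) (h4 _ _ ht)
  rw [io_add]
  refine (low b n).add_mem h1 ?_
  induction H.bch with
  | nil => rw [List.map_nil, List.sum_nil, io_zero]; exact (low b n).zero_mem
  | cons q l ih =>
    rw [List.map_cons, List.sum_cons, io_add, io_smul]
    exact (low b n).add_mem ((low b n).smul_mem _ (h4 _ _ (h5 _))) ih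

/-- Claim: if `j y = ex Y`, `io Y ∈ low b (n + 1)`, then `j (g y g⁻¹ y⁻¹) = ex Z` with
`io Z ∈ low b n`: `(ex Y)⁻¹ = ex (-Y)` (all brackets of `Y`, `-Y` vanish, `ex 0 = 1`),
`ex (Ad Y) * ex (-Y) = ex (Ad Y - Y + brackets)`, `io (Ad Y - Y) ∈ low b n` (`low_succ_of` for
`cx Ad - 1`), tree values lie in `low b (n + 1)` and nodes in `low b n`
(`io (br A B) = cx (br A) (io B)`).  Start with `low b d = ⊤`, end with `low b 0 = ⊥`, `j_inj`. -/
theorem Hull.engel (H : Hull N G) {b : Basis (Fin H.d) ℂ (Fin H.d → ℂ)}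
    (hb : ∀ X (i : Fin H.d), cx (H.br X) (b i) ∈ low b i) (g : P)
    (hg : ∀ i : Fin H.d, cx (H.Ad (H.j g)) (b i) - b i ∈ low b i) :
    ∀ x ∈ N, (fun y => g * y * g⁻¹ * y⁻¹)^[H.d] x = 1 := by
  intro x hx
  have key : ∀ m n, m + n = H.d → ∃ Z, H.j ((fun y => g * y * g⁻¹ * y⁻¹)^[m] x) = H.ex Z ∧
      io Z ∈ low b n := by
    intro m
    induction m with
    | zero =>
      intro n hn
      obtain ⟨Z, hZ⟩ := (H.j_mem x).2 hx
      exact ⟨Z, hZ.symm, by rw [low_top b (by omega)]; trivial⟩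
    | succ m ih =>
      intro n hn
      obtain ⟨Y, hY, hY'⟩ := ih (n + 1) (by omega)
      obtain ⟨Z, hZ, hZ'⟩ := h15_step H hb (H.j g) hg n Y hY'
      refine ⟨Z, ?_, hZ'⟩
      rw [Function.iterate_succ_apply', map_mul, map_mul, map_mul, map_inv, map_inv, hY, hZ]
  obtain ⟨Z, hZ, hZ'⟩ := key H.d 0 rfl
  rw [low_zero, Submodule.mem_bot, ← io_zero] at hZ'
  rw [io_inj hZ', h15_ex_zero, ← map_one H.j] at hZ
  exact H.j_inj hZ

end Crest.Agent.R182
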