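import Crest.Agent.R182.SELat

/-! Row 182, block S1: layers, heights, and the assembly of a tower. -/

set_option autoImplicit false
set_option linter.dupNamespace false

namespace Crest.Agent.R182

variable {P : Type*} [Group P]

theorem h68_tors_comm (M : Type*) [CommGroup M] [Group.FG M] :
    {m : M | ∃ n : ℕ, 0 < n ∧ m ^ n = 1}.Finite := by
  have : Module.Finite ℤ (Additive M) := Module.Finite.iff_addGroup_fg.mpr inferInstance
  have hfin : Finite (Submodule.torsion ℤ (Additive M)) :=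
    Module.finite_of_fg_torsion _ (Submodule.torsion_isTorsion)
  have h1 : (Submodule.torsion ℤ (Additive M) : Set (Additive M)).Finite := Set.toFinite _
  refine (h1.image Additive.toMul).subset ?_
  rintro m ⟨n, hn, hm⟩
  refine ⟨Additive.ofMul m, ⟨⟨(n : ℤ), mem_nonZeroDivisors_of_ne_zero (by exact_mod_cast hn.ne')⟩,
    ?_⟩, rfl⟩
  change (n : ℤ) • Additive.ofMul m = 0
  rw [natCast_zsmul, ← ofMul_pow, hm, ofMul_one]

/-- `M = ↥A ⧸ B.subgroupOf A` is a finitely generated commutative group, so its torsion subgroup is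
finite (subgroups of f.g. abelian groups are f.g.: `Module.Finite ℤ (Additive M)`, `IsNoetherian`;
`Module.finite_of_fg_torsion` / `CommGroup.finite_of_fg_torsion`); `T` = representatives. -/
theorem tors_finite {A B : Subgroup P} (hA : A.FG) (hBA : B ≤ A)
    (comm : ∀ x ∈ A, ∀ y ∈ A, x * y * x⁻¹ * y⁻¹ ∈ B) :
    ∃ T : Finset P, (∀ t ∈ T, t ∈ A) ∧
      ∀ x ∈ A, (∃ n : ℕ, 0 < n ∧ x ^ n ∈ B) → ∃ t ∈ T, t⁻¹ * x ∈ B := by
  classical
  have hFG : Group.FG A := (Group.fg_iff_subgroup_fg A).2 hA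
  have hc : ∀ x y : A, x * y * x⁻¹ * y⁻¹ ∈ B.subgroupOf A := fun x y => by
    simpa [Subgroup.mem_subgroupOf] using comm x x.2 y y.2
  have hN : (B.subgroupOf A).Normal := ⟨fun y hy x => by
    have := (B.subgroupOf A).mul_mem (hc x y) hy
    simpa using this⟩
  let inst : CommGroup (A ⧸ B.subgroupOf A) :=
    { (inferInstance : Group (A ⧸ B.subgroupOf A)) with
      mul_comm := fun a b => by
        induction a using QuotientGroup.induction_on with | H x =>
        induction b using QuotientGroup.induction_on with | H y =>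
        have h2 := (QuotientGroup.eq_one_iff _).2 (hc x y)
        simp only [QuotientGroup.mk_mul, QuotientGroup.mk_inv] at h2
        exact commutatorElement_eq_one_iff_mul_comm.1 h2 }
  have hfin := @h68_tors_comm (A ⧸ B.subgroupOf A) inst (QuotientGroup.fg _)
  refine ⟨hfin.toFinset.image fun m => ((Quotient.out m : A) : P), fun t ht => ?_,
    fun x hx ⟨n, hn, hxn⟩ => ?_⟩
  · obtain ⟨m, -, rfl⟩ := Finset.mem_image.1 ht
    exact (Quotient.out m : A).2
  · refine ⟨_, Finset.mem_image_of_mem _ ((Set.Finite.mem_toFinset hfin).2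
      (show ((⟨x, hx⟩ : A) : A ⧸ B.subgroupOf A) ∈ _ from ⟨n, hn, ?_⟩)), ?_⟩
    · change ((⟨x, hx⟩ : A) : A ⧸ B.subgroupOf A) ^ n = 1
      rw [← QuotientGroup.mk_pow, QuotientGroup.eq_one_iff, Subgroup.mem_subgroupOf]
      simpa using hxn
    · have h3 := QuotientGroup.eq.1 (QuotientGroup.out_eq' ((⟨x, hx⟩ : A) : A ⧸ B.subgroupOf A))
      simpa [Subgroup.mem_subgroupOf] using h3

/-- `Λ = ℓ '' A` as a `Submodule ℤ QB` (an `AddSubgroup`, `AddSubgroup.toIntSubmodule`; spanned by the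
images of generators of `A`); `exists_latlayer`; `L.y x = y (ℓ x)`, `lam j g = log ‖σ j (χ g)‖`
(`Real.log_prod`, `Real.exp_log`, `Real.log_injOn_pos`).  `proper`: finitely many values `ℓ x` with
`‖y (ℓ x)‖ ≤ 1`; choose preimages `s`, then `ℓ (s⁻¹ x) = 0`, so `h.tors` and `tors_finite` give `t` with
`t⁻¹ s⁻¹ x ∈ B`; `T` = products `s * t`.  `disc`: if `Λ = ⊥` then `d = 0` is not needed: use density to see that
`Fin d → ℝ` is bounded, so `Fin d` is empty and the set is a subsingleton; otherwise fix `0 ≠ x₀ ∈ Λ`: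
`‖lam · g‖ ≤ 1` gives `‖y (χ g * x₀)‖ ≤ |C| * exp 1 * ‖y x₀‖`, so `χ g` takes finitely many values. -/
theorem exists_layer {A B : Subgroup P} (hA : A.FG) (ℓ : P → QB) (χ : P →* QBˣ)
    (h : EStep ⊤ A B ℓ fun g => χ g) :
    ∃ L : Layer A B, (∀ j, ∃ σ : QB →+* ℂ, ∀ g, L.lam j g = Real.log ‖σ (χ g)‖) ∧
      ((∃ x ∈ A, ℓ x ≠ 0) → ∀ σ : QB →+* ℂ, ∃ j, ∀ g, L.lam j g = Real.log ‖σ (χ g)‖) := by
  classical
  let Λa : AddSubgroup QB :=
    { carrier := ℓ '' (A : Set P)
      zero_mem' := ⟨1, A.one_mem, h.one⟩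
      add_mem' := by
        rintro _ _ ⟨x, hx, rfl⟩ ⟨y, hy, rfl⟩
        exact ⟨x * y, A.mul_mem hx hy, h.add x hx y hy⟩
      neg_mem' := by
        rintro _ ⟨x, hx, rfl⟩
        exact ⟨x⁻¹, A.inv_mem hx, h.inv hx⟩ }
  let Λ : Submodule ℤ QB := AddSubgroup.toIntSubmodule Λa
  have hΛ : ∀ z, z ∈ Λ ↔ ∃ x ∈ A, ℓ x = z := fun z => Iff.rfl
  have hFG : Λ.FG := by
    obtain ⟨S, hS⟩ := hA
    refine ⟨S.image ℓ, le_antisymm (Submodule.span_le.2 fun z hz => ?_) fun z hz => ?_⟩
    · obtain ⟨s, hs, rfl⟩ := Finset.mem_image.1 (Finset.mem_coe.1 hz)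
      exact (hΛ _).2 ⟨s, hS ▸ Subgroup.subset_closure hs, rfl⟩
    · obtain ⟨x, hx, rfl⟩ := (hΛ z).1 hz
      rw [← hS] at hx
      induction hx using Subgroup.closure_induction with
      | mem x hx => exact Submodule.subset_span (Finset.mem_coe.2 (Finset.mem_image_of_mem _ hx))
      | one => rw [h.one]; exact Submodule.zero_mem _
      | mul x y hx hy ihx ihy =>
        rw [hS] at hx hy
        rw [h.add x hx y hy]
        exact Submodule.add_mem _ (ihx ((hΛ _).2 ⟨x, hx, rfl⟩)) (ihy ((hΛ _).2 ⟨y, hy, rfl⟩))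
      | inv x hx ihx =>
        rw [hS] at hx
        rw [h.inv hx]
        exact Submodule.neg_mem _ (ihx ((hΛ _).2 ⟨x, hx, rfl⟩))
  have hχ : ∀ g, ∀ x ∈ Λ, (χ g : QB) * x ∈ Λ := by
    intro g z hz
    obtain ⟨x, hx, rfl⟩ := (hΛ z).1 hz
    exact (hΛ _).2 ⟨_, h.norm g trivial x hx, h.conj g trivial x hx⟩
  obtain ⟨d, σ, y, R, C, hadd, hconj, hle, hdense, hfin, hprod, hall⟩ :=
    exists_latlayer Λ hFG χ hχ
  have hpos : ∀ j g, 0 < ‖σ j (χ g)‖ := fun j g =>
    norm_pos_iff.2 ((map_ne_zero (σ j)).2 (χ g).ne_zero)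
  have hy0 : y 0 = 0 := by
    have := hadd 0 0
    rw [add_zero] at this
    exact left_eq_add.1 this
  have hdisc : {v : Fin d → ℝ | (∃ g, v = fun j => Real.log ‖σ j (χ g)‖) ∧ ‖v‖ ≤ 1}.Finite := by
    by_cases hbot : Λ = ⊥
    · have he : IsEmpty (Fin d) := by
        refine ⟨fun j => ?_⟩
        obtain ⟨x, hx, hxv⟩ := hdense fun _ => |C| + 1
        rw [hbot, Submodule.mem_bot] at hx
        rw [hx, hy0, zero_sub, norm_neg] at hxv
        have := (norm_le_pi_norm (fun _ : Fin d => |C| + 1) j).trans hxv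
        rw [Real.norm_of_nonneg (by positivity)] at this
        linarith [le_abs_self C]
      exact Set.Subsingleton.finite fun a _ b _ => Subsingleton.elim a b
    · obtain ⟨x₀, hx₀, hx0⟩ := (Submodule.ne_bot_iff Λ).1 hbot
      refine ((hfin (|C| * Real.exp 1 * ‖y x₀‖)).image
        fun z j => Real.log ‖σ j (z / x₀)‖).subset ?_
      rintro v ⟨⟨g, rfl⟩, hv⟩
      refine ⟨χ g * x₀, ⟨hχ g x₀ hx₀, ?_⟩, by simp only [mul_div_cancel_right₀ _ hx0]⟩
      rw [hconj g x₀ hx₀]
      refine (pi_norm_le_iff_of_nonneg (by positivity)).2 fun j => ?_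
      refine (hle g (y x₀) j ‖y x₀‖ fun j' _ => norm_le_pi_norm (y x₀) j').trans ?_
      have h1 : Real.log ‖σ j (χ g)‖ ≤ 1 :=
        (le_abs_self _).trans ((norm_le_pi_norm (fun j => Real.log ‖σ j (χ g)‖) j).trans hv)
      have h2 : ‖σ j (χ g)‖ ≤ Real.exp 1 := (Real.log_le_iff_le_exp (hpos j g)).1 h1
      refine mul_le_mul_of_nonneg_right ?_ (norm_nonneg _)
      exact mul_le_mul (le_abs_self C) h2 (norm_nonneg _) (abs_nonneg C)
  have hproper : ∃ T : Finset P, (∀ t ∈ T, t ∈ A) ∧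
      ∀ x ∈ A, ‖y (ℓ x)‖ ≤ 1 → ∃ t ∈ T, t⁻¹ * x ∈ B := by
    obtain ⟨T, hTA, hT⟩ := tors_finite hA h.le h.comm
    have hs : ∀ z : QB, ∃ s ∈ A, z ∈ Λ → ℓ s = z := fun z => by
      by_cases hz : z ∈ Λ
      · obtain ⟨x, hx, e⟩ := (hΛ z).1 hz
        exact ⟨x, hx, fun _ => e⟩
      · exact ⟨1, A.one_mem, fun h' => absurd h' hz⟩
    choose s hsA hs using hs
    refine ⟨Finset.image₂ (fun z t => s z * t) (hfin 1).toFinset T, fun t ht => ?_,
      fun x hx hx1 => ?_⟩
    · obtain ⟨z, -, t', ht', rfl⟩ := Finset.mem_image₂.1 ht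
      exact A.mul_mem (hsA z) (hTA t' ht')
    · have hxΛ : ℓ x ∈ Λ := (hΛ _).2 ⟨x, hx, rfl⟩
      have hm : (s (ℓ x))⁻¹ * x ∈ A := A.mul_mem (A.inv_mem (hsA _)) hx
      have h0 : ℓ ((s (ℓ x))⁻¹ * x) = 0 := by
        rw [h.add _ (A.inv_mem (hsA _)) x hx, h.inv (hsA _), hs _ hxΛ, neg_add_cancel]
      obtain ⟨t, ht, htB⟩ := hT _ hm (h.tors _ hm h0)
      refine ⟨s (ℓ x) * t, Finset.mem_image₂_of_mem ((Set.Finite.mem_toFinset _).2 ⟨hxΛ, hx1⟩) ht,
        ?_⟩
      rwa [mul_inv_rev, mul_assoc]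
  refine ⟨{ d := d
            lam := fun j g => Real.log ‖σ j (χ g)‖
            lam_mul := fun j g g' => ?_
            unimod := fun g => ?_
            disc := hdisc
            y := fun x => y (ℓ x)
            R := R
            C := C
            y_mul := fun x hx x' hx' => ?_
            y_zero := fun x hx => ?_
            y_conj := fun x hx g => ?_
            R_le := fun g v j b hb => ?_
            dense := fun v => ?_
            proper := hproper }, fun j => ⟨σ j, fun _ => rfl⟩, fun ⟨x, hx, hx0⟩ τ => ?_⟩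
  · rw [map_mul, Units.val_mul, map_mul, norm_mul, Real.log_mul (hpos j g).ne' (hpos j g').ne']
  · rw [← Real.log_prod fun j _ => (hpos j g).ne', hprod, Real.log_one]
  · rw [h.add x hx x' hx', hadd]
  · rw [h.zero x hx, hy0]
  · rw [h.conj g trivial x hx, hconj g _ ((hΛ _).2 ⟨x, hx, rfl⟩)]
  · rw [Real.exp_log (hpos j g)]
    exact hle g v j b fun j' hj' => hb j' (funext fun g' => by rw [hj' g'])
  · obtain ⟨z, hz, hzv⟩ := hdense v
    obtain ⟨x, hx, rfl⟩ := (hΛ z).1 hz
    exact ⟨x, hx, hzv⟩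
  · obtain ⟨j, hj⟩ := hall ((Submodule.ne_bot_iff Λ).2 ⟨ℓ x, (hΛ _).2 ⟨x, hx, rfl⟩, hx0⟩) τ
    exact ⟨j, fun g => by simp only [hj g]⟩

/-- The image `Λ` of `g ↦ (lam j g)_j` is an additive subgroup of `J → ℝ` with finitely many points in the
unit ball, hence discrete (`0` is isolated; `discreteTopology_of_isOpen_singleton_zero` or
`DiscreteTopology.of_forall_le_norm`); as `Submodule ℤ (J → ℝ)` it is free of finite rank
(`instModuleFree_of_discrete_submodule`, `instModuleFinite_of_discrete_submodule`), and a `ℤ`-basis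
`b : Fin k → Λ` is `ℝ`-independent (`Real.finrank_eq_int_finrank_of_discrete` +
`linearIndependent_iff_card_eq_finrank_span`, or `Module.Basis.ofZLatticeBasis` in `span ℝ Λ` with
`ZLattice.comap`).  `ht g a = b.repr (lam · g) a`, `wt j v = ∑ a, v a * b a j`. -/
theorem exists_heights {J : Type*} [Fintype J] (lam : J → P → ℝ)
    (lam_mul : ∀ j g h, lam j (g * h) = lam j g + lam j h)
    (disc : {v : J → ℝ | (∃ g, v = fun j => lam j g) ∧ ‖v‖ ≤ 1}.Finite) :
    ∃ (k : ℕ) (ht : P → Fin k → ℝ) (wt : J → (Fin k → ℝ) →ₗ[ℝ] ℝ),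
      (∀ g h, ht (g * h) = ht g + ht h) ∧ (∀ g a, ∃ z : ℤ, ht g a = z) ∧
      (∀ z : Fin k → ℤ, ∃ g, ∀ a, ht g a = z a) ∧ (∀ j g, wt j (ht g) = lam j g) ∧
      ∀ v, (∀ j, wt j v = 0) → v = 0 := by
  classical
  have h1 : ∀ j, lam j 1 = 0 := fun j => by
    have := lam_mul j 1 1
    rw [mul_one] at this
    linarith
  have hinv : ∀ j g, lam j g⁻¹ = -lam j g := fun j g => by
    have := lam_mul j g g⁻¹
    rw [mul_inv_cancel, h1] at this
    linarith
  let A : AddSubgroup (J → ℝ) :=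
    { carrier := {v | ∃ g, v = fun j => lam j g}
      zero_mem' := ⟨1, funext fun j => (h1 j).symm⟩
      add_mem' := by
        rintro _ _ ⟨g, rfl⟩ ⟨h, rfl⟩
        exact ⟨g * h, funext fun j => (lam_mul j g h).symm⟩
      neg_mem' := by
        rintro _ ⟨g, rfl⟩
        exact ⟨g⁻¹, funext fun j => (hinv j g).symm⟩ }
  let L : Submodule ℤ (J → ℝ) := AddSubgroup.toIntSubmodule A
  have hL : ∀ v, v ∈ L ↔ ∃ g, v = fun j => lam j g := fun v => Iff.rfl
  have hd : DiscreteTopology L := by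
    refine discreteTopology_of_isOpen_singleton_zero ?_
    refine isOpen_singleton_of_finite_mem_nhds 0 (s := Metric.closedBall 0 1) ?_ ?_
    · exact Metric.closedBall_mem_nhds _ (by simp)
    · refine Set.Finite.of_finite_image ?_ (Set.injOn_of_injective Subtype.val_injective)
      refine disc.subset ?_
      rintro _ ⟨x, hx, rfl⟩
      exact ⟨(hL _).1 x.2, by simpa using hx⟩
  let k := Module.finrank ℤ L
  let b : Module.Basis (Fin k) ℤ L := Module.finBasis ℤ L
  let c : Fin k → J → ℝ := fun a => (b a : J → ℝ)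
  have hspan : Submodule.span ℤ (Set.range c) = L := by
    have : Set.range c = L.subtype '' Set.range b := by
      rw [← Set.range_comp]; rfl
    rw [this, ← Submodule.map_span, b.span_eq, Submodule.map_top, Submodule.range_subtype]
  have hli : LinearIndependent ℝ c := by
    rw [linearIndependent_iff_card_eq_finrank_span,
      Real.finrank_eq_int_finrank_of_discrete (by rw [hspan]; exact hd), Set.finrank, hspan,
      Fintype.card_fin]
  let Λ : P → L := fun g => ⟨fun j => lam j g, (hL _).2 ⟨g, rfl⟩⟩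
  have hΛ : ∀ g h, Λ (g * h) = Λ g + Λ h := fun g h =>
    Subtype.ext (funext fun j => lam_mul j g h)
  refine ⟨k, fun g a => (b.repr (Λ g) a : ℤ),
    fun j => (LinearMap.proj j : (J → ℝ) →ₗ[ℝ] ℝ) ∘ₗ Fintype.linearCombination ℝ c,
    ?_, fun g a => ⟨_, rfl⟩, ?_, ?_, ?_⟩
  · intro g h
    funext a
    simp [hΛ]
  · intro z
    obtain ⟨g, hg⟩ := (hL _).1 (b.equivFun.symm z).2
    refine ⟨g, fun a => ?_⟩
    have : Λ g = b.equivFun.symm z := Subtype.ext hg.symm
    have h2 : b.equivFun (Λ g) = z := by rw [this, LinearEquiv.apply_symm_apply]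
    rw [← h2]; simp
  · intro j g
    have h2 := congrArg (fun x : L => (x : J → ℝ) j) (b.sum_repr (Λ g))
    have h3 : (Λ g : J → ℝ) j = lam j g := rfl
    rw [h3, Submodule.coe_sum, Finset.sum_apply] at h2
    simpa [Fintype.linearCombination_apply, c] using h2
  · intro v hv
    have h2 : Fintype.linearCombination ℝ c v = 0 := funext fun j => hv j
    rw [Fintype.linearCombination_apply] at h2
    funext a
    exact Fintype.linearIndependent_iff.1 hli v h2 a

/-- the block diagonal action on the coordinates of all layers -/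
private noncomputable def h56rho {r : ℕ} {Q : ℕ → Subgroup P} (L : ∀ i, Layer (Q i) (Q (i + 1)))
    {m : ℕ} (e : (Σ i : Fin r, Fin (L i).d) ≃ Fin m) : P →* Module.End ℝ (Fin m → ℝ) where
  toFun g :=
    { toFun := fun v j => (fun q : Σ i : Fin r, Fin (L i).d =>
        (L q.1).R g (fun b => v (e ⟨q.1, b⟩)) q.2) (e.symm j)
      map_add' := fun v w => by
        funext j
        simp only [Pi.add_apply]
        generalize e.symm j = q
        exact congrFun (map_add ((L q.1).R g) (fun b => v (e ⟨q.1, b⟩))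
          (fun b => w (e ⟨q.1, b⟩))) q.2
      map_smul' := fun c v => by
        funext j
        simp only [Pi.smul_apply, RingHom.id_apply]
        generalize e.symm j = q
        exact congrFun (map_smul ((L q.1).R g) c (fun b => v (e ⟨q.1, b⟩))) q.2 }
  map_one' := by
    refine LinearMap.ext fun v => funext fun j => ?_
    simp
  map_mul' g h := by
    refine LinearMap.ext fun v => funext fun j => ?_
    have key : ∀ (q : Σ i : Fin r, Fin (L i).d), (fun q' : Σ i : Fin r, Fin (L i).d =>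
        (L q'.1).R h (fun b => v (e ⟨q'.1, b⟩)) q'.2) (e.symm (e q)) =
        (L q.1).R h (fun b => v (e ⟨q.1, b⟩)) q.2 := fun q => by rw [Equiv.symm_apply_apply]
    change (fun q : Σ i : Fin r, Fin (L i).d =>
        (L q.1).R (g * h) (fun b => v (e ⟨q.1, b⟩)) q.2) (e.symm j) =
      (fun q : Σ i : Fin r, Fin (L i).d => (L q.1).R g (fun b =>
        (fun q' : Σ i : Fin r, Fin (L i).d => (L q'.1).R h (fun b => v (e ⟨q'.1, b⟩)) q'.2)
          (e.symm (e ⟨q.1, b⟩))) q.2) (e.symm j)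
    generalize e.symm j = q
    have e2 : (fun b => (fun q' : Σ i : Fin r, Fin (L i).d =>
        (L q'.1).R h (fun b => v (e ⟨q'.1, b⟩)) q'.2) (e.symm (e ⟨q.1, b⟩))) =
        (L q.1).R h (fun b => v (e ⟨q.1, b⟩)) := funext fun b => key ⟨q.1, b⟩
    exact (congrFun (LinearMap.congr_fun (map_mul (L q.1).R g h) _) q.2).trans
      (congrArg (fun w => (L q.1).R g w q.2) e2).symm

private theorem h56rho_apply {r : ℕ} {Q : ℕ → Subgroup P} (L : ∀ i, Layer (Q i) (Q (i + 1)))
    {m : ℕ} (e : (Σ i : Fin r, Fin (L i).d) ≃ Fin m) (g : P) (v : Fin m → ℝ) (i : Fin r)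
    (b : Fin (L i).d) : h56rho L e g v (e ⟨i, b⟩) = (L i).R g (fun b' => v (e ⟨i, b'⟩)) b := by
  change (fun q : Σ i : Fin r, Fin (L i).d =>
    (L q.1).R g (fun b => v (e ⟨q.1, b⟩)) q.2) (e.symm (e ⟨i, b⟩)) = _
  rw [Equiv.symm_apply_apply]

/-- the coordinates on the layer `i` -/
private noncomputable def h56iota {r : ℕ} {Q : ℕ → Subgroup P}
    (L : ∀ i, Layer (Q i) (Q (i + 1))) {m : ℕ} (e : (Σ i : Fin r, Fin (L i).d) ≃ Fin m) (i : ℕ)
    (x : P) (j : Fin m) : ℝ :=
  (fun q : Σ i : Fin r, Fin (L i).d => if (q.1 : ℕ) = i then (L q.1).y x q.2 else 0) (e.symm j)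

private theorem h56iota_apply {r : ℕ} {Q : ℕ → Subgroup P} (L : ∀ i, Layer (Q i) (Q (i + 1)))
    {m : ℕ} (e : (Σ i : Fin r, Fin (L i).d) ≃ Fin m) (i : ℕ) (x : P) (i' : Fin r)
    (b : Fin (L i').d) :
    h56iota L e i x (e ⟨i', b⟩) = if (i' : ℕ) = i then (L i').y x b else 0 := by
  unfold h56iota
  rw [Equiv.symm_apply_apply]

/-- `J = Σ i : Fin r, Fin (L i).d`, `e = Fintype.equivFin J`, `lay j = (e.symm j).1`; `exists_heights` for
`lam ⟨i, b⟩ = (L i).lam b` (the unit-ball set injects into the product of the sets `(L i).disc`,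
`Set.Finite.pi'`); cast-free formulas on `J`: `ι i x ⟨i', b⟩ = if (i' : ℕ) = i then (L i').y x b else 0` and
`ρ g v ⟨i', b⟩ = (L i').R g (fun b' => v ⟨i', b'⟩) b`, transported by `e`; `C = 1 + ∑ i, |(L i).C|`.
A linear form vanishing on `ht '' univ` vanishes (`ht_surj` for `Pi.single`), which gives `unimod` for all `v`
and `lam j' = lam j → wt j' = wt j`.  For `i ≥ r`: `Q i = ⊥` (`anti`, `bot`), `ι i = 0`, `dense` with `x = 1`
(`y = 0` as `lay j < r`), `proper` with `T = {1}`. -/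
theorem tower_of_layers (hP : Group.FG P) (r : ℕ) (Q : ℕ → Subgroup P) (normal : ∀ i, (Q i).Normal)
    (anti : ∀ i, Q (i + 1) ≤ Q i) (bot : Q r = ⊥)
    (comm : ∀ i, ∀ x ∈ Q i, ∀ y ∈ Q i, x * y * x⁻¹ * y⁻¹ ∈ Q (i + 1))
    (L : ∀ i, Layer (Q i) (Q (i + 1)))
    (h0 : ∀ g, g ∈ Q 0 ↔ ∀ i < r, ∀ j, (L i).lam j g = 0) : Nonempty (Tower P) := by
  obtain ⟨S, hS⟩ := hP.out
  let e := Fintype.equivFin (Σ i : Fin r, Fin (L i).d)
  obtain ⟨k, ht, wt, hmul, hint, hsurj, hwt, hspan⟩ :=
    exists_heights (fun q : Σ i : Fin r, Fin (L i).d => (L q.1).lam q.2)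
      (fun q => (L q.1).lam_mul q.2) (by
        refine ((Set.Finite.pi' fun i : Fin r => (L i).disc).image
          fun f (q : Σ i : Fin r, Fin (L i).d) => f q.1 q.2).subset ?_
        rintro v ⟨⟨g, hg⟩, hv⟩
        refine ⟨fun i b => v ⟨i, b⟩, fun i => ⟨⟨g, by rw [hg]⟩, ?_⟩, rfl⟩
        exact (pi_norm_le_iff_of_nonneg zero_le_one).2 fun b => (norm_le_pi_norm v _).trans hv)
  have hext : ∀ φ ψ : (Fin k → ℝ) →ₗ[ℝ] ℝ, (∀ g, φ (ht g) = ψ (ht g)) → φ = ψ := by
    intro φ ψ h
    refine (Pi.basisFun ℝ (Fin k)).ext fun a => ?_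
    obtain ⟨g, hg⟩ := hsurj (Pi.single a 1)
    have : Pi.basisFun ℝ (Fin k) a = ht g := by
      funext a'
      rw [hg, Pi.basisFun_apply]
      by_cases h' : a' = a
      · subst h'
        simp
      · simp [Pi.single_eq_of_ne h']
    rw [this, h]
  set C : ℝ := 1 + ∑ i : Fin r, |(L i).C| with hC
  have hsum : 0 ≤ ∑ i : Fin r, |(L i).C| := Finset.sum_nonneg fun i _ => abs_nonneg _
  have hCi : ∀ i : Fin r, (L i).C ≤ C := by
    intro i
    have := Finset.single_le_sum (f := fun i : Fin r => |(L i).C|) (fun i _ => abs_nonneg _)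
      (Finset.mem_univ i)
    have := le_abs_self (L i).C
    linarith
  have hbot : ∀ i, r ≤ i → Q i = ⊥ := by
    intro i hi
    induction hi with
    | refl => exact bot
    | step _ ih => exact le_bot_iff.1 (ih ▸ anti _)
  refine ⟨{
    S := S
    gen := hS
    k := k
    ht := ht
    ht_mul := hmul
    ht_int := hint
    ht_surj := hsurj
    r := r
    Q := Q
    normal := normal
    anti := anti
    mem_zero := fun g => ?_
    bot := bot
    comm := comm
    m := _
    lay := fun j => (e.symm j).1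
    lay_lt := fun j => (e.symm j).1.2
    wt := fun j => wt (e.symm j)
    span := fun v hv => hspan v fun q => by simpa using hv (e q)
    unimod := fun i v => ?_
    ι := h56iota L e
    ρ := h56rho L e
    C := C
    one_le_C := by linarith
    ι_mul := fun i x hx y hy => ?_
    ι_supp := fun i x _ j hj => if_neg hj
    ι_zero := fun i x hx => ?_
    ι_conj := fun i x hx g => ?_
    ρ_le := fun g y j B hB => ?_
    dense := fun i y hy => ?_
    proper := fun i => ?_ }⟩
  · rw [h0]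
    constructor
    · intro h
      exact hspan _ fun q => (hwt q g).trans (h q.1 q.1.2 q.2)
    · intro h i hi b
      have := hwt ⟨⟨i, hi⟩, b⟩ g
      rw [h, map_zero] at this
      exact this.symm
  · have := hext (∑ j with ((e.symm j).1 : ℕ) = i, wt (e.symm j)) 0 fun g => by
      rw [LinearMap.sum_apply, Finset.sum_filter, LinearMap.zero_apply,
        e.symm.sum_comp fun q => if (q.1 : ℕ) = i then wt q (ht g) else 0, Fintype.sum_sigma]
      refine Finset.sum_eq_zero fun i' _ => ?_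
      simp only [hwt]
      split_ifs
      · exact (L i').unimod g
      · simp
    rw [← LinearMap.sum_apply, this, LinearMap.zero_apply]
  · funext j
    obtain ⟨⟨i', b⟩, rfl⟩ := e.surjective j
    simp only [Pi.add_apply, h56iota_apply]
    split_ifs with h
    · subst h
      rw [(L i').y_mul x hx y hy, Pi.add_apply]
    · simp
  · funext j
    obtain ⟨⟨i', b⟩, rfl⟩ := e.surjective j
    simp only [Pi.zero_apply, h56iota_apply]
    split_ifs with h
    · subst h
      rw [(L i').y_zero x hx, Pi.zero_apply]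
    · rfl
  · funext j
    obtain ⟨⟨i', b⟩, rfl⟩ := e.surjective j
    simp only [h56rho_apply, h56iota_apply]
    split_ifs with h
    · subst h
      rw [(L i').y_conj x hx g]
    · exact (congrFun (map_zero ((L i').R g)) b).symm
  · obtain ⟨⟨i, b⟩, rfl⟩ := e.surjective j
    have hB0 : 0 ≤ B := (abs_nonneg _).trans (hB _ rfl rfl)
    rw [h56rho_apply]
    refine ((L i).R_le g _ b B fun b' hb' => hB _ ?_ ?_).trans ?_
    · simp only [Equiv.symm_apply_apply]
    · simp only [Equiv.symm_apply_apply]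
      exact hext _ _ fun g => by rw [hwt, hwt, hb']
    · simp only [Equiv.symm_apply_apply, hwt]
      have := hCi i
      gcongr
  · by_cases hi : i < r
    · obtain ⟨i, rfl⟩ : ∃ i' : Fin r, (i' : ℕ) = i := ⟨⟨i, hi⟩, rfl⟩
      obtain ⟨x, hx, hd⟩ := (L i).dense fun b => y (e ⟨i, b⟩)
      refine ⟨x, hx, (pi_norm_le_iff_of_nonneg (by linarith)).2 fun j => ?_⟩
      obtain ⟨⟨i', b⟩, rfl⟩ := e.surjective j
      rw [Pi.sub_apply, h56iota_apply]
      split_ifs with h
      · obtain rfl := Fin.ext h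
        exact ((norm_le_pi_norm _ b).trans hd).trans (hCi _)
      · rw [hy _ (by simpa using h), sub_zero, norm_zero]
        linarith
    · refine ⟨1, (Q i).one_mem, (pi_norm_le_iff_of_nonneg (by linarith)).2 fun j => ?_⟩
      have hj : ((e.symm j).1 : ℕ) ≠ i := fun h => hi (h ▸ (e.symm j).1.2)
      have h1 : h56iota L e i 1 j = 0 := if_neg hj
      rw [Pi.sub_apply, hy j hj, h1, sub_zero, norm_zero]
      linarith
  · by_cases hi : i < r
    · obtain ⟨i, rfl⟩ : ∃ i' : Fin r, (i' : ℕ) = i := ⟨⟨i, hi⟩, rfl⟩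
      obtain ⟨T, hT, hp⟩ := (L i).proper
      refine ⟨T, hT, fun x hx h => hp x hx ?_⟩
      refine (pi_norm_le_iff_of_nonneg zero_le_one).2 fun b => ?_
      have := (norm_le_pi_norm _ (e ⟨i, b⟩)).trans h
      rwa [h56iota_apply, if_pos rfl] at this
    · refine ⟨{1}, fun t ht => by rw [Finset.mem_singleton.1 ht]; exact (Q i).one_mem,
        fun x hx _ => ⟨1, Finset.mem_singleton_self 1, ?_⟩⟩
      rw [hbot i (not_lt.1 hi), Subgroup.mem_bot] at hx
      rw [hx, inv_one, one_mul]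
      exact (Q (i + 1)).one_mem

end Crest.Agent.R182
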