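import Crest.Agent.R182.LAChar1
import Crest.Agent.R182.LAChar2
import Crest.Agent.R182.LAChar3
import Crest.Agent.R182.SELay

/-! Row 182, block L1 (c): characters and heights of the hull. -/

set_option autoImplicit false
set_option linter.dupNamespace false

namespace Crest.Agent.R182

open Module Polynomial

variable {P G : Type*} [Group P] [Group G] {N : Subgroup P}

/-- the modulus of a complex unit -/
noncomputable def h90_nm : ℂˣ →* ℂˣ :=
  Units.map (Complex.ofRealHom.toMonoidHom.comp (normHom : ℂ →*₀ ℝ).toMonoidHom)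

theorem h90_nm_eq_one {z : ℂˣ} : h90_nm z = 1 ↔ ‖(z : ℂ)‖ = 1 := by
  rw [← Units.val_eq_one]
  change ((‖(z : ℂ)‖ : ℝ) : ℂ) = 1 ↔ _
  exact_mod_cast Iff.rfl

theorem h90_nm_tf {z : ℂˣ} (h : IsOfFinOrder (h90_nm z)) : h90_nm z = 1 := by
  obtain ⟨n, hn, e⟩ := isOfFinOrder_iff_pow_eq_one.1 h
  rw [← map_pow, h90_nm_eq_one, Units.val_pow_eq_pow_val, norm_pow] at e
  exact h90_nm_eq_one.2 ((pow_eq_one_iff_of_nonneg (norm_nonneg _) hn.ne').1 e)

theorem h90_one_le_prod {d : ℕ} {c : Fin d → ℂˣ} {q : ℤ[X]}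
    (h : q.map (Int.castRingHom ℂ) = ∏ i, (X - C (c i : ℂ))) : 1 ≤ ∏ i, ‖(c i : ℂ)‖ := by
  have e := congrArg (fun p : ℂ[X] => ‖p.eval 0‖) h
  simp only [eval_prod, eval_sub, eval_X, eval_C, zero_sub, norm_prod, norm_neg] at e
  rw [← coeff_zero_eq_eval_zero, coeff_map, eq_intCast, Complex.norm_intCast] at e
  have h0 : 0 < ∏ i, ‖(c i : ℂ)‖ := Finset.prod_pos fun i _ => norm_pos_iff.2 (c i).ne_zero
  rw [← e] at h0 ⊢
  have : (0 : ℤ) < |q.coeff 0| := by exact_mod_cast h0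
  exact_mod_cast this

theorem Hull.exists_chars (H : Hull N G) [N.Normal] (hP : PC (⊤ : Subgroup P))
    (hc : ∀ a b : P, a * b * a⁻¹ * b⁻¹ ∈ N)
    (engel : ∀ g : P, (∃ n : ℕ, ∀ x ∈ N, (fun y => g * y * g⁻¹ * y⁻¹)^[n] x = 1) → g ∈ N) :
    Nonempty (Chars H) := by
  classical
  obtain ⟨b, χ, χex, bAd, bbr⟩ := H.exists_tri hc
  let χ' : Option (Fin H.d) → G →* ℂˣ := fun o => o.elim 1 χ
  let ψ : Option (Fin H.d) × Option (Fin H.d) → P →* ℂˣ := fun s => (χ' s.1 / χ' s.2).comp H.j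
  have hχN : ∀ o, ∀ n ∈ N, χ' o (H.j n) = 1 := by
    intro o n hn
    obtain ⟨X, hX⟩ := (H.j_mem n).2 hn
    cases o with
    | none => rfl
    | some i => rw [← hX]; exact χex i X
  have hψ : ∀ s p, ψ s p = χ' s.1 (H.j p) / χ' s.2 (H.j p) := fun s p => rfl
  choose m₀ hm₀ hm₁ using fun s => exists_exponent hP (ψ s)
  set m : ℕ := ∏ s, m₀ s with hm
  have hmpos : 0 < m := Finset.prod_pos fun s _ => hm₀ s
  obtain ⟨P₀, hfi, hle, hpow, hdec⟩ := exists_pow_subgroup (Group.fg_def.2 hP.fg) hc hmpos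
  have tf : ∀ s, ∀ p ∈ P₀, IsOfFinOrder (ψ s p) → ψ s p = 1 := by
    intro s p hp h
    obtain ⟨n, hn, g, rfl⟩ := hdec p hp
    have e : ψ s (n * g ^ m) = ψ s g ^ m := by
      rw [map_mul, map_pow, hψ s n, hχN _ n hn, hχN _ n hn, div_one, one_mul]
    rw [e] at h ⊢
    obtain ⟨c, hc⟩ : m₀ s ∣ m := Finset.dvd_prod_of_mem _ (Finset.mem_univ s)
    rw [hc, pow_mul, hm₁ s g (h.of_pow hmpos.ne'), one_pow]
  obtain ⟨a₀, ha₀, hsep⟩ := exists_sep P₀
    (fun s : (Option (Fin H.d) × Option (Fin H.d)) × Bool =>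
      if s.2 then ψ s.1 else h90_nm.comp (ψ s.1)) (by
      rintro ⟨s, _ | _⟩ p hp h
      · exact h90_nm_tf h
      · exact tf s p hp h)
  have hsep1 : ∀ s, ψ s a₀ = 1 → ∀ p ∈ P₀, ψ s p = 1 := fun s => hsep (s, true)
  have hsep2 : ∀ s, ‖(ψ s a₀ : ℂ)‖ = 1 → ∀ p ∈ P₀, ‖(ψ s p : ℂ)‖ = 1 := fun s h p hp =>
    h90_nm_eq_one.1 (hsep (s, false) (h90_nm_eq_one.2 h) p hp)
  -- logarithms of the moduli
  let vec : G → Fin H.d → ℝ := fun g i => Real.log ‖(χ i g : ℂ)‖
  have hpos : ∀ i g, 0 < ‖(χ i g : ℂ)‖ := fun i g => norm_pos_iff.2 (χ i g).ne_zero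
  have vec_mul : ∀ g h, vec (g * h) = vec g + vec h := fun g h => funext fun i => by
    simp only [vec, map_mul, Units.val_mul, norm_mul, Pi.add_apply]
    exact Real.log_mul (hpos i g).ne' (hpos i h).ne'
  have vec_hom : AHom vec := vec_mul
  have vec_ex : ∀ X, vec (H.ex X) = 0 := fun X => funext fun i => by
    simp [vec, χex]
  have hpoly : ∀ p : P, ∃ q : ℤ[X], q.map (Int.castRingHom ℂ) =
      ∏ i, (X - C (χ i (H.j p) : ℂ)) := fun p => H.int_poly p (bAd (H.j p))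
  obtain ⟨k, ht, wt, ht_mul, ht_int, ht_surj, wt_ht, span⟩ :=
    exists_heights (P := P₀) (fun i p => vec (H.j p) i)
      (fun i g h => by rw [Subgroup.coe_mul, map_mul, vec_mul]; rfl) (by
      refine (Set.Finite.pi' fun _ : Fin H.d =>
        (finite_roots H.d (Real.exp 1)).image fun z => Real.log ‖z‖).subset ?_
      rintro v ⟨⟨p, rfl⟩, hv⟩ i
      obtain ⟨q, hq⟩ := hpoly p
      refine ⟨_, ⟨fun i => (χ i (H.j p) : ℂ), q, hq, fun i' => ?_, i, rfl⟩, rfl⟩
      have h1 := (norm_le_pi_norm (fun i => vec (H.j p) i) i').trans hv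
      rw [← Real.log_le_iff_le_exp (hpos _ _)]
      exact (le_abs_self _).trans h1)
  let Wt : (Fin k → ℝ) →ₗ[ℝ] (Fin H.d → ℝ) := LinearMap.pi wt
  obtain ⟨L, hL⟩ := Wt.exists_leftInverse_of_injective
    (LinearMap.ker_eq_bot'.2 fun v hv => span v fun i => congrFun hv i)
  have hLW : ∀ u, L (Wt u) = u := fun u => LinearMap.congr_fun hL u
  have hvj : ∀ p : P₀, vec (H.j p) = Wt (ht p) := fun p => funext fun i => (wt_ht i p).symm
  have hrange : ∀ g, ∃ u, vec g = Wt u := by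
    intro g
    obtain ⟨X, p, rfl⟩ := H.dec g
    refine ⟨(m : ℝ)⁻¹ • ht ⟨p ^ m, hpow p⟩, ?_⟩
    rw [map_smul, ← hvj, vec_mul, vec_ex, zero_add, map_pow, vec_hom.pow, smul_smul,
      inv_mul_cancel₀ (by exact_mod_cast hmpos.ne'), one_smul]
  have hwt : ∀ i g, wt i (L (vec g)) = vec g i := fun i g => by
    obtain ⟨u, hu⟩ := hrange g
    rw [hu, hLW]; rfl
  have hπj : ∀ p : P₀, L (vec (H.j p)) = ht p := fun p => by rw [hvj, hLW]
  have hsurj : ∀ l, ∃ p ∈ P₀, L (vec (H.j p)) = Pi.single l 1 := fun l => by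
    obtain ⟨p, hp⟩ := ht_surj (Pi.single l 1)
    refine ⟨p, p.2, ?_⟩
    rw [hπj]
    funext a
    rw [hp]
    by_cases h : a = l
    · subst h; simp
    · simp [h]
  have hext : ∀ f : (Fin k → ℝ) →ₗ[ℝ] ℝ, (∀ p ∈ P₀, f (L (vec (H.j p))) = 0) → f = 0 := by
    intro f hf
    refine (Pi.basisFun ℝ (Fin k)).ext fun l => ?_
    obtain ⟨p, hp, e⟩ := hsurj l
    rw [Pi.basisFun_apply, ← e, hf p hp, LinearMap.zero_apply]
  refine ⟨{ P₀ := P₀, fi := hfi, le := hle, k := k, π := fun g => L (vec g)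
            π_hom := fun g h => by simp only [vec_mul, map_add]
            π_ex := fun X => by rw [vec_ex, map_zero]
            π_int := fun p hp l => by rw [hπj ⟨p, hp⟩]; exact ht_int _ l
            π_surj := hsurj
            π_ker := fun p hp h0 => ?_
            χ := χ, χ_ex := χex, wt := wt, wt_π := hwt, span := span
            unimod := fun v => ?_
            b := b, b_Ad := bAd, b_br := bbr, a₀ := a₀, a₀_mem := ha₀
            sep := fun i i' h p hp => ?_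
            sep_one := fun i h p hp => ?_
            sep_wt := fun i i' h => ?_
            sep_wt_zero := fun i h => ?_ }⟩
  · have h1 : ∀ i, ‖(χ i (H.j p) : ℂ)‖ = 1 := fun i => by
      have := hwt i (H.j p)
      rw [h0, map_zero] at this
      rw [← Real.exp_log (hpos i (H.j p))]
      change Real.exp (vec (H.j p) i) = 1
      rw [← this, Real.exp_zero]
    have h2 : ∀ i, χ i (H.j p) = 1 := fun i => by
      have h3 : IsOfFinOrder (χ i (H.j p)) := by
        refine finite_powers.1 (((finite_roots H.d 1).preimage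
          (Units.val_injective.injOn)).subset ?_)
        rintro _ ⟨n, rfl⟩
        obtain ⟨q, hq⟩ := hpoly (p ^ n)
        refine ⟨fun i => (χ i (H.j (p ^ n)) : ℂ), q, hq, fun i' => ?_, i, ?_⟩
        · simp only [map_pow, Units.val_pow_eq_pow_val, norm_pow, h1, one_pow, le_refl]
        · simp only [map_pow]
      have := tf (some i, none) p hp (by rw [hψ]; simpa [χ'] using h3)
      rw [hψ] at this
      simpa [χ'] using this
    refine engel p ⟨H.d, H.engel bbr p fun i => ?_⟩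
    have := bAd (H.j p) i
    rwa [h2, Units.val_one, one_smul] at this
  · have h1 : ∀ p : P, ∑ i, vec (H.j p) i = 0 := by
      have h2 : ∀ p : P, 0 ≤ ∑ i, vec (H.j p) i := fun p => by
        obtain ⟨q, hq⟩ := hpoly p
        have := Real.log_nonneg (h90_one_le_prod hq)
        rwa [Real.log_prod fun i _ => (hpos i _).ne'] at this
      intro p
      have h3 := h2 p⁻¹
      rw [map_inv, vec_hom.inv] at h3
      simp only [Pi.neg_apply, Finset.sum_neg_distrib] at h3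
      linarith [h2 p]
    have := hext (∑ i, wt i) fun p _ => by
      rw [LinearMap.sum_apply, ← h1 p]
      exact Finset.sum_congr rfl fun i _ => hwt i _
    rw [← LinearMap.sum_apply, this, LinearMap.zero_apply]
  · exact div_eq_one.1 (hsep1 (some i, some i') (div_eq_one.2 h) p hp)
  · exact div_eq_one.1 (hsep1 (some i, none) (div_eq_one.2 h) p hp)
  · rw [hwt, hwt] at h
    have h1 : ‖(χ i (H.j a₀) : ℂ)‖ = ‖(χ i' (H.j a₀) : ℂ)‖ :=
      Real.log_injOn_pos (hpos _ _) (hpos _ _) h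
    have h2 : ∀ p, ‖(ψ (some i, some i') p : ℂ)‖ = ‖(χ i (H.j p) : ℂ)‖ / ‖(χ i' (H.j p) : ℂ)‖ :=
      fun p => by rw [hψ, Units.val_div_eq_div_val, norm_div]; rfl
    refine sub_eq_zero.1 (hext _ fun p hp => ?_)
    have h3 := hsep2 _ (by rw [h2, h1, div_self (hpos _ _).ne']) p hp
    rw [h2, div_eq_one_iff_eq (hpos _ _).ne'] at h3
    rw [LinearMap.sub_apply, hwt, hwt]
    simp only [vec, h3, sub_self]
  · rw [hwt] at h
    have h1 : ‖(χ i (H.j a₀) : ℂ)‖ = 1 := by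
      rw [← Real.exp_log (hpos i (H.j a₀))]
      change Real.exp (vec (H.j a₀) i) = 1
      rw [h, Real.exp_zero]
    have h2 : ∀ p, ‖(ψ (some i, none) p : ℂ)‖ = ‖(χ i (H.j p) : ℂ)‖ :=
      fun p => by rw [hψ]; simp [χ']
    refine hext _ fun p hp => ?_
    have h3 := hsep2 _ (by rw [h2, h1]) p hp
    rw [h2] at h3
    rw [hwt]
    simp only [vec, h3, Real.log_one]

end Crest.Agent.R182
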