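import Crest.Agent.R182.LAChar0

/-! Row 182, block L1 (d): the untwisted real model (interface). -/

set_option autoImplicit false
set_option linter.dupNamespace false

namespace Crest.Agent.R182

open Module

universe u

/-- the real hull with heights, characters and a complex triangular basis -/
structure PreLie (G : Type*) [Group G] (k : ℕ) where
  /-- dimension of the nilpotent Lie algebra -/
  d : ℕ
  /-- the bracket -/
  br : (Fin d → ℝ) →ₗ[ℝ] (Fin d → ℝ) →ₗ[ℝ] (Fin d → ℝ)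
  br_self : ∀ X, br X X = 0
  jacobi : ∀ X Y Z, br X (br Y Z) = br (br X Y) Z + br Y (br X Z)
  /-- heights -/
  π : G → Fin k → ℝ
  π_hom : AHom π
  π_int : ∀ g l, ∃ z : ℤ, π g l = z
  π_surj : ∀ l, ∃ g, π g = Pi.single l 1
  /-- the exponential -/
  ex : (Fin d → ℝ) → G
  ex_inj : Function.Injective ex
  ex_range : ∀ g, π g = 0 ↔ g ∈ Set.range ex
  /-- the higher terms of the Baker-Campbell-Hausdorff series -/
  bch : List (ℝ × LTree × LTree)
  ex_mul : ∀ X Y, ex X * ex Y = ex (X + Y +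
    (bch.map fun p => p.1 • (LTree.node p.2.1 p.2.2).eval (fun A B => br A B) X Y).sum)
  /-- the adjoint action -/
  Ad : G →* Module.End ℝ (Fin d → ℝ)
  Ad_conj : ∀ g X, g * ex X * g⁻¹ = ex (Ad g X)
  Ad_br : ∀ g X Y, Ad g (br X Y) = br (Ad g X) (Ad g Y)
  Ad_ex : ∀ X, Ad (ex X) = ∑ n ∈ Finset.range (d + 1), ((n.factorial : ℝ)⁻¹) • (br X) ^ n
  /-- characters -/
  χ : Fin d → G →* ℂˣ
  χ_ex : ∀ i X, χ i (ex X) = 1
  /-- weights -/
  wt : Fin d → (Fin k → ℝ) →ₗ[ℝ] ℝ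
  wt_π : ∀ i g, wt i (π g) = Real.log ‖(χ i g : ℂ)‖
  span : ∀ v, (∀ i, wt i v = 0) → v = 0
  unimod : ∀ v, ∑ i, wt i v = 0
  /-- the triangular basis -/
  b : Basis (Fin d) ℂ (Fin d → ℂ)
  b_Ad : ∀ g (i : Fin d), cx (Ad g) (b i) - (χ i g : ℂ) • b i ∈ low b i
  b_br : ∀ X (i : Fin d), cx (br X) (b i) ∈ low b i
  /-- the separating element -/
  a₀ : G
  sep : ∀ i i', χ i a₀ = χ i' a₀ → χ i = χ i'
  sep_one : ∀ i, χ i a₀ = 1 → χ i = 1
  sep_wt : ∀ i i', wt i (π a₀) = wt i' (π a₀) → wt i = wt i'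
  sep_wt_zero : ∀ i, wt i (π a₀) = 0 → wt i = 0

/-- block (d); final theorem `PreLie.lie (M : PreLie G k) : M.LieOut` -/
def PreLie.LieOut {G : Type*} [Group G] {k : ℕ} (M : PreLie G k) : Prop :=
  ∃ c₀ : Fin k → G, Subgroup.closure (M.ex '' Metric.closedBall 0 1 ∪ Set.range c₀) = ⊤ ∧
    ∃ (G₁ : Type) (_ : Group G₁) (M₁ : LieModel G₁ k) (φ : G → G₁) (C : ℕ),
      QI (M.ex '' Metric.closedBall 0 1 ∪ Set.range c₀) M₁.Sg φ C ∧ ∀ g, M₁.π (φ g) = M.π g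

end Crest.Agent.R182
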