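import Crest.Agent.R182.LAD1
import Crest.Agent.R182.LAPre0

/-! Row 182, block L1 (d): the Cartan subgroup. -/

set_option autoImplicit false
set_option linter.dupNamespace false

namespace Crest.Agent.R182

open Module

namespace PreLie

variable {G : Type*} [Group G] {k : ℕ} (M : PreLie G k)

theorem ex_mul' (X Y : Fin M.d → ℝ) :
    M.ex X * M.ex Y = M.ex (X + Y + dbch M.br M.bch X Y) := M.ex_mul X Y

theorem ex_smul_add (s t : ℝ) (X : Fin M.d → ℝ) :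
    M.ex (s • X) * M.ex (t • X) = M.ex ((s + t) • X) := by
  rw [ex_mul', dbch_smul _ M.br_self, add_zero, add_smul]

theorem ex_zero : M.ex 0 = 1 := by
  have := M.ex_smul_add 0 0 0
  simp only [smul_zero] at this
  exact mul_eq_left.1 this

theorem ex_neg (X : Fin M.d → ℝ) : M.ex (-X) = (M.ex X)⁻¹ := by
  have := M.ex_smul_add (-1) 1 X
  rw [neg_add_cancel, zero_smul, ex_zero, one_smul, neg_one_smul] at this
  exact eq_inv_of_mul_eq_one_left this

theorem ex_nsmul (n : ℕ) (X : Fin M.d → ℝ) : M.ex ((n : ℝ) • X) = M.ex X ^ n := by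
  induction n with
  | zero => simp [ex_zero]
  | succ n ih => rw [pow_succ, ← ih, Nat.cast_succ, ← ex_smul_add, one_smul]

theorem π_ex (X : Fin M.d → ℝ) : M.π (M.ex X) = 0 := (M.ex_range _).2 ⟨X, rfl⟩

theorem Ad_low (g : G) (n : ℕ) {v : Fin M.d → ℂ} (hv : v ∈ low M.b n) :
    cx (M.Ad g) v ∈ low M.b n := low_of (M.b_Ad g) n hv

theorem br_low (X : Fin M.d → ℝ) (n : ℕ) {v : Fin M.d → ℂ} (hv : v ∈ low M.b (n + 1)) :
    cx (M.br X) v ∈ low M.b n := low_succ_of (M.b_br X) n hv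

theorem Ad_rlow (g : G) (n : ℕ) {X : Fin M.d → ℝ} (hX : X ∈ rlow M.b n) :
    M.Ad g X ∈ rlow M.b n := by
  rw [mem_rlow, ← cx_io]
  exact M.Ad_low g n hX

theorem br_rlow (n : ℕ) (X : Fin M.d → ℝ) (Z : Fin M.d → ℝ) (hZ : Z ∈ rlow M.b (n + 1)) :
    M.br X Z ∈ rlow M.b n := by
  rw [mem_rlow, ← cx_io]
  exact M.br_low X n hZ

/-- on the layer `n` the operator `Ad g` is the scalar `χ n g` -/
theorem Ad_layer (g : G) (n : Fin M.d) {v : Fin M.d → ℂ} (hv : v ∈ low M.b (n + 1)) :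
    cx (M.Ad g) v - (M.χ n g : ℂ) • v ∈ low M.b n := by
  have h1 : v - M.b.repr v n • M.b n ∈ low M.b n := by
    refine mem_low.2 fun i hi => ?_
    rcases eq_or_lt_of_le hi with h | h
    · have : i = n := Fin.ext h.symm
      subst this
      simp
    · have h2 : i ≠ n := fun e => by rw [e] at h; exact lt_irrefl _ h
      have h3 := mem_low.1 hv i h
      simp [h3, Finsupp.single_apply, h2.symm]
  have h2 := (low M.b n).add_mem ((low M.b n).sub_mem (M.Ad_low g n h1)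
    ((low M.b n).smul_mem (M.χ n g : ℂ) h1)) ((low M.b n).smul_mem (M.b.repr v n) (M.b_Ad g n))
  convert h2 using 1
  simp only [map_sub, map_smul, smul_sub, smul_smul, mul_comm]
  abel

/-- the generalised eigenspaces of `Ad a₀` -/
noncomputable abbrev W (l : ℂ) : Submodule ℂ (Fin M.d → ℂ) := WS (M.Ad M.a₀) l

/-- the generalised fixed space of `Ad a₀` -/
noncomputable def n1 : Submodule ℝ (Fin M.d → ℝ) := (M.Ad M.a₀).maxGenEigenspace 1

theorem io_n1 {X : Fin M.d → ℝ} : io X ∈ M.W 1 ↔ X ∈ M.n1 := by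
  have := io_mem_WS (A := M.Ad M.a₀) (r := 1) (X := X)
  rwa [Complex.ofReal_one] at this

theorem br_n1 (X : Fin M.d → ℝ) (hX : X ∈ M.n1) (Y : Fin M.d → ℝ) (hY : Y ∈ M.n1) :
    M.br X Y ∈ M.n1 := by
  have := d_gen_mul M.br (M.Ad M.a₀) (M.Ad_br _) hX hY
  rwa [one_mul] at this

theorem brC_W {l m : ℂ} {v w : Fin M.d → ℂ} (hv : v ∈ M.W l) (hw : w ∈ M.W m) :
    brC M.br v w ∈ M.W (l * m) :=
  d_gen_mul (brC M.br) (cx (M.Ad M.a₀)) ((brC_aut_iff _ _).2 (M.Ad_br _)) hv hw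

/-- a generalised eigenvector on the layer `n` has the eigenvalue of that layer -/
theorem W_layer {l : ℂ} {v : Fin M.d → ℂ} (hv : v ∈ M.W l) (n : Fin M.d)
    (h1 : v ∈ low M.b (n + 1)) (h0 : v ∉ low M.b n) : (M.χ n M.a₀ : ℂ) = l := by
  obtain ⟨p, hp⟩ := (Module.End.mem_maxGenEigenspace _ _ _).1 hv
  have key : ∀ p : ℕ, ((cx (M.Ad M.a₀) - l • (1 : End ℂ (Fin M.d → ℂ))) ^ p) v -
      ((M.χ n M.a₀ : ℂ) - l) ^ p • v ∈ low M.b n := by
    intro p
    induction p with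
    | zero => simp
    | succ p ih =>
      have h2 := (low M.b n).add_mem ((low M.b n).sub_mem (M.Ad_low M.a₀ n ih)
        ((low M.b n).smul_mem l ih))
        ((low M.b n).smul_mem (((M.χ n M.a₀ : ℂ) - l) ^ p) (M.Ad_layer M.a₀ n h1))
      convert h2 using 1
      rw [pow_succ', Module.End.mul_apply, pow_succ]
      simp only [LinearMap.sub_apply, LinearMap.smul_apply, Module.End.one_apply, map_sub, map_smul]
      module
  have h2 := key p
  rw [hp, zero_sub, neg_mem_iff] at h2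
  by_contra hne
  exact h0 (((low M.b n).smul_mem_iff (pow_ne_zero p (sub_ne_zero.2 hne))).1 h2)

/-- `[a₀, g] ∈ exp 𝔫₁` -/
def InC (g : G) : Prop := ∃ Y ∈ M.n1, M.a₀ * g * M.a₀⁻¹ * g⁻¹ = M.ex Y

theorem h78_dbch_left (n : ℕ) {U : Fin M.d → ℝ} (hU : U ∈ rlow M.b (n + 1)) (T : Fin M.d → ℝ) :
    dbch M.br M.bch U T ∈ rlow M.b n := by
  have h0 : dbch M.br M.bch 0 T = 0 := by
    have := dbch_smul M.bch M.br_self 0 1 T
    rwa [zero_smul, one_smul] at this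
  have := dbch_congr M.bch M.br_self (R := rlow M.b n) (R' := rlow M.b (n + 1))
    (rlow_mono M.b (Nat.le_succ n)) (M.br_rlow n) (X := U) (X' := 0) (Y := T) (Y' := T)
    (by rwa [sub_zero]) (by rw [sub_self]; exact Submodule.zero_mem _)
  rwa [h0, sub_zero] at this

theorem h78_dbch_right (n : ℕ) {U : Fin M.d → ℝ} (hU : U ∈ rlow M.b (n + 1)) (T : Fin M.d → ℝ) :
    dbch M.br M.bch T U ∈ rlow M.b n := by
  have h0 : dbch M.br M.bch T 0 = 0 := by
    have := dbch_smul M.bch M.br_self 1 0 T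
    rwa [zero_smul, one_smul] at this
  have := dbch_congr M.bch M.br_self (R := rlow M.b n) (R' := rlow M.b (n + 1))
    (rlow_mono M.b (Nat.le_succ n)) (M.br_rlow n) (X := T) (X' := T) (Y := U) (Y' := 0)
    (by rw [sub_self]; exact Submodule.zero_mem _) (by rwa [sub_zero])
  rwa [h0, sub_zero] at this

theorem h78_inC_step (g : G) (n : ℕ)
    (h : ∃ X, ∃ Y ∈ M.n1, ∃ Z ∈ rlow M.b (n + 1),
      M.a₀ * (M.ex X * g) * M.a₀⁻¹ * (M.ex X * g)⁻¹ = M.ex (Y + Z)) :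
    ∃ X, ∃ Y ∈ M.n1, ∃ Z ∈ rlow M.b n,
      M.a₀ * (M.ex X * g) * M.a₀⁻¹ * (M.ex X * g)⁻¹ = M.ex (Y + Z) := by
  obtain ⟨X, Y, hY, Z, hZ, e⟩ := h
  obtain ⟨V, hV, hVZ⟩ := d_fit (M.Ad M.a₀) (rlow M.b (n + 1)) (fun x hx => M.Ad_rlow _ _ hx) hZ
  have hAV : M.Ad M.a₀ (-V) ∈ rlow M.b (n + 1) := M.Ad_rlow _ _ ((rlow M.b (n + 1)).neg_mem hV)
  have e1 := M.h78_dbch_left n hAV (Y + Z)
  have e2 := M.h78_dbch_right n hV
    (M.Ad M.a₀ (-V) + (Y + Z) + dbch M.br M.bch (M.Ad M.a₀ (-V)) (Y + Z))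
  refine ⟨-V + X + dbch M.br M.bch (-V) X, Y + (Z - (M.Ad M.a₀ V - V)), M.n1.add_mem hY hVZ,
    _, (rlow M.b n).add_mem e1 e2, ?_⟩
  have e3 : M.a₀ * (M.ex (-V + X + dbch M.br M.bch (-V) X) * g) * M.a₀⁻¹ *
      (M.ex (-V + X + dbch M.br M.bch (-V) X) * g)⁻¹ =
      M.ex (M.Ad M.a₀ (-V)) * M.ex (Y + Z) * M.ex V := by
    rw [← ex_mul', ← M.Ad_conj, ← e, ex_neg]
    group
  rw [e3, ex_mul', ex_mul']
  congr 1
  rw [map_neg]
  abel

theorem exists_inC (g : G) : ∃ X, M.InC (M.ex X * g) := by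
  have key : ∀ n : ℕ, (∃ X, ∃ Y ∈ M.n1, ∃ Z ∈ rlow M.b n,
      M.a₀ * (M.ex X * g) * M.a₀⁻¹ * (M.ex X * g)⁻¹ = M.ex (Y + Z)) →
      ∃ X, M.InC (M.ex X * g) := by
    intro n
    induction n with
    | zero =>
      rintro ⟨X, Y, hY, Z, hZ, e⟩
      rw [rlow_zero, Submodule.mem_bot] at hZ
      exact ⟨X, Y, hY, by rw [e, hZ, add_zero]⟩
    | succ n ih => exact fun h => ih (M.h78_inC_step g n h)
  refine key M.d ?_
  have hπ : M.π (M.a₀ * (M.ex 0 * g) * M.a₀⁻¹ * (M.ex 0 * g)⁻¹) = 0 := by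
    have h1 : M.π 1 = 0 := by rw [← M.ex_zero]; exact M.π_ex 0
    have h2 : ∀ x : G, M.π x⁻¹ = - M.π x := fun x => by
      have := M.π_hom x⁻¹ x
      rw [inv_mul_cancel, h1] at this
      exact eq_neg_of_add_eq_zero_left this.symm
    rw [M.π_hom, M.π_hom, M.π_hom, h2, h2]
    abel
  obtain ⟨m, hm⟩ := (M.ex_range _).1 hπ
  exact ⟨0, 0, M.n1.zero_mem, m, by rw [rlow_top]; trivial, by rw [zero_add, hm]⟩

variable {M}

theorem h48_ex_W {Y : Fin M.d → ℝ} (hY : Y ∈ M.n1) {l : ℂ} {v : Fin M.d → ℂ} (hv : v ∈ M.W l) :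
    cx (M.Ad (M.ex Y)) v ∈ M.W l := by
  have h1 : ∀ n : ℕ, (cx (M.br Y) ^ n) v ∈ M.W l := by
    intro n
    induction n with
    | zero => exact hv
    | succ n ih =>
      have := M.brC_W (M.io_n1.2 hY) ih
      rwa [one_mul, brC_io, ← Module.End.mul_apply, ← pow_succ'] at this
  rw [M.Ad_ex, map_sum, LinearMap.sum_apply]
  refine Submodule.sum_mem _ fun n _ => ?_
  rw [cx_smul, map_pow, LinearMap.smul_apply]
  exact Submodule.smul_mem _ _ (h1 n)

theorem InC.mapsTo_inv {g : G} (h : M.InC g) {l : ℂ} {v : Fin M.d → ℂ} (hv : v ∈ M.W l) :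
    cx (M.Ad g⁻¹) v ∈ M.W l := by
  obtain ⟨Y, hY, e⟩ := h
  have e1 : g * M.a₀ * g⁻¹ = M.ex (-Y) * M.a₀ := by
    rw [ex_neg, ← e]
    group
  have h1 : v ∈ (cx (M.Ad (M.ex (-Y) * M.a₀))).maxGenEigenspace l := by
    refine d_gen_of_flag _ l (M.W l) (low M.b) (low_zero _) (fun u hu => ?_) (fun n u hu hn => ?_)
      M.d v hv (by rw [low_top _ le_rfl]; trivial)
    · rw [map_mul, map_mul, Module.End.mul_apply]
      exact h48_ex_W (M.n1.neg_mem hY)
        (Module.End.mapsTo_maxGenEigenspace_of_comm (Commute.refl _) l hu)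
    · by_cases h0 : u ∈ low M.b n
      · exact (low M.b n).sub_mem (M.Ad_low _ n h0) ((low M.b n).smul_mem l h0)
      rcases lt_or_ge n M.d with hnd | hnd
      · have h2 := M.Ad_layer (M.ex (-Y) * M.a₀) ⟨n, hnd⟩ hn
        rwa [map_mul (M.χ _), M.χ_ex, one_mul, M.W_layer hu ⟨n, hnd⟩ hn h0] at h2
      · rw [low_top _ hnd]
        trivial
  obtain ⟨p, hp⟩ := (Module.End.mem_maxGenEigenspace _ _ _).1 h1
  refine (Module.End.mem_maxGenEigenspace _ _ _).2 ⟨p, ?_⟩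
  have h2 : SemiconjBy (cx (M.Ad g⁻¹)) (cx (M.Ad (M.ex (-Y) * M.a₀))) (cx (M.Ad M.a₀)) := by
    rw [SemiconjBy, ← map_mul, ← map_mul, ← map_mul, ← map_mul, ← e1]
    congr 2
    group
  have h3 := (h2.sub_right ((SemiconjBy.one_right (cx (M.Ad g⁻¹))).smul_right l)).pow_right p
  rw [← Module.End.mul_apply, ← h3.eq, Module.End.mul_apply, hp, map_zero]

theorem InC.mapsTo {g : G} (h : M.InC g) {l : ℂ} {v : Fin M.d → ℂ} (hv : v ∈ M.W l) :
    cx (M.Ad g) v ∈ M.W l := by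
  have hinj : Function.Injective ((cx (M.Ad g⁻¹)).restrict
      (fun u (hu : u ∈ M.W l) => h.mapsTo_inv hu)) := by
    intro a b hab
    have h1 := congrArg (fun u : M.W l => cx (M.Ad g) u) hab
    simp only [LinearMap.coe_restrict_apply, ← Module.End.mul_apply, ← map_mul, mul_inv_cancel,
      map_one, Module.End.one_apply] at h1
    exact Subtype.ext h1
  obtain ⟨u, hu⟩ := LinearMap.surjective_of_injective hinj ⟨v, hv⟩
  have h2 : cx (M.Ad g⁻¹) u = v := congrArg Subtype.val hu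
  rw [← h2, ← Module.End.mul_apply, ← map_mul, ← map_mul, mul_inv_cancel, map_one, map_one]
  exact u.2

theorem InC.n1 {g : G} (h : M.InC g) {X : Fin M.d → ℝ} (hX : X ∈ M.n1) : M.Ad g X ∈ M.n1 := by
  rw [← io_n1, ← cx_io]
  exact h.mapsTo (M.io_n1.2 hX)

theorem InC.n1_inv {g : G} (h : M.InC g) {X : Fin M.d → ℝ} (hX : X ∈ M.n1) :
    M.Ad g⁻¹ X ∈ M.n1 := by
  rw [← io_n1, ← cx_io]
  exact h.mapsTo_inv (M.io_n1.2 hX)

theorem InC.of_ex {X : Fin M.d → ℝ} (h : M.InC (M.ex X)) : X ∈ M.n1 := by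
  obtain ⟨Y, hY, e⟩ := h
  have e1 : M.Ad M.a₀ X = Y + X + dbch M.br M.bch Y X := by
    apply M.ex_inj
    rw [← ex_mul', ← e, ← M.Ad_conj]
    group
  have key : ∀ n : ℕ, (∃ X1 ∈ M.n1, X - X1 ∈ rlow M.b n) → X ∈ M.n1 := by
    intro n
    induction n with
    | zero =>
      rintro ⟨X1, h1, h2⟩
      rw [rlow_zero, Submodule.mem_bot, sub_eq_zero] at h2
      rwa [h2]
    | succ n ih =>
      rintro ⟨X1, h1, h2⟩
      apply ih
      have hZ := dbch_congr M.bch M.br_self (R := rlow M.b n) (R' := rlow M.b (n + 1))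
        (rlow_mono M.b (Nat.le_succ n)) (M.br_rlow n) (X := Y) (X' := Y) (Y := X) (Y' := X1)
        (by rw [sub_self]; exact Submodule.zero_mem _) h2
      have hD : dbch M.br M.bch Y X1 ∈ M.n1 := dbch_mem M.bch M.br_n1 hY h1
      obtain ⟨V, hV, hVZ⟩ := d_fit (M.Ad M.a₀) (rlow M.b n) (fun x hx => M.Ad_rlow _ _ hx) hZ
      have h3 : M.Ad M.a₀ (X - V) - (X - V) ∈ M.n1 := by
        have := M.n1.add_mem (M.n1.add_mem hY hD) hVZ
        convert this using 1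
        rw [map_sub, e1]
        abel
      refine ⟨X - V, ?_, by rwa [sub_sub_cancel]⟩
      obtain ⟨N, hN⟩ := (Module.End.mem_maxGenEigenspace _ _ _).1 h3
      refine (Module.End.mem_maxGenEigenspace _ _ _).2 ⟨N + 1, ?_⟩
      rw [pow_succ, Module.End.mul_apply]
      refine Eq.trans (congrArg _ ?_) hN
      simp
  exact key M.d ⟨0, M.n1.zero_mem, by rw [rlow_top]; trivial⟩

variable (M)

/-- the Cartan subgroup -/
def Car : Subgroup G where
  carrier := {g | M.InC g}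
  one_mem' := ⟨0, M.n1.zero_mem, by rw [ex_zero]; group⟩
  mul_mem' {g h} hg hh := by
    obtain ⟨Y, hY, e⟩ := id hg
    obtain ⟨Y', hY', e'⟩ := hh
    refine ⟨_, M.n1.add_mem (M.n1.add_mem hY (hg.n1 hY'))
      (dbch_mem M.bch M.br_n1 hY (hg.n1 hY')), ?_⟩
    rw [← ex_mul', ← M.Ad_conj, ← e, ← e']
    group
  inv_mem' {g} hg := by
    obtain ⟨Y, hY, e⟩ := id hg
    refine ⟨_, M.n1.neg_mem (hg.n1_inv hY), ?_⟩
    rw [ex_neg, ← M.Ad_conj, ← e]
    group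

theorem dec_Car (g : G) : ∃ X, ∃ c ∈ M.Car, g = M.ex X * c := by
  obtain ⟨X, h⟩ := M.exists_inC g
  exact ⟨-X, _, h, by rw [ex_neg, inv_mul_cancel_left]⟩

end PreLie

end Crest.Agent.R182
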