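import Crest.Agent.R182.EDefs
/-! Row 182, block L1 (d): twisting a group law by a family of automorphisms. -/


set_option autoImplicit false
set_option linter.dupNamespace false

namespace Crest.Agent.R182

variable {G : Type*} [Group G]

/-- data for twisting the group law: `g ∗ h = g * τ g h` -/
structure TwData (G : Type*) [Group G] where
  /-- the twisting automorphisms -/
  τ : G → G →* G
  τ_one : ∀ x, τ 1 x = x
  τ_mul : ∀ g h x, τ (g * h) x = τ g (τ h x)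
  τ_τ : ∀ g h, τ (τ g h) = τ h

namespace TwData

variable (T : TwData G)

theorem τ_inv (g x : G) : T.τ g (T.τ g⁻¹ x) = x := by rw [← T.τ_mul, mul_inv_cancel, T.τ_one]

theorem inv_τ (g x : G) : T.τ g⁻¹ (T.τ g x) = x := by rw [← T.τ_mul, inv_mul_cancel, T.τ_one]

/-- the twisted group -/
def Tw (_ : TwData G) : Type _ := G

instance : Group T.Tw :=
  letI : Mul T.Tw := ⟨fun (g h : G) => (g * T.τ g h : G)⟩
  letI : One T.Tw := ⟨(1 : G)⟩
  letI : Inv T.Tw := ⟨fun (g : G) => (T.τ g⁻¹ g⁻¹ : G)⟩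
  Group.ofLeftAxioms
    (fun (g h k : G) => show g * T.τ g h * T.τ (g * T.τ g h) k = g * T.τ g (h * T.τ h k) by
      rw [T.τ_mul, T.τ_τ, map_mul, mul_assoc])
    (fun (g : G) => show 1 * T.τ 1 g = g by rw [one_mul, T.τ_one])
    (fun (g : G) => show T.τ g⁻¹ g⁻¹ * T.τ (T.τ g⁻¹ g⁻¹) g = 1 by
      rw [T.τ_τ, ← map_mul, inv_mul_cancel, map_one])

theorem exists_group {X : Type} (e : G ≃ X) :
    ∃ (G₁ : Type) (_ : Group G₁) (φ : G ≃ G₁), ∀ g h, φ (g * T.τ g h) = φ g * φ h := by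
  let e' : T.Tw ≃ X := e
  let : Group X := e'.symm.group
  refine ⟨X, this, e, fun g h => ?_⟩
  exact (map_mul e'.symm.mulEquiv.symm (show T.Tw from g) (show T.Tw from h))

theorem exists_group_small [Small.{0} G] :
    ∃ (G₁ : Type) (_ : Group G₁) (φ : G ≃ G₁), ∀ g h, φ (g * T.τ g h) = φ g * φ h :=
  T.exists_group (equivShrink.{0} G)

section

variable {G₁ : Type*} [Group G₁] {φ : G ≃ G₁} (hφ : ∀ g h, φ (g * T.τ g h) = φ g * φ h)
include hφ

theorem map_one' : φ 1 = 1 := by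
  have := hφ 1 1
  rw [map_one, mul_one] at this
  exact left_eq_mul.1 this

theorem inv_mul_eq (x y : G) : (φ x)⁻¹ * φ y = φ (T.τ x⁻¹ (x⁻¹ * y)) := by
  rw [inv_mul_eq_iff_eq_mul, ← hφ, τ_inv, mul_inv_cancel_left]

theorem inv_eq (x : G) : (φ x)⁻¹ = φ (T.τ x⁻¹ x⁻¹) := by
  have := T.inv_mul_eq hφ x 1
  rwa [T.map_one' hφ, mul_one, mul_one] at this

theorem conj (g x : G) (hx : ∀ y, T.τ x y = y) :
    φ g * φ x * (φ g)⁻¹ = φ (g * T.τ g x * g⁻¹) := by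
  rw [T.inv_eq hφ, ← hφ, ← hφ, T.τ_mul, T.τ_τ, hx, τ_inv]

omit hφ in
theorem τ_ball {Ω : Set G} (hΩ : ∀ g, ∀ s ∈ Ω, T.τ g s ∈ Ω) (g : G) {n : ℕ} {x : G}
    (hx : x ∈ Ball Ω n) : T.τ g x ∈ Ball Ω n := by
  have : T.τ g x ∈ Ball (T.τ g '' Ω) n := Ball.image (T.τ g) Ω n ▸ Set.mem_image_of_mem _ hx
  exact Ball.mono (by rintro _ ⟨s, hs, rfl⟩; exact hΩ g s hs) le_rfl this

theorem ball_iff {Ω : Set G} (hΩ : ∀ g, ∀ s ∈ Ω, T.τ g s ∈ Ω) (n : ℕ) (x : G) :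
    x ∈ Ball Ω n ↔ φ x ∈ Ball (φ '' Ω) n := by
  induction n generalizing x with
  | zero =>
    rw [h31_ball_zero, h31_ball_zero, Set.mem_singleton_iff, Set.mem_singleton_iff,
      ← T.map_one' hφ, φ.apply_eq_iff_eq]
  | succ n ih =>
    constructor
    · intro h
      rcases h31_ball_succ h with rfl | ⟨s, hs, b, hb, rfl⟩
      · rw [T.map_one' hφ]; exact Ball.one_mem _ _
      · have h1 : φ s ∈ Ball (φ '' Ω) 1 := by
          rcases hs with hs | hs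
          · exact Ball.mem_of_mem ⟨s, hs, rfl⟩
          · have := Ball.inv_mem (Ball.mem_of_mem (T := φ '' Ω) ⟨_, hΩ s⁻¹ _ hs, rfl⟩)
            rwa [← T.inv_eq hφ, inv_inv] at this
        have := Ball.mul_mem h1 ((ih _).1 (T.τ_ball hΩ s⁻¹ hb))
        rwa [← hφ, τ_inv, add_comm] at this
    · intro h
      rcases h31_ball_succ h with h1 | ⟨s, hs, b, hb, e⟩
      · rw [← T.map_one' hφ, φ.apply_eq_iff_eq] at h1
        rw [h1]; exact Ball.one_mem _ _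
      · obtain ⟨s, rfl⟩ := φ.surjective s
        obtain ⟨b, rfl⟩ := φ.surjective b
        rw [← hφ, φ.apply_eq_iff_eq] at e
        have h1 : s ∈ Ball Ω 1 := by
          rcases hs with ⟨s', hs, e'⟩ | ⟨s', hs, e'⟩
          · exact Ball.mem_of_mem (φ.injective e' ▸ hs)
          · rw [T.inv_eq hφ, φ.apply_eq_iff_eq] at e'
            have := Ball.inv_mem (Ball.mem_of_mem (hΩ s _ hs))
            rwa [e', τ_inv, inv_inv] at this
        have := Ball.mul_mem h1 (T.τ_ball hΩ s ((ih _).2 hb))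
        rwa [e, add_comm] at this

theorem qi {Ω S₀ : Set G} {S₁ : Set G₁} (hΩ : ∀ g, ∀ s ∈ Ω, T.τ g s ∈ Ω) {m : ℕ}
    (h0 : ∀ s ∈ S₀, s ∈ Ball Ω m) (h0' : ∀ s ∈ Ω, s ∈ Ball S₀ m)
    (h1 : ∀ s ∈ S₁, s ∈ Ball (φ '' Ω) m) (h1' : ∀ s ∈ Ω, φ s ∈ Ball S₁ m) :
    QI S₀ S₁ φ (m * m) := by
  refine ⟨fun x y n hn => ?_, fun x y n hn => ?_, fun p => ⟨φ.symm p, ?_⟩⟩
  · rw [T.inv_mul_eq hφ]
    have := Ball.subset_of (T' := φ '' Ω) (by rintro _ ⟨s, hs, rfl⟩; exact h1' s hs) _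
      ((T.ball_iff hφ hΩ _ _).1 (T.τ_ball hΩ x⁻¹ (Ball.subset_of h0 n hn)))
    exact Ball.mono subset_rfl (by nlinarith) this
  · rw [T.inv_mul_eq hφ] at hn
    have := T.τ_ball hΩ x ((T.ball_iff hφ hΩ _ _).2 (Ball.subset_of h1 n hn))
    rw [τ_inv] at this
    exact Ball.mono subset_rfl (by nlinarith) (Ball.subset_of h0' _ this)
  · rw [φ.apply_symm_apply, inv_mul_cancel]
    exact Ball.one_mem _ _

end

end TwData

end Crest.Agent.R182
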