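import Crest.Agent.R182.LAD0
import Crest.Agent.R182.LAD2
import Crest.Agent.R182.LADTw

/-! Row 182, block L1 (d): from the twisting data to the Lie model. -/

set_option autoImplicit false
set_option linter.dupNamespace false

namespace Crest.Agent.R182

open Module

theorem h13_ex_ball {H : Type*} [Group H] {d : ℕ} (e : (Fin d → ℝ) → H)
    (he : ∀ (n : ℕ) X, e ((n : ℝ) • X) = e X ^ n) {S : Set H}
    (hS : ∀ X, ‖X‖ ≤ 1 → e X ∈ S) {m : ℕ} (hm : 0 < m) {Y : Fin d → ℝ} (hY : ‖Y‖ ≤ m) :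
    e Y ∈ Ball S m := by
  have hm' : (0 : ℝ) < m := by exact_mod_cast hm
  have h1 : ‖(m : ℝ)⁻¹ • Y‖ ≤ 1 := by
    rw [norm_smul, norm_inv, Real.norm_natCast, inv_mul_le_iff₀ hm', mul_one]
    exact hY
  have := Ball.pow_mem (Ball.mem_of_mem (hS _ h1)) m
  rwa [← he, smul_smul, mul_inv_cancel₀ hm'.ne', one_smul, mul_one] at this

theorem h13_π_prod {G : Type*} [Group G] {k : ℕ} {π : G → Fin k → ℝ} (hπ : AHom π)
    {c : Fin k → G} (hc : ∀ i, π (c i) = Pi.single i 1) (a : Fin k → ℤ) :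
    π (List.ofFn fun i => c i ^ a i).prod = fun l => (a l : ℝ) := by
  have h : ∀ l : List G, π l.prod = (l.map π).sum := fun l => by
    induction l with
    | nil => simpa using hπ.one
    | cons g l ih => rw [List.prod_cons, hπ, ih]; simp
  rw [h, List.map_ofFn, List.sum_ofFn]
  funext l
  simp [hπ.zpow, hc, Finset.sum_apply, Pi.single_apply]

namespace PreLie.TD

variable {G : Type*} [Group G] {k : ℕ} {M : PreLie G k} (T : M.TD)

theorem D_mul (g : G) {X Y Z : Fin M.d → ℝ} (h : M.ex X * M.ex Y = M.ex Z) :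
    M.ex (T.D g X) * M.ex (T.D g Y) = M.ex (T.D g Z) := by
  rw [M.ex_mul'] at h
  rw [M.ex_mul', ← M.ex_inj h, map_add, map_add, dbch_map M.bch (T.D g) (T.D_br g)]

/-- the twist as a function -/
noncomputable def t0 (g x : G) : G :=
  M.ex (T.D g (T.dec x).choose) * (T.dec x).choose_spec.choose

theorem t0_eq (g : G) (X : Fin M.d → ℝ) {c : G} (hc : c ∈ T.C) :
    T.t0 g (M.ex X * c) = M.ex (T.D g X) * c := by
  obtain ⟨hc', e⟩ := (T.dec (M.ex X * c)).choose_spec.choose_spec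
  unfold t0
  generalize (T.dec (M.ex X * c)).choose_spec.choose = c' at hc' e ⊢
  generalize (T.dec (M.ex X * c)).choose = X' at e ⊢
  have h1 := M.ex_mul' (-X) X'
  have h2 : M.ex (-X) * M.ex X' = c * c'⁻¹ := by
    rw [M.ex_neg, inv_mul_eq_iff_eq_mul, ← mul_assoc, e, mul_inv_cancel_right]
  have h3 := T.D_mul g h1
  have h4 : M.ex (-X + X' + dbch M.br M.bch (-X) X') ∈ T.C := by
    rw [← h1, h2]; exact T.C.mul_mem hc (T.C.inv_mem hc')
  rw [T.D_fix g _ h4, ← h1, h2, map_neg, M.ex_neg, inv_mul_eq_iff_eq_mul] at h3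
  rw [h3, mul_assoc, inv_mul_cancel_right]

theorem t0_C (g : G) {c : G} (hc : c ∈ T.C) : T.t0 g c = c := by
  have := T.t0_eq g 0 hc
  rwa [map_zero, M.ex_zero, one_mul] at this

theorem t0_ex (g : G) (X : Fin M.d → ℝ) : T.t0 g (M.ex X) = M.ex (T.D g X) := by
  have := T.t0_eq g X T.C.one_mem
  rwa [mul_one, mul_one] at this

theorem t0_mul (g x y : G) : T.t0 g (x * y) = T.t0 g x * T.t0 g y := by
  obtain ⟨X, c, hc, rfl⟩ := T.dec x
  obtain ⟨Y, c', hc', rfl⟩ := T.dec y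
  have h1 := M.ex_mul' X (M.Ad c Y)
  have e : M.ex X * c * (M.ex Y * c') = M.ex X * M.ex (M.Ad c Y) * (c * c') := by
    rw [← M.Ad_conj]; group
  rw [e, h1, T.t0_eq g _ (T.C.mul_mem hc hc'), ← T.D_mul g h1, T.t0_eq g _ hc, T.t0_eq g _ hc',
    T.D_Ad g c hc, ← M.Ad_conj]
  group

theorem D_t0 (g h : G) : T.D (T.t0 g h) = T.D h := by
  obtain ⟨X, c, hc, rfl⟩ := T.dec h
  rw [T.t0_eq g X hc, map_mul, map_mul, T.D_ex, T.D_ex]

theorem π_t0 (g h : G) : M.π (T.t0 g h) = M.π h := by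
  obtain ⟨X, c, hc, rfl⟩ := T.dec h
  rw [T.t0_eq g X hc, M.π_hom, M.π_hom, M.π_ex, M.π_ex]

/-- the twisting data -/
noncomputable def tw : TwData G where
  τ g := MonoidHom.mk' (T.t0 g) (T.t0_mul g)
  τ_one x := by
    obtain ⟨X, c, hc, rfl⟩ := T.dec x
    change T.t0 1 _ = _
    rw [T.t0_eq 1 X hc, map_one, End.one_apply]
  τ_mul g h x := by
    obtain ⟨X, c, hc, rfl⟩ := T.dec x
    change T.t0 (g * h) _ = T.t0 g (T.t0 h _)
    rw [T.t0_eq _ X hc, T.t0_eq _ X hc, T.t0_eq _ _ hc, map_mul, End.mul_apply]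
  τ_τ g h := by
    ext x
    change T.t0 (T.t0 g h) x = T.t0 h x
    unfold t0
    rw [show T.D (M.ex (T.D g (T.dec h).choose) * (T.dec h).choose_spec.choose) = T.D h from
      T.D_t0 g h]

theorem tw_τ (g x : G) : T.tw.τ g x = T.t0 g x := rfl

theorem ex_t0 (X : Fin M.d → ℝ) (y : G) : T.t0 (M.ex X) y = y := by
  obtain ⟨Y, c, hc, rfl⟩ := T.dec y
  rw [T.t0_eq _ Y hc, T.D_ex, End.one_apply]

/-- the bracket in the new coordinates -/
noncomputable def br1 : (Fin M.d → ℝ) →ₗ[ℝ] (Fin M.d → ℝ) →ₗ[ℝ] (Fin M.d → ℝ) :=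
  (M.br.compl₁₂ T.f.equivFun.symm.toLinearMap T.f.equivFun.symm.toLinearMap).compr₂
    T.f.equivFun.toLinearMap

theorem br1_apply (X Y : Fin M.d → ℝ) :
    T.br1 X Y = T.f.equivFun (M.br (T.f.equivFun.symm X) (T.f.equivFun.symm Y)) := rfl

theorem symm_single (j : Fin M.d) : T.f.equivFun.symm (Pi.single j 1) = T.f j := by
  rw [LinearEquiv.symm_apply_eq]
  funext l
  rw [Basis.equivFun_apply, Basis.repr_self, Finsupp.single_apply, Pi.single_apply]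
  simp only [eq_comm]

section model

variable {G₁ : Type} [Group G₁] (φ : G ≃ G₁)

/-- the new exponential -/
noncomputable def ex1 (X : Fin M.d → ℝ) : G₁ := φ (M.ex (T.f.equivFun.symm X))

/-- the new adjoint action -/
noncomputable def A1 (a : G₁) : End ℝ (Fin M.d → ℝ) :=
  T.f.equivFun.conjAlgEquiv ℝ (M.Ad (φ.symm a) * T.D (φ.symm a))

omit [Group G₁] in
theorem A1_apply (g : G) (X : Fin M.d → ℝ) :
    T.A1 φ (φ g) X = T.f.equivFun (M.Ad g (T.D g (T.f.equivFun.symm X))) := by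
  rw [A1, φ.symm_apply_apply]
  rfl

omit [Group G₁] in
theorem ex1_inj : Function.Injective (T.ex1 φ) := fun _ _ h =>
  T.f.equivFun.symm.injective (M.ex_inj (φ.injective h))

variable {φ} (hφ : ∀ g h, φ (g * T.tw.τ g h) = φ g * φ h)
include hφ

theorem φ_ex_mul (X : Fin M.d → ℝ) (y : G) : φ (M.ex X * y) = φ (M.ex X) * φ y := by
  rw [← hφ, tw_τ, ex_t0]

theorem φ_mul_C (x : G) {c : G} (hc : c ∈ T.C) : φ (x * c) = φ x * φ c := by
  rw [← hφ, tw_τ, T.t0_C x hc]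

theorem φ_inv_C {c : G} (hc : c ∈ T.C) : φ c⁻¹ = (φ c)⁻¹ := by
  rw [T.tw.inv_eq hφ, tw_τ, T.t0_C _ (T.C.inv_mem hc)]

theorem A1_conj (a : G₁) (X : Fin M.d → ℝ) : a * T.ex1 φ X * a⁻¹ = T.ex1 φ (T.A1 φ a X) := by
  obtain ⟨g, rfl⟩ := φ.surjective a
  rw [ex1, ex1, T.tw.conj hφ g _ (T.ex_t0 _), tw_τ, t0_ex, M.Ad_conj, A1_apply,
    LinearEquiv.symm_apply_apply]

theorem ex1_nsmul (n : ℕ) (X : Fin M.d → ℝ) : T.ex1 φ ((n : ℝ) • X) = T.ex1 φ X ^ n := by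
  rw [ex1, ex1, map_smul, M.ex_nsmul]
  induction n with
  | zero => rw [pow_zero, pow_zero, T.tw.map_one' hφ]
  | succ n ih => rw [pow_succ', pow_succ', T.φ_ex_mul hφ, ih]

/-- the twisted model -/
noncomputable def model (c : Fin k → G) (hc : ∀ i, c i ∈ T.C)
    (hπ : ∀ i, M.π (c i) = Pi.single i 1) : LieModel G₁ k where
  d := M.d
  br := T.br1
  br_self X := by rw [br1_apply, M.br_self, map_zero]
  jacobi X Y Z := by
    simp only [br1_apply, LinearEquiv.symm_apply_apply]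
    rw [M.jacobi, map_add]
  wt := T.w
  br_tri i j l h := by
    rw [br1_apply, symm_single, symm_single] at h
    exact T.br_tri i j l h
  span := T.span
  unimod := T.unimod
  π a := M.π (φ.symm a)
  π_hom a b := by
    obtain ⟨g, rfl⟩ := φ.surjective a
    obtain ⟨h, rfl⟩ := φ.surjective b
    rw [← hφ]
    simp only [φ.symm_apply_apply]
    rw [M.π_hom, tw_τ, π_t0]
  π_int a := M.π_int _
  ex := T.ex1 φ
  ex_inj := T.ex1_inj φ
  ex_range a := by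
    rw [M.ex_range]
    constructor
    · rintro ⟨X, hX⟩
      exact ⟨T.f.equivFun X, by rw [ex1, LinearEquiv.symm_apply_apply, hX, φ.apply_symm_apply]⟩
    · rintro ⟨X, rfl⟩
      exact ⟨_, (φ.symm_apply_apply _).symm⟩
  bch := M.bch
  ex_mul X Y := by
    change _ = T.ex1 φ (X + Y + dbch T.br1 M.bch X Y)
    have h := dbch_map (br := T.br1) (br' := M.br) M.bch T.f.equivFun.symm.toLinearMap
      (fun X Y => by rw [br1_apply]; exact T.f.equivFun.symm_apply_apply _) X Y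
    rw [ex1, ex1, ex1, ← T.φ_ex_mul hφ, M.ex_mul', map_add, map_add]
    exact congrArg (fun Z => φ (M.ex (_ + Z))) h.symm
  Ad :=
    { toFun := T.A1 φ
      map_one' := LinearMap.ext fun X => T.ex1_inj φ (by
        rw [← T.A1_conj hφ, one_mul, inv_one, mul_one, End.one_apply])
      map_mul' := fun a b => LinearMap.ext fun X => T.ex1_inj φ (by
        rw [End.mul_apply, ← T.A1_conj hφ, ← T.A1_conj hφ, ← T.A1_conj hφ]
        group) }
  Ad_conj := T.A1_conj hφ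
  Ad_br a X Y := by
    obtain ⟨g, rfl⟩ := φ.surjective a
    change T.A1 φ _ _ = T.br1 (T.A1 φ _ _) (T.A1 φ _ _)
    simp only [A1_apply, br1_apply, LinearEquiv.symm_apply_apply, T.D_br, M.Ad_br]
  Ad_ex X := by
    change T.A1 φ (φ _) = _
    rw [A1, φ.symm_apply_apply, T.D_ex, mul_one, M.Ad_ex, map_sum]
    refine Finset.sum_congr rfl fun n _ => ?_
    rw [map_smul, map_pow]
    rfl
  c i := φ (c i)
  π_c i := by rw [φ.symm_apply_apply, hπ]
  c_diag i j := by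
    change T.A1 φ _ _ j = _
    rw [A1_apply, symm_single, ← hπ]
    exact T.c_diag _ (hc i) j
  c_tri i j l h := by
    change T.A1 φ _ _ l ≠ 0 at h
    rw [A1_apply, symm_single] at h
    exact T.c_tri _ (hc i) j l h
  c_comm i j := by
    have hz : c i * c j * (c i)⁻¹ * (c j)⁻¹ ∈ T.C :=
      T.C.mul_mem (T.C.mul_mem (T.C.mul_mem (hc i) (hc j)) (T.C.inv_mem (hc i))) (T.C.inv_mem (hc j))
    obtain ⟨X, hX⟩ := (M.ex_range (c i * c j * (c i)⁻¹ * (c j)⁻¹)).1 (by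
      rw [M.π_hom, M.π_hom.conj, M.π_hom.inv, add_neg_cancel])
    refine ⟨T.f.equivFun X, T.C_ex X (hX ▸ hz), ?_⟩
    rw [ex1, LinearEquiv.symm_apply_apply, hX, T.φ_mul_C hφ _ (T.C.inv_mem (hc j)),
      T.φ_mul_C hφ _ (T.C.inv_mem (hc i)), T.φ_mul_C hφ _ (hc j), T.φ_inv_C hφ (hc i),
      T.φ_inv_C hφ (hc j)]

end model

end PreLie.TD

/-- `τ g (ex X * c) = ex (D g X) * c` for `c ∈ C` (well defined by `D_fix`, `dbch_map`); twisted group
`G₁`, `ex₁ = φ ∘ ex ∘ f.equivFun.symm`, `Ad₁ (φ g) = Ad g * D g` in the coordinates of `f`,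
`c i ∈ C` with `π (c i) = eᵢ` (`π_surj`, `dec`), `Ω = ex '' {D g X | ‖X‖ ≤ R} ∪ range c`. -/
theorem PreLie.TD.lie {G : Type*} [Group G] {k : ℕ} {M : PreLie G k} (T : M.TD) : M.LieOut := by
  have h0 : ∀ i, ∃ c ∈ T.C, M.π c = Pi.single i 1 := fun i => by
    obtain ⟨g, hg⟩ := M.π_surj i
    obtain ⟨X, c, hc, rfl⟩ := T.dec g
    rw [M.π_hom, M.π_ex, zero_add] at hg
    exact ⟨c, hc, hg⟩
  choose c hc hπ using h0
  have hsurj : Function.Surjective fun p : (Fin M.d → ℝ) × (Fin k → ℤ) =>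
      M.ex p.1 * (List.ofFn fun i => c i ^ p.2 i).prod := fun g => by
    choose a ha using M.π_int g
    obtain ⟨X, hX⟩ := (M.ex_range (g * ((List.ofFn fun i => c i ^ a i).prod)⁻¹)).1 (by
      rw [M.π_hom, M.π_hom.inv, h13_π_prod M.π_hom hπ]
      funext l
      simp [ha])
    exact ⟨(X, a), by simp [hX]⟩
  have := small_of_surjective.{0} hsurj
  obtain ⟨G₁, _, φ, hφ⟩ := T.tw.exists_group_small
  obtain ⟨K, hK0, hK⟩ := T.D_bd
  obtain ⟨F, hF⟩ : ∃ F : (Fin M.d → ℝ) →L[ℝ] (Fin M.d → ℝ), ∀ X, F X = T.f.equivFun X :=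
    ⟨LinearMap.toContinuousLinearMap T.f.equivFun.toLinearMap, fun _ => rfl⟩
  obtain ⟨F', hF'⟩ : ∃ F' : (Fin M.d → ℝ) →L[ℝ] (Fin M.d → ℝ), ∀ X, F' X = T.f.equivFun.symm X :=
    ⟨LinearMap.toContinuousLinearMap T.f.equivFun.symm.toLinearMap, fun _ => rfl⟩
  obtain ⟨m, hm⟩ := exists_nat_ge (1 + K + ‖F'‖ + ‖F‖ * K)
  have hFK : 0 ≤ ‖F‖ * K := by positivity
  have hF0 := norm_nonneg F'
  have hm0 : 0 < m := by
    have : (0 : ℝ) < m := by linarith
    exact_mod_cast this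
  have hS : ∀ X, ‖X‖ ≤ 1 → M.ex X ∈ M.ex '' Metric.closedBall 0 1 ∪ Set.range c := fun X hX =>
    Or.inl ⟨X, mem_closedBall_zero_iff.2 hX, rfl⟩
  refine ⟨c, eq_top_iff.2 fun g _ => ?_, G₁, _, T.model hφ c hc hπ, φ, m * m,
    T.tw.qi hφ (Ω := {x | ∃ g X, ‖X‖ ≤ 1 ∧ x = M.ex (T.D g X)} ∪ Set.range c) ?_ ?_ ?_ ?_ ?_,
    fun g => congrArg M.π (φ.symm_apply_apply g)⟩
  · obtain ⟨⟨X, a⟩, rfl⟩ := hsurj g
    refine Subgroup.mul_mem _ ?_ (Subgroup.list_prod_mem _ fun x hx => ?_)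
    · obtain ⟨n, hn⟩ := exists_nat_ge (‖X‖ + 1)
      have hn0 : (0 : ℝ) < n := by linarith [norm_nonneg X]
      exact Ball.mem_closure (h13_ex_ball M.ex M.ex_nsmul hS (by exact_mod_cast hn0)
        (by linarith : ‖X‖ ≤ n))
    · obtain ⟨i, rfl⟩ := List.mem_ofFn.1 hx
      exact Subgroup.zpow_mem _ (Subgroup.subset_closure
        (Set.mem_union_right _ (Set.mem_range_self i))) _
  · rintro g _ (⟨h, X, hX, rfl⟩ | ⟨i, rfl⟩)
    · exact Or.inl ⟨g * h, X, hX, by rw [PreLie.TD.tw_τ, T.t0_ex, map_mul, End.mul_apply]⟩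
    · exact Or.inr ⟨i, by rw [PreLie.TD.tw_τ, T.t0_C g (hc i)]⟩
  · rintro _ (⟨X, hX, rfl⟩ | h)
    · exact Ball.mono subset_rfl hm0 (Ball.mem_of_mem (Or.inl ⟨1, X, mem_closedBall_zero_iff.1 hX,
        by rw [map_one, End.one_apply]⟩))
    · exact Ball.mono subset_rfl hm0 (Ball.mem_of_mem (Or.inr h))
  · rintro _ (⟨g, X, hX, rfl⟩ | h)
    · exact h13_ex_ball M.ex M.ex_nsmul hS hm0 (by nlinarith [hK g X])
    · exact Ball.mono subset_rfl hm0 (Ball.mem_of_mem (Or.inr h))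
  · rintro _ (⟨X, hX, rfl⟩ | ⟨i, rfl⟩)
    · refine (T.tw.ball_iff hφ ?_ _ _).1 (h13_ex_ball M.ex M.ex_nsmul
        (fun X hX => Or.inl ⟨1, X, hX, by rw [map_one, End.one_apply]⟩) hm0 ?_)
      · rintro g _ (⟨h, X, hX, rfl⟩ | ⟨i, rfl⟩)
        · exact Or.inl ⟨g * h, X, hX, by rw [PreLie.TD.tw_τ, T.t0_ex, map_mul, End.mul_apply]⟩
        · exact Or.inr ⟨i, by rw [PreLie.TD.tw_τ, T.t0_C g (hc i)]⟩
      · have h1 := F'.le_opNorm X
        have h2 : ‖X‖ ≤ 1 := mem_closedBall_zero_iff.1 hX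
        rw [hF'] at h1
        exact h1.trans ((mul_le_of_le_one_right hF0 h2).trans (by linarith))
    · exact Ball.mono subset_rfl hm0 (Ball.mem_of_mem ⟨c i, Or.inr ⟨i, rfl⟩, rfl⟩)
  · rintro _ (⟨g, X, hX, rfl⟩ | ⟨i, rfl⟩)
    · have h1 := F.le_opNorm (T.D g X)
      rw [hF] at h1
      have h2 : ‖T.D g X‖ ≤ K := (hK g X).trans (by nlinarith)
      have := h13_ex_ball (T.ex1 φ) (T.ex1_nsmul hφ) (S := (T.model hφ c hc hπ).Sg)
        (fun X hX => Or.inl ⟨X, mem_closedBall_zero_iff.2 hX, rfl⟩) hm0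
        (Y := T.f.equivFun (T.D g X)) (h1.trans (by nlinarith [norm_nonneg F]))
      rwa [PreLie.TD.ex1, LinearEquiv.symm_apply_apply] at this
    · exact Ball.mono subset_rfl hm0 (Ball.mem_of_mem (Or.inr ⟨i, rfl⟩))

end Crest.Agent.R182
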