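import Crest.Agent.R182.LAD4
import Crest.Agent.R182.LAD5

/-! Row 182, block L1 (d): the Lie model. -/

set_option autoImplicit false
set_option linter.dupNamespace false

namespace Crest.Agent.R182

theorem PreLie.lie {G : Type*} [Group G] {k : ℕ} (M : PreLie G k) : M.LieOut :=
  M.exists_TD.elim fun T => T.lie

end Crest.Agent.R182
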