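import Crest.Agent.R182.LAHullB

/-! Row 182, block L1 (b3): the API of `Hull`. -/

set_option autoImplicit false
set_option linter.dupNamespace false

namespace Crest.Agent.R182

open Crest.GroupTheory

namespace Hull

variable {P G : Type*} [Group P] [Group G] {N : Subgroup P} (H : Hull N G)

theorem ex_mul' (X Y : Fin H.d → ℝ) :
    H.ex X * H.ex Y = H.ex (X + Y + bchSum (fun A B => H.br A B) H.bch X Y) := H.ex_mul X Y

theorem ex_zero : H.ex 0 = 1 := law_zero H.br_self H.ex_mul'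

theorem ex_neg (X : Fin H.d → ℝ) : H.ex (-X) = (H.ex X)⁻¹ := law_neg H.br_self H.ex_mul' X

theorem ex_add_smul (X : Fin H.d → ℝ) (s t : ℝ) :
    H.ex ((s + t) • X) = H.ex (s • X) * H.ex (t • X) := law_add H.br_self H.ex_mul' X s t

theorem ex_zsmul (X : Fin H.d → ℝ) (n : ℤ) : H.ex ((n : ℝ) • X) = H.ex X ^ n :=
  law_zpow H.br_self H.ex_mul' X n

theorem ex_nsmul (X : Fin H.d → ℝ) (n : ℕ) : H.ex ((n : ℝ) • X) = H.ex X ^ n := by
  have := H.ex_zsmul X n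
  rwa [Int.cast_natCast, zpow_natCast] at this

theorem mul_ex (g : G) (X : Fin H.d → ℝ) : g * H.ex X = H.ex (H.Ad g X) * g := by
  rw [← H.Ad_conj, inv_mul_cancel_right]

theorem ex_mul_right (g : G) (X : Fin H.d → ℝ) : H.ex X * g = g * H.ex (H.Ad g⁻¹ X) := by
  rw [← H.Ad_conj]; group

/-- the logarithm on `N` -/
noncomputable def lg (x : P) : Fin H.d → ℝ := Function.invFun H.ex (H.j x)

theorem ex_lg {x : P} (hx : x ∈ N) : H.ex (H.lg x) = H.j x :=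
  Function.invFun_eq ((H.j_mem x).2 hx)

theorem lg_eq {x : P} {X : Fin H.d → ℝ} (h : H.j x = H.ex X) : H.lg x = X := by
  rw [lg, h]; exact Function.leftInverse_invFun H.ex_inj X

theorem lg_one : H.lg 1 = 0 := H.lg_eq (by rw [map_one, H.ex_zero])

theorem lg_mul {x y : P} (hx : x ∈ N) (hy : y ∈ N) :
    H.lg (x * y) = H.lg x + H.lg y + bchSum (fun A B => H.br A B) H.bch (H.lg x) (H.lg y) :=
  H.lg_eq (by rw [← H.ex_mul', H.ex_lg hx, H.ex_lg hy, map_mul])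

theorem lg_inv {x : P} (hx : x ∈ N) : H.lg x⁻¹ = -H.lg x :=
  H.lg_eq (by rw [H.ex_neg, H.ex_lg hx, map_inv])

theorem lg_zpow {x : P} (hx : x ∈ N) (n : ℤ) : H.lg (x ^ n) = (n : ℝ) • H.lg x :=
  H.lg_eq (by rw [H.ex_zsmul, H.ex_lg hx, map_zpow])

theorem lg_conj (g : P) {x : P} (hx : x ∈ N) : H.lg (g * x * g⁻¹) = H.Ad (H.j g) (H.lg x) :=
  H.lg_eq (by rw [← H.Ad_conj, H.ex_lg hx, map_mul, map_mul, map_inv])

theorem eq_one_of_lg {x : P} (hx : x ∈ N) (h : H.lg x = 0) : x = 1 :=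
  H.j_inj (by rw [← H.ex_lg hx, h, H.ex_zero, map_one])

theorem lg_injOn : Set.InjOn H.lg N := fun x hx y hy h =>
  H.j_inj (by rw [← H.ex_lg hx, ← H.ex_lg hy, h])

theorem Ad_j {x : P} (hx : x ∈ N) : H.Ad (H.j x) =
    ∑ n ∈ Finset.range (H.d + 1), ((n.factorial : ℝ)⁻¹) • (H.br (H.lg x)) ^ n := by
  rw [← H.ex_lg hx, H.Ad_ex]

theorem lg_lat : ∃ D : ℕ, 0 < D ∧ ∀ x ∈ N, ∀ i, ∃ z : ℤ, (D : ℝ) * H.lg x i = z := by
  obtain ⟨D, hD, h⟩ := H.lat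
  exact ⟨D, hD, fun x hx => h x _ (H.ex_lg hx).symm⟩

theorem lg_basis (i : Fin H.d) : ∃ n ∈ N, H.lg n = Pi.single i 1 := by
  obtain ⟨n, hn, h⟩ := H.basis i
  exact ⟨n, hn, H.lg_eq h⟩

theorem span_lg : Submodule.span ℝ (H.lg '' N) = ⊤ := by
  refine eq_top_iff.2 fun t _ => ?_
  refine hV_le LinearMap.id (i := 0) (fun j _ => Submodule.subset_span ?_) t (hV_zero t)
  obtain ⟨n, hn, h⟩ := H.lg_basis j
  exact ⟨n, hn, h⟩

theorem finite_lg (R : ℝ) : {x | x ∈ N ∧ ‖H.lg x‖ ≤ R}.Finite := by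
  obtain ⟨D, hD, h⟩ := H.lg_lat
  have hD' : (0 : ℝ) < D := by exact_mod_cast hD
  refine Set.Finite.of_finite_image (f := H.lg) ?_ (H.lg_injOn.mono fun x hx => hx.1)
  have hf : (Set.pi Set.univ fun _ : Fin H.d => Set.Icc (-⌈D * R⌉) ⌈D * R⌉).Finite :=
    Set.Finite.pi fun _ => Set.finite_Icc _ _
  refine (hf.image fun z i => (z i : ℝ) / D).subset ?_
  rintro _ ⟨x, ⟨hx, hR⟩, rfl⟩
  choose z hz using h x hx
  refine ⟨z, fun i _ => ?_, funext fun i => ?_⟩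
  · have h1 : |H.lg x i| ≤ R := (norm_le_pi_norm (H.lg x) i).trans hR
    have h2 : |(z i : ℝ)| ≤ ⌈D * R⌉ := by
      rw [← hz i, abs_mul, abs_of_pos hD']
      exact (mul_le_mul_of_nonneg_left h1 hD'.le).trans (Int.le_ceil _)
    have h3 : |z i| ≤ ⌈D * R⌉ := by exact_mod_cast h2
    exact abs_le.1 h3
  · simp only [← hz i]
    field_simp

/-- bounded subsets -/
def Bd (A : Set G) : Prop :=
  ∃ (R : ℝ) (F : Set P), F.Finite ∧ ∀ g ∈ A, ∃ Y, ‖Y‖ ≤ R ∧ ∃ p ∈ F, g = H.ex Y * H.j p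

theorem Bd.mono {H : Hull N G} {A B : Set G} (h : H.Bd B) (hA : A ⊆ B) : H.Bd A := by
  obtain ⟨R, F, hF, h⟩ := h
  exact ⟨R, F, hF, fun g hg => h g (hA hg)⟩

theorem Bd.union {H : Hull N G} {A B : Set G} (hA : H.Bd A) (hB : H.Bd B) : H.Bd (A ∪ B) := by
  obtain ⟨R, F, hF, h⟩ := hA
  obtain ⟨R', F', hF', h'⟩ := hB
  refine ⟨max R R', F ∪ F', hF.union hF', ?_⟩
  rintro g (hg | hg)
  · obtain ⟨Y, hY, p, hp, e⟩ := h g hg
    exact ⟨Y, hY.trans (le_max_left _ _), p, Or.inl hp, e⟩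
  · obtain ⟨Y, hY, p, hp, e⟩ := h' g hg
    exact ⟨Y, hY.trans (le_max_right _ _), p, Or.inr hp, e⟩

theorem bd_finite {A : Set G} (hA : A.Finite) : H.Bd A := by
  induction A, hA using Set.Finite.induction_on with
  | empty => exact ⟨0, ∅, Set.finite_empty, fun _ h => h.elim⟩
  | @insert a A _ _ ih =>
    obtain ⟨X, p, e⟩ := H.dec a
    exact Bd.union (A := {a}) ⟨‖X‖, {p}, Set.finite_singleton p,
      fun g hg => ⟨X, le_rfl, p, rfl, hg.trans e⟩⟩ ih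

theorem bd_ball (R : ℝ) : H.Bd (H.ex '' Metric.closedBall 0 R) := by
  refine ⟨R, {1}, Set.finite_singleton 1, ?_⟩
  rintro _ ⟨Y, hY, rfl⟩
  exact ⟨Y, mem_closedBall_zero_iff.1 hY, 1, rfl, by rw [map_one, mul_one]⟩

theorem Bd.mul {H : Hull N G} {A B : Set G} (hA : H.Bd A) (hB : H.Bd B) :
    H.Bd (Set.image2 (· * ·) A B) := by
  obtain ⟨R, F, hF, h⟩ := hA
  obtain ⟨R', F', hF', h'⟩ := hB
  obtain ⟨L, hL⟩ := (hF.image fun p =>
    ‖LinearMap.toContinuousLinearMap (H.Ad (H.j p))‖).bddAbove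
  obtain ⟨R₁, h₁⟩ := law_bound (br := H.br) (l := H.bch) (max R (L * R'))
  refine ⟨R₁, Set.image2 (· * ·) F F', hF.image2 _ hF', ?_⟩
  rintro _ ⟨a, ha, b, hb, rfl⟩
  obtain ⟨Y, hY, p, hp, rfl⟩ := h a ha
  obtain ⟨Y', hY', p', hp', rfl⟩ := h' b hb
  have h2 : ‖H.Ad (H.j p) Y'‖ ≤ L * R' :=
    ((LinearMap.toContinuousLinearMap (H.Ad (H.j p))).le_opNorm Y').trans
      (mul_le_mul (hL ⟨p, hp, rfl⟩) hY' (norm_nonneg _)
        ((norm_nonneg _).trans (hL ⟨p, hp, rfl⟩)))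
  refine ⟨_, h₁ Y (H.Ad (H.j p) Y') (hY.trans (le_max_left _ _)) (h2.trans (le_max_right _ _)),
    p * p', ⟨p, hp, p', hp', rfl⟩, ?_⟩
  rw [← H.ex_mul', map_mul, ← H.Ad_conj]
  group

theorem Bd.finite {H : Hull N G} {A : Set G} (hA : H.Bd A) : {p | H.j p ∈ A}.Finite := by
  obtain ⟨R, F, hF, h⟩ := hA
  refine ((H.finite_lg R).image2 (· * ·) hF).subset fun q hq => ?_
  obtain ⟨Y, hY, p, hp, e⟩ := h _ hq
  have e1 : H.j (q * p⁻¹) = H.ex Y := by rw [map_mul, map_inv, e, mul_inv_cancel_right]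
  exact ⟨q * p⁻¹, ⟨(H.j_mem _).1 ⟨Y, e1.symm⟩, by rwa [H.lg_eq e1]⟩, p, hp,
    inv_mul_cancel_right q p⟩

theorem Bd.ball {H : Hull N G} {T : Set G} (hT : H.Bd T) (hT' : H.Bd T⁻¹) (r : ℕ) :
    H.Bd (Ball T r) := by
  induction r with
  | zero => rw [h31_ball_zero]; exact H.bd_finite (Set.finite_singleton 1)
  | succ r ih =>
    refine ((H.bd_finite (Set.finite_singleton 1)).union ((hT.union hT').mul ih)).mono
      fun g hg => ?_
    rcases h31_ball_succ hg with rfl | ⟨x, hx, b, hb, rfl⟩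
    · exact Or.inl rfl
    · exact Or.inr ⟨x, hx, b, hb, rfl⟩

theorem ex_mem_ball {T : Set G} (hT : H.ex '' Metric.closedBall 0 1 ⊆ T) {m : ℕ}
    {Y : Fin H.d → ℝ} (hY : ‖Y‖ ≤ m) : H.ex Y ∈ Ball T m := by
  rcases Nat.eq_zero_or_pos m with rfl | hm
  · rw [Nat.cast_zero, norm_le_zero_iff] at hY
    rw [hY, H.ex_zero]
    exact Ball.one_mem _ _
  · have hm' : (0 : ℝ) < m := by exact_mod_cast hm
    have h1 : H.ex ((m : ℝ)⁻¹ • Y) ∈ Ball T 1 := by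
      refine Ball.mem_of_mem (hT ⟨_, mem_closedBall_zero_iff.2 ?_, rfl⟩)
      rw [norm_smul, norm_inv, Real.norm_natCast, inv_mul_le_iff₀ hm', mul_one]
      exact hY
    have h2 := Ball.pow_mem h1 m
    rwa [← H.ex_nsmul, smul_smul, mul_inv_cancel₀ hm'.ne', one_smul, mul_one] at h2

/-- `j` is a quasi-isometry for every compact generating set -/
theorem qi' (S : Finset P) (hS : Subgroup.closure (S : Set P) = ⊤) {U : Set G} (hU : U.Finite)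
    (hT : Subgroup.closure (H.ex '' Metric.closedBall 0 1 ∪ U) = ⊤) :
    ∃ C, QI (S : Set P) (H.ex '' Metric.closedBall 0 1 ∪ U) H.j C := by
  refine QI.of_cocompact S hS _ hT H.j ?_ fun r => Bd.finite (Bd.ball ?_ ?_ r)
  · obtain ⟨C, hC⟩ := H.cocpt
    refine ⟨⌈C⌉₊, fun g => ?_⟩
    obtain ⟨X, p, rfl⟩ := H.dec g
    obtain ⟨n, -, Y, hY, e⟩ := hC (H.Ad (H.j p)⁻¹ X)
    refine ⟨p * n, ?_⟩
    rw [H.ex_mul_right, e, map_mul, ← mul_assoc (H.j p), inv_mul_cancel_left]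
    exact H.ex_mem_ball Set.subset_union_left (hY.trans (Nat.le_ceil C))
  · exact (H.bd_ball 1).union (H.bd_finite hU)
  · refine ((H.bd_ball 1).union (H.bd_finite hU.inv)).mono ?_
    rintro g (⟨Y, hY, e⟩ | hg)
    · refine Or.inl ⟨-Y, ?_, by rw [H.ex_neg, e, inv_inv]⟩
      rwa [mem_closedBall_zero_iff, norm_neg, ← mem_closedBall_zero_iff]
    · exact Or.inr hg

theorem qi (S : Finset P) (hS : Subgroup.closure (S : Set P) = ⊤) {k : ℕ} (c : Fin k → G)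
    (hT : Subgroup.closure (H.ex '' Metric.closedBall 0 1 ∪ Set.range c) = ⊤) :
    ∃ C, QI (S : Set P) (H.ex '' Metric.closedBall 0 1 ∪ Set.range c) H.j C :=
  H.qi' S hS (Set.finite_range c) hT

/-- the hull of a subgroup containing `N` -/
def sub (P₀ : Subgroup P) : Subgroup G where
  carrier := {g | ∃ X, ∃ p ∈ P₀, g = H.ex X * H.j p}
  one_mem' := ⟨0, 1, P₀.one_mem, by rw [H.ex_zero, map_one, mul_one]⟩
  mul_mem' := by
    rintro _ _ ⟨X, p, hp, rfl⟩ ⟨Y, q, hq, rfl⟩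
    have e : H.ex X * H.j p * (H.ex Y * H.j q) = H.ex X * H.ex (H.Ad (H.j p) Y) * H.j (p * q) := by
      rw [map_mul, ← H.Ad_conj]; group
    exact ⟨_, p * q, P₀.mul_mem hp hq, by rw [e, H.ex_mul']⟩
  inv_mem' := by
    rintro _ ⟨X, p, hp, rfl⟩
    refine ⟨H.Ad (H.j p)⁻¹ (-X), p⁻¹, P₀.inv_mem hp, ?_⟩
    rw [← H.Ad_conj, H.ex_neg, map_inv]
    group

theorem mem_sub {P₀ : Subgroup P} {g : G} :
    g ∈ H.sub P₀ ↔ ∃ X, ∃ p ∈ P₀, g = H.ex X * H.j p := Iff.rfl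

theorem ex_mem_sub (P₀ : Subgroup P) (X : Fin H.d → ℝ) : H.ex X ∈ H.sub P₀ :=
  ⟨X, 1, P₀.one_mem, by rw [map_one, mul_one]⟩

theorem j_mem_sub {P₀ : Subgroup P} {p : P} (hp : p ∈ P₀) : H.j p ∈ H.sub P₀ :=
  ⟨0, p, hp, by rw [H.ex_zero, one_mul]⟩

/-- restriction to a subgroup containing `N` -/
def restrict (P₀ : Subgroup P) (h : N ≤ P₀) : Hull (N.subgroupOf P₀) (H.sub P₀) where
  d := H.d
  br := H.br
  br_self := H.br_self
  jacobi := H.jacobi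
  br_tri := H.br_tri
  ex X := ⟨H.ex X, H.ex_mem_sub P₀ X⟩
  ex_inj _ _ e := H.ex_inj (congrArg Subtype.val e)
  bch := H.bch
  ex_mul X Y := Subtype.ext (H.ex_mul X Y)
  Ad := H.Ad.comp (H.sub P₀).subtype
  Ad_conj g X := Subtype.ext (H.Ad_conj g X)
  Ad_br g X Y := H.Ad_br g X Y
  Ad_ex X := H.Ad_ex X
  j := (H.j.comp P₀.subtype).codRestrict _ fun p => H.j_mem_sub p.2
  j_inj _ _ e := Subtype.ext (H.j_inj (congrArg Subtype.val e))
  j_mem p := by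
    rw [Subgroup.mem_subgroupOf, ← H.j_mem]
    exact ⟨fun ⟨X, e⟩ => ⟨X, congrArg Subtype.val e⟩, fun ⟨X, e⟩ => ⟨X, Subtype.ext e⟩⟩
  dec := by
    rintro ⟨_, X, p, hp, rfl⟩
    exact ⟨X, ⟨p, hp⟩, rfl⟩
  basis i := by
    obtain ⟨n, hn, e⟩ := H.basis i
    exact ⟨⟨n, h hn⟩, hn, Subtype.ext e⟩
  lat := by
    obtain ⟨D, hD, hl⟩ := H.lat
    exact ⟨D, hD, fun n X e => hl n X (congrArg Subtype.val e)⟩
  cocpt := by
    obtain ⟨C, hC⟩ := H.cocpt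
    refine ⟨C, fun X => ?_⟩
    obtain ⟨n, hn, Y, hY, e⟩ := hC X
    exact ⟨⟨n, h hn⟩, hn, Y, hY, Subtype.ext e⟩

@[simp] theorem restrict_ex (P₀ : Subgroup P) (h : N ≤ P₀) (X : Fin H.d → ℝ) :
    (((H.restrict P₀ h).ex X : H.sub P₀) : G) = H.ex X := rfl

@[simp] theorem restrict_j (P₀ : Subgroup P) (h : N ≤ P₀) (p : P₀) :
    (((H.restrict P₀ h).j p : H.sub P₀) : G) = H.j p := rfl

theorem restrict_Ad (P₀ : Subgroup P) (h : N ≤ P₀) (g : H.sub P₀) :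
    (H.restrict P₀ h).Ad g = H.Ad g := rfl

end Hull

end Crest.Agent.R182
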