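import Crest.Agent.R182.LASwan0

/-! Row 182, block L1 (b1): Swan's induction, with polynomial functions. -/

set_option autoImplicit false
set_option linter.dupNamespace false

namespace Crest.Agent.R182

namespace Sw

variable {G : Type*} [Group G]

/-- right translation -/
def rt (g : G) : Module.End ℝ (G → ℝ) := LinearMap.funLeft ℝ ℝ fun x => x * g

theorem rt_apply (g : G) (f : G → ℝ) (x : G) : rt g f x = f (x * g) := rfl

theorem rt_mul (g h : G) : rt (g * h) = rt g * rt h := by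
  ext f x
  simp [rt_apply, mul_assoc]

theorem rt_one : rt (1 : G) = 1 := by
  ext f x
  simp [rt_apply]

theorem rt_rt (g h : G) (f : G → ℝ) : rt g (rt h f) = rt (g * h) f := by
  rw [rt_mul]; rfl

/-- functions of degree `< d` along the left cosets of `K` -/
def Pol (K : Subgroup G) : ℕ → Submodule ℝ (G → ℝ)
  | 0 => ⊥
  | d + 1 => ⨅ k ∈ K, (Pol K d).comap (rt k - 1)

theorem mem_succ {K : Subgroup G} {d : ℕ} {f : G → ℝ} :
    f ∈ Pol K (d + 1) ↔ ∀ k ∈ K, rt k f - f ∈ Pol K d := by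
  simp [Pol, Submodule.mem_iInf]

theorem mem_zero {K : Subgroup G} {f : G → ℝ} : f ∈ Pol K 0 ↔ f = 0 := by
  simp [Pol]

theorem Pol_succ (K : Subgroup G) (d : ℕ) : Pol K d ≤ Pol K (d + 1) := by
  induction d with
  | zero => exact bot_le
  | succ d ih => exact fun f hf => mem_succ.2 fun k hk => ih (mem_succ.1 hf k hk)

theorem Pol_mono (K : Subgroup G) : Monotone (Pol K) := monotone_nat_of_le_succ (Pol_succ K)

theorem Pol_map {K : Subgroup G} (Φ : Module.End ℝ (G → ℝ))
    (h : ∀ k ∈ K, ∃ k' ∈ K, ∀ f, rt k (Φ f) = Φ (rt k' f)) (d : ℕ) :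
    ∀ f ∈ Pol K d, Φ f ∈ Pol K d := by
  induction d with
  | zero =>
    intro f hf
    rw [mem_zero.1 hf, map_zero]
    exact Submodule.zero_mem _
  | succ d ih =>
    intro f hf
    refine mem_succ.2 fun k hk => ?_
    obtain ⟨k', hk', e⟩ := h k hk
    rw [e, ← map_sub]
    exact ih _ (mem_succ.1 hf k' hk')

theorem Pol_rt {K : Subgroup G} {g : G} (h : ∀ k ∈ K, g⁻¹ * k * g ∈ K) (d : ℕ) :
    ∀ f ∈ Pol K d, rt g f ∈ Pol K d :=
  Pol_map (rt g) (fun k hk => ⟨_, h k hk, fun f => by
    rw [rt_rt, rt_rt]; congr 2; group⟩) d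

/-- functions on `K'` invariant under left translation by `t` -/
def Inv (K' : Subgroup G) (t : G) : Submodule ℝ (G → ℝ) where
  carrier := {f | (∀ x, x ∉ K' → f x = 0) ∧ ∀ x, f (t * x) = f x}
  add_mem' := by
    rintro f g ⟨h1, h2⟩ ⟨k1, k2⟩
    exact ⟨fun x hx => by simp [h1 x hx, k1 x hx], fun x => by simp [h2 x, k2 x]⟩
  zero_mem' := ⟨fun _ _ => rfl, fun _ => rfl⟩
  smul_mem' := by
    rintro c f ⟨h1, h2⟩
    exact ⟨fun x hx => by simp [h1 x hx], fun x => by simp [h2 x]⟩

theorem Inv_rt {K' : Subgroup G} {t g : G} (hg : g ∈ K') : ∀ f ∈ Inv K' t, rt g f ∈ Inv K' t := by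
  rintro f ⟨h1, h2⟩
  refine ⟨fun x hx => h1 _ fun h => hx ?_, fun x => ?_⟩
  · simpa using K'.mul_mem h (K'.inv_mem hg)
  · rw [rt_apply, rt_apply, mul_assoc, h2]

theorem Inv_zpow {K' : Subgroup G} {t : G} {f : G → ℝ} (hf : f ∈ Inv K' t) (a : ℤ) (x : G) :
    f (t ^ a * x) = f x := by
  induction a using Int.induction_on with
  | zero => simp
  | succ n ih => rw [add_comm, zpow_add, zpow_one, mul_assoc, hf.2, ih]
  | pred n ih =>
    rw [← hf.2, ← mul_assoc, ← ih]
    congr 2
    group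

/-- the data of one step -/
structure Step (K K' : Subgroup G) (t : G) (s : ℕ) (D : ℕ → Subgroup G) : Prop where
  le : K ≤ K'
  mem : t ∈ K'
  norm : ∀ g ∈ K', ∀ k ∈ K, g⁻¹ * k * g ∈ K
  dec : ∀ x ∈ K', ∃ a : ℤ, ∃ k ∈ K, x = t ^ a * k
  top : D 0 = K
  bot : D s = ⊥
  sub : ∀ i, D i ≤ K
  comm : ∀ i, ∀ k ∈ D i, t⁻¹ * k * t * k⁻¹ ∈ D (i + 1)

section

variable {K K' : Subgroup G} {t : G} {s : ℕ} {D : ℕ → Subgroup G}

theorem Step.W_rt (h : Step K K' t s D) {g : G} (hg : g ∈ K') (d : ℕ) :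
    ∀ f ∈ Pol K d ⊓ Inv K' t, rt g f ∈ Pol K d ⊓ Inv K' t :=
  fun f hf => ⟨Pol_rt (h.norm g hg) d f hf.1, Inv_rt hg f hf.2⟩

theorem Step.W_pow (h : Step K K' t s D) (d p : ℕ) :
    ∀ f ∈ Pol K d ⊓ Inv K' t, ((rt t - 1) ^ p) f ∈ Pol K d ⊓ Inv K' t := by
  induction p with
  | zero => intro f hf; simpa using hf
  | succ p ih =>
    intro f hf
    rw [pow_succ, Module.End.mul_apply]
    exact ih _ (Submodule.sub_mem _ (h.W_rt h.mem d f hf) hf)

theorem Step.W_diff (h : Step K K' t s D) {k : G} (hk : k ∈ K) (d : ℕ) :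
    ∀ f ∈ Pol K (d + 1) ⊓ Inv K' t, rt k f - f ∈ Pol K d ⊓ Inv K' t :=
  fun f hf => ⟨mem_succ.1 hf.1 k hk, Submodule.sub_mem _ (Inv_rt (h.le hk) f hf.2) hf.2⟩

theorem pow_rt (t : G) (a : ℤ) (p : ℕ) (f : G → ℝ) :
    ((rt t - 1) ^ p) (rt (t ^ a) f) = rt (t ^ a) (((rt t - 1) ^ p) f) := by
  have hc : Commute (rt t - 1) (rt (t ^ a)) := by
    refine Commute.sub_left ?_ (Commute.one_left _)
    change rt t * rt (t ^ a) = rt (t ^ a) * rt t
    rw [← rt_mul, ← rt_mul, (Commute.zpow_right (Commute.refl t) a).eq]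
  exact LinearMap.congr_fun (hc.pow_left p).eq f

theorem Step.unip (h : Step K K' t s D) (d : ℕ) :
    ∃ L : ℕ, ∀ f ∈ Pol K (d + 1) ⊓ Inv K' t, ((rt t - 1) ^ L) f ∈ Pol K d ⊓ Inv K' t := by
  induction d with
  | zero =>
    refine ⟨1, fun f hf => ?_⟩
    have hc : ∀ x ∈ K', f x = f 1 := fun x hx => by
      obtain ⟨a, k, hk, rfl⟩ := h.dec x hx
      rw [Inv_zpow hf.2]
      have := congrFun (mem_zero.1 (mem_succ.1 hf.1 k hk)) 1
      simpa [rt_apply, sub_eq_zero] using this
    have : ((rt t - 1) ^ (1 : ℕ) : Module.End ℝ (G → ℝ)) f = 0 := by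
      funext x
      simp only [pow_one, LinearMap.sub_apply, Module.End.one_apply, Pi.sub_apply, rt_apply,
        Pi.zero_apply, sub_eq_zero]
      by_cases hx : x ∈ K'
      · rw [hc x hx, hc _ (K'.mul_mem hx h.mem)]
      · rw [hf.2.1 x hx, hf.2.1 _ fun h' => hx (by simpa using K'.mul_mem h' (K'.inv_mem h.mem))]
    rw [this]
    exact Submodule.zero_mem _
  | succ d ih =>
    obtain ⟨L, hL⟩ := ih
    have key : ∀ n i, i + n = s → ∀ k ∈ D i, ∀ f ∈ Pol K (d + 2) ⊓ Inv K' t, ∀ q p,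
        L + n ≤ p + q → ((rt t - 1) ^ p) (rt k (((rt t - 1) ^ q) f) - ((rt t - 1) ^ q) f) ∈
          Pol K d ⊓ Inv K' t := by
      intro n
      induction n with
      | zero =>
        intro i hi k hk f _ q p _
        obtain rfl : i = s := by omega
        rw [h.bot, Subgroup.mem_bot] at hk
        rw [hk, rt_one, Module.End.one_apply, sub_self, map_zero]
        exact Submodule.zero_mem _
      | succ n ihn =>
        intro i hi k hk f hf q
        have hkK := h.sub i hk
        induction q with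
        | zero =>
          intro p hp
          obtain ⟨p', rfl⟩ : ∃ p', p = p' + L := ⟨p - L, by omega⟩
          rw [pow_zero, Module.End.one_apply, pow_add, Module.End.mul_apply]
          exact h.W_pow d p' _ (hL _ (h.W_diff hkK _ f hf))
        | succ q ihq =>
          intro p hp
          have hg := h.W_pow _ q f hf
          have h2 := ihq (p + 1) (by omega)
          have hc := h.comm i k hk
          have h3 := ihn (i + 1) (by omega) _ hc f hf q p (by omega)
          rw [pow_succ', Module.End.mul_apply]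
          generalize ((rt t - 1) ^ q) f = g at hg h2 h3 ⊢
          generalize hcd : t⁻¹ * k * t * k⁻¹ = c at hc h3
          have h1 := h.W_diff (h.sub _ hc) _ _ (h.W_diff hkK _ g hg)
          have e0 : rt k (rt t g) = rt t (rt c (rt k g)) := by
            rw [rt_rt, rt_rt, rt_rt, ← hcd]; congr 2; group
          have e : rt k ((rt t - 1) g) - (rt t - 1) g =
              rt (t ^ (1 : ℤ)) (rt c (rt k g - g) - (rt k g - g)) + (rt t - 1) (rt k g - g) +
                rt (t ^ (1 : ℤ)) (rt c g - g) := by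
            simp only [zpow_one, LinearMap.sub_apply, Module.End.one_apply, map_sub, e0]
            abel
          rw [e, map_add, map_add, pow_rt, pow_rt]
          refine Submodule.add_mem _ (Submodule.add_mem _ ?_ ?_) ?_
          · exact h.W_rt (K'.zpow_mem h.mem 1) d _ (h.W_pow d p _ h1)
          · rwa [pow_succ, Module.End.mul_apply] at h2
          · exact h.W_rt (K'.zpow_mem h.mem 1) d _ h3
    refine ⟨L + s, fun f hf => ⟨mem_succ.2 fun k hk => ?_, (h.W_pow _ _ f hf).2⟩⟩
    have := key s 0 (by omega) k (h.top ▸ hk) f hf (L + s) 0 (by omega)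
    exact this.1

theorem Step.pol (h : Step K K' t s D) (d : ℕ) :
    ∃ e : ℕ, Pol K d ⊓ Inv K' t ≤ Pol K' e := by
  induction d with
  | zero => exact ⟨0, inf_le_left⟩
  | succ d ih =>
    obtain ⟨e, he⟩ := ih
    obtain ⟨L, hL⟩ := h.unip d
    have key : ∀ l, ∀ f ∈ Pol K (d + 1) ⊓ Inv K' t,
        ((rt t - 1) ^ l) f ∈ Pol K d ⊓ Inv K' t → f ∈ Pol K' (e + l) := by
      intro l
      induction l with
      | zero => exact fun f _ hf => he (by simpa using hf)
      | succ l ihl =>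
        intro f hf hl
        have hstep : ∀ a : ℤ, rt (t ^ a) (rt t f - f) ∈ Pol K' (e + l) := fun a => by
          refine ihl _ (h.W_rt (K'.zpow_mem h.mem a) _ _
            (Submodule.sub_mem _ (h.W_rt h.mem _ f hf) hf)) ?_
          rw [pow_rt]
          refine h.W_rt (K'.zpow_mem h.mem a) _ _ ?_
          rwa [pow_succ, Module.End.mul_apply] at hl
        have hz : ∀ a : ℤ, rt (t ^ a) f - f ∈ Pol K' (e + l) := fun a => by
          induction a using Int.induction_on with
          | zero => rw [zpow_zero, rt_one, Module.End.one_apply, sub_self]; exact Submodule.zero_mem _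
          | succ n ih =>
            have := Submodule.add_mem _ (hstep n) ih
            rwa [map_sub, rt_rt, sub_add_sub_cancel, ← zpow_add_one] at this
          | pred n ih =>
            have := Submodule.sub_mem _ ih (hstep (-n - 1))
            rwa [map_sub, rt_rt, ← zpow_add_one, sub_add_cancel, sub_sub_sub_cancel_left] at this
        refine mem_succ.2 fun g hg => ?_
        obtain ⟨a, k, hk, rfl⟩ := h.dec g hg
        have h1 := Pol_mono K' (Nat.le_add_right e l)
          (he (h.W_rt (K'.zpow_mem h.mem a) _ _ (h.W_diff hk _ f hf)))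
        have := Submodule.add_mem _ h1 (hz a)
        rwa [map_sub, rt_rt, sub_add_sub_cancel] at this
    exact ⟨e + L, fun f hf => key L f hf (hL f hf)⟩

end

section

variable {N : Subgroup G} (B : Malcev N)

theorem Q_anti : Antitone B.Q := antitone_nat_of_succ_le B.anti

theorem Q_le (i : ℕ) : B.Q i ≤ N := (Q_anti B (Nat.zero_le i)).trans B.top.le

theorem a_one {i : ℕ} (hi : i < B.m) : B.a i 1 = 0 :=
  (B.a_ker i hi 1 (B.Q i).one_mem).2 (B.Q (i + 1)).one_mem

theorem a_zpow {i : ℕ} (hi : i < B.m) (z : ℤ) : B.a i (B.e i ^ z) = z := by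
  have he := B.e_mem i hi
  induction z using Int.induction_on with
  | zero => rw [zpow_zero, a_one B hi]
  | succ n ih => rw [zpow_add_one, B.a_mul i hi _ ((B.Q i).zpow_mem he _) _ he, ih, B.a_e i hi]
  | pred n ih =>
    have := B.a_mul i hi _ ((B.Q i).zpow_mem he (-n - 1)) _ he
    rw [← zpow_add_one, sub_add_cancel, ih, B.a_e i hi] at this
    omega

theorem retr_mem {i : ℕ} (hi : i < B.m) {x : G} (hx : x ∈ B.Q i) :
    B.e i ^ (-B.a i x) * x ∈ B.Q (i + 1) := by
  have h1 := (B.Q i).zpow_mem (B.e_mem i hi) (-B.a i x)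
  rw [← B.a_ker i hi _ ((B.Q i).mul_mem h1 hx), B.a_mul i hi _ h1 _ hx, a_zpow B hi]
  omega

theorem conj_mem (i : ℕ) {g : G} (hg : g ∈ N) {k : G} (hk : k ∈ B.Q i) : g⁻¹ * k * g ∈ B.Q i := by
  have := (B.Q i).mul_mem (B.anti i (B.central i _ (N.inv_mem hg) k hk)) hk
  simpa using this

theorem step {j : ℕ} (hj : j < B.m) :
    Step (B.Q (j + 1)) (B.Q j) (B.e j) (B.m - (j + 1)) fun i => B.Q (j + 1 + i) where
  le := B.anti j
  mem := B.e_mem j hj
  norm g hg k hk := conj_mem B _ (Q_le B j hg) hk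
  dec x hx := ⟨B.a j x, _, retr_mem B hj hx, by group⟩
  top := rfl
  bot := by rw [show j + 1 + (B.m - (j + 1)) = B.m by omega, B.bot]
  sub i := Q_anti B (Nat.le_add_right _ _)
  comm i k hk := by
    have := B.central _ _ (N.inv_mem (Q_le B j (B.e_mem j hj))) k hk
    rwa [inv_inv] at this

open Classical in
/-- extension of functions from `Q (j + 1)` to `Q j` -/
noncomputable def ext (j : ℕ) : Module.End ℝ (G → ℝ) where
  toFun f x := if x ∈ B.Q j then f (B.e j ^ (-B.a j x) * x) else 0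
  map_add' f g := by
    funext x
    simp only [Pi.add_apply]
    split_ifs <;> simp
  map_smul' c f := by
    funext x
    simp only [Pi.smul_apply, RingHom.id_apply]
    split_ifs <;> simp

open Classical in
theorem ext_apply (j : ℕ) (f : G → ℝ) (x : G) :
    ext B j f x = if x ∈ B.Q j then f (B.e j ^ (-B.a j x) * x) else 0 := rfl

theorem ext_rt {j : ℕ} (hj : j < B.m) {k : G} (hk : k ∈ B.Q (j + 1)) (f : G → ℝ) :
    rt k (ext B j f) = ext B j (rt k f) := by
  funext x
  have hk' := B.anti j hk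
  rw [rt_apply, ext_apply, ext_apply]
  by_cases hx : x ∈ B.Q j
  · rw [if_pos hx, if_pos ((B.Q j).mul_mem hx hk'), B.a_mul j hj x hx k hk',
      (B.a_ker j hj k hk').2 hk, add_zero, rt_apply, mul_assoc]
  · rw [if_neg hx, if_neg fun h => hx (by simpa using (B.Q j).mul_mem h ((B.Q j).inv_mem hk'))]

theorem ext_inv {j : ℕ} (hj : j < B.m) (f : G → ℝ) : ext B j f ∈ Inv (B.Q j) (B.e j) := by
  have he := B.e_mem j hj
  refine ⟨fun x hx => by rw [ext_apply, if_neg hx], fun x => ?_⟩
  rw [ext_apply, ext_apply]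
  by_cases hx : x ∈ B.Q j
  · rw [if_pos hx, if_pos ((B.Q j).mul_mem he hx), B.a_mul j hj _ he x hx, B.a_e j hj]
    congr 1
    group
  · rw [if_neg hx, if_neg fun h => hx (by simpa using (B.Q j).mul_mem ((B.Q j).inv_mem he) h)]

theorem exists_coord {i : ℕ} (hi : i < B.m) : ∃ (d : ℕ) (f : G → ℝ), f ∈ Pol N d ∧
    (∀ x, ∃ z : ℤ, f x = z) ∧
    (∀ x ∈ B.Q i, f x = B.a i x) ∧ ∀ n ∈ B.Q (i + 1), rt n f = f := by
  classical
  have key : ∀ n j, j + n = i → ∃ (d : ℕ) (f : G → ℝ), f ∈ Pol (B.Q j) d ∧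
      (∀ x, ∃ z : ℤ, f x = z) ∧
      (∀ x ∈ B.Q i, f x = B.a i x) ∧ ∀ n ∈ B.Q (i + 1), rt n f = f := by
    intro n
    induction n with
    | zero =>
      intro j hj
      obtain rfl : j = i := by omega
      have hm : ∀ x, ∀ k ∈ B.Q j, (x * k ∈ B.Q j ↔ x ∈ B.Q j) := fun x k hk =>
        (B.Q j).mul_mem_cancel_right hk
      refine ⟨2, fun x => if x ∈ B.Q j then (B.a j x : ℝ) else 0,
        mem_succ.2 fun k hk => mem_succ.2 fun k' hk' => mem_zero.2 ?_,
        fun x => ?_, fun x hx => if_pos hx, fun n hn => ?_⟩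
      · funext x
        simp only [Pi.sub_apply, rt_apply, hm _ _ hk, hm _ _ hk', Pi.zero_apply]
        split_ifs with hx
        · rw [B.a_mul j hi _ ((B.Q j).mul_mem hx hk') k hk, B.a_mul j hi x hx k hk]
          push_cast
          ring
        · simp
      · dsimp only
        split_ifs
        · exact ⟨_, rfl⟩
        · exact ⟨0, by simp⟩
      · funext x
        have hn' := B.anti j hn
        simp only [rt_apply, hm _ _ hn']
        split_ifs with hx
        · rw [B.a_mul j hi x hx n hn', (B.a_ker j hi n hn').2 hn, add_zero]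
        · rfl
    | succ n ih =>
      intro j hj
      obtain ⟨d, f, h1, h0, h2, h3⟩ := ih (j + 1) (by omega)
      have hjm : j < B.m := by omega
      obtain ⟨e, he⟩ := (step B hjm).pol d
      refine ⟨e, ext B j f, he ⟨Pol_map _ (fun k hk => ⟨k, hk, ext_rt B hjm hk⟩) d f h1,
        ext_inv B hjm f⟩, fun x => ?_, fun x hx => ?_, fun k hk => ?_⟩
      · rw [ext_apply]
        split_ifs
        · exact h0 _
        · exact ⟨0, by simp⟩
      · have hx1 : x ∈ B.Q (j + 1) := Q_anti B (by omega) hx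
        have hx0 := B.anti j hx1
        rw [ext_apply, if_pos hx0, (B.a_ker j hjm x hx0).2 hx1, neg_zero, zpow_zero, one_mul,
          h2 x hx]
      · rw [ext_rt B hjm (Q_anti B (by omega) hk), h3 k hk]
  simpa only [B.top] using key i 0 (by omega)

end

/-- the representation space -/
def VV (N : Subgroup G) (M : ℕ) : Type _ := Pol N M

instance (N : Subgroup G) (M : ℕ) : AddCommGroup (VV N M) :=
  inferInstanceAs (AddCommGroup (Pol N M))

instance (N : Subgroup G) (M : ℕ) : Module ℝ (VV N M) := inferInstanceAs (Module ℝ (Pol N M))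

/-- the flag preserving endomorphisms of `Pol N M` -/
def Alg (N : Subgroup G) (M : ℕ) : Subalgebra ℝ (Module.End ℝ (VV N M)) where
  carrier := {T | ∀ j, ∀ v : VV N M, v.1 ∈ Pol N j → (T v).1 ∈ Pol N j}
  mul_mem' hS hT j v hv := hS j _ (hT j v hv)
  add_mem' hS hT j v hv := Submodule.add_mem _ (hS j v hv) (hT j v hv)
  algebraMap_mem' c _ _ hv := Submodule.smul_mem _ c hv

/-- the filtration -/
def Fil (N : Subgroup G) (M i : ℕ) : Submodule ℝ (Alg N M) where
  carrier := {T | ∀ j, ∀ v : VV N M, v.1 ∈ Pol N j → (T.1 v).1 ∈ Pol N (j - i)}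
  add_mem' hS hT j v hv := Submodule.add_mem _ (hS j v hv) (hT j v hv)
  zero_mem' _ _ _ := Submodule.zero_mem _
  smul_mem' c _ hT j v hv := Submodule.smul_mem _ c (hT j v hv)

/-- the representation -/
def rep (N : Subgroup G) [hN : N.Normal] (M : ℕ) : G →* Alg N M where
  toFun g := ⟨((rt g).restrict (Pol_rt (fun k hk => hN.conj_mem' k hk g) M) :
      Pol N M →ₗ[ℝ] Pol N M),
    fun j _ hv => Pol_rt (fun k hk => hN.conj_mem' k hk g) j _ hv⟩
  map_one' := Subtype.ext (LinearMap.ext fun v => Subtype.ext (by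
    change rt 1 v.1 = v.1
    rw [rt_one]; rfl))
  map_mul' g h := Subtype.ext (LinearMap.ext fun v => Subtype.ext (by
    change rt (g * h) v.1 = rt g (rt h v.1)
    rw [rt_rt]))

/-- matrix coefficient -/
def coef (N : Subgroup G) (M : ℕ) (v : VV N M) : Alg N M →ₗ[ℝ] ℝ where
  toFun T := (T.1 v).1 1
  map_add' _ _ := rfl
  map_smul' _ _ := rfl

end Sw

open Sw in
theorem swanStmt : SwanStmt := by
  classical
  intro P _ N hN B
  have h0 : ∀ i, ∃ (d : ℕ) (f : P → ℝ), f ∈ Pol N d ∧ (∀ x, ∃ z : ℤ, f x = z) ∧ (i < B.m →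
      (∀ x ∈ B.Q i, f x = B.a i x) ∧ ∀ n ∈ B.Q (i + 1), rt n f = f) ∧ (B.m ≤ i → d = 0) := by
    intro i
    by_cases hi : i < B.m
    · obtain ⟨d, f, h1, h0, h2⟩ := exists_coord B hi
      exact ⟨d, f, h1, h0, fun _ => h2, fun h => by omega⟩
    · exact ⟨0, 0, Submodule.zero_mem _, fun _ => ⟨0, by simp⟩, fun h => absurd h hi, fun _ => rfl⟩
  choose d f hf1 hf0 hf2 hf3 using h0
  let M := (Finset.range B.m).sup d + 1
  have hd : ∀ i, d i ≤ M := fun i => by
    by_cases hi : i < B.m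
    · exact (Finset.le_sup (f := d) (Finset.mem_range.2 hi)).trans (Nat.le_succ _)
    · rw [hf3 i (not_lt.1 hi)]; exact Nat.zero_le _
  let v : ℕ → VV N M := fun i => ⟨f i, Pol_mono N (hd i) (hf1 i)⟩
  refine ⟨Alg N M, inferInstance, inferInstance, ⟨⟨M, Fil N M, ?_, ?_, ?_, ?_, rep N M, ?_,
    fun i => coef N M (v i), ?_, ?_, fun i x => hf0 i (1 * x)⟩⟩⟩
  · exact eq_top_iff.2 fun T _ j w hw => T.2 j w hw
  · exact fun i i' h T hT j w hw => Pol_mono N (Nat.sub_le_sub_left h j) (hT j w hw)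
  · intro i j x hx y hy l w hw
    have := hx _ _ (hy l w hw)
    rwa [Nat.sub_sub, add_comm] at this
  · refine eq_bot_iff.2 fun T hT => (Submodule.mem_bot ℝ).2 ?_
    refine Subtype.ext (LinearMap.ext fun w => Subtype.ext ?_)
    have := hT M w w.2
    rw [Nat.sub_self] at this
    exact mem_zero.1 this
  · intro g
    refine ⟨fun h => ?_, fun hg j w hw => ?_⟩
    · have h1 : (fun x => if x ∈ N then (1 : ℝ) else 0) ∈ Pol N 1 :=
        mem_succ.2 fun k hk => mem_zero.2 (funext fun x => by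
          simp [rt_apply, N.mul_mem_cancel_right hk])
      have h2 := congrFun (mem_zero.1 (h 1 ⟨_, Pol_mono N (Nat.le_add_left 1 _) h1⟩ h1)) 1
      change (if 1 * g ∈ N then (1 : ℝ) else 0) - (if (1 : P) ∈ N then (1 : ℝ) else 0) = 0 at h2
      by_contra hg
      simp [hg] at h2
    · change rt g w.1 - w.1 ∈ Pol N (j - 1)
      cases j with
      | zero => rw [mem_zero.1 hw]; simp
      | succ j => exact mem_succ.1 hw g hg
  · intro i hi x hx
    change f i (1 * x) = _
    rw [one_mul, (hf2 i hi).1 x hx]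
  · intro i hi T n hn
    have : (rep N M n - 1).1 (v i) = 0 := Subtype.ext (by
      change rt n (f i) - f i = 0
      rw [(hf2 i hi).2 n hn, sub_self])
    change (T.1 ((rep N M n - 1).1 (v i))).1 1 = 0
    rw [this, map_zero]
    rfl

end Crest.Agent.R182
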