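import Crest.Agent.R182.LAHullA
import Crest.Agent.R182.LAHullQ
import Crest.Agent.R182.LASwan

/-! Row 182, block L1 (b3): existence of the real hull. -/

set_option autoImplicit false
set_option linter.dupNamespace false

namespace Crest.Agent.R182

open Finset

universe u

variable {P : Type*} [Group P] {N : Subgroup P}

namespace Swan

variable {B : Malcev N} {A : Type*} [Ring A] [Algebra ℝ A] (W : Swan B A)

/-- a left inverse of the coordinates -/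
noncomputable def ψ : A →ₗ[ℝ] (Fin B.m → ℝ) :=
  (W.φ.exists_leftInverse_of_injective (LinearMap.ker_eq_bot.2 W.φ_inj)).choose

theorem ψ_φ (t : Fin B.m → ℝ) : W.ψ (W.φ t) = t :=
  LinearMap.congr_fun
    (W.φ.exists_leftInverse_of_injective (LinearMap.ker_eq_bot.2 W.φ_inj)).choose_spec t

theorem φ_ψ {y : A} (hy : y ∈ W.nn 0) : W.φ (W.ψ y) = y := by
  obtain ⟨t, -, rfl⟩ := hy
  rw [W.ψ_φ]

/-- the bracket in coordinates -/
noncomputable def br : (Fin B.m → ℝ) →ₗ[ℝ] (Fin B.m → ℝ) →ₗ[ℝ] (Fin B.m → ℝ) :=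
  ((brA : A →ₗ[ℝ] A →ₗ[ℝ] A).compl₁₂ W.φ W.φ).compr₂ W.ψ

theorem φ_br (s t : Fin B.m → ℝ) : W.φ (W.br s t) = brA (W.φ s) (W.φ t) :=
  W.φ_ψ (W.nn_anti (Nat.zero_le 1) (W.br_mem (W.φ_mem s) (W.φ_mem t)))

theorem φ_br_pow (s t : Fin B.m → ℝ) (n : ℕ) :
    W.φ ((W.br s ^ n : Module.End ℝ (Fin B.m → ℝ)) t) = (brA (W.φ s) ^ n) (W.φ t) := by
  induction n with
  | zero => simp
  | succ n ih => rw [pow_succ', pow_succ', Module.End.mul_apply, Module.End.mul_apply, W.φ_br, ih]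

theorem mem_hV_of {i : ℕ} {t : Fin B.m → ℝ} (h : W.φ t ∈ W.nn i) : t ∈ hV B.m i := by
  obtain ⟨s, hs, e⟩ := h
  exact W.φ_inj e ▸ hs

theorem br_tri (i j l : Fin B.m) (h : W.br (Pi.single i 1) (Pi.single j 1) l ≠ 0) :
    i < l ∧ j < l := by
  have hi : W.φ (Pi.single i 1) ∈ W.nn i := ⟨_, single_mem_hV le_rfl 1, rfl⟩
  have hj : W.φ (Pi.single j 1) ∈ W.nn j := ⟨_, single_mem_hV le_rfl 1, rfl⟩
  constructor
  · by_contra hl
    refine h (W.mem_hV_of (i := i + 1) ?_ l (Nat.lt_succ_of_le (not_lt.1 hl)))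
    have := Submodule.neg_mem _ (W.br_mem (W.φ_mem (Pi.single j 1)) hi)
    rw [W.φ_br]
    convert this using 1
    simp
  · by_contra hl
    refine h (W.mem_hV_of (i := j + 1) ?_ l (Nat.lt_succ_of_le (not_lt.1 hl)))
    rw [W.φ_br]
    exact W.br_mem (W.φ_mem _) hj

/-- the exponential, as a unit -/
noncomputable def exU (t : Fin B.m → ℝ) : Aˣ :=
  ⟨nex (W.φ t), nex (-W.φ t), nex_mul_neg (W.φ_nil t), nex_neg_mul (W.φ_nil t)⟩

theorem exists_law : ∃ l : List (ℝ × LTree × LTree), ∀ s t : Fin B.m → ℝ,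
    W.exU s * W.exU t = W.exU (s + t + bchSum (fun a b => W.br a b) l s t) := by
  obtain ⟨l, hl⟩ := W.nilI.exists_bch
  refine ⟨l, fun s t => Units.ext ?_⟩
  change nex (W.φ s) * nex (W.φ t) = nex (W.φ _)
  rw [hl _ (W.nn_F 0 (W.φ_mem s)) _ (W.nn_F 0 (W.φ_mem t)), map_add, map_add,
    map_bchSum (br' := fun a b : A => brA a b) W.φ W.φ_br]

theorem unit_conj (u : Aˣ) {t t' : Fin B.m → ℝ} (h : W.φ t' = u * W.φ t * (u⁻¹ : Aˣ)) :
    u * W.exU t * u⁻¹ = W.exU t' := by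
  refine Units.ext ?_
  change (u : A) * nex (W.φ t) * (u⁻¹ : Aˣ) = nex (W.φ t')
  rw [h, conj_nex u.mul_inv u.inv_mul (W.φ_nil t)]

variable [N.Normal]

theorem ρ_conj (p : P) (t : Fin B.m → ℝ) :
    ∃ t', W.ρ.toHomUnits p * W.exU t * (W.ρ.toHomUnits p)⁻¹ = W.exU t' := by
  obtain ⟨t', -, h⟩ := W.conj_mem p (W.φ_mem t)
  exact ⟨t', W.unit_conj _ (by rw [h, ← map_inv]; rfl)⟩

/-- the hull -/
noncomputable def Gp : Subgroup Aˣ where
  carrier := {u | ∃ t p, u = W.exU t * W.ρ.toHomUnits p}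
  one_mem' := ⟨0, 1, Units.ext (by simp [exU, nex_zero])⟩
  mul_mem' := by
    rintro _ _ ⟨s, p, rfl⟩ ⟨t, q, rfl⟩
    obtain ⟨t', h⟩ := W.ρ_conj p t
    obtain ⟨l, hl⟩ := W.exists_law
    refine ⟨s + t' + bchSum (fun a b => W.br a b) l s t', p * q, ?_⟩
    rw [← hl, ← h, map_mul]
    group
  inv_mem' := by
    rintro _ ⟨s, p, rfl⟩
    obtain ⟨t', h⟩ := W.ρ_conj p⁻¹ (-s)
    have e : W.exU (-s) = (W.exU s)⁻¹ := Units.ext (by simp [exU])
    refine ⟨t', p⁻¹, ?_⟩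
    rw [← h, e, map_inv]
    group

theorem Gp_conj (u : W.Gp) {y : A} (hy : y ∈ W.nn 0) :
    ((u : Aˣ) : A) * y * ((u : Aˣ)⁻¹ : Aˣ) ∈ W.nn 0 := by
  obtain ⟨_, t, p, rfl⟩ := u
  have h1 := nex_conj_mem (W.φ_nil t) (W := W.nn 0)
    (fun y hy => W.nn_anti (Nat.zero_le 1) (W.br_mem (W.φ_mem t) hy)) _ (W.conj_mem p hy)
  convert h1 using 1
  rw [mul_inv_rev, ← map_inv]
  simp only [Units.val_mul, mul_assoc]
  rfl

/-- the adjoint action in coordinates -/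
noncomputable def Ad0 (u : W.Gp) : Module.End ℝ (Fin B.m → ℝ) :=
  W.ψ ∘ₗ LinearMap.mulRight ℝ (((u : Aˣ)⁻¹ : Aˣ) : A) ∘ₗ LinearMap.mulLeft ℝ ((u : Aˣ) : A) ∘ₗ W.φ

theorem φ_Ad0 (u : W.Gp) (t : Fin B.m → ℝ) :
    W.φ (W.Ad0 u t) = ((u : Aˣ) : A) * W.φ t * ((u : Aˣ)⁻¹ : Aˣ) :=
  W.φ_ψ (W.Gp_conj u (W.φ_mem t))

/-- the adjoint action -/
noncomputable def Ad : W.Gp →* Module.End ℝ (Fin B.m → ℝ) where
  toFun := W.Ad0
  map_one' := LinearMap.ext fun t => W.φ_inj (by rw [W.φ_Ad0]; simp)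
  map_mul' u v := LinearMap.ext fun t => W.φ_inj (by
    rw [Module.End.mul_apply, W.φ_Ad0, W.φ_Ad0, W.φ_Ad0]
    simp [mul_assoc])

theorem exists_hull : Nonempty (Hull N W.Gp) := by
  obtain ⟨l, hl⟩ := W.exists_law
  have hex : ∀ t, W.exU t ∈ W.Gp := fun t => ⟨t, 1, by rw [map_one, mul_one]⟩
  have hρ : ∀ p, W.ρ.toHomUnits p ∈ W.Gp := fun p =>
    ⟨0, p, Units.ext (by simp [exU, nex_zero])⟩
  have hs : ∀ X, W.br X X = 0 := fun X => W.φ_inj (by rw [W.φ_br]; simp)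
  let ex : (Fin B.m → ℝ) → W.Gp := fun t => ⟨W.exU t, hex t⟩
  let j : P →* W.Gp := W.ρ.toHomUnits.codRestrict _ hρ
  have hm : ∀ X Y, ex X * ex Y = ex (X + Y + bchSum (fun a b => W.br a b) l X Y) :=
    fun X Y => Subtype.ext (hl X Y)
  have hj : ∀ p t, j p = ex t ↔ W.ρ p = nex (W.φ t) := fun p t =>
    ⟨fun h => congrArg (fun u : W.Gp => ((u : Aˣ) : A)) h, fun h => Subtype.ext (Units.ext h)⟩
  have hN : ∀ p t, j p = ex t → p ∈ N := fun p t h =>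
    (W.ρ_sub p).1 ((hj p t).1 h ▸ W.nilI.nex_sub_one_mem (W.nn_F 0 (W.φ_mem t)))
  have hb : ∀ i : Fin B.m, j (B.e i) = ex (Pi.single i 1) := fun i =>
    (hj _ _).2 (by rw [W.φ_single, W.nex_lg (B.e_mem_N i)])
  refine ⟨{ d := B.m, br := W.br, br_self := hs, jacobi := ?_, br_tri := W.br_tri, ex := ex,
            ex_inj := ?_, bch := l, ex_mul := hm, Ad := W.Ad, Ad_conj := ?_, Ad_br := ?_,
            Ad_ex := ?_, j := j, j_inj := ?_, j_mem := ?_, dec := ?_,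
            basis := fun i => ⟨_, B.e_mem_N i, hb i⟩, lat := ?_, cocpt := ?_ }⟩
  · intro X Y Z
    refine W.φ_inj ?_
    simp only [map_add, W.φ_br, brA_apply]
    noncomm_ring
  · intro s t h
    exact W.φ_inj (nex_inj (W.φ_nil s) (W.φ_nil t)
      (congrArg (fun u : W.Gp => ((u : Aˣ) : A)) h))
  · intro g X
    exact Subtype.ext (W.unit_conj _ (W.φ_Ad0 g X))
  · intro g X Y
    refine W.φ_inj ?_
    change W.φ (W.Ad0 g _) = W.φ (W.br (W.Ad0 g X) (W.Ad0 g Y))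
    rw [W.φ_br, W.φ_Ad0, W.φ_Ad0, W.φ_Ad0, W.φ_br]
    simp only [brA_apply, mul_assoc, Units.inv_mul_cancel_left, mul_sub, sub_mul]
  · intro X
    refine LinearMap.ext fun t => W.φ_inj ?_
    change W.φ (W.Ad0 (ex X) t) = _
    rw [W.φ_Ad0]
    change nex (W.φ X) * W.φ t * nex (-W.φ X) = _
    rw [nex_conj (W.φ_nil X), nex_apply_eq_sum (isNilpotent_brA (W.φ_nil X)) (k := B.m + 1)
      (W.nn_top (Nat.le_succ _) (W.br_pow (W.φ_mem X) (W.φ_mem t) _)), LinearMap.sum_apply,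
      map_sum]
    exact sum_congr rfl fun n _ => by rw [LinearMap.smul_apply, map_smul, W.φ_br_pow]
  · refine (injective_iff_map_eq_one j).2 fun p h => ?_
    have h1 : W.ρ p = 1 := congrArg (fun u : W.Gp => ((u : Aˣ) : A)) h
    have h2 : ∀ i ≤ B.m, p ∈ B.Q i := by
      intro i
      induction i with
      | zero => exact fun _ => B.top.ge ((W.ρ_sub p).1 (by rw [h1, sub_self]; exact zero_mem _))
      | succ i ih =>
        intro hi
        have hp := ih (by omega)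
        refine (B.a_ker i hi p hp).1 ?_
        have e1 := W.ℓ_ρ i hi p hp
        have e2 := W.ℓ_ρ i hi 1 (B.Q i).one_mem
        rw [map_one, B.a_one hi] at e2
        rw [h1, e2] at e1
        exact_mod_cast e1.symm
    have := h2 B.m le_rfl
    rwa [B.bot, Subgroup.mem_bot] at this
  · refine fun p => ⟨fun ⟨t, h⟩ => hN p t h.symm, fun h => ?_⟩
    obtain ⟨t, -, e⟩ := W.lg_mem_zero h
    exact ⟨t, ((hj p t).2 (by rw [e, W.nex_lg h])).symm⟩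
  · rintro ⟨_, t, p, rfl⟩
    exact ⟨t, p, rfl⟩
  · refine ⟨W.M.factorial ^ B.m, by positivity, fun n X h => W.φ_lat (hN n X h) ?_⟩
    rw [lg, (hj n X).1 h, nlg_nex (W.φ_nil X)]
  · obtain ⟨C, hC⟩ := law_cocpt hs W.br_tri hm (N.map j)
      fun i => ⟨_, B.e_mem_N i, hb i⟩
    refine ⟨C, fun X => ?_⟩
    obtain ⟨_, ⟨n, hn, rfl⟩, Y, hY, e⟩ := hC X
    exact ⟨n, hn, Y, hY, e⟩

end Swan

theorem hullStmt : HullStmt.{u} := by
  rintro P _ N _ ⟨B⟩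
  obtain ⟨A, _, _, ⟨W⟩⟩ := swanStmt P N B
  exact ⟨W.Gp, inferInstance, W.exists_hull⟩

end Crest.Agent.R182
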