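import Crest.Agent.R182.LAGlue
import Crest.Agent.R182.LAHull
import Crest.Agent.R182.LAChar
import Crest.Agent.R182.LAD

/-! Row 182, block L1: existence of the Lie model. -/

set_option autoImplicit false
set_option linter.dupNamespace false

namespace Crest.Agent.R182

universe u

theorem lieStmt (P : Type u) [Group P] : LieStmt P :=
  lieStmt_of P hullStmt (fun _ _ _ _ _ _ H hP hc he => H.exists_chars hP hc he)
    fun _ _ _ M => M.lie

end Crest.Agent.R182
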