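import Crest.Agent.R182.LAExp

/-! Row 182, block L1 (b2): the Baker-Campbell-Hausdorff series as a finite sum of Lie trees. -/

set_option autoImplicit false
set_option linter.dupNamespace false

namespace Crest.Agent.R182

open Finset

variable {A : Type*} [Ring A] [Algebra ℝ A]

/-- the higher terms of the series -/
noncomputable def bchSum {V : Type*} [AddCommGroup V] [Module ℝ V] (br : V → V → V)
    (l : List (ℝ × LTree × LTree)) (X Y : V) : V :=
  (l.map fun p => p.1 • (LTree.node p.2.1 p.2.2).eval br X Y).sum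

theorem LTree.map_eval {V W : Type*} {br : V → V → V} {br' : W → W → W} (φ : V → W)
    (h : ∀ a b, φ (br a b) = br' (φ a) (φ b)) (X Y : V) (t : LTree) :
    φ (t.eval br X Y) = t.eval br' (φ X) (φ Y) := by
  induction t with
  | x => rfl
  | y => rfl
  | node s t hs ht => rw [LTree.eval, h, hs, ht, LTree.eval]

theorem LTree.eval_mem {V : Type*} {br : V → V → V} {S : Set V}
    (h : ∀ a ∈ S, ∀ b ∈ S, br a b ∈ S) {X Y : V} (hX : X ∈ S) (hY : Y ∈ S) (t : LTree) :
    t.eval br X Y ∈ S := by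
  induction t with
  | x => exact hX
  | y => exact hY
  | node s t hs ht => exact h _ hs _ ht

theorem map_bchSum {V W : Type*} [AddCommGroup V] [Module ℝ V] [AddCommGroup W] [Module ℝ W]
    {br : V → V → V} {br' : W → W → W} (φ : V →ₗ[ℝ] W)
    (h : ∀ a b, φ (br a b) = br' (φ a) (φ b)) (l : List (ℝ × LTree × LTree)) (X Y : V) :
    φ (bchSum br l X Y) = bchSum br' l (φ X) (φ Y) := by
  rw [bchSum, bchSum, map_list_sum, List.map_map]
  congr 2
  funext p
  rw [Function.comp_apply, map_smul, LTree.map_eval φ h]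

/-- the higher terms lie in any subspace containing the brackets of a bracket-closed set -/
theorem bchSum_mem {V : Type*} [AddCommGroup V] [Module ℝ V] {br : V → V → V} {S : Set V}
    {W : Submodule ℝ V} (h : ∀ a ∈ S, ∀ b ∈ S, br a b ∈ S) (h' : ∀ a ∈ S, ∀ b ∈ S, br a b ∈ W)
    (l : List (ℝ × LTree × LTree)) {X Y : V} (hX : X ∈ S) (hY : Y ∈ S) : bchSum br l X Y ∈ W := by
  refine list_sum_mem fun v hv => ?_
  obtain ⟨p, -, rfl⟩ := List.mem_map.1 hv
  exact W.smul_mem _ (h' _ (LTree.eval_mem h hX hY _) _ (LTree.eval_mem h hX hY _))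

section dexp

variable (D : A →ₗ[ℝ] A) (hD : ∀ a b, D (a * b) = D a * b + a * D b)
include hD

theorem h13_D_one : D 1 = 0 := by
  have := hD 1 1
  rw [mul_one, mul_one, one_mul] at this
  exact left_eq_add.1 this

theorem h13_D_pow (Z : A) (n : ℕ) : D (Z ^ (n + 1)) =
    ∑ p ∈ antidiagonal n, ((n + 1).choose (p.1 + 1) : ℝ) • ((brA Z ^ p.1) (D Z) * Z ^ p.2) := by
  induction n with
  | zero => simp
  | succ n ih =>
    have e : ∀ k l : ℕ, Z * ((brA Z ^ k) (D Z) * Z ^ l) =
        (brA Z ^ (k + 1)) (D Z) * Z ^ l + (brA Z ^ k) (D Z) * Z ^ (l + 1) := fun k l => by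
      rw [pow_succ' (brA Z), Module.End.mul_apply, brA_apply, pow_succ' Z l]
      noncomm_ring
    rw [pow_succ' Z (n + 1), hD, ih, mul_sum]
    simp only [mul_smul_comm, e, smul_add, sum_add_distrib]
    have h1 : ∑ p ∈ antidiagonal (n + 1), ((n + 1 + 1).choose (p.1 + 1) : ℝ) •
        ((brA Z ^ p.1) (D Z) * Z ^ p.2) =
        ∑ p ∈ antidiagonal (n + 1), ((n + 1).choose p.1 : ℝ) • ((brA Z ^ p.1) (D Z) * Z ^ p.2) +
        ∑ p ∈ antidiagonal (n + 1), ((n + 1).choose (p.1 + 1) : ℝ) •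
          ((brA Z ^ p.1) (D Z) * Z ^ p.2) := by
      rw [← sum_add_distrib]
      refine sum_congr rfl fun p _ => ?_
      rw [Nat.choose_succ_succ, Nat.cast_add, add_smul]
    rw [h1, Nat.sum_antidiagonal_succ, Nat.sum_antidiagonal_succ']
    simp [add_assoc]

theorem h13_D_nex {Z : A} {K M : ℕ} (hK : brA Z ^ K = 0) (hM : Z ^ M = 0) :
    D (nex Z) = (∑ k ∈ range K, (((k + 1).factorial : ℝ)⁻¹) • (brA Z ^ k) (D Z)) * nex Z := by
  have hM' : Z ^ (K + M + 1) = 0 := pow_eq_zero_of_le (by omega) hM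
  let a : ℕ × ℕ → A := fun p => (((p.1 + 1).factorial : ℝ)⁻¹ * (p.2.factorial : ℝ)⁻¹) •
    ((brA Z ^ p.1) (D Z) * Z ^ p.2)
  have h1 : D (nex Z) = ∑ n ∈ range (K + M), ∑ p ∈ antidiagonal n, a p := by
    rw [nex_eq_sum hM', map_sum, sum_range_succ', pow_zero, map_smul, h13_D_one D hD, smul_zero,
      add_zero]
    refine sum_congr rfl fun n _ => ?_
    rw [map_smul, h13_D_pow D hD, smul_sum]
    refine sum_congr rfl fun p hp => ?_
    rw [smul_smul]
    congr 1
    rw [← mem_antidiagonal.1 hp, show p.1 + p.2 + 1 = p.1 + 1 + p.2 by ring,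
      Nat.cast_add_choose ℝ, show p.1 + 1 + p.2 = p.1 + 1 + p.2 from rfl]
    have : ((p.1 + 1 + p.2).factorial : ℝ) ≠ 0 := by positivity
    field_simp
  have h2 : (∑ k ∈ range K, (((k + 1).factorial : ℝ)⁻¹) • (brA Z ^ k) (D Z)) * nex Z =
      ∑ p ∈ range K ×ˢ range M, a p := by
    rw [nex_eq_sum hM, sum_mul_sum, sum_product]
    refine sum_congr rfl fun k _ => sum_congr rfl fun l _ => ?_
    simp only [a, smul_mul_assoc, mul_smul_comm, smul_smul, mul_comm]
  rw [h1, h2, ← sum_fiberwise_of_maps_to (s := range K ×ˢ range M) (t := range (K + M))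
    (g := fun p => p.1 + p.2) fun p hp => by
      simp only [mem_product, mem_range] at hp ⊢; omega]
  refine sum_congr rfl fun n _ => (sum_subset (fun p hp => ?_) fun p hp hp' => ?_).symm
  · exact mem_antidiagonal.2 (mem_filter.1 hp).2
  · have h3 : K ≤ p.1 ∨ M ≤ p.2 := by
      by_contra h
      exact hp' (mem_filter.2 ⟨by simp only [mem_product, mem_range]; omega, mem_antidiagonal.1 hp⟩)
    rcases h3 with h | h
    · simp only [a, pow_eq_zero_of_le h hK, LinearMap.zero_apply, zero_mul, smul_zero]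
    · simp only [a, pow_eq_zero_of_le h hM, mul_zero, smul_zero]

end dexp

open Polynomial in
/-- polynomials with coefficients in a subspace -/
def h13Co (S : Submodule ℝ A) : Submodule ℝ A[X] where
  carrier := {p | ∀ i, p.coeff i ∈ S}
  add_mem' hp hq i := by rw [coeff_add]; exact S.add_mem (hp i) (hq i)
  zero_mem' i := by rw [coeff_zero]; exact S.zero_mem
  smul_mem' c p hp i := by rw [coeff_smul]; exact S.smul_mem c (hp i)

section co

open Polynomial

theorem h13Co_mul {S T U : Submodule ℝ A} (h : ∀ a ∈ S, ∀ b ∈ T, a * b ∈ U) {p q : A[X]}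
    (hp : p ∈ h13Co S) (hq : q ∈ h13Co T) : p * q ∈ h13Co U := fun i => by
  rw [coeff_mul]
  exact U.sum_mem fun x _ => h _ (hp _) _ (hq _)

theorem h13Co_br {S T U : Submodule ℝ A} (h : ∀ a ∈ S, ∀ b ∈ T, brA a b ∈ U) {p q : A[X]}
    (hp : p ∈ h13Co S) (hq : q ∈ h13Co T) : brA p q ∈ h13Co U := fun i => by
  rw [brA_apply, coeff_sub, coeff_mul, coeff_mul, ← Nat.sum_antidiagonal_swap (f := fun x =>
    q.coeff x.1 * p.coeff x.2), ← sum_sub_distrib]
  exact U.sum_mem fun x _ => h _ (hp _) _ (hq _)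

theorem h13Co_C {S : Submodule ℝ A} {a : A} (h : a ∈ S) : C a ∈ h13Co S := fun i => by
  rw [coeff_C]
  split_ifs
  · exact h
  · exact S.zero_mem

theorem h13Co_CX {S : Submodule ℝ A} {a : A} (h : a ∈ S) : C a * X ∈ h13Co S := fun i => by
  rw [coeff_C_mul_X]
  split_ifs
  · exact h
  · exact S.zero_mem

theorem h13Co_der {S : Submodule ℝ A} {p : A[X]} (hp : p ∈ h13Co S) : derivative p ∈ h13Co S :=
  fun i => by
    rw [coeff_derivative, ← Nat.cast_succ, ← nsmul_eq_mul']
    exact nsmul_mem (hp _) _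

theorem h13Co_int {S : Submodule ℝ A} {p : A[X]} (h0 : p.coeff 0 ∈ S)
    (hp : derivative p ∈ h13Co S) : p ∈ h13Co S := fun i => by
  cases i with
  | zero => exact h0
  | succ i =>
    have := S.smul_mem ((i + 1 : ℕ) : ℝ)⁻¹ (hp i)
    rwa [coeff_derivative, ← Nat.cast_succ, ← nsmul_eq_mul', ← Nat.cast_smul_eq_nsmul ℝ, smul_smul,
      inv_mul_cancel₀ (by positivity), one_smul] at this

theorem h13Co_nil {J : Submodule ℝ A} {M : ℕ} (h : NilI J M) : NilI (h13Co J) (M + 1) := by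
  refine ⟨fun x hx y hy => h13Co_mul h.mul hx hy, ?_⟩
  have key : ∀ n, h13Co J ^ (n + 1) ≤ h13Co (J ^ (n + 1)) := fun n => by
    induction n with
    | zero => rw [zero_add, pow_one, pow_one]
    | succ n ih =>
      rw [pow_succ _ (n + 1), pow_succ J (n + 1)]
      exact Submodule.mul_le.2 fun p hp q hq =>
        h13Co_mul (fun a ha b hb => Submodule.mul_mem_mul ha hb) (ih hp) hq
  refine eq_bot_iff.2 fun p hp => (Submodule.mem_bot ℝ).2 (Polynomial.ext fun i => ?_)
  have := key M hp i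
  rwa [pow_succ, h.nil, Submodule.bot_mul, Submodule.mem_bot] at this

/-- the derivative as a real linear map -/
noncomputable def h13D : A[X] →ₗ[ℝ] A[X] where
  toFun := derivative
  map_add' _ _ := derivative_add
  map_smul' c p := derivative_smul c p

theorem h13_bch {J : Submodule ℝ A} {M : ℕ} (h : NilI J M) {L L2 : Submodule ℝ A} (hL : L ≤ J)
    (h2 : L2 ≤ L) (hbr : ∀ a ∈ L, ∀ b ∈ L, brA a b ∈ L2) {x y : A} (hx : x ∈ L) (hy : y ∈ L) :
    nlg (nex x * nex y) - (x + y) ∈ L2 := by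
  have hJ := h13Co_nil h
  have hD : ∀ a b : A[X], h13D (a * b) = h13D a * b + a * h13D b := fun a b => derivative_mul
  have hX : C x * X ∈ h13Co J := h13Co_CX (hL hx)
  have hY : C y ∈ h13Co J := h13Co_C (hL hy)
  have hU : nex (C x * X) * nex (C y) - 1 ∈ h13Co J :=
    hJ.mul_sub_one_mem (hJ.nex_sub_one_mem hX) (hJ.nex_sub_one_mem hY)
  have hDX : h13D (nex (C x * X)) = C x * nex (C x * X) := by
    obtain ⟨K, hK⟩ := isNilpotent_brA (hJ.isNilpotent hX)
    have e : h13D (C x * X) = C x := derivative_C_mul_X x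
    rw [h13_D_nex h13D hD (pow_eq_zero_of_le (Nat.le_succ K) hK) (hJ.pow_eq_zero hX), e,
      sum_range_succ', sum_eq_zero fun k _ => ?_]
    · simp
    · rw [pow_succ, Module.End.mul_apply, brA_apply, mul_assoc, X_mul_C, sub_self, map_zero,
        smul_zero]
  have hDY : h13D (nex (C y : A[X])) = 0 := by
    obtain ⟨K, hK⟩ := isNilpotent_brA (hJ.isNilpotent hY)
    have e : h13D (C y : A[X]) = 0 := derivative_C
    rw [h13_D_nex h13D hD hK (hJ.pow_eq_zero hY), e]
    simp
  obtain ⟨Z, hZ⟩ : ∃ Z, Z = nlg (nex (C x * X) * nex (C y)) := ⟨_, rfl⟩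
  have hZJ : Z ∈ h13Co J := hZ ▸ hJ.nlg_mem hU
  have hZU : nex Z = nex (C x * X) * nex (C y) := hZ ▸ nex_nlg (hJ.isNilpotent hU)
  obtain ⟨K, hK⟩ := isNilpotent_brA (hJ.isNilpotent hZJ)
  have hode : derivative Z - C x =
      -∑ k ∈ range K, (((k + 1 + 1).factorial : ℝ)⁻¹) • (brA Z ^ (k + 1)) (derivative Z) := by
    have h1 := h13_D_nex h13D hD (pow_eq_zero_of_le (Nat.le_succ K) hK) (hJ.pow_eq_zero hZJ)
    have h3 : h13D (nex Z) = C x * nex Z := by rw [hZU, hD, hDX, hDY, mul_zero, add_zero, mul_assoc]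
    have h4 := congrArg (· * nex (-Z)) (h3.symm.trans h1)
    simp only [mul_assoc, nex_mul_neg (hJ.isNilpotent hZJ), mul_one] at h4
    rw [h4, sum_range_succ']
    simp [h13D]
  have hev : ∀ r : A, (∀ a, Commute a r) → eval r Z = nlg (nex (x * r) * nex y) := fun r hr => by
    let φ : A[X] →ₐ[ℝ] A := eval₂AlgHom (AlgHom.id ℝ A) r hr
    have hφ : ∀ p, φ p = eval r p := fun _ => rfl
    rw [← hφ, hZ, map_nlg φ (hJ.isNilpotent hU), map_mul, map_nex φ (hJ.isNilpotent hX),
      map_nex φ (hJ.isNilpotent hY), map_mul, hφ, hφ, hφ, eval_C, eval_C, eval_X]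
  have h0 : (Z - (C x * X + C y)).coeff 0 = 0 := by
    rw [coeff_sub, coeff_zero_eq_eval_zero, hev 0 fun a => Commute.zero_right a, mul_zero, nex_zero,
      one_mul, nlg_nex (h.isNilpotent (hL hy))]
    simp
  have hpow : ∀ n, J ^ (n + 2) ≤ J ^ (n + 1) := fun n => by
    induction n with
    | zero => rw [pow_two, zero_add, pow_one]; exact Submodule.mul_le.2 h.mul
    | succ n ih => rw [pow_succ J (n + 2), pow_succ J (n + 1)]; exact mul_le_mul_left ih J
  have hpow1 : ∀ n, J ^ (n + 1) ≤ J := fun n => by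
    induction n with
    | zero => rw [zero_add, pow_one]
    | succ n ih => exact (hpow n).trans ih
  have key : ∀ n, Z - (C x * X + C y) ∈ h13Co (L2 ⊔ J ^ (n + 1)) := fun n => by
    induction n with
    | zero =>
      intro i
      refine Submodule.mem_sup_right ?_
      rw [zero_add, pow_one]
      exact Submodule.sub_mem _ hZJ (Submodule.add_mem _ hX hY) i
    | succ n ih =>
      have hle : L2 ⊔ J ^ (n + 2) ≤ L ⊔ J ^ (n + 1) := sup_le_sup h2 (hpow n)
      have hS : Z ∈ h13Co (L ⊔ J ^ (n + 1)) := by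
        have := Submodule.add_mem (h13Co (L ⊔ J ^ (n + 1)))
          (fun i => sup_le_sup_right h2 _ (ih i)) (Submodule.add_mem _
            (h13Co_CX (Submodule.mem_sup_left hx)) (h13Co_C (Submodule.mem_sup_left hy)))
        rwa [sub_add_cancel] at this
      have hb1 : ∀ a ∈ J, ∀ b ∈ J ^ (n + 1), brA a b ∈ J ^ (n + 2) := fun a ha b hb =>
        Submodule.sub_mem _ (by rw [pow_succ' J (n + 1)]; exact Submodule.mul_mem_mul ha hb)
          (by rw [pow_succ J (n + 1)]; exact Submodule.mul_mem_mul hb ha)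
      have hb : ∀ a ∈ L ⊔ J ^ (n + 1), ∀ b ∈ L ⊔ J ^ (n + 1), brA a b ∈ L2 ⊔ J ^ (n + 2) := by
        intro a ha b hb
        obtain ⟨a1, ha1, a2, ha2, rfl⟩ := Submodule.mem_sup.1 ha
        obtain ⟨b1, hb1', b2, hb2, rfl⟩ := Submodule.mem_sup.1 hb
        have e : brA (a1 + a2) (b1 + b2) = brA a1 b1 + (brA (a1 + a2) b2 - brA b1 a2) := by
          simp only [brA_apply]
          noncomm_ring
        rw [e]
        exact Submodule.add_mem_sup (hbr _ ha1 _ hb1') (Submodule.sub_mem _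
          (hb1 _ (J.add_mem (hL ha1) (hpow1 n ha2)) _ hb2) (hb1 _ (hL hb1') _ ha2))
      have hk : ∀ k, (brA Z ^ (k + 1)) (derivative Z) ∈ h13Co (L2 ⊔ J ^ (n + 2)) := fun k => by
        induction k with
        | zero => rw [zero_add, pow_one]; exact h13Co_br hb hS (h13Co_der hS)
        | succ k ih =>
          rw [pow_succ' (brA Z), Module.End.mul_apply]
          exact h13Co_br hb hS fun i => hle (ih i)
      refine h13Co_int (h0 ▸ Submodule.zero_mem _) ?_
      rw [derivative_sub, derivative_add, derivative_C_mul_X, derivative_C, add_zero, hode]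
      exact Submodule.neg_mem _ (Submodule.sum_mem _ fun k _ => Submodule.smul_mem _ _ (hk k))
  have h1 := key M
  rw [pow_succ, h.nil, Submodule.bot_mul, sup_bot_eq] at h1
  have h3 : eval 1 (Z - (C x * X + C y)) ∈ L2 := by
    rw [eval_eq_sum]
    exact L2.sum_mem fun i _ => by simpa using h1 i
  rwa [eval_sub, hev 1 fun a => Commute.one_right a, mul_one, eval_add, eval_C, eval_mul_X, eval_C,
    mul_one] at h3

end co

/-- **Baker-Campbell-Hausdorff** -/
theorem NilI.exists_bch {J : Submodule ℝ A} {M : ℕ} (h : NilI J M) :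
    ∃ l : List (ℝ × LTree × LTree), ∀ X ∈ J, ∀ Y ∈ J,
      nex X * nex Y = nex (X + Y + bchSum (fun a b : A => brA a b) l X Y) := by
  let R := J × J → A
  let x : R := fun q => q.1
  let y : R := fun q => q.2
  let ev : LTree → R := fun t => t.eval (fun a b : R => brA a b) x y
  let J' : Submodule ℝ R := Submodule.pi Set.univ fun _ => J
  have hJ' : NilI J' (M + 1) := by
    refine ⟨fun a ha b hb q hq => h.mul _ (ha q hq) _ (hb q hq), ?_⟩
    have key : ∀ n, J' ^ (n + 1) ≤ Submodule.pi Set.univ fun _ => J ^ (n + 1) := fun n => by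
      induction n with
      | zero => rw [zero_add, pow_one, pow_one]
      | succ n ih =>
        rw [pow_succ _ (n + 1), pow_succ J (n + 1)]
        exact Submodule.mul_le.2 fun a ha b hb q hq =>
          Submodule.mul_mem_mul (ih ha q hq) (hb q hq)
    refine eq_bot_iff.2 fun a ha => (Submodule.mem_bot ℝ).2 (funext fun q => ?_)
    have : a q ∈ J ^ (M + 1) := key M ha q trivial
    rwa [pow_succ, h.nil, Submodule.bot_mul, Submodule.mem_bot] at this
  have hx : x ∈ J' := fun q _ => q.1.2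
  have hy : y ∈ J' := fun q _ => q.2.2
  let L2 := Submodule.span ℝ (Set.range fun p : LTree × LTree => ev (.node p.1 p.2))
  have h1 := h13_bch hJ' (L := Submodule.span ℝ (Set.range ev)) (L2 := L2)
    (Submodule.span_le.2 (by
      rintro _ ⟨t, rfl⟩
      exact LTree.eval_mem (S := (J' : Set R)) (fun a ha b hb => hJ'.brA_mem ha hb) hx hy t))
    (Submodule.span_mono (by rintro _ ⟨p, rfl⟩; exact ⟨_, rfl⟩))
    (fun a ha b hb => by
      have := Submodule.apply_mem_map₂ (brA (A := R)) ha hb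
      rw [Submodule.map₂_span_span] at this
      refine Submodule.span_mono ?_ this
      rintro _ ⟨_, ⟨s, rfl⟩, _, ⟨t, rfl⟩, rfl⟩
      exact ⟨(s, t), rfl⟩)
    (x := x) (y := y) (Submodule.subset_span ⟨.x, rfl⟩) (Submodule.subset_span ⟨.y, rfl⟩)
  have h2 : ∀ v ∈ L2, ∃ l, v = bchSum (fun a b : R => brA a b) l x y := fun v hv => by
    induction hv using Submodule.span_induction with
    | mem v hv =>
      obtain ⟨p, rfl⟩ := hv
      exact ⟨[(1, p)], by simp [bchSum, ev]⟩
    | zero => exact ⟨[], rfl⟩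
    | add a b _ _ ha hb =>
      obtain ⟨l, rfl⟩ := ha
      obtain ⟨l', rfl⟩ := hb
      exact ⟨l ++ l', by simp [bchSum]⟩
    | smul c a _ ha =>
      obtain ⟨l, rfl⟩ := ha
      refine ⟨l.map fun p => (c * p.1, p.2), ?_⟩
      rw [bchSum, bchSum, List.smul_sum, List.map_map, List.map_map]
      congr 2
      funext p
      simp [smul_smul]
  obtain ⟨l, hl⟩ := h2 _ h1
  refine ⟨l, fun X hX Y hY => ?_⟩
  have hU := hJ'.isNilpotent (hJ'.mul_sub_one_mem (hJ'.nex_sub_one_mem hx) (hJ'.nex_sub_one_mem hy))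
  let φ : R →ₐ[ℝ] A := Pi.evalAlgHom ℝ (fun _ => A) (⟨X, hX⟩, ⟨Y, hY⟩)
  have h3 := congrArg φ (sub_eq_iff_eq_add'.1 hl)
  rw [map_nlg φ hU, map_mul, map_nex φ (hJ'.isNilpotent hx), map_nex φ (hJ'.isNilpotent hy),
    map_add, map_add] at h3
  have h4 : φ (bchSum (fun a b : R => brA a b) l x y) = _ := map_bchSum (br := fun a b : R => brA a b) (br' := fun a b : A => brA a b)
    φ.toLinearMap (fun _ _ => rfl) l x y
  rw [h4] at h3
  exact (nex_nlg (h.isNilpotent (h.mul_sub_one_mem (h.nex_sub_one_mem hX)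
    (h.nex_sub_one_mem hY)))).symm.trans (congrArg nex h3)

/-- the exponential image of a Lie subalgebra of `J` is closed under products -/
theorem NilI.nlg_mul_mem {J : Submodule ℝ A} {M : ℕ} (h : NilI J M) {L : Submodule ℝ A}
    (hL : L ≤ J) (hbr : ∀ a ∈ L, ∀ b ∈ L, brA a b ∈ L) {X Y : A} (hX : X ∈ L) (hY : Y ∈ L) :
    nlg (nex X * nex Y) ∈ L := by
  have := L.add_mem (h13_bch h hL le_rfl hbr hX hY) (L.add_mem hX hY)
  rwa [sub_add_cancel] at this

/-- modulo a subspace `W` containing all brackets, the logarithm is additive -/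
theorem NilI.nlg_mul_sub_mem {J : Submodule ℝ A} {M : ℕ} (h : NilI J M) {L W : Submodule ℝ A}
    (hL : L ≤ J) (hbr : ∀ a ∈ L, ∀ b ∈ L, brA a b ∈ L) (hW : ∀ a ∈ L, ∀ b ∈ L, brA a b ∈ W)
    {X Y : A} (hX : X ∈ L) (hY : Y ∈ L) : nlg (nex X * nex Y) - (X + Y) ∈ W :=
  (h13_bch h hL (L2 := L ⊓ W) inf_le_left (fun a ha b hb => ⟨hbr a ha b hb, hW a ha b hb⟩) hX hY).2

end Crest.Agent.R182
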