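import Crest.Agent.R182.LAHull0
import Crest.Agent.R182.GBPoly

/-! Row 182, block L1 (c): complexification, characters and heights of the hull (interface). -/

set_option autoImplicit false
set_option linter.dupNamespace false

namespace Crest.Agent.R182

open Module

/-- real vectors as complex vectors -/
def io {d : ℕ} (v : Fin d → ℝ) : Fin d → ℂ := fun i => (v i : ℂ)

/-- complexification of an endomorphism -/
noncomputable def cx {d : ℕ} : End ℝ (Fin d → ℝ) →+* End ℂ (Fin d → ℂ) :=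
  ((Matrix.toLinAlgEquiv' : Matrix (Fin d) (Fin d) ℂ ≃ₐ[ℂ] _).toAlgHom.toRingHom.comp
    Complex.ofRealHom.mapMatrix).comp
      (LinearMap.toMatrixAlgEquiv' : _ ≃ₐ[ℝ] Matrix (Fin d) (Fin d) ℝ).toAlgHom.toRingHom

section cx

variable {d : ℕ}

theorem cx_eq (T : End ℝ (Fin d → ℝ)) :
    cx T = Matrix.toLin' ((LinearMap.toMatrix' T).map Complex.ofRealHom) := rfl

theorem cx_apply (T : End ℝ (Fin d → ℝ)) (v : Fin d → ℂ) (i : Fin d) :
    cx T v i = ∑ j, (T (Pi.single j 1) i : ℂ) * v j := by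
  rw [cx_eq, Matrix.toLin'_apply]
  simp [Matrix.mulVec, dotProduct, LinearMap.toMatrix'_apply]

theorem io_add (v w : Fin d → ℝ) : io (v + w) = io v + io w := by
  ext i; simp [io]

theorem io_sub (v w : Fin d → ℝ) : io (v - w) = io v - io w := by
  ext i; simp [io]

theorem io_neg (v : Fin d → ℝ) : io (-v) = -io v := by
  ext i; simp [io]

theorem io_zero : io (0 : Fin d → ℝ) = 0 := by
  ext i; simp [io]

theorem io_smul (r : ℝ) (v : Fin d → ℝ) : io (r • v) = (r : ℂ) • io v := by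
  ext i; simp [io]

theorem io_single (j : Fin d) : io (Pi.single j 1 : Fin d → ℝ) = Pi.single j 1 := by
  ext i
  by_cases h : i = j
  · subst h; simp [io]
  · simp [io, h]

theorem io_inj : Function.Injective (io : (Fin d → ℝ) → Fin d → ℂ) := fun v w h =>
  funext fun i => Complex.ofReal_injective (congrFun h i)

theorem cx_io (T : End ℝ (Fin d → ℝ)) (v : Fin d → ℝ) : cx T (io v) = io (T v) := by
  ext i
  rw [cx_apply]
  have h : T v = ∑ j, v j • T (Pi.single j 1) := by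
    conv_lhs => rw [pi_eq_sum_univ' v, map_sum]
    simp only [map_smul]
  rw [h]
  simp [io, mul_comm]

theorem io_ext {T T' : End ℂ (Fin d → ℂ)} (h : ∀ v, T (io v) = T' (io v)) : T = T' :=
  (Pi.basisFun ℂ (Fin d)).ext fun j => by rw [Pi.basisFun_apply, ← io_single, h]

theorem cx_smul (r : ℝ) (T : End ℝ (Fin d → ℝ)) : cx (r • T) = (r : ℂ) • cx T :=
  io_ext fun v => by rw [cx_io, LinearMap.smul_apply, LinearMap.smul_apply, io_smul, cx_io]

theorem cx_inj : Function.Injective (cx : End ℝ (Fin d → ℝ) → End ℂ (Fin d → ℂ)) := fun T T' h =>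
  LinearMap.ext fun v => io_inj (by rw [← cx_io, ← cx_io, h])

/-- the span of the first `n` basis vectors -/
def low (b : Basis (Fin d) ℂ (Fin d → ℂ)) (n : ℕ) : Submodule ℂ (Fin d → ℂ) :=
  Submodule.span ℂ (b '' {i | (i : ℕ) < n})

theorem mem_low {b : Basis (Fin d) ℂ (Fin d → ℂ)} {n : ℕ} {v : Fin d → ℂ} :
    v ∈ low b n ↔ ∀ i : Fin d, n ≤ i → b.repr v i = 0 := by
  rw [low, Basis.mem_span_image]
  constructor
  · intro h i hi
    by_contra h0
    have := h (Finsupp.mem_support_iff.2 h0)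
    simp only [Set.mem_setOf_eq] at this
    omega
  · intro h i hi
    by_contra h0
    exact Finsupp.mem_support_iff.1 hi (h i (not_lt.1 h0))

theorem low_zero (b : Basis (Fin d) ℂ (Fin d → ℂ)) : low b 0 = ⊥ := by
  simp [low]

theorem low_top (b : Basis (Fin d) ℂ (Fin d → ℂ)) {n : ℕ} (h : d ≤ n) : low b n = ⊤ :=
  eq_top_iff.2 fun _ _ => mem_low.2 fun i hi => absurd i.2 (by omega)

theorem low_mono (b : Basis (Fin d) ℂ (Fin d → ℂ)) {m n : ℕ} (h : m ≤ n) : low b m ≤ low b n :=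
  fun _ hv => mem_low.2 fun i hi => mem_low.1 hv i (h.trans hi)

theorem b_mem_low (b : Basis (Fin d) ℂ (Fin d → ℂ)) {i : Fin d} {n : ℕ} (h : (i : ℕ) < n) :
    b i ∈ low b n :=
  Submodule.subset_span ⟨i, h, rfl⟩

/-- a strictly triangular endomorphism lowers the flag -/
theorem low_succ_of {b : Basis (Fin d) ℂ (Fin d → ℂ)} {T : End ℂ (Fin d → ℂ)}
    (h : ∀ i : Fin d, T (b i) ∈ low b i) (n : ℕ) {v : Fin d → ℂ} (hv : v ∈ low b (n + 1)) :
    T v ∈ low b n := by
  have : low b (n + 1) ≤ (low b n).comap T := by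
    refine Submodule.span_le.2 ?_
    rintro _ ⟨i, hi, rfl⟩
    exact low_mono b (Nat.lt_succ_iff.1 hi) (h i)
  exact this hv

/-- a triangular endomorphism preserves the flag -/
theorem low_of {b : Basis (Fin d) ℂ (Fin d → ℂ)} {T : End ℂ (Fin d → ℂ)} {c : Fin d → ℂ}
    (h : ∀ i : Fin d, T (b i) - c i • b i ∈ low b i) (n : ℕ) {v : Fin d → ℂ} (hv : v ∈ low b n) :
    T v ∈ low b n := by
  have : low b n ≤ (low b n).comap T := by
    refine Submodule.span_le.2 ?_
    rintro _ ⟨i, hi, rfl⟩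
    have := (low b n).add_mem (low_mono b (le_of_lt hi) (h i))
      ((low b n).smul_mem (c i) (b_mem_low b hi))
    rwa [sub_add_cancel] at this
  exact this hv

end cx

/-- Block (c): a triangular basis of `𝔫_ℂ`, the characters, and the heights on a finite-index
subgroup `P₀`. -/
structure Chars {P : Type*} [Group P] {N : Subgroup P} {G : Type*} [Group G] (H : Hull N G) where
  /-- the good finite-index subgroup -/
  P₀ : Subgroup P
  fi : P₀.FiniteIndex
  le : N ≤ P₀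
  /-- rank -/
  k : ℕ
  /-- heights -/
  π : G → Fin k → ℝ
  π_hom : AHom π
  π_ex : ∀ X, π (H.ex X) = 0
  π_int : ∀ p ∈ P₀, ∀ l, ∃ z : ℤ, π (H.j p) l = z
  π_surj : ∀ l, ∃ p ∈ P₀, π (H.j p) = Pi.single l 1
  π_ker : ∀ p ∈ P₀, π (H.j p) = 0 → p ∈ N
  /-- characters -/
  χ : Fin H.d → G →* ℂˣ
  χ_ex : ∀ i X, χ i (H.ex X) = 1
  /-- weights -/
  wt : Fin H.d → (Fin k → ℝ) →ₗ[ℝ] ℝ
  wt_π : ∀ i g, wt i (π g) = Real.log ‖(χ i g : ℂ)‖
  span : ∀ v, (∀ i, wt i v = 0) → v = 0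
  unimod : ∀ v, ∑ i, wt i v = 0
  /-- the triangular basis -/
  b : Basis (Fin H.d) ℂ (Fin H.d → ℂ)
  b_Ad : ∀ g (i : Fin H.d), cx (H.Ad g) (b i) - (χ i g : ℂ) • b i ∈ low b i
  b_br : ∀ X (i : Fin H.d), cx (H.br X) (b i) ∈ low b i
  /-- the separating element -/
  a₀ : P
  a₀_mem : a₀ ∈ P₀
  sep : ∀ i i', χ i (H.j a₀) = χ i' (H.j a₀) → ∀ p ∈ P₀, χ i (H.j p) = χ i' (H.j p)
  sep_one : ∀ i, χ i (H.j a₀) = 1 → ∀ p ∈ P₀, χ i (H.j p) = 1
  sep_wt : ∀ i i', wt i (π (H.j a₀)) = wt i' (π (H.j a₀)) → wt i = wt i'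
  sep_wt_zero : ∀ i, wt i (π (H.j a₀)) = 0 → wt i = 0

end Crest.Agent.R182
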