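import Crest.Agent.R182.LAChar0

/-! Row 182, block L1 (c): the triangular basis. -/

set_option autoImplicit false
set_option linter.dupNamespace false

namespace Crest.Agent.R182

open Module

variable {P G : Type*} [Group P] [Group G] {N : Subgroup P}

theorem helper52_eig_mod {V : Type*} [AddCommGroup V] [Module ℂ V] [FiniteDimensional ℂ V]
    (T : End ℂ V) {U W : Submodule ℂ V} (hUW : U < W) (hU : ∀ u ∈ U, T u ∈ U)
    (hW : ∀ w ∈ W, T w ∈ W) : ∃ c : ℂ, ∃ w ∈ W, w ∉ U ∧ T w - c • w ∈ U := by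
  obtain ⟨w₀, hw₀, hw₀U⟩ := SetLike.exists_of_lt hUW
  have : Nontrivial (W ⧸ U.comap W.subtype) := by
    refine ⟨⟨Submodule.Quotient.mk ⟨w₀, hw₀⟩, 0, fun h => hw₀U ?_⟩⟩
    exact (Submodule.Quotient.mk_eq_zero (U.comap W.subtype)).1 h
  obtain ⟨c, hc⟩ := Module.End.exists_eigenvalue
    ((U.comap W.subtype).mapQ (U.comap W.subtype) (T.restrict hW) fun x hx => hU _ hx)
  obtain ⟨q, hq⟩ := hc.exists_hasEigenvector
  obtain ⟨x, rfl⟩ := Submodule.Quotient.mk_surjective _ q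
  refine ⟨c, x, x.2, fun h => hq.2 ((Submodule.Quotient.mk_eq_zero _).2 h), ?_⟩
  have h1 := hq.apply_eq_smul
  rw [Submodule.mapQ_apply, ← Submodule.Quotient.mk_smul, Submodule.Quotient.eq] at h1
  exact h1

/-- operators commuting modulo `U` have a common eigenvector modulo `U`.  Take an invariant `W'` with
`U < W' ≤ W` of minimal rank; `T i` has an eigenvalue `c` on `W' / U`
(`Module.End.exists_eigenvalue` on the quotient of `W'` by `U.comap W'.subtype`, or see `lk_rel` in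
`SELK`); `W' ⊓ {w | T i w - c • w ∈ U}` is invariant and `> U`, so it is `W'`. -/
theorem exists_eig_mod {V ι : Type*} [AddCommGroup V] [Module ℂ V] [FiniteDimensional ℂ V]
    (T : ι → End ℂ V) {U W : Submodule ℂ V} (hUW : U < W) (hU : ∀ i, ∀ u ∈ U, T i u ∈ U)
    (hW : ∀ i, ∀ w ∈ W, T i w ∈ W) (hc : ∀ i j, ∀ w ∈ W, T i (T j w) - T j (T i w) ∈ U) :
    ∃ w ∈ W, w ∉ U ∧ ∀ i, ∃ c : ℂ, T i w - c • w ∈ U := by
  obtain ⟨W', ⟨h1, h2, h3⟩, hmin⟩ := (wellFounded_lt (α := Submodule ℂ V)).has_min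
    {W' | U < W' ∧ W' ≤ W ∧ ∀ i, ∀ w ∈ W', T i w ∈ W'} ⟨W, hUW, le_rfl, hW⟩
  obtain ⟨w, hw, hwU⟩ := SetLike.exists_of_lt h1
  refine ⟨w, h2 hw, hwU, fun i => ?_⟩
  obtain ⟨c, v, hv, hvU, hcv⟩ := helper52_eig_mod (T i) h1 (hU i) (h3 i)
  refine ⟨c, ?_⟩
  have hle : W' ⊓ U.comap (T i - c • (1 : End ℂ V)) ≤ W' := inf_le_left
  have hmem : ∀ x, x ∈ W' ⊓ U.comap (T i - c • (1 : End ℂ V)) ↔ x ∈ W' ∧ T i x - c • x ∈ U :=
    fun x => Iff.rfl
  have heq : W' ⊓ U.comap (T i - c • (1 : End ℂ V)) = W' := by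
    by_contra hne
    refine hmin _ ⟨?_, hle.trans h2, fun j x hx => ?_⟩ (lt_of_le_of_ne hle hne)
    · refine SetLike.lt_iff_le_and_exists.2 ⟨fun u hu => (hmem u).2 ⟨h1.le hu, ?_⟩, v,
        (hmem v).2 ⟨hv, hcv⟩, hvU⟩
      exact U.sub_mem (hU i u hu) (U.smul_mem c hu)
    · obtain ⟨hx1, hx2⟩ := (hmem x).1 hx
      refine (hmem _).2 ⟨h3 j x hx1, ?_⟩
      have := U.add_mem (hc i j x (h2 hx1)) (hU j _ hx2)
      rwa [map_sub, map_smul, sub_add_sub_cancel] at this
  rw [← heq] at hw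
  exact ((hmem w).1 hw).2

/-- induction on `n ≤ d`: a linearly independent `w : Fin n → _` (`Fin.snoc`) with
`Inv (span (range w))` and `R (span (w '' {i | i < j})) (w j)`; for `n = d` use
`basisOfLinearIndependentOfCardEqFinrank'`. -/
theorem exists_flag {d : ℕ} (Inv : Submodule ℂ (Fin d → ℂ) → Prop)
    (R : Submodule ℂ (Fin d → ℂ) → (Fin d → ℂ) → Prop) (h0 : Inv ⊥)
    (hs : ∀ U, Inv U → U ≠ ⊤ → ∃ w, w ∉ U ∧ R U w ∧ Inv (U ⊔ Submodule.span ℂ {w})) :
    ∃ b : Basis (Fin d) ℂ (Fin d → ℂ), ∀ i : Fin d, R (low b i) (b i) := by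
  have key : ∀ n ≤ d, ∃ w : ℕ → Fin d → ℂ,
      finrank ℂ (Submodule.span ℂ (w '' Set.Iio n)) = n ∧ Inv (Submodule.span ℂ (w '' Set.Iio n)) ∧
        ∀ j < n, R (Submodule.span ℂ (w '' Set.Iio j)) (w j) := by
    intro n
    induction n with
    | zero =>
      intro _
      have e : Set.Iio 0 = (∅ : Set ℕ) := by ext i; simp
      refine ⟨fun _ => 0, ?_, ?_, fun j hj => absurd hj (Nat.not_lt_zero j)⟩
      · rw [e, Set.image_empty, Submodule.span_empty, finrank_bot]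
      · rw [e, Set.image_empty, Submodule.span_empty]; exact h0
    | succ n ih =>
      intro hn
      obtain ⟨w, h1, h2, h3⟩ := ih (by omega)
      have hne : Submodule.span ℂ (w '' Set.Iio n) ≠ ⊤ := by
        intro h
        rw [h, finrank_top, Module.finrank_fin_fun] at h1
        omega
      obtain ⟨v, v1, v2, v3⟩ := hs _ h2 hne
      have e : ∀ j ≤ n, Function.update w n v '' Set.Iio j = w '' Set.Iio j := fun j hj =>
        Set.image_congr fun i hi => Function.update_of_ne (by have : i < j := hi; omega) _ _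
      have e' : Submodule.span ℂ (Function.update w n v '' Set.Iio (n + 1)) =
          Submodule.span ℂ (w '' Set.Iio n) ⊔ Submodule.span ℂ {v} := by
        rw [show Set.Iio (n + 1) = Set.Iio n ∪ {n} by ext i; simp, Set.image_union,
          e n le_rfl, Set.image_singleton, Function.update_self, Submodule.span_union]
      refine ⟨Function.update w n v, ?_, ?_, fun j hj => ?_⟩
      · rw [e', Submodule.finrank_sup_span_singleton v1, h1]
      · rw [e']; exact v3
      · rw [e j (by omega)]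
        rcases Nat.lt_succ_iff_lt_or_eq.1 hj with h | rfl
        · rw [Function.update_of_ne h.ne]; exact h3 j h
        · rw [Function.update_self]; exact v2
  obtain ⟨w, h1, -, h3⟩ := key d le_rfl
  have e : ∀ n ≤ d, (fun i : Fin d => w i) '' {i | (i : ℕ) < n} = w '' Set.Iio n := by
    intro n hn
    ext v
    constructor
    · rintro ⟨i, hi, rfl⟩
      exact ⟨i, hi, rfl⟩
    · rintro ⟨i, hi, rfl⟩
      exact ⟨⟨i, lt_of_lt_of_le hi hn⟩, hi, rfl⟩
  have ht : ⊤ ≤ Submodule.span ℂ (Set.range fun i : Fin d => w i) := by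
    have : Submodule.span ℂ (w '' Set.Iio d) = ⊤ :=
      Submodule.eq_top_of_finrank_eq (by rw [h1, Module.finrank_fin_fun])
    rw [← this, ← e d le_rfl]
    exact Submodule.span_mono (Set.image_subset_range _ _)
  refine ⟨basisOfTopLeSpanOfCardEqFinrank _ ht (by simp), fun i => ?_⟩
  rw [low, coe_basisOfTopLeSpanOfCardEqFinrank, e i i.2.le]
  exact h3 i i.2

/-- `V l = {v | ∀ i < l, v i = 0}`; by `br_tri` and `cx_apply`, `cx (br X)` maps `V l` into
`V (l + 1)`; take the least `l` with `V l ≤ U` (`V d = ⊥`, `l ≠ 0`) and `w ∈ V (l - 1) \ U`. -/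
theorem Hull.exists_central (H : Hull N G) {U : Submodule ℂ (Fin H.d → ℂ)} (hU : U ≠ ⊤) :
    ∃ w, w ∉ U ∧ ∀ X, cx (H.br X) w ∈ U := by
  by_contra hc
  push Not at hc
  have tri : ∀ X (j l : Fin H.d), H.br X (Pi.single j 1) l ≠ 0 → j < l := by
    intro X j l h
    by_contra hl
    apply h
    have e : H.br X = ∑ i, X i • H.br (Pi.single i 1) := by
      conv_lhs => rw [pi_eq_sum_univ' X, map_sum]
      simp only [map_smul]
    rw [e, LinearMap.sum_apply, Finset.sum_apply]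
    refine Finset.sum_eq_zero fun i _ => ?_
    by_contra h'
    refine hl (H.br_tri i j l fun h0 => h' ?_).2
    simp [h0]
  have key : ∀ n : ℕ, ∀ v : Fin H.d → ℂ, (∀ i : Fin H.d, (i : ℕ) + n < H.d → v i = 0) → v ∈ U := by
    intro n
    induction n with
    | zero =>
      intro v hv
      rw [show v = 0 from funext fun i => hv i i.2]
      exact U.zero_mem
    | succ n ih =>
      intro v hv
      by_contra hvU
      obtain ⟨X, hX⟩ := hc v hvU
      refine hX (ih _ fun l hl => ?_)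
      rw [cx_apply]
      refine Finset.sum_eq_zero fun j _ => ?_
      by_cases h : H.br X (Pi.single j 1) l = 0
      · simp [h]
      · have : (j : ℕ) < l := tri X j l h
        rw [hv j (by omega), mul_zero]
  exact hU (eq_top_iff.2 fun v _ => key H.d v fun i hi => absurd hi (by omega))

theorem Hull.h32_ex (H : Hull N G) {U : Submodule ℂ (Fin H.d → ℂ)}
    (hU : ∀ X, ∀ u ∈ U, cx (H.br X) u ∈ U) (X : Fin H.d → ℝ) {w : Fin H.d → ℂ}
    (hw : cx (H.br X) w ∈ U) : cx (H.Ad (H.ex X)) w - w ∈ U := by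
  have h1 : ∀ n : ℕ, (cx (H.br X) ^ (n + 1)) w ∈ U := by
    intro n
    induction n with
    | zero => simpa using hw
    | succ n ih => rw [pow_succ', Module.End.mul_apply]; exact hU X _ ih
  rw [H.Ad_ex, Finset.sum_range_succ', map_add, map_sum, LinearMap.add_apply, LinearMap.sum_apply]
  simp only [Nat.factorial_zero, Nat.cast_one, inv_one, pow_zero, one_smul, map_one,
    Module.End.one_apply, add_sub_cancel_right]
  refine U.sum_mem fun n _ => ?_
  rw [cx_smul, map_pow, LinearMap.smul_apply]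
  exact U.smul_mem _ (h1 n)

theorem Hull.h32_step (H : Hull N G) (hc : ∀ a b : P, a * b * a⁻¹ * b⁻¹ ∈ N)
    {U : Submodule ℂ (Fin H.d → ℂ)} (hA : ∀ g, ∀ u ∈ U, cx (H.Ad g) u ∈ U)
    (hB : ∀ X, ∀ u ∈ U, cx (H.br X) u ∈ U) (hU : U ≠ ⊤) :
    ∃ w, w ∉ U ∧ (∀ g, ∃ c : ℂ, cx (H.Ad g) w - c • w ∈ U) ∧ (∀ X, cx (H.br X) w ∈ U) ∧
      ∀ X, cx (H.Ad (H.ex X)) w - w ∈ U := by
  set W : Submodule ℂ (Fin H.d → ℂ) := ⨅ X, U.comap (cx (H.br X)) with hWdef
  have hW : ∀ w, w ∈ W ↔ ∀ X, cx (H.br X) w ∈ U := fun w => by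
    simp [hWdef, Submodule.mem_iInf]
  have hUW : U < W := by
    obtain ⟨w, hw, hw'⟩ := H.exists_central hU
    exact lt_of_le_of_ne (fun u hu => (hW u).2 fun X => hB X u hu)
      fun h => hw (h ▸ (hW w).2 hw')
  have hAW : ∀ g, ∀ w ∈ W, cx (H.Ad g) w ∈ W := by
    intro g w hw
    refine (hW _).2 fun X => ?_
    have h1 : (H.br X : Module.End ℝ _) * H.Ad g = H.Ad g * H.br (H.Ad g⁻¹ X) := by
      refine LinearMap.ext fun Y => ?_
      rw [Module.End.mul_apply, Module.End.mul_apply, H.Ad_br, ← Module.End.mul_apply (H.Ad g),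
        ← map_mul, mul_inv_cancel, map_one, Module.End.one_apply]
    rw [← Module.End.mul_apply, ← map_mul, h1, map_mul, Module.End.mul_apply]
    exact hA g _ ((hW w).1 hw _)
  have hex : ∀ X, ∀ w ∈ W, cx (H.Ad (H.ex X)) w - w ∈ U := fun X w hw =>
    H.h32_ex hB X ((hW w).1 hw X)
  obtain ⟨w, hw, hwU, he⟩ := exists_eig_mod (fun p : P => cx (H.Ad (H.j p))) hUW
    (fun p => hA _) (fun p => hAW _) (fun p q w hw => by
      obtain ⟨X, hX⟩ := (H.j_mem _).2 (hc p q)
      have h1 : H.j p * H.j q = H.ex X * (H.j q * H.j p) := by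
        rw [hX, ← map_mul, ← map_mul, ← map_mul]
        congr 1
        group
      have h2 := hex X _ (hAW (H.j q) _ (hAW (H.j p) w hw))
      have h3 : cx (H.Ad (H.j p)) (cx (H.Ad (H.j q)) w) =
          cx (H.Ad (H.ex X)) (cx (H.Ad (H.j q)) (cx (H.Ad (H.j p)) w)) := by
        simp only [← Module.End.mul_apply, ← map_mul, h1]
      simpa only [h3] using h2)
  refine ⟨w, hwU, fun g => ?_, (hW w).1 hw, fun X => hex X w hw⟩
  obtain ⟨X, p, rfl⟩ := H.dec g
  obtain ⟨c, hc'⟩ := he p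
  refine ⟨c, ?_⟩
  have := U.add_mem (hex X _ (hAW (H.j p) w hw)) hc'
  rwa [sub_add_sub_cancel, ← Module.End.mul_apply, ← map_mul, ← map_mul] at this

theorem h32_sup_inv {d : ℕ} {U : Submodule ℂ (Fin d → ℂ)} {T : End ℂ (Fin d → ℂ)}
    {w : Fin d → ℂ} {c : ℂ} (hU : ∀ u ∈ U, T u ∈ U) (hw : T w - c • w ∈ U) :
    ∀ u ∈ U ⊔ Submodule.span ℂ {w}, T u ∈ U ⊔ Submodule.span ℂ {w} := by
  have : U ⊔ Submodule.span ℂ {w} ≤ (U ⊔ Submodule.span ℂ {w}).comap T := by
    refine sup_le (fun u hu => Submodule.mem_sup_left (hU u hu)) (Submodule.span_le.2 ?_)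
    rw [Set.singleton_subset_iff]
    have := Submodule.add_mem_sup hw
      (Submodule.smul_mem _ c (Submodule.mem_span_singleton_self (R := ℂ) w))
    rwa [sub_add_cancel] at this
  exact this

/-- `exists_flag` with `Inv U` = invariant under all `cx (Ad g)` and all `cx (br X)`.  Step:
`W = {w | ∀ X, cx (br X) w ∈ U} > U` (`exists_central`) is `Ad`-invariant
(`br X * Ad g = Ad g * br (Ad g⁻¹ X)`), `cx (Ad (ex X)) w - w ∈ U` on `W` (`Ad_ex`, `cx_smul`), commutators
of `G` lie in `range ex` modulo nothing: by `dec`, `j_mem`, `hc` it is enough to treat `j p`, `j p'`;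
`exists_eig_mod` for `p ↦ cx (Ad (j p))`.  The eigenvalue `c g` is unique since `b i ∉ low b i`
(`mem_low`), hence multiplicative (`low_of`; `MonoidHom.toHomUnits`). -/
theorem Hull.exists_tri (H : Hull N G) (hc : ∀ a b : P, a * b * a⁻¹ * b⁻¹ ∈ N) :
    ∃ (b : Basis (Fin H.d) ℂ (Fin H.d → ℂ)) (χ : Fin H.d → G →* ℂˣ),
      (∀ i X, χ i (H.ex X) = 1) ∧
      (∀ g (i : Fin H.d), cx (H.Ad g) (b i) - (χ i g : ℂ) • b i ∈ low b i) ∧
      ∀ X (i : Fin H.d), cx (H.br X) (b i) ∈ low b i := by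
  obtain ⟨b, hb⟩ := exists_flag
    (fun U => (∀ g, ∀ u ∈ U, cx (H.Ad g) u ∈ U) ∧ ∀ X, ∀ u ∈ U, cx (H.br X) u ∈ U)
    (fun U w => w ∉ U ∧ (∀ g, ∃ c : ℂ, cx (H.Ad g) w - c • w ∈ U) ∧ (∀ X, cx (H.br X) w ∈ U) ∧
      ∀ X, cx (H.Ad (H.ex X)) w - w ∈ U)
    ⟨fun g u hu => by rw [(Submodule.mem_bot ℂ).1 hu, map_zero]; exact Submodule.zero_mem _,
      fun g u hu => by rw [(Submodule.mem_bot ℂ).1 hu, map_zero]; exact Submodule.zero_mem _⟩
    (fun U hU hne => by
      obtain ⟨w, h1, h2, h3, h4⟩ := H.h32_step hc hU.1 hU.2 hne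
      refine ⟨w, h1, ⟨h1, h2, h3, h4⟩, fun g => ?_, fun X => ?_⟩
      · obtain ⟨c, hc'⟩ := h2 g
        exact h32_sup_inv (hU.1 g) hc'
      · exact h32_sup_inv (c := 0) (hU.2 X) (by simpa using h3 X))
  choose c hc' using fun i => (hb i).2.1
  have uniq : ∀ (i : Fin H.d) (g : G) (a : ℂ), cx (H.Ad g) (b i) - a • b i ∈ low b i →
      c i g = a := by
    intro i g a h
    by_contra hne
    have h1 := (low b i).sub_mem h (hc' i g)
    rw [sub_sub_sub_cancel_left, ← sub_smul] at h1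
    exact (hb i).1 (((low b i).smul_mem_iff (sub_ne_zero.2 hne)).1 h1)
  let χ : Fin H.d → G →* ℂ := fun i =>
    { toFun := c i
      map_one' := uniq i 1 1 (by simp)
      map_mul' := fun g h => uniq i _ _ (by
        have h1 := (low b i).add_mem (low_of (fun j => hc' j g) i (hc' i h))
          ((low b i).smul_mem (c i h) (hc' i g))
        rw [map_sub, map_smul, smul_sub, sub_add_sub_cancel, smul_smul, mul_comm,
          ← Module.End.mul_apply, ← map_mul, ← map_mul] at h1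
        exact h1) }
  refine ⟨b, fun i => (χ i).toHomUnits, fun i X => Units.ext ?_, fun g i => hc' i g,
    fun X i => (hb i).2.2.1 X⟩
  exact uniq i _ 1 (by simpa using (hb i).2.2.2 X)

end Crest.Agent.R182
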