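import Crest.Agent.R182.LAPre0

/-! Row 182, block L1 (d): the twisting data (interface between LAD4 and LAD5). -/

set_option autoImplicit false
set_option linter.dupNamespace false

namespace Crest.Agent.R182

open Module

/-- a Cartan subgroup `C`, the inverse elliptic parts `D g`, and a real triangular basis `f` with
weights `w` -/
structure PreLie.TD {G : Type*} [Group G] {k : ℕ} (M : PreLie G k) where
  /-- the Cartan subgroup -/
  C : Subgroup G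
  dec : ∀ g, ∃ X, ∃ c ∈ C, g = M.ex X * c
  /-- the inverse of the elliptic part of `Ad g` -/
  D : G →* End ℝ (Fin M.d → ℝ)
  D_ex : ∀ X, D (M.ex X) = 1
  D_br : ∀ g X Y, D g (M.br X Y) = M.br (D g X) (D g Y)
  D_Ad : ∀ g, ∀ c ∈ C, ∀ X, D g (M.Ad c X) = M.Ad c (D g X)
  D_fix : ∀ g X, M.ex X ∈ C → D g X = X
  D_bd : ∃ K : ℝ, 0 ≤ K ∧ ∀ g X, ‖D g X‖ ≤ K * ‖X‖
  /-- the real basis -/
  f : Basis (Fin M.d) ℝ (Fin M.d → ℝ)
  /-- its weights -/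
  w : Fin M.d → (Fin k → ℝ) →ₗ[ℝ] ℝ
  br_tri : ∀ i j l, f.repr (M.br (f i) (f j)) l ≠ 0 → i < l ∧ j < l ∧ w l = w i + w j
  span : ∀ v, (∀ j, w j v = 0) → v = 0
  unimod : ∀ v, ∑ j, w j v = 0
  c_diag : ∀ c ∈ C, ∀ j, f.repr (M.Ad c (D c (f j))) j = Real.exp (w j (M.π c))
  c_tri : ∀ c ∈ C, ∀ j l, f.repr (M.Ad c (D c (f j))) l ≠ 0 → j ≤ l ∧ w l = w j
  C_ex : ∀ X, M.ex X ∈ C → ∀ l, w l ≠ 0 → f.repr X l = 0

end Crest.Agent.R182
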