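import Crest.Agent.R182.LAChar0

/-! Row 182, block L1 (d): linear algebra for the Cartan lifts, the twist and the triangular basis. -/

set_option autoImplicit false
set_option linter.dupNamespace false

namespace Crest.Agent.R182

open Module

section gen

variable {K V : Type*} [Field K] [AddCommGroup V] [Module K V]

/-- Fitting. With `f = A - 1` the chain `f ^ n (R)` stabilises: `f ^ N Z = f ^ (2 N) W'` with
`N ≥ 1`, `W' ∈ R`; take `W = f ^ (N - 1) W'`. -/
theorem d_fit [FiniteDimensional K V] (A : End K V) (R : Submodule K V) (hR : ∀ x ∈ R, A x ∈ R)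
    {Z : V} (hZ : Z ∈ R) : ∃ W ∈ R, Z - (A W - W) ∈ A.maxGenEigenspace 1 := by
  have hf : ∀ x ∈ R, (A - (1 : K) • (1 : End K V)) x ∈ R := fun x hx => by
    simpa using R.sub_mem (hR x hx) hx
  obtain ⟨n, h1, h2⟩ := (((A - (1 : K) • (1 : End K V)).restrict
    hf).eventually_isCompl_ker_pow_range_pow.and (Filter.eventually_ge_atTop 1)).exists
  obtain ⟨n, rfl⟩ := Nat.exists_eq_add_of_le' h2
  obtain ⟨u, hu, _, ⟨w, rfl⟩, h3⟩ := Submodule.mem_sup.1
    (h1.sup_eq_top ▸ Submodule.mem_top (x := (⟨Z, hZ⟩ : R)))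
  refine ⟨_, ((((A - (1 : K) • (1 : End K V)).restrict hf) ^ n) w).2,
    (Module.End.mem_maxGenEigenspace _ _ _).2 ⟨n + 1, ?_⟩⟩
  have h4 := congrArg Subtype.val h3
  rw [pow_succ', Module.End.mul_apply, Submodule.coe_add, LinearMap.coe_restrict_apply] at h4
  have h5 := congrArg Subtype.val (LinearMap.mem_ker.1 hu)
  rw [Module.End.pow_restrict _ hf, LinearMap.coe_restrict_apply] at h5
  refine Eq.trans (congrArg _ ?_) h5
  rw [sub_eq_iff_eq_add]
  simpa using h4.symm

/-- `(S - l m) β v w = β ((S - l) v) (S w) + l β v ((S - m) w)`; induction on `p + q`, where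
`(S - l) ^ p v = 0` and `(S - m) ^ q w = 0` (`Module.End.mem_maxGenEigenspace`). -/
theorem d_gen_mul (β : V →ₗ[K] V →ₗ[K] V) (S : End K V)
    (hS : ∀ v w, S (β v w) = β (S v) (S w)) {l m : K} {v w : V}
    (hv : v ∈ S.maxGenEigenspace l) (hw : w ∈ S.maxGenEigenspace m) :
    β v w ∈ S.maxGenEigenspace (l * m) := by
  obtain ⟨p, hp⟩ := (Module.End.mem_maxGenEigenspace _ _ _).1 hv
  obtain ⟨q, hq⟩ := (Module.End.mem_maxGenEigenspace _ _ _).1 hw
  have hc : ∀ (c : K) (n : ℕ) (x : V), ((S - c • (1 : End K V)) ^ n) x = 0 →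
      ((S - c • (1 : End K V)) ^ n) (S x) = 0 := fun c n x hx => by
    have h1 : Commute ((S - c • (1 : End K V)) ^ n) S :=
      ((Commute.refl S).sub_left ((Commute.one_left S).smul_left c)).pow_left n
    rw [← Module.End.mul_apply, h1.eq, Module.End.mul_apply, hx, map_zero]
  have key : ∀ n p q : ℕ, p + q = n → ∀ v w : V, ((S - l • (1 : End K V)) ^ p) v = 0 →
      ((S - m • (1 : End K V)) ^ q) w = 0 → ((S - (l * m) • (1 : End K V)) ^ n) (β v w) = 0 := by
    intro n
    induction n with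
    | zero =>
      intro p q h v w hv _
      obtain rfl : p = 0 := by omega
      rw [pow_zero, Module.End.one_apply] at hv
      simp [hv]
    | succ n ih =>
      intro p q h v w hv hw
      rcases p with _ | p
      · rw [pow_zero, Module.End.one_apply] at hv
        simp [hv]
      rcases q with _ | q
      · rw [pow_zero, Module.End.one_apply] at hw
        simp [hw]
      have e : (S - (l * m) • (1 : End K V)) (β v w) = β ((S - l • (1 : End K V)) v) (S w) +
          l • β v ((S - m • (1 : End K V)) w) := by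
        simp only [LinearMap.sub_apply, LinearMap.smul_apply, Module.End.one_apply, map_sub,
          map_smul, hS, smul_sub, mul_smul]
        abel
      rw [pow_succ, Module.End.mul_apply, e, map_add, map_smul,
        ih p (q + 1) (by omega) _ _ (by rwa [pow_succ, Module.End.mul_apply] at hv) (hc _ _ _ hw),
        ih (p + 1) q (by omega) _ _ hv (by rwa [pow_succ, Module.End.mul_apply] at hw),
        smul_zero, add_zero]
  exact (Module.End.mem_maxGenEigenspace _ _ _).2 ⟨_, key _ p q rfl v w hp hq⟩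

/-- a nonzero vector has one generalised eigenvalue (`Module.End.independent_maxGenEigenspace`) -/
theorem d_gen_unique (S : End K V) {l m : K} {v : V} (h0 : v ≠ 0)
    (hl : v ∈ S.maxGenEigenspace l) (hm : v ∈ S.maxGenEigenspace m) : l = m := by
  by_contra h
  exact h0 ((Submodule.disjoint_def.1
    (S.independent_maxGenEigenspace.pairwiseDisjoint h)) v hl hm)

/-- an operator which preserves `W` and lowers a finite flag on `W` is nilpotent on `W` -/
theorem d_gen_of_flag (S : End K V) (l : K) (W : Submodule K V) (B : ℕ → Submodule K V)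
    (h0 : B 0 = ⊥) (hW : ∀ v ∈ W, S v ∈ W)
    (hB : ∀ n, ∀ v ∈ W, v ∈ B (n + 1) → S v - l • v ∈ B n) (n : ℕ) :
    ∀ v ∈ W, v ∈ B n → v ∈ S.maxGenEigenspace l := by
  induction n with
  | zero =>
    intro v _ hv
    rw [h0, Submodule.mem_bot] at hv
    rw [hv]
    exact Submodule.zero_mem _
  | succ n ih =>
    intro v hv hv'
    obtain ⟨p, hp⟩ := (Module.End.mem_maxGenEigenspace _ _ _).1
      (ih _ (W.sub_mem (hW v hv) (W.smul_mem l hv)) (hB n v hv hv'))
    refine (Module.End.mem_maxGenEigenspace _ _ _).2 ⟨p + 1, ?_⟩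
    rw [pow_succ, Module.End.mul_apply]
    exact hp

end gen

theorem h94_basis_aux {d : ℕ} (R : ℕ → Submodule ℝ (Fin d → ℝ)) (h0 : R 0 = ⊥) (N : ℕ)
    (hN : R N = ⊤) (Hom : (Fin d → ℝ) → Prop)
    (hH : ∀ i, R i ≤ Submodule.span ℝ {w | w ∈ R i ∧ Hom w}) (m : ℕ) (hm : m ≤ d) :
    ∃ v : ℕ → Fin d → ℝ, LinearIndependent ℝ (fun j : Fin m => v j) ∧ ∀ j < m, Hom (v j) ∧
      ∃ i, v j ∈ R (i + 1) ∧ R i ≤ Submodule.span ℝ (v '' Set.Iio j) := by
  classical
  induction m with
  | zero => exact ⟨fun _ => 0, linearIndependent_empty_type, fun j hj => absurd hj (by omega)⟩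
  | succ m ih =>
    obtain ⟨v, hli, hv⟩ := ih (by omega)
    set S := Submodule.span ℝ (v '' Set.Iio m) with hS
    have hr : Set.range (fun j : Fin m => v j) = v '' Set.Iio m := by
      ext x
      constructor
      · rintro ⟨j, rfl⟩
        exact ⟨j, j.2, rfl⟩
      · rintro ⟨j, hj, rfl⟩
        exact ⟨⟨j, hj⟩, rfl⟩
    have hne : S ≠ ⊤ := by
      intro h
      have h1 := finrank_span_eq_card hli
      rw [hr, ← hS, h, finrank_top] at h1
      simp at h1
      omega
    have hex : ∃ i, ¬ R (i + 1) ≤ S := by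
      cases N with
      | zero =>
        refine absurd (eq_top_iff.2 ?_) hne
        rw [← hN, h0]
        exact bot_le
      | succ N => exact ⟨N, fun h => hne (eq_top_iff.2 (hN ▸ h))⟩
    have hi := Nat.find_spec hex
    have hlow : R (Nat.find hex) ≤ S := by
      rcases h : Nat.find hex with _ | i
      · rw [h0]; exact bot_le
      · by_contra hc
        have := Nat.find_min' hex (m := i) hc
        omega
    obtain ⟨w, ⟨hw1, hw2⟩, hw3⟩ : ∃ w, (w ∈ R (Nat.find hex + 1) ∧ Hom w) ∧ w ∉ S := by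
      by_contra hc
      refine hi ((hH _).trans (Submodule.span_le.2 fun w hw => ?_))
      by_contra hw'
      exact hc ⟨w, hw, hw'⟩
    have him : ∀ j ≤ m, Function.update v m w '' Set.Iio j = v '' Set.Iio j := fun j hj =>
      Set.image_congr fun x hx => Function.update_of_ne (by have : x < j := hx; omega) _ _
    refine ⟨Function.update v m w, ?_, fun j hj => ?_⟩
    · have e : Fin.init (fun j : Fin (m + 1) => Function.update v m w j) = fun j : Fin m => v j := by
        funext j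
        exact Function.update_of_ne (by have := j.2; simp only [Fin.val_castSucc]; omega) _ _
      rw [linearIndependent_finSucc', e, hr]
      refine ⟨hli, ?_⟩
      simpa using hw3
    · rw [him j (by omega)]
      by_cases hjm : j = m
      · subst hjm
        rw [Function.update_self]
        exact ⟨hw2, _, hw1, hlow⟩
      · rw [Function.update_of_ne hjm]
        exact hv j (by omega)

/-- Adapted basis. Build `v 0, v 1, …` greedily: if the span `S` of `v 0, …, v (m - 1)` is not `⊤`,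
take `i` minimal with `¬ R (i + 1) ≤ S` and a vector of `R (i + 1)` with `Hom`, not in `S`
(`linearIndependent_fin_snoc`); finally reverse the order (`Fin.rev`). -/
theorem d_basis {d : ℕ} (R : ℕ → Submodule ℝ (Fin d → ℝ)) (h0 : R 0 = ⊥) (N : ℕ) (hN : R N = ⊤)
    (Hom : (Fin d → ℝ) → Prop) (hH : ∀ i, R i ≤ Submodule.span ℝ {w | w ∈ R i ∧ Hom w}) :
    ∃ f : Basis (Fin d) ℝ (Fin d → ℝ), ∀ j, Hom (f j) ∧ ∃ i, f j ∈ R (i + 1) ∧
      ∀ X ∈ R i, ∀ l, f.repr X l ≠ 0 → j < l := by
  obtain ⟨v, hli, hv⟩ := h94_basis_aux R h0 N hN Hom hH d le_rfl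
  let b : Basis (Fin d) ℝ (Fin d → ℝ) := basisOfLinearIndependentOfCardEqFinrank' _ hli (by simp)
  have hb : ∀ j, b j = v j := fun j => by simp [b]
  refine ⟨b.reindex Fin.revPerm, fun j => ?_⟩
  obtain ⟨h1, i, h2, h3⟩ := hv (Fin.rev j) (Fin.rev j).2
  have e : b.reindex Fin.revPerm j = v (Fin.rev j) := by
    rw [Basis.reindex_apply, hb]; rfl
  refine ⟨e ▸ h1, i, e ▸ h2, fun X hX l hl => ?_⟩
  have hsub : v '' Set.Iio ((Fin.rev j : Fin d) : ℕ) ⊆ b '' {l | l < Fin.rev j} := by
    rintro _ ⟨m, hm, rfl⟩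
    exact ⟨⟨m, lt_trans hm (Fin.rev j).2⟩, hm, hb _⟩
  have h4 := (b.mem_span_image).1 (Submodule.span_mono hsub (h3 hX))
  rw [Basis.repr_reindex_apply] at hl
  have h5 : Fin.rev l < Fin.rev j := h4 (Finsupp.mem_support_iff.2 hl)
  exact Fin.rev_lt_rev.1 h5

section fc

variable {d : ℕ}

theorem cx_star (T : End ℝ (Fin d → ℝ)) (v : Fin d → ℂ) : cx T (star v) = star (cx T v) := by
  ext i
  simp [cx_apply]

/-- an operator commuting with the conjugation is real -/
theorem exists_cx (S : End ℂ (Fin d → ℂ)) (h : ∀ v, S (star v) = star (S v)) :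
    ∃ T : End ℝ (Fin d → ℝ), cx T = S := by
  refine ⟨Matrix.toLin' (Matrix.of fun i j => (S (Pi.single j 1) i).re), ?_⟩
  refine (Pi.basisFun ℂ (Fin d)).ext fun j => ?_
  rw [Pi.basisFun_apply, ← io_single, cx_io, io_single]
  ext i
  have h1 : star (Pi.single j 1 : Fin d → ℂ) = Pi.single j 1 := by
    ext a
    by_cases ha : a = j
    · subst ha; simp
    · simp [ha]
  have h2 := congrFun (h (Pi.single j 1)) i
  rw [h1, Pi.star_apply] at h2
  have h3 : ((S (Pi.single j 1) i).re : ℂ) = S (Pi.single j 1) i :=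
    Complex.conj_eq_iff_re.1 h2.symm
  simp [io, h3]

/-- generalised eigenspaces of the complexification -/
noncomputable def WS (A : End ℝ (Fin d → ℝ)) (l : ℂ) : Submodule ℂ (Fin d → ℂ) := (cx A).maxGenEigenspace l

theorem h99_pow_star (A : End ℝ (Fin d → ℝ)) (l : ℂ) (n : ℕ) (v : Fin d → ℂ) :
    ((cx A - (starRingEnd ℂ l) • (1 : End ℂ (Fin d → ℂ))) ^ n) (star v) =
      star (((cx A - l • (1 : End ℂ (Fin d → ℂ))) ^ n) v) := by
  induction n with
  | zero => simp
  | succ n ih =>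
    rw [pow_succ', pow_succ', Module.End.mul_apply, Module.End.mul_apply, ih]
    simp [cx_star, star_smul]

theorem WS.star_mem {A : End ℝ (Fin d → ℝ)} {l : ℂ} {v : Fin d → ℂ} (h : v ∈ WS A l) :
    star v ∈ WS A (starRingEnd ℂ l) := by
  obtain ⟨n, hn⟩ := (Module.End.mem_maxGenEigenspace _ _ _).1 h
  refine (Module.End.mem_maxGenEigenspace _ _ _).2 ⟨n, ?_⟩
  rw [h99_pow_star, hn, star_zero]

theorem io_mem_WS {A : End ℝ (Fin d → ℝ)} {r : ℝ} {X : Fin d → ℝ} :
    io X ∈ WS A r ↔ X ∈ A.maxGenEigenspace r := by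
  have e : ∀ n : ℕ, ((cx A - (r : ℂ) • (1 : End ℂ (Fin d → ℂ))) ^ n) (io X) =
      io (((A - r • (1 : End ℝ (Fin d → ℝ))) ^ n) X) := fun n => by
    rw [← cx_io, map_pow, map_sub, cx_smul, map_one]
  rw [WS, Module.End.mem_maxGenEigenspace, Module.End.mem_maxGenEigenspace]
  refine exists_congr fun n => ?_
  rw [e, ← io_zero]
  exact io_inj.eq_iff

/-- invariant subspaces are spanned by generalised eigenvectors
(`Submodule.eq_iSup_inf_genEigenspace`, `Module.End.iSup_maxGenEigenspace_eq_top`) -/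
theorem WS.le_of {A : End ℝ (Fin d → ℝ)} {B P : Submodule ℂ (Fin d → ℂ)}
    (hB : ∀ v ∈ B, cx A v ∈ B) (h : ∀ l, ∀ v ∈ WS A l, v ∈ B → v ∈ P) : B ≤ P := by
  have e := Submodule.eq_iSup_inf_genEigenspace (p := B) (f := cx A) ⊤ hB
    (Module.End.iSup_maxGenEigenspace_eq_top _)
  rw [e]
  exact iSup_le fun l v hv => h l v hv.2 hv.1

theorem WS.ext {A : End ℝ (Fin d → ℝ)} {Y : Type*} [AddCommGroup Y] [Module ℂ Y]
    {S S' : (Fin d → ℂ) →ₗ[ℂ] Y} (h : ∀ l, ∀ v ∈ WS A l, S v = S' v) : S = S' := by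
  have := WS.le_of (A := A) (B := ⊤) (P := LinearMap.eqLocus S S') (fun _ _ => trivial)
    fun l v hv _ => h l v hv
  exact LinearMap.ext fun v => this (Submodule.mem_top (x := v))

theorem WS.finite (A : End ℝ (Fin d → ℝ)) : {l | WS A l ≠ ⊥}.Finite :=
  WellFoundedGT.finite_ne_bot_of_iSupIndep (Module.End.independent_maxGenEigenspace (cx A))

/-- `t = φ (semisimple part of A)` -/
def IsFC (A t : End ℝ (Fin d → ℝ)) (φ : ℂ → ℂ) : Prop :=
  ∀ l, ∀ v ∈ WS A l, cx t v = φ l • v

/-- `DirectSum.isInternal_submodule_of_iSupIndep_of_iSup_eq_top`, then `WS.ext` and `exists_cx` -/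
theorem exists_isFC (A : End ℝ (Fin d → ℝ)) (φ : ℂ → ℂ)
    (h : ∀ l, WS A l ≠ ⊥ → φ (starRingEnd ℂ l) = starRingEnd ℂ (φ l)) : ∃ t, IsFC A t φ := by
  classical
  have hint : DirectSum.IsInternal (fun l : ℂ => WS A l) :=
    DirectSum.isInternal_submodule_of_iSupIndep_of_iSup_eq_top
      (Module.End.independent_maxGenEigenspace (cx A))
      (Module.End.iSup_maxGenEigenspace_eq_top (cx A))
  let e := LinearEquiv.ofBijective (DirectSum.coeLinearMap fun l : ℂ => WS A l) hint
  let S : End ℂ (Fin d → ℂ) :=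
    (DirectSum.toModule ℂ ℂ (Fin d → ℂ) fun l => φ l • (WS A l).subtype) ∘ₗ e.symm.toLinearMap
  have hS : ∀ l, ∀ v ∈ WS A l, S v = φ l • v := by
    intro l v hv
    have he : e.symm v = DirectSum.lof ℂ ℂ (fun l : ℂ => WS A l) l ⟨v, hv⟩ := by
      rw [LinearEquiv.symm_apply_eq]
      exact (DirectSum.coeLinearMap_lof (fun l : ℂ => WS A l) l ⟨v, hv⟩).symm
    change DirectSum.toModule ℂ ℂ (Fin d → ℂ) (fun l => φ l • (WS A l).subtype) (e.symm v) = _
    rw [he, DirectSum.toModule_lof]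
    rfl
  let P : Submodule ℂ (Fin d → ℂ) :=
    { carrier := {v | S (star v) = star (S v)}
      add_mem' := fun {v w} hv hw => by
        change S (star (v + w)) = star (S (v + w))
        change S (star v) = star (S v) at hv
        change S (star w) = star (S w) at hw
        rw [star_add, map_add, map_add, star_add, hv, hw]
      zero_mem' := by
        change S (star 0) = star (S 0)
        simp
      smul_mem' := fun c v hv => by
        change S (star (c • v)) = star (S (c • v))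
        change S (star v) = star (S v) at hv
        rw [star_smul, map_smul, map_smul, star_smul, hv] }
  have hP : (⊤ : Submodule ℂ (Fin d → ℂ)) ≤ P := by
    refine WS.le_of (A := A) (fun _ _ => trivial) fun l v hv _ => ?_
    change S (star v) = star (S v)
    by_cases h0 : v = 0
    · subst h0
      simp
    · have hne : WS A l ≠ ⊥ := fun hb => h0 (by rwa [hb, Submodule.mem_bot] at hv)
      rw [hS _ _ (WS.star_mem hv), hS _ _ hv, h l hne, star_smul]
      rfl
  obtain ⟨t, ht⟩ := exists_cx S fun v => hP (Submodule.mem_top (x := v))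
  exact ⟨t, fun l v hv => by rw [ht, hS l v hv]⟩

/-- the vectors `v` with `‖cx t v‖ ≤ K v` for all admissible `(t, φ)` form a submodule containing
all `WS A l`; apply to the standard basis -/
theorem isFC_bound (A : End ℝ (Fin d → ℝ)) : ∃ K : ℝ, 0 ≤ K ∧ ∀ t φ, IsFC A t φ →
    (∀ l, WS A l ≠ ⊥ → ‖φ l‖ ≤ 1) → ∀ X, ‖t X‖ ≤ K * ‖X‖ := by
  classical
  let P : Submodule ℂ (Fin d → ℂ) :=
    { carrier := {v | ∃ K : ℝ, 0 ≤ K ∧ ∀ t φ, IsFC A t φ → (∀ l, WS A l ≠ ⊥ → ‖φ l‖ ≤ 1) →
        ‖cx t v‖ ≤ K}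
      add_mem' := fun {v w} hv hw => by
        obtain ⟨K, hK, hv⟩ := hv
        obtain ⟨K', hK', hw⟩ := hw
        refine ⟨K + K', add_nonneg hK hK', fun t φ h1 h2 => ?_⟩
        rw [map_add]
        exact (norm_add_le _ _).trans (add_le_add (hv t φ h1 h2) (hw t φ h1 h2))
      zero_mem' := ⟨0, le_rfl, fun t φ _ _ => by simp⟩
      smul_mem' := fun c v hv => by
        obtain ⟨K, hK, hv⟩ := hv
        refine ⟨‖c‖ * K, mul_nonneg (norm_nonneg _) hK, fun t φ h1 h2 => ?_⟩
        rw [map_smul, norm_smul]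
        exact mul_le_mul_of_nonneg_left (hv t φ h1 h2) (norm_nonneg _) }
  have hP : (⊤ : Submodule ℂ (Fin d → ℂ)) ≤ P := by
    refine WS.le_of (A := A) (fun _ _ => trivial) fun l v hv _ => ?_
    refine ⟨‖v‖, norm_nonneg _, fun t φ h1 h2 => ?_⟩
    by_cases h0 : v = 0
    · subst h0
      simp
    · have hne : WS A l ≠ ⊥ := fun hb => h0 (by rwa [hb, Submodule.mem_bot] at hv)
      rw [h1 l v hv, norm_smul]
      exact mul_le_of_le_one_left (norm_nonneg _) (h2 l hne)
  have hj : ∀ j : Fin d, ∃ K : ℝ, 0 ≤ K ∧ ∀ t φ, IsFC A t φ →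
      (∀ l, WS A l ≠ ⊥ → ‖φ l‖ ≤ 1) → ‖cx t (io (Pi.single j 1))‖ ≤ K :=
    fun j => hP (Submodule.mem_top (x := io (Pi.single j 1)))
  choose K hK0 hK using hj
  refine ⟨∑ j, K j, Finset.sum_nonneg fun j _ => hK0 j, fun t φ h1 h2 X => ?_⟩
  have hio : ∀ Y : Fin d → ℝ, ‖Y‖ ≤ ‖io Y‖ := fun Y =>
    (pi_norm_le_iff_of_nonneg (norm_nonneg _)).2 fun i => by
      have := norm_le_pi_norm (io Y) i
      simpa [io] using this
  have hX : t X = ∑ j, X j • t (Pi.single j 1) := by
    conv_lhs => rw [pi_eq_sum_univ' X]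
    simp [map_sum, map_smul]
  rw [hX, Finset.sum_mul]
  refine (norm_sum_le _ _).trans (Finset.sum_le_sum fun j _ => ?_)
  rw [norm_smul, mul_comm]
  refine mul_le_mul ?_ (norm_le_pi_norm X j) (norm_nonneg _) (hK0 j)
  refine (hio _).trans ?_
  rw [← cx_io]
  exact hK j t φ h1 h2

/-- both sides are the trace (`LinearMap.trace_eq_matrix_trace`, `cx_eq`, `mem_low`) -/
theorem d_trace (T : End ℝ (Fin d → ℝ)) (f : Basis (Fin d) ℝ (Fin d → ℝ)) (r : Fin d → ℝ)
    (hf : ∀ j, T (f j) = r j • f j) (b : Basis (Fin d) ℂ (Fin d → ℂ)) (c : Fin d → ℝ)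
    (hb : ∀ i : Fin d, cx T (b i) - (c i : ℂ) • b i ∈ low b i) : ∑ j, r j = ∑ i, c i := by
  have h1 : LinearMap.trace ℝ _ T = ∑ j, r j := by
    rw [LinearMap.trace_eq_matrix_trace ℝ f, Matrix.trace]
    refine Finset.sum_congr rfl fun j _ => ?_
    rw [Matrix.diag_apply, LinearMap.toMatrix_apply, hf]
    simp
  have h2 : LinearMap.trace ℂ _ (cx T) = ∑ i, (c i : ℂ) := by
    rw [LinearMap.trace_eq_matrix_trace ℂ b, Matrix.trace]
    refine Finset.sum_congr rfl fun i _ => ?_
    have := mem_low.1 (hb i) i le_rfl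
    rw [map_sub, map_smul, Finsupp.sub_apply, sub_eq_zero] at this
    rw [Matrix.diag_apply, LinearMap.toMatrix_apply, this]
    simp
  have h3 : LinearMap.trace ℂ _ (cx T) = (LinearMap.trace ℝ _ T : ℝ) := by
    rw [LinearMap.trace_eq_matrix_trace ℂ (Pi.basisFun ℂ (Fin d)),
      LinearMap.trace_eq_matrix_trace ℝ (Pi.basisFun ℝ (Fin d)), Matrix.trace, Matrix.trace]
    push_cast
    refine Finset.sum_congr rfl fun i _ => ?_
    rw [Matrix.diag_apply, Matrix.diag_apply, LinearMap.toMatrix_apply, LinearMap.toMatrix_apply,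
      Pi.basisFun_apply, Pi.basisFun_apply, Pi.basisFun_repr, Pi.basisFun_repr, ← io_single, cx_io]
    rfl
  rw [h1, h2] at h3
  exact_mod_cast h3.symm

/-- the complexified bracket -/
noncomputable def brC (br : (Fin d → ℝ) →ₗ[ℝ] (Fin d → ℝ) →ₗ[ℝ] (Fin d → ℝ)) :
    (Fin d → ℂ) →ₗ[ℂ] (Fin d → ℂ) →ₗ[ℂ] (Fin d → ℂ) :=
  (Pi.basisFun ℂ (Fin d)).constr ℂ fun j => cx (br (Pi.single j 1))

theorem brC_io (br : (Fin d → ℝ) →ₗ[ℝ] (Fin d → ℝ) →ₗ[ℝ] (Fin d → ℝ)) (X : Fin d → ℝ) :
    brC br (io X) = cx (br X) := by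
  have e : br X = ∑ j, X j • br (Pi.single j 1) := by
    conv_lhs => rw [pi_eq_sum_univ' X, map_sum]
    simp only [map_smul]
  rw [brC, Basis.constr_apply_fintype, e, map_sum]
  refine Finset.sum_congr rfl fun j _ => ?_
  rw [cx_smul]
  rfl

theorem brC_aut_iff (br : (Fin d → ℝ) →ₗ[ℝ] (Fin d → ℝ) →ₗ[ℝ] (Fin d → ℝ))
    (T : End ℝ (Fin d → ℝ)) : (∀ v w, cx T (brC br v w) = brC br (cx T v) (cx T w)) ↔
      ∀ X Y, T (br X Y) = br (T X) (T Y) := by
  constructor
  · intro h X Y
    have := h (io X) (io Y)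
    rw [brC_io, cx_io, cx_io, cx_io, cx_io, brC_io, cx_io] at this
    exact io_inj this
  · intro h v w
    have key : (brC br).compr₂ (cx T) = (brC br).compl₁₂ (cx T) (cx T) := by
      refine (Pi.basisFun ℂ (Fin d)).ext fun i => (Pi.basisFun ℂ (Fin d)).ext fun j => ?_
      rw [LinearMap.compr₂_apply, LinearMap.compl₁₂_apply, Pi.basisFun_apply, Pi.basisFun_apply,
        ← io_single, ← io_single, brC_io, cx_io, cx_io, cx_io, cx_io, brC_io, cx_io, h]
    exact LinearMap.congr_fun₂ key v w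

/-- the real part of the flag -/
def rlow (b : Basis (Fin d) ℂ (Fin d → ℂ)) (n : ℕ) : Submodule ℝ (Fin d → ℝ) where
  carrier := {X | io X ∈ low b n}
  add_mem' {X Y} hX hY := by
    change io (X + Y) ∈ low b n
    rw [io_add]
    exact (low b n).add_mem hX hY
  zero_mem' := by
    change io 0 ∈ low b n
    rw [io_zero]
    exact (low b n).zero_mem
  smul_mem' r X hX := by
    change io (r • X) ∈ low b n
    rw [io_smul]
    exact (low b n).smul_mem _ hX

theorem mem_rlow {b : Basis (Fin d) ℂ (Fin d → ℂ)} {n : ℕ} {X : Fin d → ℝ} :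
    X ∈ rlow b n ↔ io X ∈ low b n := Iff.rfl

theorem rlow_zero (b : Basis (Fin d) ℂ (Fin d → ℂ)) : rlow b 0 = ⊥ :=
  eq_bot_iff.2 fun X hX => by
    rw [mem_rlow, low_zero, Submodule.mem_bot, ← io_zero] at hX
    exact io_inj hX

theorem rlow_top (b : Basis (Fin d) ℂ (Fin d → ℂ)) : rlow b d = ⊤ :=
  eq_top_iff.2 fun X _ => by
    rw [mem_rlow, low_top b le_rfl]
    trivial

theorem rlow_mono (b : Basis (Fin d) ℂ (Fin d → ℂ)) {m n : ℕ} (h : m ≤ n) : rlow b m ≤ rlow b n :=
  fun _ hX => low_mono b h hX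

end fc

section tree

variable {V V' : Type*} [AddCommGroup V] [Module ℝ V] [AddCommGroup V'] [Module ℝ V']

/-- the higher terms of a Baker-Campbell-Hausdorff series -/
def dbch (br : V →ₗ[ℝ] V →ₗ[ℝ] V) (L : List (ℝ × LTree × LTree)) (X Y : V) : V :=
  (L.map fun p => p.1 • (LTree.node p.2.1 p.2.2).eval (fun A B => br A B) X Y).sum

variable {br : V →ₗ[ℝ] V →ₗ[ℝ] V} (L : List (ℝ × LTree × LTree))

theorem h78_skew (hs : ∀ X, br X X = 0) (A B : V) : br A B = - br B A := by
  have h := hs (A + B)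
  simp only [map_add, LinearMap.add_apply, hs A, hs B, zero_add, add_zero] at h
  exact eq_neg_of_add_eq_zero_right h

theorem h78_node_congr (hs : ∀ X, br X X = 0) {R R' : Submodule ℝ V}
    (h : ∀ X, ∀ Z ∈ R', br X Z ∈ R) {A A' B B' : V} (hA : A - A' ∈ R') (hB : B - B' ∈ R') :
    br A B - br A' B' ∈ R := by
  have e : br A B - br A' B' = br A (B - B') - br B' (A - A') := by
    rw [map_sub, map_sub, h78_skew hs B' A, h78_skew hs B' A']
    abel
  rw [e]
  exact R.sub_mem (h _ _ hB) (h _ _ hA)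

theorem h78_tree_congr (hs : ∀ X, br X X = 0) {R R' : Submodule ℝ V} (hle : R ≤ R')
    (h : ∀ X, ∀ Z ∈ R', br X Z ∈ R) {X X' Y Y' : V} (hX : X - X' ∈ R') (hY : Y - Y' ∈ R')
    (t : LTree) :
    t.eval (fun A B => br A B) X Y - t.eval (fun A B => br A B) X' Y' ∈ R' := by
  induction t with
  | x => exact hX
  | y => exact hY
  | node s t ihs iht => exact hle (h78_node_congr hs h ihs iht)

/-- every tree is unchanged modulo `R'`, every node modulo `R` -/
theorem dbch_congr (hs : ∀ X, br X X = 0) {R R' : Submodule ℝ V} (hle : R ≤ R')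
    (h : ∀ X, ∀ Z ∈ R', br X Z ∈ R) {X X' Y Y' : V} (hX : X - X' ∈ R') (hY : Y - Y' ∈ R') :
    dbch br L X Y - dbch br L X' Y' ∈ R := by
  induction L with
  | nil => simp [dbch]
  | cons p L ih =>
    simp only [dbch, List.map_cons, List.sum_cons] at ih ⊢
    have h1 : (LTree.node p.2.1 p.2.2).eval (fun A B => br A B) X Y -
        (LTree.node p.2.1 p.2.2).eval (fun A B => br A B) X' Y' ∈ R :=
      h78_node_congr hs h (h78_tree_congr hs hle h hX hY p.2.1)
        (h78_tree_congr hs hle h hX hY p.2.2)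
    have h2 := R.add_mem (R.smul_mem p.1 h1) ih
    convert h2 using 1
    rw [smul_sub]
    abel

theorem h78_tree_mem {S : Submodule ℝ V} (h : ∀ X ∈ S, ∀ Y ∈ S, br X Y ∈ S) {X Y : V}
    (hX : X ∈ S) (hY : Y ∈ S) (t : LTree) : t.eval (fun A B => br A B) X Y ∈ S := by
  induction t with
  | x => exact hX
  | y => exact hY
  | node s t ihs iht => exact h _ ihs _ iht

theorem dbch_mem {S : Submodule ℝ V} (h : ∀ X ∈ S, ∀ Y ∈ S, br X Y ∈ S) {X Y : V} (hX : X ∈ S)
    (hY : Y ∈ S) : dbch br L X Y ∈ S := by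
  induction L with
  | nil => simp [dbch]
  | cons p L ih =>
    simp only [dbch, List.map_cons, List.sum_cons] at ih ⊢
    exact S.add_mem (S.smul_mem _ (h78_tree_mem h hX hY _)) ih

theorem h78_tree_map {br' : V' →ₗ[ℝ] V' →ₗ[ℝ] V'} (T : V →ₗ[ℝ] V')
    (h : ∀ X Y, T (br X Y) = br' (T X) (T Y)) (X Y : V) (t : LTree) :
    T (t.eval (fun A B => br A B) X Y) = t.eval (fun A B => br' A B) (T X) (T Y) := by
  induction t with
  | x => rfl
  | y => rfl
  | node s t ihs iht =>
    change T (br _ _) = br' _ _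
    rw [h, ihs, iht]

theorem dbch_map {br' : V' →ₗ[ℝ] V' →ₗ[ℝ] V'} (T : V →ₗ[ℝ] V')
    (h : ∀ X Y, T (br X Y) = br' (T X) (T Y)) (X Y : V) :
    T (dbch br L X Y) = dbch br' L (T X) (T Y) := by
  induction L with
  | nil => simp [dbch]
  | cons p L ih =>
    simp only [dbch, List.map_cons, List.sum_cons] at ih ⊢
    rw [map_add, map_smul, ih, h78_tree_map T h]

theorem h78_tree_line (hs : ∀ X, br X X = 0) (s t : ℝ) (X : V) (u : LTree) :
    ∃ c : ℝ, u.eval (fun A B => br A B) (s • X) (t • X) = c • X := by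
  induction u with
  | x => exact ⟨s, rfl⟩
  | y => exact ⟨t, rfl⟩
  | node a b iha ihb =>
    obtain ⟨c, hc⟩ := iha
    obtain ⟨e, he⟩ := ihb
    refine ⟨0, ?_⟩
    change br _ _ = _
    rw [hc, he]
    simp [hs X]

/-- every tree lies on the line through `X`, every node vanishes -/
theorem dbch_smul (hs : ∀ X, br X X = 0) (s t : ℝ) (X : V) : dbch br L (s • X) (t • X) = 0 := by
  induction L with
  | nil => simp [dbch]
  | cons p L ih =>
    simp only [dbch, List.map_cons, List.sum_cons] at ih ⊢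
    obtain ⟨c, hc⟩ := h78_tree_line hs s t X p.2.1
    obtain ⟨e, he⟩ := h78_tree_line hs s t X p.2.2
    have h1 : (LTree.node p.2.1 p.2.2).eval (fun A B => br A B) (s • X) (t • X) = 0 := by
      change br _ _ = _
      rw [hc, he]
      simp [hs X]
    rw [ih, h1, smul_zero, add_zero]

end tree

end Crest.Agent.R182
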