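import Crest.Agent.R182.LAD0
import Crest.Agent.R182.LAD2

/-! Row 182, block L1 (d): construction of the twisting data. -/

set_option autoImplicit false
set_option linter.dupNamespace false

namespace Crest.Agent.R182

open Module

section fc

variable {d : ℕ} {A t t' : End ℝ (Fin d → ℝ)} {φ φ' : ℂ → ℂ}

theorem IsFC.mul (h : IsFC A t φ) (h' : IsFC A t' φ') :
    IsFC A (t * t') fun l => φ l * φ' l := fun l v hv => by
  rw [map_mul, End.mul_apply, h' l v hv, map_smul, h l v hv, smul_smul, mul_comm]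

theorem IsFC.one (A : End ℝ (Fin d → ℝ)) : IsFC A 1 fun _ => 1 := fun l v _ => by
  rw [map_one, End.one_apply, one_smul]

theorem IsFC.smul (h : IsFC A t φ) (r : ℝ) : IsFC A (r • t) fun l => (r : ℂ) * φ l :=
  fun l v hv => by rw [cx_smul, LinearMap.smul_apply, h l v hv, smul_smul]

theorem IsFC.sum {I : Type*} (s : Finset I) {t : I → End ℝ (Fin d → ℝ)} {φ : I → ℂ → ℂ}
    (h : ∀ i, IsFC A (t i) (φ i)) : IsFC A (∑ i ∈ s, t i) fun l => ∑ i ∈ s, φ i l :=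
  fun l v hv => by
    rw [map_sum, LinearMap.sum_apply, Finset.sum_smul]
    exact Finset.sum_congr rfl fun i _ => h i l v hv

theorem IsFC.unique (h : IsFC A t φ) (h' : IsFC A t' φ')
    (e : ∀ l, WS A l ≠ ⊥ → φ l = φ' l) : t = t' := by
  refine cx_inj (WS.ext (A := A) fun l v hv => ?_)
  by_cases h0 : WS A l = ⊥
  · rw [h0, Submodule.mem_bot] at hv
    rw [hv, map_zero, map_zero]
  · rw [h l v hv, h' l v hv, e l h0]

theorem IsFC.comm (h : IsFC A t φ) {S : End ℝ (Fin d → ℝ)}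
    (hS : ∀ l, ∀ v ∈ WS A l, cx S v ∈ WS A l) (X : Fin d → ℝ) : t (S X) = S (t X) := by
  have : t * S = S * t := cx_inj (WS.ext (A := A) fun l v hv => by
    rw [map_mul, map_mul, End.mul_apply, End.mul_apply, h l _ (hS l v hv), h l v hv, map_smul])
  exact LinearMap.congr_fun this X

theorem IsFC.mapsTo (h : IsFC A t φ) (l : ℂ) (v : Fin d → ℂ) (hv : v ∈ WS A l) :
    cx t v ∈ WS A l := by
  rw [h l v hv]
  exact (WS A l).smul_mem _ hv

end fc

namespace PreLie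

variable {G : Type*} [Group G] {k : ℕ} (M : PreLie G k)

open Classical in
/-- the character on `W l` -/
noncomputable def ψ (l : ℂ) : G →* ℂˣ :=
  if h : ∃ i, (M.χ i M.a₀ : ℂ) = l then M.χ h.choose else 1

open Classical in
/-- the weight on `W l` -/
noncomputable def wl (l : ℂ) : (Fin k → ℝ) →ₗ[ℝ] ℝ :=
  if h : ∃ i, (M.χ i M.a₀ : ℂ) = l then M.wt h.choose else 0

theorem ψ_eq {l : ℂ} {i : Fin M.d} (h : (M.χ i M.a₀ : ℂ) = l) : M.ψ l = M.χ i := by
  have h' : ∃ i, (M.χ i M.a₀ : ℂ) = l := ⟨i, h⟩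
  rw [ψ, dif_pos h']
  exact M.sep _ _ (Units.ext (h'.choose_spec.trans h.symm))

theorem wl_π (l : ℂ) (g : G) : M.wl l (M.π g) = Real.log ‖(M.ψ l g : ℂ)‖ := by
  unfold wl ψ
  split_ifs
  · exact M.wt_π _ _
  · simp

theorem exp_wl (l : ℂ) (g : G) : Real.exp (M.wl l (M.π g)) = ‖(M.ψ l g : ℂ)‖ := by
  rw [wl_π, Real.exp_log (norm_pos_iff.2 (Units.ne_zero _))]

theorem lin_ext {w w' : (Fin k → ℝ) →ₗ[ℝ] ℝ} (h : ∀ g, w (M.π g) = w' (M.π g)) : w = w' :=
  (Pi.basisFun ℝ (Fin k)).ext fun l => by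
    obtain ⟨g, hg⟩ := M.π_surj l
    rw [Pi.basisFun_apply, ← hg, h]

theorem wl_eq (i : Fin M.d) : M.wl (M.χ i M.a₀) = M.wt i :=
  M.lin_ext fun g => by rw [wl_π, M.ψ_eq rfl, M.wt_π]

theorem ψ_ex (l : ℂ) (X : Fin M.d → ℝ) : M.ψ l (M.ex X) = 1 := by
  unfold ψ
  split_ifs
  · exact M.χ_ex _ _
  · rfl

theorem ψ_one : M.ψ 1 = 1 := by
  unfold ψ
  split_ifs with h
  · exact M.sep_one _ (Units.ext h.choose_spec)
  · rfl

theorem wl_one : M.wl 1 = 0 := M.lin_ext fun g => by simp [wl_π, ψ_one]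

theorem Ad_lower (g : G) {l : ℂ} (n : ℕ) (v : Fin M.d → ℂ) (hv : v ∈ M.W l)
    (h1 : v ∈ low M.b (n + 1)) : cx (M.Ad g) v - (M.ψ l g : ℂ) • v ∈ low M.b n := by
  by_cases h0 : v ∈ low M.b n
  · exact (low M.b n).sub_mem (M.Ad_low g n h0) ((low M.b n).smul_mem _ h0)
  · have hn : n < M.d := by
      by_contra hn
      exact h0 (by rw [low_top M.b (not_lt.1 hn)]; trivial)
    rw [M.ψ_eq (M.W_layer hv ⟨n, hn⟩ h1 h0)]
    exact M.Ad_layer g ⟨n, hn⟩ h1

theorem W_gen {c : G} (hc : c ∈ M.Car) {l : ℂ} {v : Fin M.d → ℂ} (hv : v ∈ M.W l) :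
    v ∈ WS (M.Ad c) (M.ψ l c) :=
  d_gen_of_flag (cx (M.Ad c)) _ (M.W l) (low M.b) (low_zero _)
    (fun _ hw => InC.mapsTo hc hw) (M.Ad_lower c) M.d v hv (by rw [low_top M.b le_rfl]; trivial)

theorem ψ_dec (g : G) : ∃ c ∈ M.Car, ∀ l, M.ψ l g = M.ψ l c := by
  obtain ⟨X, c, hc, rfl⟩ := M.dec_Car g
  exact ⟨c, hc, fun l => by rw [map_mul, ψ_ex, one_mul]⟩

theorem ψ_star {l : ℂ} (h : M.W l ≠ ⊥) (g : G) :
    (M.ψ (starRingEnd ℂ l) g : ℂ) = starRingEnd ℂ (M.ψ l g) := by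
  obtain ⟨c, hc, e⟩ := M.ψ_dec g
  obtain ⟨v, hv, h0⟩ := (Submodule.ne_bot_iff _).1 h
  rw [e, e]
  exact d_gen_unique (cx (M.Ad c)) (star_ne_zero.2 h0) (M.W_gen hc (WS.star_mem hv))
    (WS.star_mem (M.W_gen hc hv))

theorem ψ_br {l m : ℂ} {v w : Fin M.d → ℂ} (hv : v ∈ M.W l) (hw : w ∈ M.W m)
    (h0 : brC M.br v w ≠ 0) (g : G) : (M.ψ (l * m) g : ℂ) = M.ψ l g * M.ψ m g := by
  obtain ⟨c, hc, e⟩ := M.ψ_dec g
  rw [e, e, e]
  exact d_gen_unique (cx (M.Ad c)) h0 (M.W_gen hc (M.brC_W hv hw))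
    (d_gen_mul (brC M.br) (cx (M.Ad c)) ((brC_aut_iff _ _).2 (M.Ad_br _)) (M.W_gen hc hv)
      (M.W_gen hc hw))

theorem wl_star {l : ℂ} (h : M.W l ≠ ⊥) : M.wl (starRingEnd ℂ l) = M.wl l :=
  M.lin_ext fun g => by rw [wl_π, wl_π, M.ψ_star h, Complex.norm_conj]

theorem wl_br {l m : ℂ} {v w : Fin M.d → ℂ} (hv : v ∈ M.W l) (hw : w ∈ M.W m)
    (h0 : brC M.br v w ≠ 0) : M.wl (l * m) = M.wl l + M.wl m :=
  M.lin_ext fun g => by
    rw [LinearMap.add_apply, wl_π, wl_π, wl_π, M.ψ_br hv hw h0, norm_mul,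
      Real.log_mul (norm_ne_zero_iff.2 (Units.ne_zero _)) (norm_ne_zero_iff.2 (Units.ne_zero _))]

section fc

variable {M} {t : End ℝ (Fin M.d → ℝ)} {φ : ℂ → ℂ}

theorem fc_br (h : IsFC (M.Ad M.a₀) t φ)
    (hφ : ∀ l m, ∀ v ∈ M.W l, ∀ w ∈ M.W m, brC M.br v w ≠ 0 → φ (l * m) = φ l * φ m)
    (X Y : Fin M.d → ℝ) : t (M.br X Y) = M.br (t X) (t Y) := by
  refine (brC_aut_iff M.br t).1 (fun v w => ?_) X Y
  have : (brC M.br).compr₂ (cx t) = (brC M.br).compl₁₂ (cx t) (cx t) := by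
    refine WS.ext (A := M.Ad M.a₀) fun l v hv => WS.ext (A := M.Ad M.a₀) fun m w hw => ?_
    rw [LinearMap.compr₂_apply, LinearMap.compl₁₂_apply, h l v hv, h m w hw,
      h _ _ (M.brC_W hv hw), map_smul, map_smul, LinearMap.smul_apply, smul_smul]
    by_cases h0 : brC M.br v w = 0
    · rw [h0, smul_zero, smul_zero]
    · rw [hφ l m v hv w hw h0, mul_comm]
  exact LinearMap.congr_fun (LinearMap.congr_fun this v) w

theorem fc_rlow (h : IsFC (M.Ad M.a₀) t φ) (n : ℕ) {X : Fin M.d → ℝ} (hX : X ∈ rlow M.b n) :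
    t X ∈ rlow M.b n := by
  have : low M.b n ≤ (low M.b n).comap (cx t) :=
    WS.le_of (fun _ hv => M.Ad_low M.a₀ n hv) fun l v hv hn => by
      rw [Submodule.mem_comap, h l v hv]
      exact (low M.b n).smul_mem _ hn
  rw [mem_rlow, ← cx_io]
  exact this hX

theorem fc_layer (h : IsFC (M.Ad M.a₀) t φ) (i : Fin M.d) :
    cx t (M.b i) - φ (M.χ i M.a₀) • M.b i ∈ low M.b i := by
  have : low M.b (i + 1) ≤ (low M.b i).comap (cx t - φ (M.χ i M.a₀) • (1 : End ℂ _)) :=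
    WS.le_of (fun _ hv => M.Ad_low M.a₀ _ hv) fun l v hv hn => by
      rw [Submodule.mem_comap, LinearMap.sub_apply, LinearMap.smul_apply, End.one_apply, h l v hv]
      by_cases h0 : v ∈ low M.b i
      · exact (low M.b i).sub_mem ((low M.b i).smul_mem _ h0) ((low M.b i).smul_mem _ h0)
      · rw [M.W_layer hv i hn h0, sub_self]
        exact (low M.b i).zero_mem
  exact this (b_mem_low M.b (Nat.lt_succ_self _))

end fc

theorem exists_D (g : G) :
    ∃ t, IsFC (M.Ad M.a₀) t fun l => (‖(M.ψ l g : ℂ)‖ : ℂ) / M.ψ l g :=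
  exists_isFC _ _ fun l hl => by
    rw [M.ψ_star hl, Complex.norm_conj, map_div₀, Complex.conj_ofReal]

/-- the inverse of the elliptic part -/
noncomputable def Dm : G →* End ℝ (Fin M.d → ℝ) where
  toFun g := (M.exists_D g).choose
  map_one' := (M.exists_D 1).choose_spec.unique (IsFC.one _) fun l _ => by simp
  map_mul' g h := (M.exists_D (g * h)).choose_spec.unique
    ((M.exists_D g).choose_spec.mul (M.exists_D h).choose_spec) fun l _ => by
      rw [map_mul, Units.val_mul, norm_mul, Complex.ofReal_mul, mul_div_mul_comm]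

theorem Dm_fc (g : G) :
    IsFC (M.Ad M.a₀) (M.Dm g) fun l => (‖(M.ψ l g : ℂ)‖ : ℂ) / M.ψ l g :=
  (M.exists_D g).choose_spec

theorem exists_Gr (F : ((Fin k → ℝ) →ₗ[ℝ] ℝ) → ℝ) :
    ∃ t, IsFC (M.Ad M.a₀) t fun l => (F (M.wl l) : ℂ) :=
  exists_isFC _ _ fun l hl => by rw [M.wl_star hl, Complex.conj_ofReal]

/-- the operator which is `F w` on the weight space of `w` -/
noncomputable def Gr (F : ((Fin k → ℝ) →ₗ[ℝ] ℝ) → ℝ) : End ℝ (Fin M.d → ℝ) :=
  (M.exists_Gr F).choose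

theorem Gr_fc (F : ((Fin k → ℝ) →ₗ[ℝ] ℝ) → ℝ) :
    IsFC (M.Ad M.a₀) (M.Gr F) fun l => (F (M.wl l) : ℂ) :=
  (M.exists_Gr F).choose_spec

/-- vectors of weight `w` -/
def Hom (w : (Fin k → ℝ) →ₗ[ℝ] ℝ) (X : Fin M.d → ℝ) : Prop := ∀ F, M.Gr F X = F w • X

theorem rlow_span (n : ℕ) :
    rlow M.b n ≤ Submodule.span ℝ {X | X ∈ rlow M.b n ∧ ∃ w, M.Hom w X} := by
  classical
  intro X hX
  let s := (WS.finite (M.Ad M.a₀)).toFinset.image M.wl
  have h1 : ∑ w ∈ s, M.Gr (fun u => if u = w then 1 else 0) = 1 := by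
    refine (IsFC.sum s fun w => M.Gr_fc _).unique (IsFC.one _) fun l hl => ?_
    have : M.wl l ∈ s := Finset.mem_image_of_mem _ ((Set.Finite.mem_toFinset _).2 hl)
    rw [← Complex.ofReal_sum, Finset.sum_ite_eq, if_pos this, Complex.ofReal_one]
  have h2 : X = ∑ w ∈ s, M.Gr (fun u => if u = w then 1 else 0) X := by
    rw [← LinearMap.sum_apply, h1, End.one_apply]
  rw [h2]
  refine Submodule.sum_mem _ fun w _ => Submodule.subset_span
    ⟨fc_rlow (M.Gr_fc _) n hX, w, fun F => ?_⟩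
  have := ((M.Gr_fc F).mul (M.Gr_fc fun u => if u = w then 1 else 0)).unique
    ((M.Gr_fc fun u => if u = w then 1 else 0).smul (F w)) fun l _ => by
      by_cases h : M.wl l = w
      · rw [h]
      · simp [h]
  exact LinearMap.congr_fun this X

theorem repr_Gr {f : Basis (Fin M.d) ℝ (Fin M.d → ℝ)} {w : Fin M.d → (Fin k → ℝ) →ₗ[ℝ] ℝ}
    (hf : ∀ j, M.Hom (w j) (f j)) (F : ((Fin k → ℝ) →ₗ[ℝ] ℝ) → ℝ) (X : Fin M.d → ℝ)
    (l : Fin M.d) : f.repr (M.Gr F X) l = F (w l) * f.repr X l := by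
  have : (f.coord l).comp (M.Gr F) = F (w l) • f.coord l := f.ext fun j => by
    rw [LinearMap.comp_apply, hf j F, map_smul, LinearMap.smul_apply]
    by_cases h : j = l
    · rw [h]
    · simp [h]
  exact LinearMap.congr_fun this X

theorem Hom.eq {f : Basis (Fin M.d) ℝ (Fin M.d → ℝ)} {w : Fin M.d → (Fin k → ℝ) →ₗ[ℝ] ℝ}
    (hf : ∀ j, M.Hom (w j) (f j)) {u : (Fin k → ℝ) →ₗ[ℝ] ℝ} {X : Fin M.d → ℝ} (hX : M.Hom u X)
    {l : Fin M.d} (h : f.repr X l ≠ 0) : w l = u := by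
  classical
  have := M.repr_Gr hf (fun x => if x = u then 1 else 0) X l
  rw [hX, if_pos rfl, one_smul] at this
  by_contra h0
  rw [if_neg h0, zero_mul] at this
  exact h this

theorem sum_Gr {f : Basis (Fin M.d) ℝ (Fin M.d → ℝ)} {w : Fin M.d → (Fin k → ℝ) →ₗ[ℝ] ℝ}
    (hf : ∀ j, M.Hom (w j) (f j)) (F : ((Fin k → ℝ) →ₗ[ℝ] ℝ) → ℝ) :
    ∑ j, F (w j) = ∑ i, F (M.wt i) :=
  d_trace (M.Gr F) f _ (fun j => hf j F) M.b _ fun i => by
    have := fc_layer (M.Gr_fc F) i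
    rwa [wl_eq] at this

theorem AdD_lower (c : G) (n : ℕ) {X : Fin M.d → ℝ} (hX : X ∈ rlow M.b (n + 1)) :
    M.Ad c (M.Dm c X) - M.Gr (fun u => Real.exp (u (M.π c))) X ∈ rlow M.b n := by
  have : low M.b (n + 1) ≤ (low M.b n).comap
      (cx (M.Ad c) * cx (M.Dm c) - cx (M.Gr fun u => Real.exp (u (M.π c)))) :=
    WS.le_of (fun _ hv => M.Ad_low M.a₀ _ hv) fun l v hv hn => by
      rw [Submodule.mem_comap, LinearMap.sub_apply, End.mul_apply, M.Dm_fc c l v hv,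
        M.Gr_fc _ l v hv, map_smul]
      beta_reduce
      rw [exp_wl]
      have h2 := (low M.b n).smul_mem ((‖(M.ψ l c : ℂ)‖ : ℂ) / M.ψ l c) (M.Ad_lower c n v hv hn)
      rwa [smul_sub, smul_smul, div_mul_cancel₀ _ (Units.ne_zero _)] at h2
  rw [mem_rlow, io_sub, ← cx_io, ← cx_io, ← cx_io]
  exact this hX

theorem exists_TD : Nonempty M.TD := by
  obtain ⟨f, hf⟩ := d_basis (rlow M.b) (rlow_zero _) M.d (rlow_top _) (fun X => ∃ w, M.Hom w X)
    M.rlow_span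
  choose w hw using fun j => (hf j).1
  choose p hp hp' using fun j => (hf j).2
  have hanti : ∀ X Y, M.br X Y = -M.br Y X := fun X Y => by
    have := M.br_self (X + Y)
    simp only [map_add, LinearMap.add_apply, M.br_self, zero_add, add_zero] at this
    exact eq_neg_of_add_eq_zero_right this
  have hAD : ∀ c j, M.Ad c (M.Dm c (f j)) - Real.exp (w j (M.π c)) • f j ∈ rlow M.b (p j) :=
    fun c j => by
      have := M.AdD_lower c (p j) (hp j)
      rwa [hw j] at this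
  refine ⟨{
    C := M.Car
    dec := M.dec_Car
    D := M.Dm
    D_ex := fun X => (M.Dm_fc _).unique (IsFC.one _) fun l _ => by simp [ψ_ex]
    D_br := fun g => fc_br (M.Dm_fc g) fun l m v hv u hu h0 => by
      rw [M.ψ_br hv hu h0, norm_mul, Complex.ofReal_mul, mul_div_mul_comm]
    D_Ad := fun g c hc => (M.Dm_fc g).comm fun l v hv => InC.mapsTo hc hv
    D_fix := fun g X hX => io_inj ?_
    D_bd := ?_
    f := f
    w := w
    br_tri := fun i j l h => ⟨?_, hp' j _ (M.br_rlow _ _ _ (hp j)) l h, ?_⟩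
    span := fun v hv => M.span v fun i => ?_
    unimod := fun v => (M.sum_Gr hw fun u => u v).trans (M.unimod v)
    c_diag := fun c _ j => ?_
    c_tri := fun c hc j l h => ⟨?_, Hom.eq M hw (fun F => ?_) h⟩
    C_ex := fun X hX l hl => ?_ }⟩
  · rw [← cx_io, M.Dm_fc g 1 _ (M.io_n1.2 (InC.of_ex hX))]
    simp [ψ_one]
  · obtain ⟨K, hK, h⟩ := isFC_bound (M.Ad M.a₀)
    refine ⟨K, hK, fun g => h _ _ (M.Dm_fc g) fun l _ => ?_⟩
    rw [norm_div, Complex.norm_real, norm_norm]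
    exact div_self_le_one _
  · refine hp' i _ (M.br_rlow _ (f j) _ (hp i)) l fun h0 => h ?_
    rw [hanti, map_neg, Finsupp.neg_apply, h0, neg_zero]
  · refine LinearMap.ext fun v => ?_
    have h1 := fc_br (M.Gr_fc fun u => Real.exp (u v)) (fun l m x hx y hy h0 => by
      rw [M.wl_br hx hy h0, LinearMap.add_apply, Real.exp_add, Complex.ofReal_mul]) (f i) (f j)
    have h2 := M.repr_Gr hw (fun u => Real.exp (u v)) (M.br (f i) (f j)) l
    rw [h1, hw i, hw j, LinearMap.map_smul₂, map_smul (M.br (f i)), smul_smul, map_smul,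
      Finsupp.smul_apply, smul_eq_mul, ← Real.exp_add] at h2
    rw [LinearMap.add_apply]
    exact (Real.exp_injective (mul_right_cancel₀ h h2)).symm
  · have h1 := M.sum_Gr hw fun u => u v ^ 2
    simp only [hv, ne_eq, OfNat.ofNat_ne_zero, not_false_eq_true, zero_pow,
      Finset.sum_const_zero] at h1
    exact pow_eq_zero_iff two_ne_zero |>.1
      ((Finset.sum_eq_zero_iff_of_nonneg fun _ _ => sq_nonneg _).1 h1.symm i (Finset.mem_univ _))
  · have h1 : f.repr (M.Ad c (M.Dm c (f j)) - Real.exp (w j (M.π c)) • f j) j = 0 := by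
      by_contra h0
      exact lt_irrefl _ (hp' j _ (hAD c j) j h0)
    simpa [sub_eq_zero] using h1
  · by_contra h0
    have hlj : l < j := not_le.1 h0
    refine lt_asymm hlj (hp' j _ (hAD c j) l ?_)
    simpa [Finsupp.single_apply, hlj.ne'] using h
  · rw [(M.Gr_fc F).comm fun l v hv => InC.mapsTo hc hv, (M.Gr_fc F).comm (M.Dm_fc c).mapsTo,
      hw j, map_smul, map_smul]
  · by_contra h0
    refine hl (Hom.eq M hw (fun F => io_inj ?_) h0)
    rw [← cx_io, M.Gr_fc F 1 _ (M.io_n1.2 (InC.of_ex hX)), io_smul]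
    beta_reduce
    rw [wl_one]

end PreLie

end Crest.Agent.R182
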