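import Crest.Agent.R182.LDefs

/-! Row 182, block L1 (b2): exponential and logarithm of nilpotent elements of a real algebra. -/

set_option autoImplicit false
set_option linter.dupNamespace false

namespace Crest.Agent.R182

open Finset

variable {A B : Type*} [Ring A] [Algebra ℝ A] [Ring B] [Algebra ℝ B]

/-- exponential of a nilpotent element -/
noncomputable def nex (x : A) : A :=
  ∑ n ∈ range (nilpotencyClass x), ((n.factorial : ℝ)⁻¹) • x ^ n

/-- logarithm of a unipotent element -/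
noncomputable def nlg (u : A) : A :=
  ∑ n ∈ range (nilpotencyClass (u - 1)), ((-1 : ℝ) ^ (n + 1) / n) • (u - 1) ^ n

/-- a power series evaluated at a nilpotent element -/
noncomputable def nser (c : ℕ → ℝ) (x : A) : A := ∑ n ∈ range (nilpotencyClass x), c n • x ^ n

theorem nser_eq_sum (c : ℕ → ℝ) {x : A} {k : ℕ} (h : x ^ k = 0) :
    nser c x = ∑ n ∈ range k, c n • x ^ n := by
  have hk : nilpotencyClass x ≤ k := Nat.sInf_le h
  refine Finset.sum_subset (Finset.range_subset_range.2 hk) fun n _ hn => ?_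
  rw [Finset.mem_range, not_lt] at hn
  rw [pow_eq_zero_of_le hn (pow_nilpotencyClass ⟨k, h⟩), smul_zero]

theorem map_nser {F : Type*} [FunLike F A B] [AlgHomClass F ℝ A B] (φ : F) (c : ℕ → ℝ) {x : A}
    (hx : IsNilpotent x) : φ (nser c x) = nser c (φ x) := by
  obtain ⟨k, hk⟩ := hx
  have hk' : φ x ^ k = 0 := by rw [← map_pow, hk, map_zero]
  rw [nser_eq_sum c hk, nser_eq_sum c hk', map_sum]
  simp only [map_smul, map_pow]

theorem conj_pow_eq {g g' : A} (h : g * g' = 1) (h' : g' * g = 1) (x : A) (n : ℕ) :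
    (g * x * g') ^ n = g * x ^ n * g' := by
  induction n with
  | zero => rw [pow_zero, pow_zero, mul_one, h]
  | succ n ih =>
    rw [pow_succ, ih, pow_succ]
    calc g * x ^ n * g' * (g * x * g') = g * x ^ n * (g' * g) * x * g' := by
          simp only [mul_assoc]
      _ = _ := by rw [h']; simp only [mul_assoc, mul_one]

theorem conj_nser {g g' x : A} (h : g * g' = 1) (h' : g' * g = 1) (c : ℕ → ℝ)
    (hx : IsNilpotent x) : g * nser c x * g' = nser c (g * x * g') := by
  obtain ⟨k, hk⟩ := hx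
  have hk' : (g * x * g') ^ k = 0 := by rw [conj_pow_eq h h', hk, mul_zero, zero_mul]
  rw [nser_eq_sum c hk, nser_eq_sum c hk', Finset.mul_sum, Finset.sum_mul]
  simp only [conj_pow_eq h h', mul_smul_comm, smul_mul_assoc]

theorem commute_nser (c : ℕ → ℝ) {x y : A} (h : Commute x y) : Commute (nser c x) y :=
  Commute.sum_left _ _ _ fun n _ => (h.pow_left n).smul_left (c n)

theorem isNilpotent_nser {c : ℕ → ℝ} (hc : c 0 = 0) {x : A} (hx : IsNilpotent x) :
    IsNilpotent (nser c x) := by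
  refine Commute.isNilpotent_sum (fun n _ => ?_) fun i j _ _ => ?_
  · rcases Nat.eq_zero_or_pos n with rfl | hn
    · rw [hc, zero_smul]; exact IsNilpotent.zero
    · exact (hx.pow_of_pos hn.ne').smul _
  · exact ((Commute.pow_pow_self x i j).smul_left _).smul_right _

theorem nex_eq_sum {x : A} {k : ℕ} (h : x ^ k = 0) :
    nex x = ∑ n ∈ range k, ((n.factorial : ℝ)⁻¹) • x ^ n := by
  exact nser_eq_sum _ h

theorem nlg_eq_sum {u : A} {k : ℕ} (h : (u - 1) ^ k = 0) :
    nlg u = ∑ n ∈ range k, ((-1 : ℝ) ^ (n + 1) / n) • (u - 1) ^ n := by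
  exact nser_eq_sum _ h

theorem nex_zero : nex (0 : A) = 1 := by
  rw [nex_eq_sum (pow_one 0)]
  simp

theorem nlg_one : nlg (1 : A) = 0 := by
  rw [nlg_eq_sum (k := 1) (by simp)]
  simp

theorem map_nex {F : Type*} [FunLike F A B] [AlgHomClass F ℝ A B] (φ : F) {x : A}
    (hx : IsNilpotent x) : φ (nex x) = nex (φ x) := by
  exact map_nser φ _ hx

theorem map_nlg {F : Type*} [FunLike F A B] [AlgHomClass F ℝ A B] (φ : F) {u : A}
    (hu : IsNilpotent (u - 1)) : φ (nlg u) = nlg (φ u) := by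
  have := map_nser φ (fun n => (-1 : ℝ) ^ (n + 1) / n) hu
  rw [map_sub, map_one] at this
  exact this

theorem conj_nex {g g' x : A} (h : g * g' = 1) (h' : g' * g = 1) (hx : IsNilpotent x) :
    g * nex x * g' = nex (g * x * g') := by
  exact conj_nser h h' _ hx

theorem conj_nlg {g g' u : A} (h : g * g' = 1) (h' : g' * g = 1) (hu : IsNilpotent (u - 1)) :
    g * nlg u * g' = nlg (g * u * g') := by
  have := conj_nser h h' (fun n => (-1 : ℝ) ^ (n + 1) / n) hu
  rw [mul_sub, sub_mul, mul_one, h] at this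
  exact this

theorem commute_nex {x y : A} (h : Commute x y) : Commute (nex x) y := by
  exact commute_nser _ h

theorem commute_nlg {u y : A} (h : Commute u y) : Commute (nlg u) y := by
  exact commute_nser _ (h.sub_left (Commute.one_left y))

theorem nex_add {x y : A} (h : Commute x y) (hx : IsNilpotent x) (hy : IsNilpotent y) :
    nex (x + y) = nex x * nex y := by
  let _ : Module ℚ A := Module.compHom A (algebraMap ℚ ℝ)
  have e : ∀ z : A, nex z = IsNilpotent.exp z := fun z => by
    unfold nex IsNilpotent.exp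
    refine Finset.sum_congr rfl fun n _ => ?_
    show _ = (algebraMap ℚ ℝ ((n.factorial : ℚ)⁻¹)) • z ^ n
    simp
  rw [e, e, e, IsNilpotent.exp_add_of_commute h hx hy]

theorem nex_mul_neg {x : A} (hx : IsNilpotent x) : nex x * nex (-x) = 1 := by
  rw [← nex_add (Commute.refl x).neg_right hx hx.neg, add_neg_cancel, nex_zero]

theorem nex_neg_mul {x : A} (hx : IsNilpotent x) : nex (-x) * nex x = 1 := by
  rw [← nex_add (Commute.refl x).neg_left hx.neg hx, neg_add_cancel, nex_zero]

theorem nex_add_smul {x : A} (hx : IsNilpotent x) (s t : ℝ) :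
    nex ((s + t) • x) = nex (s • x) * nex (t • x) := by
  rw [add_smul, nex_add (((Commute.refl x).smul_left s).smul_right t) (hx.smul s) (hx.smul t)]

theorem nex_nsmul {x : A} (hx : IsNilpotent x) (n : ℕ) : nex (n • x) = nex x ^ n := by
  induction n with
  | zero => rw [zero_smul, nex_zero, pow_zero]
  | succ n ih =>
    rw [succ_nsmul, nex_add ((Commute.refl x).smul_left n) (hx.smul n) hx, ih, pow_succ]

theorem isNilpotent_nex_sub_one {x : A} (hx : IsNilpotent x) : IsNilpotent (nex x - 1) := by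
  obtain ⟨k, hk⟩ := hx
  have hk' : x ^ (k + 1) = 0 := by rw [pow_succ, hk, zero_mul]
  have e : nex x - 1 = nser (fun n => if n = 0 then 0 else ((n.factorial : ℝ)⁻¹)) x := by
    rw [nex_eq_sum hk', nser_eq_sum _ hk', Finset.sum_range_succ', Finset.sum_range_succ']
    simp
  rw [e]
  exact isNilpotent_nser (by simp) ⟨k, hk⟩

theorem isNilpotent_nlg {u : A} (hu : IsNilpotent (u - 1)) : IsNilpotent (nlg u) := by
  exact isNilpotent_nser (by simp) hu

/-- divided powers -/
noncomputable def dpw (x : A) (n : ℕ) : A := ((n.factorial : ℝ)⁻¹) • x ^ n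

theorem dpw_zero (x : A) : dpw x 0 = 1 := by simp [dpw]

theorem dpw_succ (x : A) (n : ℕ) : ((n : ℝ) + 1) • dpw x (n + 1) = x * dpw x n := by
  unfold dpw
  rw [smul_smul, mul_smul_comm, pow_succ', Nat.factorial_succ]
  congr 1
  have : (n.factorial : ℝ) ≠ 0 := by positivity
  push_cast
  field_simp

theorem dpw_comm (x : A) (n : ℕ) : x * dpw x n = dpw x n * x := by
  unfold dpw
  rw [mul_smul_comm, smul_mul_assoc, ← pow_succ, ← pow_succ']

theorem dpw_eq_zero {x : A} {k n : ℕ} (h : x ^ k = 0) (hn : k ≤ n) : dpw x n = 0 := by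
  unfold dpw
  rw [pow_eq_zero_of_le hn h, smul_zero]

section Bil

variable {V : Type*} [AddCommGroup V] [Module ℝ V] (Φ : A →ₗ[ℝ] A →ₗ[ℝ] V)

theorem dpw_anti_succ (a b : A) (m : ℕ) :
    ((m : ℝ) + 1) • ∑ p ∈ antidiagonal (m + 1), Φ (dpw a p.1) (dpw b p.2) =
      ∑ p ∈ antidiagonal m,
        (Φ (a * dpw a p.1) (dpw b p.2) + Φ (dpw a p.1) (b * dpw b p.2)) := by
  have h1 : ∑ p ∈ antidiagonal (m + 1), (p.1 : ℝ) • Φ (dpw a p.1) (dpw b p.2) =
      ∑ p ∈ antidiagonal m, Φ (a * dpw a p.1) (dpw b p.2) := by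
    rw [Finset.Nat.sum_antidiagonal_succ]
    simp only [Nat.cast_zero, zero_smul, zero_add, ← dpw_succ, map_smul, LinearMap.smul_apply,
      Nat.cast_add, Nat.cast_one]
  have h2 : ∑ p ∈ antidiagonal (m + 1), (p.2 : ℝ) • Φ (dpw a p.1) (dpw b p.2) =
      ∑ p ∈ antidiagonal m, Φ (dpw a p.1) (b * dpw b p.2) := by
    rw [Finset.Nat.sum_antidiagonal_succ']
    simp only [Nat.cast_zero, zero_smul, zero_add, ← dpw_succ, map_smul, Nat.cast_add,
      Nat.cast_one]
  rw [Finset.sum_add_distrib, ← h1, ← h2, ← Finset.sum_add_distrib, Finset.smul_sum]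
  refine Finset.sum_congr rfl fun p hp => ?_
  rw [← add_smul, ← Nat.cast_add, Finset.HasAntidiagonal.mem_antidiagonal.1 hp, Nat.cast_add, Nat.cast_one]

theorem bil_nex {a b : A} {k : ℕ} (ha : a ^ k = 0) (hb : b ^ k = 0) :
    Φ (nex a) (nex b) =
      ∑ m ∈ range (2 * k + 1), ∑ p ∈ antidiagonal m, Φ (dpw a p.1) (dpw b p.2) := by
  classical
  rw [← Finset.sum_biUnion (fun i _ j _ hij => by
    rw [Function.onFun, Finset.disjoint_left]
    intro p h1 h2
    exact hij ((Finset.HasAntidiagonal.mem_antidiagonal.1 h1).symm.trans (Finset.HasAntidiagonal.mem_antidiagonal.1 h2)))]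
  have e : Φ (nex a) (nex b) = ∑ p ∈ range k ×ˢ range k, Φ (dpw a p.1) (dpw b p.2) := by
    rw [Finset.sum_product, nex_eq_sum ha, nex_eq_sum hb, LinearMap.map_sum₂]
    exact Finset.sum_congr rfl fun i _ => map_sum _ _ _
  rw [e]
  refine Finset.sum_subset (fun p hp => ?_) fun p _ hp => ?_
  · rw [Finset.mem_product, Finset.mem_range, Finset.mem_range] at hp
    exact Finset.mem_biUnion.2 ⟨p.1 + p.2, Finset.mem_range.2 (by omega),
      Finset.HasAntidiagonal.mem_antidiagonal.2 rfl⟩
  · rw [Finset.mem_product, Finset.mem_range, Finset.mem_range, not_and_or, not_lt, not_lt] at hp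
    rcases hp with hp | hp
    · rw [dpw_eq_zero ha hp, map_zero, LinearMap.zero_apply]
    · rw [dpw_eq_zero hb hp, map_zero]

end Bil

/-- the commutator as a bilinear map -/
noncomputable def brA : A →ₗ[ℝ] Module.End ℝ A := LinearMap.mul ℝ A - (LinearMap.mul ℝ A).flip

@[simp] theorem brA_apply (x y : A) : brA x y = x * y - y * x := rfl

theorem smul_succ_cancel {V : Type*} [AddCommGroup V] [Module ℝ V] (m : ℕ) {a b : V}
    (h : ((m : ℝ) + 1) • a = ((m : ℝ) + 1) • b) : a = b :=
  smul_right_injective V (by positivity : ((m : ℝ) + 1) ≠ 0) h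

theorem dpw_anti_conj (x y : A) (m : ℕ) :
    ∑ p ∈ antidiagonal m, dpw x p.1 * y * dpw (-x) p.2 = dpw (brA x) m y := by
  induction m with
  | zero => simp [dpw_zero]
  | succ m ih =>
    refine smul_succ_cancel m ?_
    have := dpw_anti_succ ((LinearMap.mul ℝ A).comp (LinearMap.mulRight ℝ y)) x (-x) m
    simp only [LinearMap.comp_apply, LinearMap.mulRight_apply, LinearMap.mul_apply'] at this
    rw [this, ← LinearMap.smul_apply, dpw_succ, Module.End.mul_apply, ← ih, map_sum]
    refine Finset.sum_congr rfl fun p _ => ?_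
    rw [dpw_comm (-x), brA_apply]
    simp only [mul_assoc, mul_neg, sub_eq_add_neg]

/-- derivative of the exponential -/
theorem deriv_nex (D : A →ₗ[ℝ] A) (hD : ∀ a b, D (a * b) = D a * b + a * D b) {x : A} {k : ℕ}
    (hx : x ^ k = 0) :
    nex (-x) * D (nex x) = ∑ m ∈ range (2 * k), ((m : ℝ) + 1)⁻¹ • dpw (brA (-x)) m (D x) := by
  have hx' : (-x) ^ k = 0 := by rw [neg_pow, hx, mul_zero]
  have h1 : D 1 = 0 := by
    have := hD 1 1
    rw [mul_one, mul_one, one_mul] at this
    exact left_eq_add.1 this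
  have h := bil_nex ((LinearMap.mul ℝ A).compl₂ D) hx' hx
  simp only [LinearMap.compl₂_apply, LinearMap.mul_apply'] at h
  rw [h, Finset.sum_range_succ']
  simp only [Finset.Nat.antidiagonal_zero, Finset.sum_singleton, dpw_zero, h1, mul_zero, add_zero]
  refine Finset.sum_congr rfl fun m _ => smul_succ_cancel m ?_
  have := dpw_anti_succ ((LinearMap.mul ℝ A).compl₂ D) (-x) x m
  simp only [LinearMap.compl₂_apply, LinearMap.mul_apply'] at this
  rw [this, smul_smul, mul_inv_cancel₀ (by positivity), one_smul, ← dpw_anti_conj, neg_neg]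
  refine Finset.sum_congr rfl fun p _ => ?_
  rw [hD, dpw_comm (-x)]
  simp only [mul_assoc, mul_neg, neg_mul, mul_add]
  abel

theorem deriv_nex_comm (D : A →ₗ[ℝ] A) (hD : ∀ a b, D (a * b) = D a * b + a * D b) {x : A}
    (hx : IsNilpotent x) (hc : Commute x (D x)) : D (nex x) = nex x * D x := by
  obtain ⟨k, hk⟩ := hx
  have hk' : x ^ (k + 1) = 0 := by rw [pow_succ, hk, zero_mul]
  have h := deriv_nex D hD hk'
  rw [show 2 * (k + 1) = 2 * k + 1 + 1 by ring, Finset.sum_range_succ', Finset.sum_eq_zero] at h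
  · simp only [Nat.cast_zero, zero_add, inv_one, dpw_zero, one_smul, Module.End.one_apply] at h
    rw [← h, ← mul_assoc, nex_mul_neg ⟨k, hk⟩, one_mul]
  · intro m _
    have : brA (-x) (D x) = 0 := by rw [brA_apply, hc.neg_left.eq, sub_self]
    unfold dpw
    rw [pow_succ, LinearMap.smul_apply, Module.End.mul_apply, this, map_zero, smul_zero, smul_zero]

theorem deriv_pow_comm (D : A →ₗ[ℝ] A) (hD : ∀ a b, D (a * b) = D a * b + a * D b) {x : A}
    (hc : Commute x (D x)) (n : ℕ) : D (x ^ (n + 1)) = ((n : ℝ) + 1) • (x ^ n * D x) := by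
  induction n with
  | zero => simp
  | succ n ih =>
    rw [pow_succ, hD, ih, smul_mul_assoc, mul_assoc, ← hc.eq, ← mul_assoc, ← pow_succ]
    push_cast
    rw [add_smul ((n : ℝ) + 1) (1 : ℝ), one_smul]

/-- differentiation of polynomials over `A` as a real linear map -/
noncomputable def pder : Polynomial A →ₗ[ℝ] Polynomial A :=
  (Polynomial.derivative (R := A)).restrictScalars ℝ

theorem pder_mul (a b : Polynomial A) : pder (a * b) = pder a * b + a * pder b :=
  Polynomial.derivative_mul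

theorem coeff_pder (p : Polynomial A) (n : ℕ) :
    (pder p).coeff n = ((n : ℝ) + 1) • p.coeff (n + 1) := by
  show (Polynomial.derivative p).coeff n = _
  rw [Polynomial.coeff_derivative, Algebra.smul_def, Algebra.commutes]
  simp

/-- evaluation at a real number -/
noncomputable def pev (t : ℝ) : Polynomial A →ₐ[ℝ] A :=
  Polynomial.eval₂AlgHom (AlgHom.id ℝ A) (algebraMap ℝ A t)
    fun a => (Algebra.commutes t a).symm

theorem pev_C (t : ℝ) (a : A) : pev t (Polynomial.C a) = a := Polynomial.eval₂_C _ _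

theorem pev_X (t : ℝ) : pev t (Polynomial.X : Polynomial A) = algebraMap ℝ A t :=
  Polynomial.eval₂_X _ _

theorem pev_eq_of_pder {p : Polynomial A} (h : pder p = 0) (s t : ℝ) : pev s p = pev t p := by
  have : p = Polynomial.C (p.coeff 0) := by
    ext n
    cases n with
    | zero => simp
    | succ n =>
      have h1 := coeff_pder p n
      rw [h, Polynomial.coeff_zero] at h1
      rw [Polynomial.coeff_C_succ]
      exact smul_succ_cancel n (by rw [← h1, smul_zero])
  rw [this, pev_C, pev_C]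

theorem deriv_nex_nlg (D : A →ₗ[ℝ] A) (hD : ∀ a b, D (a * b) = D a * b + a * D b) {y : A}
    (hy : IsNilpotent y) (hc : Commute y (D y)) : D (nex (-nlg (1 + y)) * (1 + y)) = 0 := by
  obtain ⟨k, hyk⟩ := hy
  have h1 : D 1 = 0 := by
    have := hD 1 1
    rw [mul_one, mul_one, one_mul] at this
    exact left_eq_add.1 this
  have hyk' : (1 + y - 1) ^ (k + 1) = 0 := by rw [add_sub_cancel_left, pow_succ, hyk, zero_mul]
  have hnil : IsNilpotent (nlg (1 + y)) := isNilpotent_nlg ⟨_, hyk'⟩
  have hDL : D (nlg (1 + y)) = (∑ j ∈ range k, (-y) ^ j) * D y := by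
    rw [nlg_eq_sum hyk', add_sub_cancel_left, Finset.sum_range_succ', map_add, map_sum,
      Finset.sum_mul]
    simp only [Nat.cast_zero, div_zero, zero_smul, map_zero, add_zero, map_smul]
    refine Finset.sum_congr rfl fun j _ => ?_
    rw [deriv_pow_comm D hD hc, smul_smul, neg_pow y, mul_assoc]
    have : ((-1 : ℝ) ^ (j + 1 + 1) / ((j + 1 : ℕ) : ℝ) * ((j : ℝ) + 1)) = (-1) ^ j := by
      push_cast
      field_simp
      ring
    rw [this, Algebra.smul_def]
    simp
  have hgeo : (∑ j ∈ range k, (-y) ^ j) * (1 + y) = 1 := by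
    have := geom_sum_mul_neg (-y) k
    rw [sub_neg_eq_add, neg_pow y k, hyk, mul_zero, sub_zero] at this
    exact this
  have hcL : Commute (nlg (1 + y)) (D (nlg (1 + y))) := by
    rw [hDL]
    refine commute_nlg (((Commute.one_left _).add_left ?_))
    exact (Commute.sum_right _ _ _ fun j _ => ((Commute.refl y).neg_right.pow_right j)).mul_right hc
  rw [hD, deriv_nex_comm D hD hnil.neg (by
    rw [map_neg]; exact hcL.neg_left.neg_right), map_neg, map_add, h1, zero_add, hDL, mul_assoc,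
    ← mul_add, neg_mul, mul_assoc, ((Commute.one_right _).add_right hc.symm).eq, ← mul_assoc,
    hgeo, one_mul, neg_add_cancel, mul_zero]

theorem CX_pow (a : A) (k : ℕ) :
    (Polynomial.C a * Polynomial.X) ^ k = Polynomial.C (a ^ k) * Polynomial.X ^ k := by
  rw [(Polynomial.commute_X _).symm.mul_pow, ← map_pow]

theorem pder_CX (a : A) : pder (Polynomial.C a * Polynomial.X) = Polynomial.C a := by
  show Polynomial.derivative _ = _
  simp

theorem pev_CX (t : ℝ) (a : A) : pev t (Polynomial.C a * Polynomial.X) = t • a := by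
  rw [map_mul, pev_C, pev_X, Algebra.smul_def, Algebra.commutes]

theorem commute_CX (a : A) :
    Commute (Polynomial.C a * Polynomial.X) (pder (Polynomial.C a * Polynomial.X)) := by
  rw [pder_CX]
  exact (Commute.refl _).mul_left (Polynomial.commute_X _)

theorem isNilpotent_CX {a : A} (ha : IsNilpotent a) :
    IsNilpotent (Polynomial.C a * Polynomial.X) := by
  obtain ⟨k, hk⟩ := ha
  exact ⟨k, by rw [CX_pow, hk, map_zero, zero_mul]⟩

theorem map_nex_nlg (φ : A →ₐ[ℝ] B) {y : A} (hy : IsNilpotent y) :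
    φ (nex (-nlg (1 + y)) * (1 + y)) = nex (-nlg (1 + φ y)) * (1 + φ y) := by
  have hy' : IsNilpotent (1 + y - 1) := by rwa [add_sub_cancel_left]
  rw [map_mul, map_nex _ (isNilpotent_nlg hy').neg, map_neg, map_nlg _ hy', map_add, map_one]

theorem nex_nlg {u : A} (hu : IsNilpotent (u - 1)) : nex (nlg u) = u := by
  have hy := isNilpotent_CX hu
  have h := ((map_nex_nlg (pev 1) hy).symm.trans
    (pev_eq_of_pder (deriv_nex_nlg (A := Polynomial A) pder pder_mul hy (commute_CX _)) 1 0)).trans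
      (map_nex_nlg (pev 0) hy)
  rw [pev_CX, pev_CX, zero_smul, one_smul,
    add_zero, nlg_one, neg_zero, nex_zero, mul_one, add_sub_cancel] at h
  have h2 := nex_mul_neg (isNilpotent_nlg hu)
  calc nex (nlg u) = nex (nlg u) * (nex (-nlg u) * u) := by rw [h, mul_one]
    _ = u := by rw [← mul_assoc, h2, one_mul]

theorem eq_zero_of_nex_eq_one {z : A} (hz : IsNilpotent z) (h : nex z = 1) : z = 0 := by
  obtain ⟨k, hk⟩ := hz
  have key : ∀ k : ℕ, z ^ (k + 1) = 0 → z = 0 := by
    intro k
    induction k with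
    | zero => intro h; simpa using h
    | succ k ih =>
      intro hk
      refine ih ?_
      rw [nex_eq_sum hk, Finset.sum_range_succ', Finset.sum_range_succ'] at h
      simp only [zero_add, Nat.factorial_one, Nat.cast_one, inv_one, pow_one, one_smul,
        Nat.factorial_zero, pow_zero, add_eq_right] at h
      have h2 := congrArg (fun w => z ^ k * w) h
      simp only [mul_add, mul_zero, Finset.mul_sum, mul_smul_comm, ← pow_add] at h2
      rw [Finset.sum_eq_zero, zero_add, ← pow_succ] at h2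
      · exact h2
      · intro n _
        rw [pow_eq_zero_of_le (by omega) hk, smul_zero]
  exact key k (by rw [pow_succ, hk, zero_mul])

theorem nex_inj_of_commute {x y : A} (hc : Commute x y) (hx : IsNilpotent x) (hy : IsNilpotent y)
    (h : nex x = nex y) : x = y := by
  rw [← sub_eq_zero]
  refine eq_zero_of_nex_eq_one (hc.isNilpotent_sub hx hy) ?_
  rw [sub_eq_add_neg, nex_add hc.neg_right hx hy.neg, h, nex_mul_neg hy]

theorem nlg_nex {x : A} (hx : IsNilpotent x) : nlg (nex x) = x := by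
  have h1 := isNilpotent_nex_sub_one hx
  exact nex_inj_of_commute (commute_nlg (commute_nex (Commute.refl x))) (isNilpotent_nlg h1) hx
    (nex_nlg h1)

theorem nex_inj {x y : A} (hx : IsNilpotent x) (hy : IsNilpotent y) (h : nex x = nex y) :
    x = y := by
  rw [← nlg_nex hx, h, nlg_nex hy]

theorem nlg_inj {u v : A} (hu : IsNilpotent (u - 1)) (hv : IsNilpotent (v - 1))
    (h : nlg u = nlg v) : u = v := by
  rw [← nex_nlg hu, h, nex_nlg hv]

theorem nlg_mul {u v : A} (h : Commute u v) (hu : IsNilpotent (u - 1))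
    (hv : IsNilpotent (v - 1)) : nlg (u * v) = nlg u + nlg v := by
  have hc : Commute (nlg u) (nlg v) := commute_nlg (commute_nlg h.symm).symm
  have h1 := isNilpotent_nlg hu
  have h2 := isNilpotent_nlg hv
  rw [← nlg_nex (hc.isNilpotent_add h1 h2), nex_add hc h1 h2, nex_nlg hu, nex_nlg hv]

theorem nlg_pow {u : A} (hu : IsNilpotent (u - 1)) (n : ℕ) : nlg (u ^ n) = n • nlg u := by
  have h1 := isNilpotent_nlg hu
  rw [← nlg_nex (h1.smul n), nex_nsmul h1, nex_nlg hu]

theorem nlg_inv {u v : A} (hu : IsNilpotent (u - 1)) (h : u * v = 1) : nlg v = -nlg u := by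
  have h1 := isNilpotent_nlg hu
  have h2 : v = nex (-nlg u) := by
    calc v = nex (-nlg u) * nex (nlg u) * v := by rw [nex_neg_mul h1, one_mul]
      _ = _ := by rw [nex_nlg hu, mul_assoc, h, mul_one]
  rw [h2, nlg_nex h1.neg]

/-- denominators of the logarithm -/
theorem factorial_smul_nlg_mem (S : Subring A) {u : A} (hu : u ∈ S) {k : ℕ}
    (h : (u - 1) ^ k = 0) : k.factorial • nlg u ∈ S := by
  rw [nlg_eq_sum h, Finset.smul_sum]
  refine S.sum_mem fun n hn => ?_
  rcases Nat.eq_zero_or_pos n with rfl | h0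
  · simp
  obtain ⟨q, hq⟩ := Nat.dvd_factorial h0 (Finset.mem_range.1 hn).le
  have : k.factorial • (((-1 : ℝ) ^ (n + 1) / n) • (u - 1) ^ n) =
      q • ((-1) ^ (n + 1) * (u - 1) ^ n) := by
    rw [← Nat.cast_smul_eq_nsmul ℝ, ← Nat.cast_smul_eq_nsmul ℝ, smul_smul, hq]
    have h1 : (n : ℝ) ≠ 0 := by positivity
    have h2 : ((n * q : ℕ) : ℝ) * ((-1) ^ (n + 1) / n) = q * (-1) ^ (n + 1) := by
      push_cast; field_simp
    rw [h2, mul_smul]
    congr 1
    rw [Algebra.smul_def]
    simp
  rw [this]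
  exact nsmul_mem (S.mul_mem (S.pow_mem (S.neg_mem S.one_mem) _)
    (S.pow_mem (S.sub_mem hu S.one_mem) _)) _

/-- denominators of the exponential -/
theorem factorial_smul_nex_mem (S : Subring A) {x : A} (hx : x ∈ S) {k : ℕ}
    (h : x ^ k = 0) : k.factorial • nex x ∈ S := by
  rw [nex_eq_sum h, Finset.smul_sum]
  refine S.sum_mem fun n hn => ?_
  obtain ⟨q, hq⟩ := Nat.factorial_dvd_factorial (Finset.mem_range.1 hn).le
  have : k.factorial • (((n.factorial : ℝ)⁻¹) • x ^ n) = q • x ^ n := by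
    rw [← Nat.cast_smul_eq_nsmul ℝ, ← Nat.cast_smul_eq_nsmul ℝ, smul_smul, hq]
    have h1 : (n.factorial : ℝ) ≠ 0 := by positivity
    congr 1
    push_cast; field_simp
  rw [this]
  exact nsmul_mem (S.pow_mem hx _) _

section End

variable {V : Type*} [AddCommGroup V] [Module ℝ V]

theorem nex_apply_eq_sum {T : Module.End ℝ V} (hT : IsNilpotent T) {v : V} {k : ℕ}
    (h : (T ^ k) v = 0) : nex T v = ∑ n ∈ range k, ((n.factorial : ℝ)⁻¹) • (T ^ n) v := by
  obtain ⟨l, hl⟩ := hT
  have hl' : T ^ (k + l) = 0 := by rw [pow_add, hl, mul_zero]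
  rw [nex_eq_sum hl', LinearMap.sum_apply]
  symm
  refine Finset.sum_subset (Finset.range_subset_range.2 (Nat.le_add_right k l)) fun n _ hn => ?_
  rw [Finset.mem_range, not_lt] at hn
  obtain ⟨j, rfl⟩ := Nat.exists_eq_add_of_le' hn
  rw [pow_add, Module.End.mul_apply, h, map_zero, smul_zero]

theorem nser_apply_mem (c : ℕ → ℝ) {T : Module.End ℝ V} {W : Submodule ℝ V}
    (h : ∀ v ∈ W, T v ∈ W) : ∀ v ∈ W, nser c T v ∈ W := by
  intro v hv
  unfold nser
  rw [LinearMap.sum_apply]
  have : ∀ n : ℕ, (T ^ n) v ∈ W := by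
    intro n
    induction n with
    | zero => exact hv
    | succ n ih => rw [pow_succ']; exact h _ ih
  exact W.sum_mem fun n _ => W.smul_mem _ (this n)

theorem nex_apply_mem {T : Module.End ℝ V} {W : Submodule ℝ V} (h : ∀ v ∈ W, T v ∈ W) :
    ∀ v ∈ W, nex T v ∈ W := by
  exact nser_apply_mem _ h

theorem nlg_apply_mem {T : Module.End ℝ V} {W : Submodule ℝ V} (h : ∀ v ∈ W, T v ∈ W) :
    ∀ v ∈ W, nlg T v ∈ W := by
  exact nser_apply_mem _ fun v hv => W.sub_mem (h v hv) hv

end End

theorem brA_pow_eq_zero {x : A} {k : ℕ} (hx : x ^ k = 0) : brA x ^ (2 * k) = 0 := by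
  have hx' : (-x) ^ k = 0 := by rw [neg_pow, hx, mul_zero]
  ext y
  have h := dpw_anti_conj x y (2 * k)
  rw [Finset.sum_eq_zero] at h
  · unfold dpw at h
    rw [LinearMap.smul_apply] at h
    exact (smul_eq_zero.1 h.symm).resolve_left (by positivity)
  · intro p hp
    have := Finset.HasAntidiagonal.mem_antidiagonal.1 hp
    rcases le_or_gt k p.1 with h1 | h1
    · rw [dpw_eq_zero hx h1, zero_mul, zero_mul]
    · rw [dpw_eq_zero hx' (by omega : k ≤ p.2), mul_zero]

theorem isNilpotent_brA {x : A} (hx : IsNilpotent x) : IsNilpotent (brA x) := by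
  obtain ⟨k, hk⟩ := hx
  exact ⟨_, brA_pow_eq_zero hk⟩

/-- `Ad (exp x) = exp (ad x)` -/
theorem nex_conj {x : A} (hx : IsNilpotent x) (y : A) :
    nex x * y * nex (-x) = nex (brA x) y := by
  obtain ⟨k, hk⟩ := hx
  have hx' : (-x) ^ k = 0 := by rw [neg_pow, hk, mul_zero]
  have h := bil_nex ((LinearMap.mul ℝ A).comp (LinearMap.mulRight ℝ y)) hk hx'
  simp only [LinearMap.comp_apply, LinearMap.mulRight_apply, LinearMap.mul_apply',
    dpw_anti_conj] at h
  rw [h, nex_eq_sum (k := 2 * k + 1) (by rw [pow_succ, brA_pow_eq_zero hk, zero_mul]),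
    LinearMap.sum_apply]
  rfl

/-- a subspace invariant under `ad x` is invariant under `Ad (exp x)` -/
theorem nex_conj_mem {x : A} (hx : IsNilpotent x) {W : Submodule ℝ A} (h : ∀ y ∈ W, brA x y ∈ W) :
    ∀ y ∈ W, nex x * y * nex (-x) ∈ W := by
  intro y hy
  rw [nex_conj hx]
  exact nex_apply_mem h y hy

/-- a subspace invariant under `Ad u` is invariant under `ad (log u)` -/
theorem brA_nlg_mem {u v : A} (hu : IsNilpotent (u - 1)) (huv : u * v = 1) {W : Submodule ℝ A}
    (h : ∀ y ∈ W, u * y * v ∈ W) : ∀ y ∈ W, brA (nlg u) y ∈ W := by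
  have h1 := isNilpotent_nlg hu
  have h2 : v = nex (-nlg u) := by
    calc v = nex (-nlg u) * nex (nlg u) * v := by rw [nex_neg_mul h1, one_mul]
      _ = _ := by rw [nex_nlg hu, mul_assoc, huv, mul_one]
  rw [← nlg_nex (isNilpotent_brA h1)]
  refine nlg_apply_mem fun y hy => ?_
  rw [← nex_conj h1, nex_nlg hu, ← h2]
  exact h y hy

/-- a multiplicatively closed nilpotent subspace -/
structure NilI (J : Submodule ℝ A) (M : ℕ) : Prop where
  mul : ∀ x ∈ J, ∀ y ∈ J, x * y ∈ J
  nil : J ^ M = ⊥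

namespace NilI

variable {J : Submodule ℝ A} {M : ℕ}

theorem of_filtration {F : ℕ → Submodule ℝ A} (h0 : F 0 = ⊤) (ha : Antitone F)
    (hm : ∀ i j, ∀ x ∈ F i, ∀ y ∈ F j, x * y ∈ F (i + j)) (hb : F M = ⊥) : NilI (F 1) M := by
  refine ⟨fun x hx y hy => ha (by norm_num) (hm 1 1 x hx y hy), ?_⟩
  have : ∀ n, F 1 ^ n ≤ F n := by
    intro n
    induction n with
    | zero => rw [h0]; exact le_top
    | succ n ih =>
      rw [pow_succ]
      exact Submodule.mul_le.2 fun x hx y hy => hm n 1 x (ih hx) y hy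
  exact le_bot_iff.1 (hb ▸ this M)

theorem mul_le (h : NilI J M) : J * J ≤ J := Submodule.mul_le.2 h.mul

theorem pow_succ_mem (h : NilI J M) {x : A} (hx : x ∈ J) (n : ℕ) : x ^ (n + 1) ∈ J := by
  induction n with
  | zero => rwa [zero_add, pow_one]
  | succ n ih => rw [pow_succ]; exact h.mul _ ih _ hx

theorem pow_eq_zero (h : NilI J M) {x : A} (hx : x ∈ J) : x ^ M = 0 := by
  have := Submodule.pow_mem_pow J hx M
  rwa [h.nil, Submodule.mem_bot] at this

theorem isNilpotent (h : NilI J M) {x : A} (hx : x ∈ J) : IsNilpotent x := ⟨M, h.pow_eq_zero hx⟩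

theorem brA_mem (h : NilI J M) {x y : A} (hx : x ∈ J) (hy : y ∈ J) : brA x y ∈ J := by
  exact J.sub_mem (h.mul x hx y hy) (h.mul y hy x hx)

theorem mul_sub_one_mem (h : NilI J M) {u v : A} (hu : u - 1 ∈ J) (hv : v - 1 ∈ J) :
    u * v - 1 ∈ J := by
  have : u * v - 1 = (u - 1) * (v - 1) + (u - 1) + (v - 1) := by noncomm_ring
  rw [this]
  exact J.add_mem (J.add_mem (h.mul _ hu _ hv) hu) hv

theorem nex_sub_mem (h : NilI J M) {x : A} (hx : x ∈ J) : nex x - 1 - x ∈ J * J := by
  have hk : x ^ (M + 2) = 0 := by rw [pow_add, h.pow_eq_zero hx, zero_mul]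
  rw [nex_eq_sum hk, Finset.sum_range_succ', Finset.sum_range_succ']
  simp only [zero_add, Nat.factorial_one, Nat.cast_one, inv_one, pow_one, one_smul,
    Nat.factorial_zero, pow_zero, add_sub_cancel_right]
  refine Submodule.sum_mem _ fun n _ => Submodule.smul_mem _ _ ?_
  rw [pow_succ]
  exact Submodule.mul_mem_mul (h.pow_succ_mem hx n) hx

theorem nlg_sub_mem (h : NilI J M) {u : A} (hu : u - 1 ∈ J) : nlg u - (u - 1) ∈ J * J := by
  have hk : (u - 1) ^ (M + 2) = 0 := by rw [pow_add, h.pow_eq_zero hu, zero_mul]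
  rw [nlg_eq_sum hk, Finset.sum_range_succ', Finset.sum_range_succ']
  simp only [zero_add, Nat.cast_one, pow_one, Nat.cast_zero, div_zero, zero_smul, add_zero,
    div_one, even_two, Even.neg_pow, one_pow, one_smul, add_sub_cancel_right, Nat.reduceAdd]
  refine Submodule.sum_mem _ fun n _ => Submodule.smul_mem _ _ ?_
  rw [pow_succ]
  exact Submodule.mul_mem_mul (h.pow_succ_mem hu n) hu

theorem nex_sub_one_mem (h : NilI J M) {x : A} (hx : x ∈ J) : nex x - 1 ∈ J := by
  have := J.add_mem (h.mul_le (h.nex_sub_mem hx)) hx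
  rwa [sub_add_cancel] at this

theorem nlg_mem (h : NilI J M) {u : A} (hu : u - 1 ∈ J) : nlg u ∈ J := by
  have := J.add_mem (h.mul_le (h.nlg_sub_mem hu)) hu
  rwa [sub_add_cancel] at this

end NilI

end Crest.Agent.R182
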