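import Mathlib

/-! Row 182, block L1 (b1): Malcev series and the unipotent model of a nilpotent normal subgroup. -/

set_option autoImplicit false
set_option linter.dupNamespace false

namespace Crest.Agent.R182

universe u

/-- a central series of `N` with infinite cyclic factors `Q i / Q (i + 1) = ⟨e i⟩` -/
structure Malcev {P : Type*} [Group P] (N : Subgroup P) where
  /-- Hirsch length -/
  m : ℕ
  /-- the series -/
  Q : ℕ → Subgroup P
  /-- the Malcev basis -/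
  e : ℕ → P
  /-- the leading coordinate on `Q i` -/
  a : ℕ → P → ℤ
  top : Q 0 = N
  bot : Q m = ⊥
  anti : ∀ i, Q (i + 1) ≤ Q i
  e_mem : ∀ i < m, e i ∈ Q i
  a_e : ∀ i < m, a i (e i) = 1
  a_mul : ∀ i < m, ∀ x ∈ Q i, ∀ y ∈ Q i, a i (x * y) = a i x + a i y
  a_ker : ∀ i < m, ∀ x ∈ Q i, (a i x = 0 ↔ x ∈ Q (i + 1))
  central : ∀ i, ∀ x ∈ N, ∀ y ∈ Q i, x * y * x⁻¹ * y⁻¹ ∈ Q (i + 1)

/-- `P` sits in a filtered real algebra `A`; exactly the elements of `N` are unipotent, and the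
functionals `ℓ i` read the Malcev coordinates -/
structure Swan {P : Type*} [Group P] {N : Subgroup P} (B : Malcev N) (A : Type*) [Ring A]
    [Algebra ℝ A] where
  /-- length of the filtration -/
  M : ℕ
  /-- the filtration by two-sided ideals -/
  F : ℕ → Submodule ℝ A
  F_zero : F 0 = ⊤
  F_anti : Antitone F
  F_mul : ∀ i j, ∀ x ∈ F i, ∀ y ∈ F j, x * y ∈ F (i + j)
  F_bot : F M = ⊥
  /-- the representation of the whole of `P` -/
  ρ : P →* A
  ρ_sub : ∀ g, ρ g - 1 ∈ F 1 ↔ g ∈ N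
  /-- coordinate functionals -/
  ℓ : ℕ → A →ₗ[ℝ] ℝ
  ℓ_ρ : ∀ i < B.m, ∀ x ∈ B.Q i, ℓ i (ρ x) = B.a i x
  ℓ_ker : ∀ i < B.m, ∀ T : A, ∀ n ∈ B.Q (i + 1), ℓ i (T * (ρ n - 1)) = 0
  ℓ_int : ∀ i x, ∃ z : ℤ, ℓ i (ρ x) = z

/-- block (b1) -/
def SwanStmt : Prop :=
  ∀ (P : Type u) [Group P] (N : Subgroup P) [N.Normal] (B : Malcev N),
    ∃ (A : Type u) (_ : Ring A) (_ : Algebra ℝ A), Nonempty (Swan B A)

end Crest.Agent.R182
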