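import Crest.Agent.R182.SESer
import Crest.Agent.R182.LASwan0

/-! Row 182, block L1 (a): the nilpotent normal subgroup and its Malcev series. -/

set_option autoImplicit false
set_option linter.dupNamespace false

namespace Crest.Agent.R182

open Crest.GroupTheory

variable {G : Type*} [Group G]

/-- polycyclic groups are virtually torsion-free -/
theorem PC.exists_tf {H : Subgroup G} (h : PC H) :
    ∃ H₀ : Subgroup G, H₀ ≤ H ∧ H₀.relIndex H ≠ 0 ∧ ∀ x ∈ H₀, ∀ n : ℕ, 0 < n → x ^ n = 1 → x = 1 := by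
  induction h with
  | bot => exact ⟨⊥, le_rfl, by simp, fun x hx _ _ _ => Subgroup.mem_bot.1 hx⟩
  | step H t hH h1 h2 ih =>
    obtain ⟨H₀, h0, hi, htf⟩ := ih
    by_cases hm : ∃ m : ℕ, 0 < m ∧ t ^ m ∈ H
    · obtain ⟨m, hm, htm⟩ := hm
      have h3 := relIndex_sup_zpowers (le_refl H) (by simp) t h1 h2 hm
      rw [sup_eq_left.2 (Subgroup.zpowers_le.2 htm)] at h3
      exact ⟨H₀, h0.trans le_sup_left, Subgroup.relIndex_ne_zero_trans hi h3, htf⟩
    · push Not at hm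
      obtain ⟨H₁, h10, hi1, k1, k2⟩ := exists_norm_le hH.fg h0 hi t h1 h2
      have h3 := relIndex_sup_zpowers (h10.trans h0) hi1 t h1 h2 one_pos
      rw [pow_one] at h3
      refine ⟨_, sup_le_sup_right (h10.trans h0) _, h3, fun y hy n hn hyn => ?_⟩
      obtain ⟨x, hx, k, rfl⟩ := (mem_sup_zpowers k1 k2).1 hy
      have hpow : ∀ j : ℕ, (x * t ^ k) ^ j * (t ^ (k * j))⁻¹ ∈ H := by
        intro j
        induction j with
        | zero => simp
        | succ j ihj =>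
          have e : (x * t ^ k) ^ (j + 1) * (t ^ (k * ((j + 1 : ℕ) : ℤ)))⁻¹ =
              x * (t ^ k * ((x * t ^ k) ^ j * (t ^ (k * j))⁻¹) * (t ^ k)⁻¹) := by
            rw [pow_succ']
            generalize (x * t ^ k) ^ j = u
            push_cast
            group
          rw [e]
          exact H.mul_mem (h0 (h10 hx)) (conj_mem_of_mem_sup h1 h2
            (Subgroup.mem_sup_right (Subgroup.zpow_mem_zpowers t k)) _ ihj)
      have h4 := hpow n
      rw [hyn, one_mul, inv_mem_iff] at h4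
      have hk : k = 0 := by
        by_contra hk
        have hne : k * n ≠ 0 := mul_ne_zero hk (by exact_mod_cast hn.ne')
        refine hm (k * n).natAbs (Int.natAbs_pos.2 hne) ?_
        rcases Int.natAbs_eq (k * n) with e | e
        · rw [← zpow_natCast, ← e]; exact h4
        · rw [← zpow_natCast, ← inv_mem_iff, ← zpow_neg, ← e]; exact h4
      subst hk
      rw [zpow_zero, mul_one] at hyn ⊢
      exact htf x (h10 hx) n hn hyn

theorem exists_isolated (hG : PC (⊤ : Subgroup G)) (B : Subgroup G) [B.Normal] :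
    ∃ K : Subgroup G, K.FiniteIndex ∧ ∀ x ∈ K, ∀ n : ℕ, 0 < n → x ^ n ∈ B → x ∈ B := by
  have h := hG.map (QuotientGroup.mk' B)
  rw [← MonoidHom.range_eq_map, MonoidHom.range_eq_top.2 (QuotientGroup.mk'_surjective B)] at h
  obtain ⟨K, -, hi, htf⟩ := h.exists_tf
  refine ⟨K.comap (QuotientGroup.mk' B), ⟨?_⟩, fun x hx n hn hxn => ?_⟩
  · rw [Subgroup.index_comap_of_surjective _ (QuotientGroup.mk'_surjective B)]
    rwa [Subgroup.relIndex_top_right] at hi
  · refine (QuotientGroup.eq_one_iff x).1 (htf _ hx n hn ?_)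
    rw [← QuotientGroup.mk_pow]
    exact (QuotientGroup.eq_one_iff _).2 hxn

/-- `A` has a series with infinite cyclic factors centralised by `N` -/
inductive MS (N : Subgroup G) : Subgroup G → Prop
  | bot : MS N ⊥
  | step (A B : Subgroup G) (e : G) (a : G → ℤ) : MS N B → B ≤ A → e ∈ A → a e = 1 →
      (∀ x ∈ A, ∀ y ∈ A, a (x * y) = a x + a y) → (∀ x ∈ A, (a x = 0 ↔ x ∈ B)) →
      (∀ x ∈ N, ∀ y ∈ A, x * y * x⁻¹ * y⁻¹ ∈ B) → MS N A

theorem MS.series {N A : Subgroup G} (h : MS N A) :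
    ∃ (m : ℕ) (Q : ℕ → Subgroup G) (e : ℕ → G) (a : ℕ → G → ℤ), Q 0 = A ∧ Q m = ⊥ ∧
      (∀ i, Q (i + 1) ≤ Q i) ∧ (∀ i < m, e i ∈ Q i) ∧ (∀ i < m, a i (e i) = 1) ∧
      (∀ i < m, ∀ x ∈ Q i, ∀ y ∈ Q i, a i (x * y) = a i x + a i y) ∧
      (∀ i < m, ∀ x ∈ Q i, (a i x = 0 ↔ x ∈ Q (i + 1))) ∧
      ∀ i, ∀ x ∈ N, ∀ y ∈ Q i, x * y * x⁻¹ * y⁻¹ ∈ Q (i + 1) := by
  induction h with
  | bot =>
    refine ⟨0, fun _ => ⊥, fun _ => 1, fun _ _ => 0, rfl, rfl, fun _ => le_rfl, ?_, ?_, ?_, ?_, ?_⟩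
    · intro i hi; omega
    · intro i hi; omega
    · intro i hi; omega
    · intro i hi; omega
    · intro _ x _ y hy
      rw [Subgroup.mem_bot.1 hy]; simp
  | step A B e a _ hle he hae hadd hker hc ih =>
    obtain ⟨m, Q, e', a', h0, hm, h1, h2, h3, h4, h5, h6⟩ := ih
    refine ⟨m + 1, fun i => Nat.casesOn i A Q, fun i => Nat.casesOn i e e',
      fun i => Nat.casesOn i a a', rfl, hm, ?_, ?_, ?_, ?_, ?_, ?_⟩
    · rintro (_ | i)
      · exact h0.le.trans hle
      · exact h1 i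
    · rintro (_ | i) hi
      · exact he
      · exact h2 i (by omega)
    · rintro (_ | i) hi
      · exact hae
      · exact h3 i (by omega)
    · rintro (_ | i) hi
      · exact hadd
      · exact h4 i (by omega)
    · rintro (_ | i) hi
      · intro x hx
        have := hker x hx
        rw [← h0] at this
        exact this
      · exact h5 i (by omega)
    · rintro (_ | i)
      · intro x hx y hy
        have := hc x hx y hy
        rw [← h0] at this
        exact this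
      · exact h6 i

theorem MS.malcev {N : Subgroup G} (h : MS N N) : Nonempty (Malcev N) := by
  obtain ⟨m, Q, e, a, h0, hm, h1, h2, h3, h4, h5, h6⟩ := h.series
  exact ⟨⟨m, Q, e, a, h0, hm, h1, h2, h3, h4, h5, h6⟩⟩

theorem MS.layer {N A B : Subgroup G} (hB : MS N B) (hA : A.FG) (hle : B ≤ A) (ℓ : G → QB)
    (add : ∀ x ∈ A, ∀ y ∈ A, ℓ (x * y) = ℓ x + ℓ y) (ker : ∀ x ∈ A, (ℓ x = 0 ↔ x ∈ B))
    (hc : ∀ x ∈ N, ∀ y ∈ A, x * y * x⁻¹ * y⁻¹ ∈ B) : MS N A := by
  classical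
  let f : Additive A →+ QB := AddMonoidHom.mk' (fun x => ℓ (x.toMul : A))
    fun x y => add _ x.toMul.2 _ y.toMul.2
  have : Group.FG A := (Group.fg_iff_subgroup_fg A).2 hA
  have : AddGroup.FG f.range := AddGroup.fg_range f
  have : Module.Finite ℤ f.range := Module.Finite.iff_addGroup_fg.2 inferInstance
  let b := Module.finBasis ℤ f.range
  let z : G → Fin (Module.finrank ℤ f.range) → ℤ := fun x j =>
    if h : x ∈ A then b.repr (f.rangeRestrict (Additive.ofMul ⟨x, h⟩)) j else 0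
  have zadd : ∀ x ∈ A, ∀ y ∈ A, ∀ j, z (x * y) j = z x j + z y j := by
    intro x hx y hy j
    simp only [z, dif_pos hx, dif_pos hy, dif_pos (A.mul_mem hx hy)]
    rw [← Finsupp.add_apply, ← map_add, ← map_add]
    rfl
  have zker : ∀ x ∈ A, ((∀ j, z x j = 0) ↔ x ∈ B) := by
    intro x hx
    rw [← ker x hx]
    simp only [z, dif_pos hx]
    constructor
    · intro h
      have h1 : b.repr (f.rangeRestrict (Additive.ofMul ⟨x, hx⟩)) = 0 := Finsupp.ext h
      exact congrArg Subtype.val (b.repr.map_eq_zero_iff.1 h1)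
    · intro h j
      have h1 : f.rangeRestrict (Additive.ofMul ⟨x, hx⟩) = 0 := Subtype.ext h
      rw [h1]; simp
  have zsurj : ∀ j, ∃ x ∈ A, ∀ l, z x l = if l = j then 1 else 0 := by
    intro j
    obtain ⟨x, hx⟩ := f.rangeRestrict_surjective (b j)
    refine ⟨(x.toMul : A), x.toMul.2, fun l => ?_⟩
    simp only [z, dif_pos x.toMul.2]
    have : Additive.ofMul (⟨(x.toMul : A), x.toMul.2⟩ : A) = x := rfl
    rw [this, hx, b.repr_self, Finsupp.single_apply]
    simp only [eq_comm]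
  have z1 : ∀ j, z 1 j = 0 := (zker 1 A.one_mem).2 B.one_mem
  let S : ℕ → Subgroup G := fun i =>
    { carrier := {x | x ∈ A ∧ ∀ l : Fin (Module.finrank ℤ f.range), (l : ℕ) < i → z x l = 0}
      one_mem' := ⟨A.one_mem, fun l _ => z1 l⟩
      mul_mem' := fun {x y} hx hy => ⟨A.mul_mem hx.1 hy.1, fun l hl => by
        rw [zadd x hx.1 y hy.1, hx.2 l hl, hy.2 l hl, add_zero]⟩
      inv_mem' := fun {x} hx => ⟨A.inv_mem hx.1, fun l hl => by
        have := zadd x hx.1 x⁻¹ (A.inv_mem hx.1) l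
        rwa [mul_inv_cancel, z1, hx.2 l hl, zero_add, eq_comm] at this⟩ }
  have hBS : ∀ i, B ≤ S i := fun i x hx => ⟨hle hx, fun l _ => (zker x (hle hx)).2 hx l⟩
  have key : ∀ i ≤ Module.finrank ℤ f.range, MS N (S i) := by
    intro i hi
    induction hi using Nat.decreasingInduction with
    | self =>
      have : S (Module.finrank ℤ f.range) = B :=
        le_antisymm (fun x hx => (zker x hx.1).1 fun l => hx.2 l l.2) (hBS _)
      rw [this]; exact hB
    | of_succ i hi ih =>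
      obtain ⟨e, heA, he⟩ := zsurj ⟨i, hi⟩
      refine MS.step (S i) (S (i + 1)) e (fun x => z x ⟨i, hi⟩) ih
        (fun x hx => ⟨hx.1, fun l hl => hx.2 l (by omega)⟩) ⟨heA, fun l hl => ?_⟩ (by simp [he])
        (fun x hx y hy => zadd x hx.1 y hy.1 _) (fun x hx => ⟨fun h => ⟨hx.1, fun l hl => ?_⟩,
          fun h => h.2 _ (Nat.lt_succ_self i)⟩) fun x hx y hy => hBS _ (hc x hx y hy.1)
      · rw [he, if_neg]
        rintro rfl
        exact lt_irrefl _ hl
      · rcases (Nat.lt_succ_iff.1 hl).lt_or_eq with h1 | h1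
        · exact hx.2 l h1
        · have : l = ⟨i, hi⟩ := Fin.ext h1
          rw [this]; exact h
  have h0 : S 0 = A := le_antisymm (fun x hx => hx.1) fun x hx => ⟨hx, fun l hl => by omega⟩
  rw [← h0]
  exact key 0 (Nat.zero_le _)

/-- the reduction for a group with a torsion-free eigen-series -/
theorem red_of_series (hG : PC (⊤ : Subgroup G)) (r : ℕ) (Q : ℕ → Subgroup G)
    (ℓ χ : ℕ → G → QB) (h0 : Q 0 = ⊤) (hr : Q r = ⊥)
    (hQ : ∀ i, EStep ⊤ (Q i) (Q (i + 1)) (ℓ i) (χ i))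
    (htf : ∀ i < r, ∀ x : G, ∀ n : ℕ, 0 < n → x ^ n ∈ Q (i + 1) → x ∈ Q (i + 1)) :
    ∃ N : Subgroup G, N.Normal ∧ (∀ a b : G, a * b * a⁻¹ * b⁻¹ ∈ N) ∧
      (∀ g : G, (∃ n : ℕ, ∀ x ∈ N, (fun y => g * y * g⁻¹ * y⁻¹)^[n] x = 1) → g ∈ N) ∧
      Nonempty (Malcev N) := by
  choose c hc hc' using fun i => (hQ i).units
  let N : Subgroup G := ⨅ i, (c i).ker
  have hcomm : ∀ a b : G, a * b * a⁻¹ * b⁻¹ ∈ N := fun a b => Subgroup.mem_iInf.2 fun i => by
    rw [MonoidHom.mem_ker, map_mul, map_mul, map_mul, map_inv, map_inv, mul_inv_cancel_comm,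
      mul_inv_cancel]
  have hN : N.Normal := ⟨fun x hx g => by
    have := N.mul_mem (hcomm g x) hx
    rwa [inv_mul_cancel_right] at this⟩
  have hl : ∀ i g, ∀ x ∈ Q i, g * x * g⁻¹ * x⁻¹ ∈ Q i ∧
      ℓ i (g * x * g⁻¹ * x⁻¹) = ((c i g : QB) - 1) * ℓ i x := by
    intro i g x hx
    refine ⟨(Q i).mul_mem ((hc i).norm g trivial x hx) ((Q i).inv_mem hx), ?_⟩
    rw [(hc i).add _ ((hc i).norm g trivial x hx) _ ((Q i).inv_mem hx),
      (hc i).conj g trivial x hx, (hc i).inv hx]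
    ring
  refine ⟨N, hN, hcomm, ?_, ?_⟩
  · rintro g ⟨n, hn⟩
    refine Subgroup.mem_iInf.2 fun i => ?_
    rcases hc' i with h1 | ⟨x, hx, hx0⟩
    · rw [h1]; exact MonoidHom.mem_ker.2 rfl
    · have hit : ∀ m : ℕ, ∀ y ∈ Q i, (fun y => g * y * g⁻¹ * y⁻¹)^[m] y ∈ Q i ∧
          ℓ i ((fun y => g * y * g⁻¹ * y⁻¹)^[m] y) = ((c i g : QB) - 1) ^ m * ℓ i y := by
        intro m
        induction m with
        | zero => intro y hy; simpa using hy
        | succ m ih =>
          intro y hy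
          rw [Function.iterate_succ_apply']
          obtain ⟨h1, h2⟩ := ih y hy
          refine ⟨(hl i g _ h1).1, ?_⟩
          rw [(hl i g _ h1).2, h2]; ring
      have h1 := (hit n _ (hl i g x hx).1).2
      rw [hn _ (hcomm g x), (hQ i).one, (hl i g x hx).2, ← mul_assoc, ← pow_succ] at h1
      have h2 : (c i g : QB) - 1 = 0 :=
        pow_eq_zero_iff (Nat.succ_ne_zero n) |>.1 ((mul_eq_zero.1 h1.symm).resolve_right hx0)
      exact MonoidHom.mem_ker.2 (Units.ext (sub_eq_zero.1 h2))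
  · have key : ∀ i ≤ r, MS N (Q i ⊓ N) := by
      intro i hi
      induction hi using Nat.decreasingInduction with
      | self => rw [hr, bot_inf_eq]; exact MS.bot
      | of_succ i hi ih =>
        have hk : ∀ x ∈ Q i, ℓ i x = 0 → x ∈ Q (i + 1) := fun x hx h => by
          obtain ⟨n, hn, hxn⟩ := (hQ i).tors x hx h
          exact htf i hi x n hn hxn
        refine ih.layer (hG.of_le le_top).fg (inf_le_inf_right N (hQ i).le) (ℓ i)
          (fun x hx y hy => (hQ i).add x hx.1 y hy.1)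
          (fun x hx => ⟨fun h => ⟨hk x hx.1 h, hx.2⟩, fun h => (hQ i).zero x h.1⟩)
          fun x hx y hy => ⟨hk _ (hl i x y hy.1).1 ?_, hcomm x y⟩
        rw [(hl i x y hy.1).2, MonoidHom.mem_ker.1 (Subgroup.mem_iInf.1 hx i)]
        simp
    have := key 0 (Nat.zero_le _)
    rw [h0, top_inf_eq] at this
    exact this.malcev

/-- block (a) -/
theorem exists_red (P : Type*) [Group P] (hP : IsVirtuallyPolycyclic P) :
    ∃ P₂ : Subgroup P, P₂.FiniteIndex ∧ PC (⊤ : Subgroup P₂) ∧ ∃ N : Subgroup P₂, N.Normal ∧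
      (∀ a b : P₂, a * b * a⁻¹ * b⁻¹ ∈ N) ∧
      (∀ g : P₂, (∃ n : ℕ, ∀ x ∈ N, (fun y => g * y * g⁻¹ * y⁻¹)^[n] x = 1) → g ∈ N) ∧
      Nonempty (Malcev N) := by
  obtain ⟨P₁, hi, hP₁⟩ := hP
  have hpc := (pc_iff P₁).2 hP₁
  obtain ⟨P₀, hle, hi0, hes⟩ := exists_es hpc
  obtain ⟨r, Q, ℓ, χ, h0, hr, hQ⟩ := hes.series
  have hfi : P₀.FiniteIndex := ⟨by
    rw [← Subgroup.relIndex_mul_index hle]
    exact mul_ne_zero hi0 hi.index_ne_zero⟩
  have hpc0 : PC (⊤ : Subgroup P₀) := isPolycyclic_iff.1 ((pc_iff P₀).1 (hpc.of_le hle))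
  have hQ0 := fun i => (hQ i).comap P₀.subtype fun x => x.2
  have hn : ∀ i, ((Q i).comap P₀.subtype).Normal := fun i =>
    ⟨fun x hx g => (hQ0 i).norm g trivial x hx⟩
  choose K hK hK' using fun i => @exists_isolated _ _ hpc0 _ (hn (i + 1))
  let K₀ : Subgroup P₀ := ⨅ i : Fin r, K i
  have hK₀ : K₀.FiniteIndex := Subgroup.finiteIndex_iInf fun i => hK i
  let P₂ : Subgroup P := K₀.map P₀.subtype
  have h2 : P₂ ≤ P₀ := Subgroup.map_subtype_le K₀
  have hpc2 : PC (⊤ : Subgroup P₂) :=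
    isPolycyclic_iff.1 ((pc_iff P₂).1 (hpc.of_le (h2.trans hle)))
  refine ⟨P₂, ⟨?_⟩, hpc2, red_of_series hpc2 r (fun i => (Q i).comap P₂.subtype) _ _ ?_ ?_
    (fun i => (hQ i).comap P₂.subtype fun x => h2 x.2) ?_⟩
  · rw [Subgroup.index_map_subtype]
    exact mul_ne_zero hK₀.index_ne_zero hfi.index_ne_zero
  · rw [eq_top_iff]
    intro x _
    simp only [h0]
    exact hle (h2 x.2)
  · simp only [hr]
    rw [MonoidHom.comap_bot, (MonoidHom.ker_eq_bot_iff _).2 P₂.subtype_injective]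
  · rintro i hi ⟨_, y, hy, rfl⟩ n hn hx
    exact hK' i y (Subgroup.mem_iInf.1 hy ⟨i, hi⟩) n hn hx

end Crest.Agent.R182
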