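import Crest.Agent.R182.LAPre0
import Crest.Agent.R182.LARed
import Crest.Agent.R182.LAHullQ
import Crest.Agent.R182.EQI

/-! Row 182, block L1: the glue. -/

set_option autoImplicit false
set_option linter.dupNamespace false

namespace Crest.Agent.R182

open Crest.GroupTheory

universe u

variable {P : Type*} [Group P] {N : Subgroup P} {G : Type*} [Group G]

/-- the untwisted model over the good finite-index subgroup -/
noncomputable def Chars.preLie {H : Hull N G} (C : Chars H) : PreLie (H.sub C.P₀) C.k where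
  d := H.d
  br := H.br
  br_self := H.br_self
  jacobi := H.jacobi
  π g := C.π g
  π_hom a b := C.π_hom a b
  π_int := by
    rintro ⟨_, X, p, hp, rfl⟩ l
    obtain ⟨z, hz⟩ := C.π_int p hp l
    exact ⟨z, by rw [C.π_hom, C.π_ex, zero_add, hz]⟩
  π_surj l := by
    obtain ⟨p, hp, e⟩ := C.π_surj l
    exact ⟨⟨H.j p, H.j_mem_sub hp⟩, e⟩
  ex := (H.restrict C.P₀ C.le).ex
  ex_inj := (H.restrict C.P₀ C.le).ex_inj
  ex_range := by
    rintro ⟨_, X, p, hp, rfl⟩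
    constructor
    · intro h
      rw [C.π_hom, C.π_ex, zero_add] at h
      obtain ⟨Y, hY⟩ := (H.j_mem p).2 (C.π_ker p hp h)
      exact ⟨_, Subtype.ext ((H.ex_mul X Y).symm.trans (by rw [hY]))⟩
    · rintro ⟨Y, hY⟩
      rw [← hY]
      exact C.π_ex Y
  bch := H.bch
  ex_mul := (H.restrict C.P₀ C.le).ex_mul
  Ad := (H.restrict C.P₀ C.le).Ad
  Ad_conj := (H.restrict C.P₀ C.le).Ad_conj
  Ad_br := (H.restrict C.P₀ C.le).Ad_br
  Ad_ex := (H.restrict C.P₀ C.le).Ad_ex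
  χ i := (C.χ i).comp (H.sub C.P₀).subtype
  χ_ex := C.χ_ex
  wt := C.wt
  wt_π i g := C.wt_π i g
  span := C.span
  unimod := C.unimod
  b := C.b
  b_Ad g := C.b_Ad g
  b_br := C.b_br
  a₀ := ⟨H.j C.a₀, H.j_mem_sub C.a₀_mem⟩
  sep i i' h := by
    refine MonoidHom.ext ?_
    rintro ⟨_, X, p, hp, rfl⟩
    change C.χ i (H.ex X * H.j p) = C.χ i' (H.ex X * H.j p)
    rw [map_mul, map_mul, C.χ_ex, C.χ_ex, C.sep i i' h p hp]
  sep_one i h := by
    refine MonoidHom.ext ?_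
    rintro ⟨_, X, p, hp, rfl⟩
    change C.χ i (H.ex X * H.j p) = 1
    rw [map_mul, C.χ_ex, C.sep_one i h p hp, one_mul]
  sep_wt := C.sep_wt
  sep_wt_zero := C.sep_wt_zero

/-- the conclusion of `LieStmt` -/
def LieData (Q : Type*) [Group Q] : Prop :=
  ∃ S : Finset Q, Subgroup.closure (S : Set Q) = ⊤ ∧
    ∃ (G : Type) (_ : Group G) (k : ℕ) (M : LieModel G k) (j : Q → G) (c : ℕ),
      QI (S : Set Q) M.Sg j c ∧ AHom (M.π ∘ j) ∧ ∀ l, ∃ t, M.π (j t) = Pi.single l 1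

theorem LieData.of_equiv {Q Q' : Type*} [Group Q] [Group Q'] (e : Q' ≃* Q) (h : LieData Q) :
    LieData Q' := by
  obtain ⟨S, hS, G, _, k, M, j, c, hj, hπ, hs⟩ := h
  have : Group.FG Q := ⟨⟨S, hS⟩⟩
  obtain ⟨S', hS'⟩ := (Group.fg_of_surjective (f := e.symm.toMonoidHom) e.symm.surjective).out
  have : e.toMonoidHom.range.FiniteIndex := by
    rw [MonoidHom.range_eq_top.2 e.surjective]; infer_instance
  obtain ⟨c', hc'⟩ := QI.of_hom S'.finite_toSet hS' S.finite_toSet hS e.toMonoidHom e.injective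
  refine ⟨S', hS', G, _, k, M, j ∘ e.toMonoidHom, _, hc'.comp hj, fun a b => ?_, fun l => ?_⟩
  · simp only [Function.comp_apply, map_mul]
    exact hπ _ _
  · obtain ⟨t, ht⟩ := hs l
    exact ⟨e.symm t, by simpa using ht⟩

theorem Chars.lieData {H : Hull N G} (C : Chars H) (hP : PC (⊤ : Subgroup P))
    (h : C.preLie.LieOut) : LieData C.P₀ := by
  obtain ⟨c₀, hc₀, G₁, _, M, φ, c, hφ, hπ⟩ := h
  obtain ⟨S, hS⟩ := ((Group.fg_iff_subgroup_fg C.P₀).2 (hP.of_le le_top).fg).out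
  obtain ⟨c', hc'⟩ := (H.restrict C.P₀ C.le).qi S hS c₀ hc₀
  refine ⟨S, hS, G₁, _, C.k, M, φ ∘ (H.restrict C.P₀ C.le).j, _, hc'.comp hφ, fun a b => ?_,
    fun l => ?_⟩
  · simp only [Function.comp_apply, hπ, map_mul]
    exact C.preLie.π_hom _ _
  · obtain ⟨p, hp, e⟩ := C.π_surj l
    exact ⟨⟨p, hp⟩, by rw [Function.comp_apply, hπ]; exact e⟩

theorem lieStmt_of (P : Type u) [Group P] (h1 : HullStmt.{u})
    (h2 : ∀ (Q : Type u) [Group Q] (N : Subgroup Q) [N.Normal] (G : Type u) [Group G]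
      (H : Hull N G), PC (⊤ : Subgroup Q) → (∀ a b : Q, a * b * a⁻¹ * b⁻¹ ∈ N) →
      (∀ g : Q, (∃ n : ℕ, ∀ x ∈ N, (fun y => g * y * g⁻¹ * y⁻¹)^[n] x = 1) → g ∈ N) →
      Nonempty (Chars H))
    (h3 : ∀ (G : Type u) [Group G] (k : ℕ) (M : PreLie G k), M.LieOut) : LieStmt P := by
  intro hP
  obtain ⟨P₂, hi, hpc, N, hN, hc, he, hM⟩ := exists_red P hP
  obtain ⟨G, _, ⟨H⟩⟩ := h1 P₂ N hM
  obtain ⟨C⟩ := h2 P₂ N G H hpc hc he
  refine ⟨C.P₀.map P₂.subtype, ⟨?_⟩, LieData.of_equiv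
    (C.P₀.equivMapOfInjective P₂.subtype P₂.subtype_injective).symm (C.lieData hpc (h3 _ _ _))⟩
  rw [Subgroup.index_map_subtype]
  exact mul_ne_zero C.fi.index_ne_zero hi.index_ne_zero

end Crest.Agent.R182
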