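import Crest.Agent.R182.LDefs
import Crest.Agent.R182.LASwan0

/-! Row 182, block L1 (b3): the real hull `G = exp 𝔫 · P` of `P`, in Malcev coordinates. -/

set_option autoImplicit false
set_option linter.dupNamespace false

namespace Crest.Agent.R182

universe u

/-- `G = exp 𝔫 · j P`, where `𝔫 = ℝ^d` is the Lie algebra of the Malcev completion of `N`; the
standard basis is the logarithm of a Malcev basis of `N`. -/
structure Hull {P : Type*} [Group P] (N : Subgroup P) (G : Type*) [Group G] where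
  /-- dimension of the nilpotent Lie algebra -/
  d : ℕ
  /-- the bracket -/
  br : (Fin d → ℝ) →ₗ[ℝ] (Fin d → ℝ) →ₗ[ℝ] (Fin d → ℝ)
  br_self : ∀ X, br X X = 0
  jacobi : ∀ X Y Z, br X (br Y Z) = br (br X Y) Z + br Y (br X Z)
  br_tri : ∀ i j l, br (Pi.single i 1) (Pi.single j 1) l ≠ 0 → i < l ∧ j < l
  /-- the exponential -/
  ex : (Fin d → ℝ) → G
  ex_inj : Function.Injective ex
  /-- the higher terms of the Baker-Campbell-Hausdorff series -/
  bch : List (ℝ × LTree × LTree)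
  ex_mul : ∀ X Y, ex X * ex Y = ex (X + Y +
    (bch.map fun p => p.1 • (LTree.node p.2.1 p.2.2).eval (fun A B => br A B) X Y).sum)
  /-- the adjoint action -/
  Ad : G →* Module.End ℝ (Fin d → ℝ)
  Ad_conj : ∀ g X, g * ex X * g⁻¹ = ex (Ad g X)
  Ad_br : ∀ g X Y, Ad g (br X Y) = br (Ad g X) (Ad g Y)
  Ad_ex : ∀ X, Ad (ex X) = ∑ n ∈ Finset.range (d + 1), ((n.factorial : ℝ)⁻¹) • (br X) ^ n
  /-- the lattice embedding -/
  j : P →* G
  j_inj : Function.Injective j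
  j_mem : ∀ p, j p ∈ Set.range ex ↔ p ∈ N
  dec : ∀ g, ∃ X p, g = ex X * j p
  basis : ∀ i, ∃ n ∈ N, j n = ex (Pi.single i 1)
  lat : ∃ D : ℕ, 0 < D ∧ ∀ n X, j n = ex X → ∀ i, ∃ z : ℤ, (D : ℝ) * X i = z
  cocpt : ∃ C : ℝ, ∀ X, ∃ n ∈ N, ∃ Y, ‖Y‖ ≤ C ∧ ex X = j n * ex Y

/-- block (b3) -/
def HullStmt : Prop :=
  ∀ (P : Type u) [Group P] (N : Subgroup P) [N.Normal], Nonempty (Malcev N) →
    ∃ (G : Type u) (_ : Group G), Nonempty (Hull N G)

end Crest.Agent.R182
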