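import Crest.Agent.R182.LAHullB

/-! Row 182, block L1 (b3): the Lie algebra spanned by the logarithms of a Malcev basis. -/

set_option autoImplicit false
set_option linter.dupNamespace false

namespace Crest.Agent.R182

open Finset

variable {P : Type*} [Group P] {N : Subgroup P}

namespace Malcev

variable (B : Malcev N)

theorem anti_le {i j : ℕ} (h : i ≤ j) : B.Q j ≤ B.Q i :=
  antitone_nat_of_succ_le B.anti h

theorem le_N (i : ℕ) : B.Q i ≤ N := (B.anti_le (Nat.zero_le i)).trans B.top.le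

theorem conj_mem_Q (i : ℕ) {x y : P} (hx : x ∈ N) (hy : y ∈ B.Q i) : x * y * x⁻¹ ∈ B.Q i := by
  have := (B.Q i).mul_mem (B.anti i (B.central i x hx y hy)) hy
  rwa [inv_mul_cancel_right] at this

theorem e_mem_N (j : Fin B.m) : B.e j ∈ N := B.le_N j (B.e_mem j j.2)

theorem a_one {i : ℕ} (hi : i < B.m) : B.a i 1 = 0 :=
  (B.a_ker i hi 1 (B.Q i).one_mem).2 (B.Q (i + 1)).one_mem

theorem a_zpow {i : ℕ} (hi : i < B.m) {x : P} (hx : x ∈ B.Q i) (n : ℤ) :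
    B.a i (x ^ n) = n * B.a i x := by
  have hinv : B.a i x⁻¹ = -B.a i x := by
    have := B.a_mul i hi x hx x⁻¹ ((B.Q i).inv_mem hx)
    rw [mul_inv_cancel, B.a_one hi] at this
    omega
  induction n using Int.induction_on with
  | zero => simp [B.a_one hi]
  | succ n ih =>
    rw [zpow_add_one, B.a_mul i hi _ ((B.Q i).zpow_mem hx _) _ hx, ih]; ring
  | pred n ih =>
    rw [zpow_sub_one, B.a_mul i hi _ ((B.Q i).zpow_mem hx _) _ ((B.Q i).inv_mem hx), ih, hinv]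
    ring

theorem dec {i : ℕ} (hi : i < B.m) {x : P} (hx : x ∈ B.Q i) :
    ∃ n : ℤ, ∃ y ∈ B.Q (i + 1), x = B.e i ^ n * y := by
  have he := B.e_mem i hi
  have h1 := (B.Q i).zpow_mem he (-B.a i x)
  refine ⟨B.a i x, B.e i ^ (-B.a i x) * x,
    (B.a_ker i hi _ ((B.Q i).mul_mem h1 hx)).1 ?_, by group⟩
  rw [B.a_mul i hi _ h1 _ hx, B.a_zpow hi he, B.a_e i hi]
  ring

end Malcev

namespace Swan

variable {B : Malcev N} {A : Type*} [Ring A] [Algebra ℝ A] (W : Swan B A)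

theorem nilI : NilI (W.F 1) W.M := by
  refine ⟨fun x hx y hy => W.F_anti (by norm_num) (W.F_mul 1 1 x hx y hy), ?_⟩
  have : ∀ n, W.F 1 ^ n ≤ W.F n := by
    intro n
    induction n with
    | zero => rw [W.F_zero]; exact le_top
    | succ n ih =>
      rw [pow_succ]
      exact Submodule.mul_le.2 fun x hx y hy => W.F_mul n 1 x (ih hx) y hy
  exact le_bot_iff.1 (W.F_bot ▸ this W.M)

/-- the logarithm -/
noncomputable def lg (x : P) : A := nlg (W.ρ x)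

theorem nil_ρ {x : P} (hx : x ∈ N) : IsNilpotent (W.ρ x - 1) :=
  W.nilI.isNilpotent ((W.ρ_sub x).2 hx)

theorem lg_mem {x : P} (hx : x ∈ N) : W.lg x ∈ W.F 1 := W.nilI.nlg_mem ((W.ρ_sub x).2 hx)

theorem nex_lg {x : P} (hx : x ∈ N) : nex (W.lg x) = W.ρ x := nex_nlg (W.nil_ρ hx)

theorem ρ_mul_inv (g : P) : W.ρ g * W.ρ g⁻¹ = 1 := by rw [← map_mul, mul_inv_cancel, map_one]

theorem ρ_inv_mul (g : P) : W.ρ g⁻¹ * W.ρ g = 1 := by rw [← map_mul, inv_mul_cancel, map_one]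

theorem lg_conj (g : P) {x : P} (hx : x ∈ N) :
    W.ρ g * W.lg x * W.ρ g⁻¹ = W.lg (g * x * g⁻¹) := by
  rw [lg, lg, conj_nlg (W.ρ_mul_inv g) (W.ρ_inv_mul g) (W.nil_ρ hx), map_mul, map_mul]

theorem nex_zsmul {x : P} (hx : x ∈ N) (n : ℤ) : nex ((n : ℝ) • W.lg x) = W.ρ (x ^ n) := by
  have hn := W.nilI.isNilpotent (W.lg_mem hx)
  have hinv : nex ((-1 : ℝ) • W.lg x) = W.ρ x⁻¹ := by
    have h1 := nex_neg_mul hn
    rw [W.nex_lg hx] at h1
    rw [neg_one_smul, ← mul_one (nex (-W.lg x)), ← W.ρ_mul_inv x, ← mul_assoc, h1, one_mul]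
  induction n using Int.induction_on with
  | zero => simp [nex_zero]
  | succ n ih =>
    rw [zpow_add_one, map_mul, ← ih]
    push_cast
    rw [nex_add_smul hn, one_smul, W.nex_lg hx]
  | pred n ih =>
    rw [zpow_sub_one, map_mul, ← ih, ← hinv]
    push_cast
    rw [sub_eq_add_neg, nex_add_smul hn]

/-- coordinates -/
noncomputable def φ : (Fin B.m → ℝ) →ₗ[ℝ] A :=
  Fintype.linearCombination ℝ fun j : Fin B.m => W.lg (B.e j)

theorem φ_single (j : Fin B.m) : W.φ (Pi.single j 1) = W.lg (B.e j) := by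
  rw [φ, Fintype.linearCombination_apply_single, one_smul]

/-- the flag -/
noncomputable def nn (i : ℕ) : Submodule ℝ A := (hV B.m i).map W.φ

theorem nn_le {i : ℕ} {U : Submodule ℝ A} (h : ∀ j : Fin B.m, i ≤ j → W.lg (B.e j) ∈ U) :
    W.nn i ≤ U := by
  rintro _ ⟨t, ht, rfl⟩
  exact hV_le W.φ (fun j hj => W.φ_single j ▸ h j hj) t ht

theorem lg_e_mem {i : ℕ} {j : Fin B.m} (h : i ≤ j) : W.lg (B.e j) ∈ W.nn i :=
  ⟨_, single_mem_hV h 1, W.φ_single j⟩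

theorem nn_anti {i j : ℕ} (h : i ≤ j) : W.nn j ≤ W.nn i := Submodule.map_mono (hV_anti h)

theorem nn_F (i : ℕ) : W.nn i ≤ W.F 1 := W.nn_le fun j _ => W.lg_mem (B.e_mem_N j)

theorem φ_mem (t : Fin B.m → ℝ) : W.φ t ∈ W.nn 0 := ⟨t, hV_zero t, rfl⟩

theorem φ_nil (t : Fin B.m → ℝ) : IsNilpotent (W.φ t) := W.nilI.isNilpotent (W.nn_F 0 (W.φ_mem t))

theorem nn_dec {i : ℕ} (hi : i < B.m) {y : A} (hy : y ∈ W.nn i) :
    ∃ c : ℝ, ∃ y' ∈ W.nn (i + 1), y = c • W.lg (B.e i) + y' := by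
  have : W.nn i ≤ Submodule.span ℝ {W.lg (B.e i)} ⊔ W.nn (i + 1) := by
    refine W.nn_le fun j hj => ?_
    rcases hj.eq_or_lt with h | h
    · exact Submodule.mem_sup_left (h ▸ Submodule.mem_span_singleton_self _)
    · exact Submodule.mem_sup_right (W.lg_e_mem h)
  obtain ⟨a, ha, b, hb, rfl⟩ := Submodule.mem_sup.1 (this hy)
  obtain ⟨c, rfl⟩ := Submodule.mem_span_singleton.1 ha
  exact ⟨c, b, hb, rfl⟩

theorem nn_top {i : ℕ} (hi : B.m ≤ i) {y : A} (hy : y ∈ W.nn i) : y = 0 := by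
  obtain ⟨t, ht, rfl⟩ := hy
  rw [hV_top hi ht, map_zero]

theorem br_of {i : ℕ} (h : ∀ x ∈ B.Q i, W.lg x ∈ W.nn i) {a y : A} (ha : a ∈ W.nn 0)
    (hy : y ∈ W.nn i) : brA a y ∈ W.nn i := by
  refine W.nn_le (U := (W.nn i).comap (brA.flip y)) (fun j _ => ?_) ha
  have hu := B.e_mem_N j
  refine brA_nlg_mem (W.nil_ρ hu) (W.ρ_mul_inv _) (fun z hz => ?_) y hy
  refine W.nn_le (U := (W.nn i).comap (LinearMap.mulRight ℝ (W.ρ (B.e j)⁻¹) ∘ₗ
    LinearMap.mulLeft ℝ (W.ρ (B.e j)))) (fun l hl => ?_) hz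
  change W.ρ (B.e j) * W.lg (B.e l) * W.ρ (B.e j)⁻¹ ∈ W.nn i
  rw [W.lg_conj _ (B.e_mem_N l)]
  exact h _ (B.conj_mem_Q i hu (B.anti_le hl (B.e_mem l l.2)))

theorem lg_mem_nn (i : ℕ) : ∀ x ∈ B.Q i, W.lg x ∈ W.nn i := by
  have top : ∀ i, B.m ≤ i → ∀ x ∈ B.Q i, W.lg x ∈ W.nn i := by
    intro i hi x hx
    have := B.anti_le hi hx
    rw [B.bot, Subgroup.mem_bot] at this
    rw [this, lg, map_one, nlg_one]
    exact Submodule.zero_mem _
  by_cases hi : B.m ≤ i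
  · exact top i hi
  · refine Nat.decreasingInduction (n := B.m)
      (motive := fun i _ => ∀ x ∈ B.Q i, W.lg x ∈ W.nn i) (fun i hi ih x hx => ?_)
      (top _ le_rfl) (not_le.1 hi).le
    have hbr : ∀ a ∈ W.nn i, ∀ b ∈ W.nn i, brA a b ∈ W.nn i := by
      intro a ha b hb
      obtain ⟨s, a', ha', rfl⟩ := W.nn_dec hi ha
      obtain ⟨t, b', hb', rfl⟩ := W.nn_dec hi hb
      have h1 := W.br_of ih (W.nn_anti (Nat.zero_le _) ha) hb'
      have h2 := W.br_of ih (W.nn_anti (Nat.zero_le _) (W.lg_e_mem (j := ⟨i, hi⟩) le_rfl)) ha'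
      have e : brA (s • W.lg (B.e i) + a') (t • W.lg (B.e i) + b') =
          brA (s • W.lg (B.e i) + a') b' - t • brA (W.lg (B.e i)) a' := by
        simp only [brA_apply, mul_add, add_mul, smul_mul_assoc, mul_smul_comm, smul_sub, smul_add,
          smul_smul, mul_comm t s]
        abel
      rw [e]
      exact W.nn_anti (Nat.le_succ i) (Submodule.sub_mem _ h1 (Submodule.smul_mem _ _ h2))
    obtain ⟨n, y, hy, rfl⟩ := B.dec hi hx
    have hy' := B.le_N _ hy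
    rw [lg, map_mul, ← W.nex_zsmul (B.e_mem_N ⟨i, hi⟩), ← W.nex_lg hy']
    exact W.nilI.nlg_mul_mem (W.nn_F i) hbr
      (Submodule.smul_mem _ _ (W.lg_e_mem (j := ⟨i, hi⟩) le_rfl))
      (W.nn_anti (Nat.le_succ i) (ih y hy))

theorem lg_mem_zero {x : P} (hx : x ∈ N) : W.lg x ∈ W.nn 0 := W.lg_mem_nn 0 x (B.top.ge hx)

theorem br_mem {i : ℕ} {a y : A} (ha : a ∈ W.nn 0) (hy : y ∈ W.nn i) : brA a y ∈ W.nn (i + 1) := by
  have inv : ∀ i, ∀ y ∈ W.nn i, brA a y ∈ W.nn i := fun i y hy => W.br_of (W.lg_mem_nn i) ha hy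
  refine W.nn_le (U := (W.nn (i + 1)).comap (brA a)) (fun j hj => ?_) hy
  change brA a (W.lg (B.e j)) ∈ W.nn (i + 1)
  refine W.nn_anti (Nat.succ_le_succ hj) ?_
  obtain ⟨c, w, hw, e⟩ := W.nn_dec j.2 (inv j _ (W.lg_e_mem le_rfl))
  have key : ∀ n : ℕ, (brA a ^ n) (W.lg (B.e j)) - c ^ n • W.lg (B.e j) ∈ W.nn (j + 1) := by
    intro n
    induction n with
    | zero => simp
    | succ n ih =>
      have h1 := Submodule.add_mem _ (inv _ _ ih) (Submodule.smul_mem _ (c ^ n) hw)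
      convert h1 using 1
      rw [pow_succ', Module.End.mul_apply, map_sub, map_smul, e, smul_add, smul_smul, pow_succ]
      abel
  obtain ⟨n, hn⟩ := isNilpotent_brA (W.nilI.isNilpotent (W.nn_F 0 ha))
  have h0 := key n
  rw [hn, LinearMap.zero_apply, zero_sub, neg_mem_iff] at h0
  by_cases hc : c = 0
  · rw [e, hc, zero_smul, zero_add]; exact hw
  · exact inv _ _ ((Submodule.smul_mem_iff _ (pow_ne_zero n hc)).1 h0)

theorem br_pow {a y : A} (ha : a ∈ W.nn 0) (hy : y ∈ W.nn 0) (n : ℕ) : (brA a ^ n) y ∈ W.nn n := by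
  induction n with
  | zero => simpa using hy
  | succ n ih => rw [pow_succ', Module.End.mul_apply]; exact W.br_mem ha ih

theorem conj_mem [N.Normal] (g : P) {y : A} (hy : y ∈ W.nn 0) :
    W.ρ g * y * W.ρ g⁻¹ ∈ W.nn 0 := by
  refine W.nn_le (U := (W.nn 0).comap (LinearMap.mulRight ℝ (W.ρ g⁻¹) ∘ₗ
    LinearMap.mulLeft ℝ (W.ρ g))) (fun l _ => ?_) hy
  change W.ρ g * W.lg (B.e l) * W.ρ g⁻¹ ∈ W.nn 0
  rw [W.lg_conj _ (B.e_mem_N l)]
  exact W.lg_mem_zero (Subgroup.Normal.conj_mem ‹_› _ (B.e_mem_N l) g)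

/-! ### the functionals -/

theorem lg_eq_sum {x : P} (hx : x ∈ N) : W.lg x =
    ∑ n ∈ range (W.M + 2), ((-1 : ℝ) ^ (n + 1) / n) • (W.ρ x - 1) ^ n :=
  nlg_eq_sum (by rw [pow_add, W.nilI.pow_eq_zero ((W.ρ_sub x).2 hx), zero_mul])

theorem ℓ_lg_zero {i : ℕ} (hi : i < B.m) {x : P} (hx : x ∈ B.Q (i + 1)) : W.ℓ i (W.lg x) = 0 := by
  rw [W.lg_eq_sum (B.le_N _ hx), map_sum]
  refine sum_eq_zero fun n _ => ?_
  rw [map_smul]
  cases n with
  | zero => simp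
  | succ n => rw [pow_succ (W.ρ x - 1), W.ℓ_ker i hi _ x hx, smul_zero]

theorem ℓ_lg_self {i : ℕ} (hi : i < B.m) : W.ℓ i (W.lg (B.e i)) = 1 := by
  have he := B.e_mem i hi
  set u := W.ρ (B.e i) with hu
  have h1 : ∀ k : ℕ, W.ℓ i (u ^ k) = k := by
    intro k
    rw [hu, ← map_pow, W.ℓ_ρ i hi _ ((B.Q i).pow_mem he k), ← zpow_natCast, B.a_zpow hi he,
      B.a_e i hi]
    simp
  have h2 : ∀ n k : ℕ, W.ℓ i (u ^ k * (u - 1) ^ (n + 2)) = 0 := by
    intro n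
    induction n with
    | zero =>
      intro k
      have : u ^ k * (u - 1) ^ (0 + 2) = u ^ (k + 2) - u ^ (k + 1) - u ^ (k + 1) + u ^ k := by
        simp only [pow_succ, pow_zero, one_mul, mul_sub, sub_mul, mul_one, mul_assoc]
        abel
      rw [this, map_add, map_sub, map_sub, h1, h1, h1]
      push_cast
      ring
    | succ n ih =>
      intro k
      have : u ^ k * (u - 1) ^ (n + 1 + 2) =
          u ^ (k + 1) * (u - 1) ^ (n + 2) - u ^ k * (u - 1) ^ (n + 2) := by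
        rw [show n + 1 + 2 = n + 2 + 1 by ring, pow_succ' (u - 1), sub_mul, mul_sub, one_mul,
          pow_succ u k, mul_assoc]
      rw [this, map_sub, ih, ih, sub_zero]
  rw [W.lg_eq_sum (B.le_N _ he), map_sum, sum_range_succ', sum_range_succ', ← hu]
  have h3 : ∑ n ∈ range W.M, W.ℓ i (((-1 : ℝ) ^ (n + 1 + 1 + 1) / (n + 1 + 1 : ℕ)) •
      (u - 1) ^ (n + 1 + 1)) = 0 := by
    refine sum_eq_zero fun n _ => ?_
    have := h2 n 0
    rw [pow_zero, one_mul] at this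
    rw [map_smul, this, smul_zero]
  have h4 := h1 1
  have h5 := h1 0
  rw [pow_one] at h4
  rw [pow_zero] at h5
  rw [h3]
  simp [h4, h5]

theorem ℓ_φ (t : Fin B.m → ℝ) (i : Fin B.m) :
    W.ℓ i (W.φ t) = t i + ∑ j with j < i, t j * W.ℓ i (W.lg (B.e j)) := by
  rw [φ, Fintype.linearCombination_apply, map_sum, ← add_sum_erase _ _ (mem_univ i), map_smul,
    W.ℓ_lg_self i.2, smul_eq_mul, mul_one]
  congr 1
  symm
  refine sum_subset_zero_on_sdiff (fun j hj => ?_) (fun j hj => ?_) fun j _ => ?_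
  · exact mem_erase.2 ⟨(mem_filter.1 hj).2.ne, mem_univ _⟩
  · obtain ⟨h1, h2⟩ := mem_sdiff.1 hj
    have h3 : i < j := lt_of_le_of_ne (not_lt.1 fun h => h2 (mem_filter.2 ⟨mem_univ _, h⟩))
      (mem_erase.1 h1).1.symm
    rw [map_smul, W.ℓ_lg_zero i.2 (B.anti_le h3 (B.e_mem j j.2)), smul_zero]
  · rw [map_smul, smul_eq_mul]

theorem φ_inj : Function.Injective W.φ := by
  refine (injective_iff_map_eq_zero W.φ).2 fun t ht => funext fun i => ?_
  induction i using WellFoundedLT.induction with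
  | ind i ih =>
    have := W.ℓ_φ t i
    rw [ht, map_zero, sum_eq_zero fun j hj => by rw [ih j (mem_filter.1 hj).2]; simp,
      add_zero] at this
    exact this.symm

theorem ℓ_lg_int (i : ℕ) {x : P} (hx : x ∈ N) :
    ∃ z : ℤ, (W.M.factorial : ℝ) * W.ℓ i (W.lg x) = z := by
  have h1 := factorial_smul_nlg_mem (Subring.closure (MonoidHom.mrange W.ρ : Set A))
    (u := W.ρ x) (Subring.subset_closure ⟨x, rfl⟩) (W.nilI.pow_eq_zero ((W.ρ_sub x).2 hx))
  rw [Subring.mem_closure_iff, Submonoid.closure_eq] at h1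
  have h2 : ∀ s ∈ AddSubgroup.closure (MonoidHom.mrange W.ρ : Set A), ∃ z : ℤ, W.ℓ i s = z := by
    intro s hs
    induction hs using AddSubgroup.closure_induction with
    | mem s hs => obtain ⟨p, rfl⟩ := hs; exact W.ℓ_int i p
    | zero => exact ⟨0, by simp⟩
    | add a b _ _ ha hb =>
      obtain ⟨z, hz⟩ := ha
      obtain ⟨w, hw⟩ := hb
      exact ⟨z + w, by rw [map_add, hz, hw, Int.cast_add]⟩
    | neg a _ ha =>
      obtain ⟨z, hz⟩ := ha
      exact ⟨-z, by rw [map_neg, hz, Int.cast_neg]⟩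
  obtain ⟨z, hz⟩ := h2 _ h1
  exact ⟨z, by rw [← hz, map_nsmul, nsmul_eq_mul, lg]⟩

theorem φ_lat {x : P} (hx : x ∈ N) {t : Fin B.m → ℝ} (ht : W.φ t = W.lg x) (i : Fin B.m) :
    ∃ z : ℤ, ((W.M.factorial ^ B.m : ℕ) : ℝ) * t i = z := by
  have key : ∀ i : Fin B.m, ∃ z : ℤ, (W.M.factorial : ℝ) ^ ((i : ℕ) + 1) * t i = z := by
    intro i
    induction i using WellFoundedLT.induction with
    | ind i ih =>
      have h1 := W.ℓ_φ t i
      obtain ⟨z, hz⟩ := W.ℓ_lg_int i hx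
      have h2 : ∀ j : Fin B.m, j < i → ∃ w : ℤ, (W.M.factorial : ℝ) ^ ((i : ℕ) + 1) *
          (t j * W.ℓ i (W.lg (B.e j))) = w := by
        intro j hj
        obtain ⟨a, ha⟩ := ih j hj
        obtain ⟨b, hb⟩ := W.ℓ_lg_int i (B.e_mem_N j)
        obtain ⟨r, hr⟩ := Nat.exists_eq_add_of_lt (Fin.lt_def.1 hj)
        refine ⟨(W.M.factorial : ℤ) ^ r * a * b, ?_⟩
        push_cast
        rw [← ha, ← hb, hr]
        ring
      choose! w hw using h2
      refine ⟨(W.M.factorial : ℤ) ^ (i : ℕ) * z - ∑ j with j < i, w j, ?_⟩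
      push_cast
      rw [← hz, ← ht, h1, ← sum_congr rfl fun j hj => hw j (mem_filter.1 hj).2, ← mul_sum]
      ring
  obtain ⟨z, hz⟩ := key i
  obtain ⟨r, hr⟩ := Nat.exists_eq_add_of_lt i.2
  refine ⟨(W.M.factorial : ℤ) ^ r * z, ?_⟩
  push_cast
  rw [← hz]
  conv_lhs => rw [hr]
  ring

end Swan

end Crest.Agent.R182
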