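import Crest.Agent.R182.LAHull0
import Crest.Agent.R182.LABch

/-! Row 182, block L1 (b3): groups given by a Baker-Campbell-Hausdorff law; Švarc-Milnor. -/

set_option autoImplicit false
set_option linter.dupNamespace false

namespace Crest.Agent.R182

open Crest.GroupTheory

section law

variable {G : Type*} [Group G] {d : ℕ}
  {br : (Fin d → ℝ) →ₗ[ℝ] (Fin d → ℝ) →ₗ[ℝ] (Fin d → ℝ)} {ex : (Fin d → ℝ) → G}
  {l : List (ℝ × LTree × LTree)}

/-- vectors supported on the coordinates `≥ i` -/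
def hV (d i : ℕ) : Submodule ℝ (Fin d → ℝ) where
  carrier := {t | ∀ l : Fin d, (l : ℕ) < i → t l = 0}
  add_mem' := fun ha hb l hl => by simp [ha l hl, hb l hl]
  zero_mem' := fun _ _ => rfl
  smul_mem' := fun c x hx l hl => by simp [hx l hl]

theorem mem_hV {i : ℕ} {t : Fin d → ℝ} : t ∈ hV d i ↔ ∀ l : Fin d, (l : ℕ) < i → t l = 0 := Iff.rfl

theorem hV_zero (t : Fin d → ℝ) : t ∈ hV d 0 := fun _ h => absurd h (Nat.not_lt_zero _)

theorem hV_anti {i j : ℕ} (h : i ≤ j) : hV d j ≤ hV d i := fun _ ht l hl => ht l (hl.trans_le h)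

theorem hV_top {t : Fin d → ℝ} {i : ℕ} (hi : d ≤ i) (h : t ∈ hV d i) : t = 0 :=
  funext fun l => h l (l.2.trans_le hi)

theorem single_mem_hV {i : ℕ} {j : Fin d} (h : i ≤ j) (c : ℝ) : Pi.single j c ∈ hV d i := by
  intro l hl
  have : l ≠ j := fun e => by rw [e] at hl; omega
  simp [this]

theorem hV_le {M : Type*} [AddCommGroup M] [Module ℝ M] (φ : (Fin d → ℝ) →ₗ[ℝ] M) {i : ℕ}
    {W : Submodule ℝ M} (h : ∀ j : Fin d, i ≤ j → φ (Pi.single j 1) ∈ W) :
    ∀ t ∈ hV d i, φ t ∈ W := by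
  intro t ht
  rw [pi_eq_sum_univ' t, map_sum]
  refine W.sum_mem fun j _ => ?_
  by_cases hj : i ≤ j
  · rw [map_smul]; exact W.smul_mem _ (h j hj)
  · rw [ht j (not_le.1 hj), zero_smul, map_zero]; exact W.zero_mem

theorem br_mem_hV
    (ht : ∀ i j l, br (Pi.single i 1) (Pi.single j 1) l ≠ 0 → i < l ∧ j < l) (X : Fin d → ℝ)
    {i : ℕ} {Y : Fin d → ℝ} (hY : Y ∈ hV d i) : br X Y ∈ hV d (i + 1) := by
  refine hV_le (br X) (fun j hj => ?_) Y hY
  refine hV_le (br.flip (Pi.single j 1)) (i := 0) (fun a _ => ?_) X (hV_zero X)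
  intro l hl
  by_contra h
  have := (ht a j l h).2
  rw [Fin.lt_def] at this
  omega

theorem bchSum_mem_hV
    (ht : ∀ i j l, br (Pi.single i 1) (Pi.single j 1) l ≠ 0 → i < l ∧ j < l) {i : ℕ}
    {X Y : Fin d → ℝ} (hX : X ∈ hV d i) (hY : Y ∈ hV d i) :
    bchSum (fun A B => br A B) l X Y ∈ hV d (i + 1) :=
  bchSum_mem (S := (hV d i : Set _))
    (fun a _ _ hb => hV_anti (Nat.le_succ i) (br_mem_hV ht a hb))
    (fun a _ _ hb => br_mem_hV ht a hb) l hX hY

theorem bchSum_par (hs : ∀ X, br X X = 0) (Z : Fin d → ℝ) (s t : ℝ) :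
    bchSum (fun A B => br A B) l (s • Z) (t • Z) = 0 := by
  have key : ∀ a ∈ (Submodule.span ℝ {Z} : Set (Fin d → ℝ)),
      ∀ b ∈ (Submodule.span ℝ {Z} : Set (Fin d → ℝ)), br a b = 0 := by
    intro a ha b hb
    obtain ⟨x, rfl⟩ := Submodule.mem_span_singleton.1 ha
    obtain ⟨y, rfl⟩ := Submodule.mem_span_singleton.1 hb
    simp [hs]
  have := bchSum_mem (br := fun A B => br A B) (S := (Submodule.span ℝ {Z} : Set (Fin d → ℝ)))
    (W := ⊥) (fun a ha b hb => by rw [key a ha b hb]; exact Submodule.zero_mem _)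
    (fun a ha b hb => by rw [key a ha b hb]; exact Submodule.zero_mem _) l
    (X := s • Z) (Y := t • Z) (Submodule.mem_span_singleton.2 ⟨s, rfl⟩)
    (Submodule.mem_span_singleton.2 ⟨t, rfl⟩)
  exact (Submodule.mem_bot ℝ).1 this

theorem law_add (hs : ∀ X, br X X = 0)
    (hm : ∀ X Y, ex X * ex Y = ex (X + Y + bchSum (fun A B => br A B) l X Y))
    (Z : Fin d → ℝ) (s t : ℝ) : ex ((s + t) • Z) = ex (s • Z) * ex (t • Z) := by
  rw [hm, bchSum_par hs, add_zero, add_smul]

theorem law_zero (hs : ∀ X, br X X = 0)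
    (hm : ∀ X Y, ex X * ex Y = ex (X + Y + bchSum (fun A B => br A B) l X Y)) : ex 0 = 1 := by
  have := law_add hs hm 0 0 0
  simp only [smul_zero] at this
  exact left_eq_mul.1 this

theorem law_neg (hs : ∀ X, br X X = 0)
    (hm : ∀ X Y, ex X * ex Y = ex (X + Y + bchSum (fun A B => br A B) l X Y))
    (Z : Fin d → ℝ) : ex (-Z) = (ex Z)⁻¹ := by
  have := law_add hs hm Z 1 (-1)
  rw [add_neg_cancel, zero_smul, law_zero hs hm, one_smul, neg_one_smul] at this
  exact eq_inv_of_mul_eq_one_right this.symm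

theorem law_zpow (hs : ∀ X, br X X = 0)
    (hm : ∀ X Y, ex X * ex Y = ex (X + Y + bchSum (fun A B => br A B) l X Y))
    (Z : Fin d → ℝ) (n : ℤ) : ex ((n : ℝ) • Z) = ex Z ^ n := by
  induction n using Int.induction_on with
  | zero => simp [law_zero hs hm]
  | succ n ih =>
    rw [zpow_add_one, ← ih]
    push_cast
    rw [law_add hs hm, one_smul]
  | pred n ih =>
    rw [zpow_sub_one, ← ih, ← law_neg hs hm]
    push_cast
    rw [sub_eq_add_neg, law_add hs hm, neg_one_smul]

theorem continuous_br :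
    Continuous fun p : (Fin d → ℝ) × (Fin d → ℝ) => br p.1 p.2 := by
  let b : (Fin d → ℝ) →L[ℝ] (Fin d → ℝ) →L[ℝ] (Fin d → ℝ) :=
    LinearMap.toContinuousLinearMap
      ((LinearMap.toContinuousLinearMap (𝕜 := ℝ) (E := Fin d → ℝ)
        (F' := Fin d → ℝ)).toLinearMap ∘ₗ br)
  exact b.continuous₂

theorem continuous_eval (t : LTree) :
    Continuous fun p : (Fin d → ℝ) × (Fin d → ℝ) => t.eval (fun A B => br A B) p.1 p.2 := by
  induction t with
  | x => exact continuous_fst
  | y => exact continuous_snd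
  | node s t hs ht => exact continuous_br.comp (hs.prodMk ht)

theorem continuous_bchSum :
    Continuous fun p : (Fin d → ℝ) × (Fin d → ℝ) => bchSum (fun A B => br A B) l p.1 p.2 := by
  induction l with
  | nil => simpa [bchSum] using continuous_const
  | cons a l ih =>
    simp only [bchSum, List.map_cons, List.sum_cons] at ih ⊢
    exact ((continuous_eval _).const_smul a.1).add ih

theorem law_bound (R : ℝ) : ∃ R' : ℝ, ∀ X Y : Fin d → ℝ, ‖X‖ ≤ R → ‖Y‖ ≤ R →
    ‖X + Y + bchSum (fun A B => br A B) l X Y‖ ≤ R' := by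
  have hc : Continuous fun p : (Fin d → ℝ) × (Fin d → ℝ) =>
      p.1 + p.2 + bchSum (fun A B => br A B) l p.1 p.2 :=
    (continuous_fst.add continuous_snd).add continuous_bchSum
  obtain ⟨R', hR⟩ := ((isCompact_closedBall (0 : Fin d → ℝ) R).prod
    (isCompact_closedBall (0 : Fin d → ℝ) R)).exists_bound_of_continuousOn hc.continuousOn
  exact ⟨R', fun X Y hX hY => hR (X, Y) ⟨mem_closedBall_zero_iff.2 hX, mem_closedBall_zero_iff.2 hY⟩⟩

/-- the subgroup generated by the exponentials of a triangular basis is cocompact -/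
theorem law_cocpt (hs : ∀ X, br X X = 0)
    (ht : ∀ i j l, br (Pi.single i 1) (Pi.single j 1) l ≠ 0 → i < l ∧ j < l)
    (hm : ∀ X Y, ex X * ex Y = ex (X + Y + bchSum (fun A B => br A B) l X Y))
    (Γ : Subgroup G) (hΓ : ∀ i, ex (Pi.single i 1) ∈ Γ) :
    ∃ C : ℝ, ∀ X, ∃ n ∈ Γ, ∃ Y, ‖Y‖ ≤ C ∧ ex X = n * ex Y := by
  have key : ∀ r i : ℕ, i + r = d →
      ∃ C : ℝ, ∀ X ∈ hV d i, ∃ n ∈ Γ, ∃ Y, ‖Y‖ ≤ C ∧ ex X = n * ex Y := by
    intro r
    induction r with
    | zero =>
      intro i hi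
      refine ⟨0, fun X hX => ⟨1, Γ.one_mem, 0, by simp, ?_⟩⟩
      rw [hV_top (by omega) hX, one_mul]
    | succ r ih =>
      intro i hi
      obtain ⟨C, hC⟩ := ih (i + 1) (by omega)
      obtain ⟨R', hR'⟩ := law_bound (br := br) (l := l) (max C 1)
      refine ⟨R', fun X hX => ?_⟩
      set j : Fin d := ⟨i, by omega⟩ with hj
      set e : Fin d → ℝ := Pi.single j 1 with he
      have hej : ∀ c : ℝ, c • e ∈ hV d i := fun c =>
        (hV d i).smul_mem c (single_mem_hV (le_refl i) 1)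
      set a : ℤ := ⌊X j⌋ with ha
      set s : ℝ := Int.fract (X j) with hs'
      set X₁ := (-(a : ℝ)) • e + X + bchSum (fun A B => br A B) l ((-(a : ℝ)) • e) X with hX₁
      have b₁ := bchSum_mem_hV (l := l) ht (hej (-(a : ℝ))) hX
      have m₁ : X₁ ∈ hV d i :=
        (hV d i).add_mem ((hV d i).add_mem (hej _) hX) (hV_anti (Nat.le_succ i) b₁)
      set X₂ := X₁ + (-s) • e + bchSum (fun A B => br A B) l X₁ ((-s) • e) with hX₂
      have b₂ := bchSum_mem_hV (l := l) ht m₁ (hej (-s))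
      have m₂ : X₂ ∈ hV d (i + 1) := by
        intro q hq
        rcases Nat.lt_succ_iff_lt_or_eq.1 hq with h | h
        · exact ((hV d i).add_mem ((hV d i).add_mem m₁ (hej _)) (hV_anti (Nat.le_succ i) b₂)) q h
        · have hqj : q = j := Fin.ext h
          have e1 := b₁ q hq
          have e2 := b₂ q hq
          have e4 : X₁ q = -(a : ℝ) * e q + X q := by
            rw [hX₁, Pi.add_apply, Pi.add_apply, e1, add_zero]; rfl
          have e5 : e q = 1 := by rw [hqj, he, Pi.single_eq_same]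
          rw [hX₂, Pi.add_apply, Pi.add_apply, e2, e4, Pi.smul_apply, e5, hs', ha, hqj, Int.fract,
            smul_eq_mul]
          ring
      obtain ⟨n, hn, Y, hY, e3⟩ := hC X₂ m₂
      have hse : ‖s • e‖ ≤ max C 1 := by
        refine le_trans ?_ (le_max_right _ _)
        rw [norm_smul, he, Pi.norm_single, norm_one, mul_one, Real.norm_eq_abs,
          abs_of_nonneg (Int.fract_nonneg _)]
        exact (Int.fract_lt_one _).le
      refine ⟨ex e ^ a * n, Γ.mul_mem (Γ.zpow_mem (hΓ j) a) hn, _,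
        hR' Y (s • e) (hY.trans (le_max_left _ _)) hse, ?_⟩
      rw [← hm, mul_assoc, ← mul_assoc n, ← e3, hX₂, ← hm, hX₁, ← hm, neg_smul, neg_smul,
        law_neg hs hm, law_neg hs hm, law_zpow hs hm]
      group
  obtain ⟨C, hC⟩ := key d 0 (by omega)
  exact ⟨C, fun X => hC X (hV_zero X)⟩

end law

theorem finite_subset_ball {H : Type*} [Group H] {U : Set H} (hU : Subgroup.closure U = ⊤)
    {A : Set H} (hA : A.Finite) : ∃ R, A ⊆ Ball U R := by
  induction A, hA using Set.Finite.induction_on with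
  | empty => exact ⟨0, Set.empty_subset _⟩
  | @insert a A _ _ ih =>
    obtain ⟨R, hR⟩ := ih
    obtain ⟨r, hr⟩ := Ball.exists_of_mem_closure (T := U) (a := a) (hU ▸ Subgroup.mem_top a)
    exact ⟨max R r, Set.insert_subset (Ball.mono subset_rfl (le_max_right _ _) hr)
      (hR.trans (Ball.mono subset_rfl (le_max_left _ _)))⟩

/-- **Švarc-Milnor** -/
theorem QI.of_cocompact {P G : Type*} [Group P] [Group G] (S : Finset P)
    (hS : Subgroup.closure (S : Set P) = ⊤) (T : Set G) (hT : Subgroup.closure T = ⊤)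
    (j : P →* G) (hd : ∃ c, ∀ g, ∃ p, (j p)⁻¹ * g ∈ Ball T c)
    (hp : ∀ r, {p | j p ∈ Ball T r}.Finite) : ∃ c, QI (S : Set P) T j c := by
  obtain ⟨c, hc⟩ := hd
  obtain ⟨R, hR⟩ := finite_subset_ball hS (hp (c + 1 + c))
  obtain ⟨U, hU⟩ := finite_subset_ball hT (S.finite_toSet.image j)
  have key : ∀ n, ∀ p, ∀ b ∈ Ball T c, ∀ g ∈ Ball T n, j p = b * g →
      p ∈ Ball (S : Set P) (R * n + R) := by
    intro n
    induction n with
    | zero =>
      intro p b hb g hg e
      rw [h31_ball_zero] at hg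
      rw [Set.mem_singleton_iff.1 hg, mul_one] at e
      refine Ball.mono subset_rfl (by omega) (hR ?_)
      exact Ball.mono subset_rfl (by omega) (e ▸ hb)
    | succ n ih =>
      intro p b hb g hg e
      rcases h31_ball_succ hg with rfl | ⟨x, hx, g', hg', rfl⟩
      · exact Ball.mono subset_rfl (by nlinarith) (ih p b hb 1 (Ball.one_mem _ _) e)
      · obtain ⟨q, hq⟩ := hc (b * x)
        have hx1 : x ∈ Ball T 1 := by
          rcases hx with h | h
          · exact Ball.mem_of_mem h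
          · simpa using Ball.inv_mem (Ball.mem_of_mem h)
        have h1 : q ∈ Ball (S : Set P) R := by
          refine hR ?_
          have := Ball.mul_mem (Ball.mul_mem hb hx1) (Ball.inv_mem hq)
          have e1 : b * x * ((j q)⁻¹ * (b * x))⁻¹ = j q := by group
          rwa [e1] at this
        have h2 := ih (q⁻¹ * p) _ hq g' hg' (by rw [map_mul, map_inv, e]; group)
        have := Ball.mul_mem h1 h2
        rw [mul_inv_cancel_left] at this
        exact Ball.mono subset_rfl (by nlinarith) this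
  refine ⟨c + R + U, fun x y n h => ?_, fun x y n h => ?_, fun g => ?_⟩
  · have h1 : j (x⁻¹ * y) ∈ Ball (j '' (S : Set P)) n := by
      rw [← Ball.image]; exact ⟨_, h, rfl⟩
    have h2 := Ball.subset_of (T := T) (m := U) (fun t ht => hU ht) n h1
    rw [map_mul, map_inv] at h2
    exact Ball.mono subset_rfl (by nlinarith) h2
  · have := key n (x⁻¹ * y) 1 (Ball.one_mem _ _) _ h (by rw [map_mul, map_inv, one_mul])
    exact Ball.mono subset_rfl (by nlinarith) this
  · obtain ⟨p, hp'⟩ := hc g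
    exact ⟨p, Ball.mono subset_rfl (by omega) hp'⟩

end Crest.Agent.R182
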