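import Crest.Agent.R182.LMDefs

/-! Row 182, block L2 (measures): triangular maps preserve Lebesgue measure. -/

set_option autoImplicit false
set_option linter.dupNamespace false

namespace Crest.Agent.R182

open Crest.GroupTheory MeasureTheory Pointwise

theorem det_one_add_nil {V : Type*} [AddCommGroup V] [Module ℝ V] [FiniteDimensional ℝ V]
    {N : Module.End ℝ V} (hN : IsNilpotent N) : LinearMap.det (1 + N) = 1 := by
  let b := Module.finBasis ℝ V
  have h1 : IsNilpotent (LinearMap.toMatrix b b (-N)) :=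
    hN.neg.map (LinearMap.toMatrixAlgEquiv b)
  have h2 := Matrix.eval_charpoly (LinearMap.toMatrix b b (-N)) 1
  rw [(Matrix.isNilpotent_charpoly_sub_pow_of_isNilpotent h1).eq_zero |> sub_eq_zero.1] at h2
  rw [← LinearMap.det_toMatrix b, map_add]
  simpa using h2.symm

/-- a differentiable injective map which is strictly triangular (in the coordinates `L`) up to the
identity preserves the volume -/
theorem tri_vol {V : Type*} [NormedAddCommGroup V] [NormedSpace ℝ V] [FiniteDimensional ℝ V]
    [MeasurableSpace V] [BorelSpace V] (m : Measure V) [m.IsAddHaarMeasure] {d : ℕ}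
    (L : V →ₗ[ℝ] (Fin d → ℝ)) (hL : Function.Injective L) (F : V → V) (hF : Differentiable ℝ F)
    (hinj : Function.Injective F)
    (htri : ∀ X X' l, (∀ j < l, L X j = L X' j) → L (F X) l - L X l = L (F X') l - L X' l)
    {s : Set V} (hs : MeasurableSet s) : m (F '' s) = m s := by
  have hdet : ∀ X, (fderiv ℝ F X).det = 1 := fun X => by
    have hN : ∀ (H : V) (l : Fin d), (∀ j < l, L H j = 0) → L (fderiv ℝ F X H - H) l = 0 := by
      intro H l hH
      let φ : V →L[ℝ] ℝ := LinearMap.toContinuousLinearMap ((LinearMap.proj l).comp L)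
      have h0 : HasDerivAt (fun t : ℝ => X + t • H) H 0 := by
        simpa using ((hasDerivAt_id (0 : ℝ)).smul_const H).const_add X
      have h1 : HasDerivAt (fun t : ℝ => F (X + t • H)) (fderiv ℝ F X H) 0 := by
        have := (hF (X + (0 : ℝ) • H)).hasFDerivAt.comp_hasDerivAt (0 : ℝ) h0
        simpa [Function.comp_def] using this
      have h2 : HasDerivAt (fun t : ℝ => φ (F (X + t • H) - (X + t • H)))
          (φ (fderiv ℝ F X H - H)) 0 := φ.hasFDerivAt.comp_hasDerivAt (0 : ℝ) (h1.sub h0)
      have h3 : (fun t : ℝ => φ (F (X + t • H) - (X + t • H))) = fun _ => L (F X) l - L X l := by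
        funext t
        rw [← htri (X + t • H) X l fun j hj => by simp [hH j hj]]
        simp [φ]
      rw [h3] at h2
      exact h2.unique (hasDerivAt_const _ _)
    have hp : ∀ (n : ℕ) (H : V) (j : Fin d), j.val < n →
        L ((((fderiv ℝ F X : V →ₗ[ℝ] V) - 1) ^ n) H) j = 0 := fun n => by
      induction n with
      | zero => intro H j hj; omega
      | succ n ih =>
        intro H j hj
        rw [pow_succ', Module.End.mul_apply]
        exact hN _ j fun i hi => ih H i (by have := Fin.lt_def.1 hi; omega)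
    have hn : IsNilpotent ((fderiv ℝ F X : V →ₗ[ℝ] V) - 1) :=
      ⟨d, LinearMap.ext fun H => hL (by
        funext j
        rw [hp d H j j.2]
        simp)⟩
    have := det_one_add_nil hn
    rwa [add_sub_cancel] at this
  rw [← lintegral_abs_det_fderiv_eq_addHaar_image m hs
    (fun x _ => (hF x).hasFDerivAt.hasFDerivWithinAt) hinj.injOn]
  simp [hdet]

namespace LieModel

variable {G : Type} [Group G] {k : ℕ} (M : LieModel G k)

theorem br_apply (A B : Fin M.d → ℝ) (l : Fin M.d) :
    M.br A B l = ∑ i, ∑ j, A i * B j * M.br (Pi.single i 1) (Pi.single j 1) l := by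
  conv_lhs => rw [pi_eq_sum_univ' A, pi_eq_sum_univ' B]
  simp only [map_sum, map_smul, LinearMap.sum_apply, LinearMap.smul_apply, Finset.sum_apply,
    Pi.smul_apply, smul_eq_mul, Finset.mul_sum]
  rw [Finset.sum_comm]
  refine Finset.sum_congr rfl fun i _ => Finset.sum_congr rfl fun j _ => ?_
  ring

/-- the coordinate `l` of a bracket depends only on the lower coordinates -/
theorem br_dep {A B A' B' : Fin M.d → ℝ} {l : Fin M.d} (hA : ∀ j < l, A j = A' j)
    (hB : ∀ j < l, B j = B' j) : M.br A B l = M.br A' B' l := by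
  rw [br_apply, br_apply]
  refine Finset.sum_congr rfl fun i _ => Finset.sum_congr rfl fun j _ => ?_
  by_cases h : M.br (Pi.single i 1) (Pi.single j 1) l = 0
  · simp [h]
  · obtain ⟨h1, h2, -⟩ := M.br_tri i j l h
    rw [hA i h1, hB j h2]

theorem ev_dep (t : LTree) {X Y X' Y' : Fin M.d → ℝ} {l : Fin M.d} (hX : ∀ j < l, X j = X' j)
    (hY : ∀ j < l, Y j = Y' j) : ∀ j < l, M.ev t X Y j = M.ev t X' Y' j := by
  induction t with
  | x => exact hX
  | y => exact hY
  | node s t hs ht =>
    exact fun j hj => M.br_dep (fun i hi => hs i (hi.trans hj)) fun i hi => ht i (hi.trans hj)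

theorem hi_dep {X Y X' Y' : Fin M.d → ℝ} {l : Fin M.d} (hX : ∀ j < l, X j = X' j)
    (hY : ∀ j < l, Y j = Y' j) : M.hi X Y l = M.hi X' Y' l := by
  unfold hi
  induction M.bch with
  | nil => rfl
  | cons p q ih =>
    simp only [List.map_cons, List.sum_cons, Pi.add_apply, Pi.smul_apply, ih]
    rw [ev_node, ev_node, M.br_dep (M.ev_dep p.2.1 hX hY) (M.ev_dep p.2.2 hX hY)]

section smooth

variable {V : Type*} [NormedAddCommGroup V] [NormedSpace ℝ V] {n : WithTop ℕ∞}

theorem contDiff_br {f g : V → Fin M.d → ℝ} (hf : ContDiff ℝ n f) (hg : ContDiff ℝ n g) :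
    ContDiff ℝ n fun v => M.br (f v) (g v) := by
  refine contDiff_pi.2 fun l => ?_
  rw [funext fun v => M.br_apply (f v) (g v) l]
  refine ContDiff.sum fun i _ => ContDiff.sum fun j _ => ?_
  exact ((contDiff_pi.1 hf i).mul (contDiff_pi.1 hg j)).mul contDiff_const

theorem contDiff_ev (t : LTree) {f g : V → Fin M.d → ℝ} (hf : ContDiff ℝ n f)
    (hg : ContDiff ℝ n g) : ContDiff ℝ n fun v => M.ev t (f v) (g v) := by
  induction t with
  | x => exact hf
  | y => exact hg
  | node s t hs ht => exact M.contDiff_br hs ht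

theorem contDiff_hi {f g : V → Fin M.d → ℝ} (hf : ContDiff ℝ n f)
    (hg : ContDiff ℝ n g) : ContDiff ℝ n fun v => M.hi (f v) (g v) := by
  unfold hi
  induction M.bch with
  | nil => exact contDiff_const
  | cons p q ih =>
    simp only [List.map_cons, List.sum_cons]
    exact ((M.contDiff_ev _ hf hg).const_smul _).add ih

theorem contDiff_bc {f g : V → Fin M.d → ℝ} (hf : ContDiff ℝ n f)
    (hg : ContDiff ℝ n g) : ContDiff ℝ n fun v => M.bc (f v) (g v) :=
  (hf.add hg).add (M.contDiff_hi hf hg)

end smooth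

theorem continuous_bc : Continuous fun p : (Fin M.d → ℝ) × (Fin M.d → ℝ) => M.bc p.1 p.2 :=
  (M.contDiff_bc (n := 0) contDiff_fst contDiff_snd).continuous

instance {d : ℕ} (E : Submodule ℝ (Fin d → ℝ)) : (vE E).IsAddHaarMeasure := by
  unfold vE; infer_instance

/-- right translations preserve the volume -/
theorem vol_bc_right (Y : Fin M.d → ℝ) {s : Set (Fin M.d → ℝ)} (hs : MeasurableSet s) :
    volume ((fun X => M.bc X Y) '' s) = volume s :=
  tri_vol volume LinearMap.id Function.injective_id _
    ((M.contDiff_bc (n := 1) contDiff_id contDiff_const).differentiable one_ne_zero)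
    (M.bc_left_injective Y) (fun X X' l h => by
      simp only [LinearMap.id_apply, bc, Pi.add_apply, id] at h ⊢
      rw [M.hi_dep h fun _ _ => rfl]
      ring) hs

/-- left translations preserve the volume -/
theorem vol_bc_left (Y : Fin M.d → ℝ) {s : Set (Fin M.d → ℝ)} (hs : MeasurableSet s) :
    volume ((fun X => M.bc Y X) '' s) = volume s :=
  tri_vol volume LinearMap.id Function.injective_id _
    ((M.contDiff_bc (n := 1) contDiff_const contDiff_id).differentiable one_ne_zero)
    (M.bc_right_injective Y) (fun X X' l h => by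
      simp only [LinearMap.id_apply, bc, Pi.add_apply, id] at h ⊢
      rw [M.hi_dep (fun _ _ => rfl) h]
      ring) hs

variable {M} in
/-- right translation in a subalgebra -/
def Sub.rt {E : Submodule ℝ (Fin M.d → ℝ)} (hE : M.Sub E) {Y : Fin M.d → ℝ} (hY : Y ∈ E)
    (X : E) : E := ⟨M.bc X Y, hE.bc_mem X.2 hY⟩

variable {M} in
/-- left translation in a subalgebra -/
def Sub.lt {E : Submodule ℝ (Fin M.d → ℝ)} (hE : M.Sub E) {Y : Fin M.d → ℝ} (hY : Y ∈ E)
    (X : E) : E := ⟨M.bc Y X, hE.bc_mem hY X.2⟩

theorem diff_sub {d : ℕ} {E : Submodule ℝ (Fin d → ℝ)} {F : E → E}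
    (hF : Differentiable ℝ fun X => (F X : Fin d → ℝ)) : Differentiable ℝ F := by
  obtain ⟨p, hp⟩ := E.subtype.exists_leftInverse_of_injective E.ker_subtype
  have h : F = fun X => LinearMap.toContinuousLinearMap p (F X : Fin d → ℝ) :=
    funext fun X => (LinearMap.congr_fun hp (F X)).symm
  rw [h]
  exact (LinearMap.toContinuousLinearMap p).differentiable.comp hF

variable {M} in
theorem Sub.vol_rt {E : Submodule ℝ (Fin M.d → ℝ)} (hE : M.Sub E) {Y : Fin M.d → ℝ} (hY : Y ∈ E)
    {s : Set E} (hs : MeasurableSet s) : vE E (hE.rt hY '' s) = vE E s :=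
  tri_vol (vE E) E.subtype E.injective_subtype _
    (diff_sub ((M.contDiff_bc (n := 1) E.subtypeL.contDiff contDiff_const).differentiable
      one_ne_zero))
    (fun _ _ h => Subtype.ext (M.bc_left_injective Y (congrArg Subtype.val h))) (fun X X' l h => by
      simp only [Submodule.subtype_apply, Sub.rt, bc, Pi.add_apply] at h ⊢
      rw [M.hi_dep h fun _ _ => rfl]
      ring) hs

variable {M} in
theorem Sub.vol_lt {E : Submodule ℝ (Fin M.d → ℝ)} (hE : M.Sub E) {Y : Fin M.d → ℝ} (hY : Y ∈ E)
    {s : Set E} (hs : MeasurableSet s) : vE E (hE.lt hY '' s) = vE E s :=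
  tri_vol (vE E) E.subtype E.injective_subtype _
    (diff_sub ((M.contDiff_bc (n := 1) contDiff_const E.subtypeL.contDiff).differentiable
      one_ne_zero))
    (fun _ _ h => Subtype.ext (M.bc_right_injective Y (congrArg Subtype.val h))) (fun X X' l h => by
      simp only [Submodule.subtype_apply, Sub.lt, bc, Pi.add_apply] at h ⊢
      rw [M.hi_dep (fun _ _ => rfl) h]
      ring) hs

theorem det_Ad_c (i : Fin k) : LinearMap.det (M.Ad (M.c i)) = 1 := by
  rw [← LinearMap.det_toMatrix (Pi.basisFun ℝ (Fin M.d)), Matrix.det_of_isLowerTriangular]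
  · simp only [LinearMap.toMatrix_apply, Pi.basisFun_apply, Pi.basisFun_repr, M.c_diag]
    rw [← Real.exp_sum, M.unimod, Real.exp_zero]
  · intro l j h
    simp only [LinearMap.toMatrix_apply, Pi.basisFun_apply, Pi.basisFun_repr]
    by_contra h0
    exact absurd (M.c_tri i j l h0).1 (not_le.2 (by simpa using h))

theorem det_Ad_sec (a : Fin k → ℤ) : LinearMap.det (M.Ad (M.sec a)) = 1 := by
  let φ : G →* ℝ := (LinearMap.det : Module.End ℝ (Fin M.d → ℝ) →* ℝ).comp M.Ad
  have h : ∀ i, φ (M.c i) = 1 := M.det_Ad_c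
  change φ (M.sec a) = 1
  rw [sec, map_list_prod]
  refine List.prod_eq_one fun x hx => ?_
  obtain ⟨y, hy, rfl⟩ := List.mem_map.1 hx
  obtain ⟨i, rfl⟩ := List.mem_ofFn.1 hy
  simp [map_zpow, h]

theorem vol_Ad_sec (a : Fin k → ℤ) (s : Set (Fin M.d → ℝ)) :
    volume (M.Ad (M.sec a) '' s) = volume s := by
  rw [Measure.addHaar_image_linearMap, det_Ad_sec]
  simp

/-- conjugations preserve the volume -/
theorem vol_Ad (g : G) {s : Set (Fin M.d → ℝ)} (hs : MeasurableSet s) :
    volume (M.Ad g '' s) = volume s := by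
  obtain ⟨⟨Y, a⟩, rfl⟩ := M.pt_bijective.2 g
  have hinj : Function.Injective (M.Ad (M.sec a)) := fun X X' h => by
    have := congrArg (M.Ad (M.sec a)⁻¹) h
    simpa only [← Module.End.mul_apply, ← map_mul, inv_mul_cancel, map_one,
      Module.End.one_apply] using this
  have h1 : MeasurableSet (M.Ad (M.sec a) '' s) :=
    hs.image_of_continuousOn_injOn (LinearMap.continuous_of_finiteDimensional _).continuousOn
      hinj.injOn
  have h2 : MeasurableSet ((fun X => M.bc Y X) '' (M.Ad (M.sec a) '' s)) :=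
    h1.image_of_continuousOn_injOn
      (M.continuous_bc.comp (continuous_const.prodMk continuous_id)).continuousOn
      (M.bc_right_injective Y).injOn
  rw [← M.vol_Ad_sec a s, ← M.vol_bc_left Y h1, ← M.vol_bc_right (-Y) h2, Set.image_image,
    Set.image_image]
  congr 2
  funext X
  refine M.ex_inj ?_
  simp only [← ex_mul', ← M.Ad_conj, pt, ex_neg]
  group

theorem det_Ad_abs (g : G) : |LinearMap.det (M.Ad g)| = 1 := by
  have h := M.vol_Ad g (s := Set.univ.pi fun _ => Set.Icc (0 : ℝ) 1)
    (MeasurableSet.univ_pi fun _ => measurableSet_Icc)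
  rw [Measure.addHaar_image_linearMap] at h
  rw [volume_pi_pi] at h
  simpa using h

end LieModel

end Crest.Agent.R182
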