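import Crest.Agent.R182.MDefs

/-! Row 182, middle: levels, volumes, the finite group `IsW`. -/

set_option autoImplicit false
set_option linter.dupNamespace false

namespace Crest.Agent.R182

open Crest.GroupTheory MeasureTheory

section lev

variable {k : ℕ} {ι : Type} {χ : ι → (Fin k → ℝ) →ₗ[ℝ] ℝ}

theorem lev_isLUB {S : Set (Fin k → ℝ)} (hS : S.Finite) (hn : S.Nonempty) (i : ι) :
    IsLUB (χ i '' S) (lev χ S i) := by
  exact isLUB_csSup (hn.image _) (hS.image _).bddAbove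

theorem le_lev {S : Set (Fin k → ℝ)} (hS : S.Finite) {s : Fin k → ℝ} (hs : s ∈ S) (i : ι) :
    χ i s ≤ lev χ S i := by
  exact le_csSup (hS.image _).bddAbove (Set.mem_image_of_mem _ hs)

theorem lev_le {S : Set (Fin k → ℝ)} (hn : S.Nonempty) {i : ι} {b : ℝ}
    (h : ∀ s ∈ S, χ i s ≤ b) : lev χ S i ≤ b := by
  refine csSup_le (hn.image _) ?_
  rintro _ ⟨s, hs, rfl⟩
  exact h s hs

theorem exists_lev {S : Set (Fin k → ℝ)} (hS : S.Finite) (hn : S.Nonempty) (i : ι) :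
    ∃ s ∈ S, lev χ S i = χ i s := by
  obtain ⟨s, hs, h⟩ := (hn.image (χ i)).csSup_mem (hS.image _)
  exact ⟨s, hs, h.symm⟩

theorem lev_add {S : Set (Fin k → ℝ)} (hS : S.Finite) (hn : S.Nonempty) (v : Fin k → ℝ) :
    lev χ ((fun s => s + v) '' S) = fun i => lev χ S i + χ i v := by
  funext i
  apply le_antisymm
  · refine lev_le (hn.image _) ?_
    rintro _ ⟨s, hs, rfl⟩
    rw [map_add]
    exact add_le_add_left (le_lev hS hs i) _
  · obtain ⟨s, hs, h⟩ := exists_lev (χ := χ) hS hn i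
    rw [h, ← map_add]
    exact le_lev (hS.image _) (Set.mem_image_of_mem (fun s => s + v) hs) i

theorem lev_smul {S : Set (Fin k → ℝ)} (hS : S.Finite) (hn : S.Nonempty) {t : ℝ} (ht : 0 ≤ t) :
    lev χ ((fun s => t • s) '' S) = fun i => t * lev χ S i := by
  funext i
  apply le_antisymm
  · refine lev_le (hn.image _) ?_
    rintro _ ⟨s, hs, rfl⟩
    rw [map_smul, smul_eq_mul]
    exact mul_le_mul_of_nonneg_left (le_lev hS hs i) ht
  · obtain ⟨s, hs, h⟩ := exists_lev (χ := χ) hS hn i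
    rw [h, ← smul_eq_mul, ← map_smul]
    exact le_lev (hS.image _) (Set.mem_image_of_mem (fun s => t • s) hs) i

theorem Adm.lev {S : Set (Fin k → ℝ)} (hS : S.Finite) (hn : S.Nonempty) : Adm χ (lev χ S) := by
  exact ⟨S, hn, lev_isLUB hS hn⟩

theorem Adm.pt (v : Fin k → ℝ) : Adm χ (pt χ v) := by
  refine ⟨{v}, Set.singleton_nonempty v, fun i => ?_⟩
  rw [Set.image_singleton]
  exact isLUB_singleton

theorem Adm.sup {a a' : ι → ℝ} (h : Adm χ a) (h' : Adm χ a') : Adm χ (a ⊔ a') := by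
  obtain ⟨S, hS, h⟩ := h
  obtain ⟨S', -, h'⟩ := h'
  refine ⟨S ∪ S', hS.inl, fun i => ?_⟩
  rw [Set.image_union]
  exact (h i).union (h' i)

/-- Minkowski sum -/
theorem Adm.add {a a' : ι → ℝ} (h : Adm χ a) (h' : Adm χ a') : Adm χ (fun i => a i + a' i) := by
  obtain ⟨S, hS, h⟩ := h
  obtain ⟨S', hS', h'⟩ := h'
  refine ⟨Set.image2 (· + ·) S S', hS.image2 hS', fun i => ⟨?_, fun b hb => ?_⟩⟩
  · rintro _ ⟨_, ⟨s, hs, s', hs', rfl⟩, rfl⟩
    rw [map_add]
    exact add_le_add ((h i).1 ⟨s, hs, rfl⟩) ((h' i).1 ⟨s', hs', rfl⟩)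
  · have h1 : a i ≤ b - a' i := by
      refine (h i).2 ?_
      rintro _ ⟨s, hs, rfl⟩
      have h2 : a' i ≤ b - χ i s := by
        refine (h' i).2 ?_
        rintro _ ⟨s', hs', rfl⟩
        have := hb ⟨s + s', ⟨s, hs, s', hs', rfl⟩, rfl⟩
        rw [map_add] at this
        linarith
      linarith
    show a i + a' i ≤ b
    linarith

theorem Adm.add_pt {a : ι → ℝ} (h : Adm χ a) (v : Fin k → ℝ) : Adm χ (fun i => a i + χ i v) := by
  exact h.add (Adm.pt v)

end lev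

namespace Geo

variable {G : Type} [Group G] [MeasurableSpace G] {k : ℕ} (X : Geo G k)

/-- witness `{r • u i} ∪ {0}` -/
theorem adm_const {r : ℝ} (hr : 0 ≤ r) : Adm X.χ (fun _ => r) := by
  refine ⟨insert 0 (Set.range fun j => r • X.u j), ⟨0, Or.inl rfl⟩, fun i => IsGreatest.isLUB ⟨?_, ?_⟩⟩
  · exact ⟨r • X.u i, Or.inr ⟨i, rfl⟩, by simp [X.u_self]⟩
  · rintro _ ⟨s, rfl | ⟨j, rfl⟩, rfl⟩
    · simpa using hr
    · have h1 : X.χ i (X.u j) ≤ 1 := by
        by_cases h : i = j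
        · rw [h, X.u_self]
        · exact (X.u_ne j i h).le
      simp only [map_smul, smul_eq_mul]
      nlinarith

theorem adm_add_const {a : X.ι → ℝ} (h : Adm X.χ a) {r : ℝ} (hr : 0 ≤ r) :
    Adm X.χ (fun i => a i + r) :=
  h.add (X.adm_const hr)

theorem χ_ne_zero (i : X.ι) : X.χ i ≠ 0 := by
  intro h
  have := X.u_self i
  rw [h] at this
  simp at this

/-- distinct classes are not positively proportional (`u_self`, `u_ne`) -/
theorem eq_of_prop {i j : X.ι} {t : ℝ} (ht : 0 < t) (h : ∀ v, X.χ j v = t * X.χ i v) : j = i := by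
  by_contra hne
  have h1 := X.u_ne i j hne
  have h2 := X.u_ne j i (Ne.symm hne)
  have h3 := h (X.u i)
  have h4 := h (X.u j)
  rw [X.u_self] at h3 h4
  nlinarith

theorem χ_bound : ∃ B : ℝ, 1 ≤ B ∧ ∀ i v, |X.χ i v| ≤ B * ‖v‖ := by
  refine ⟨1 + ∑ i, ‖LinearMap.toContinuousLinearMap (X.χ i)‖, ?_, fun i v => ?_⟩
  · have : 0 ≤ ∑ i, ‖LinearMap.toContinuousLinearMap (X.χ i)‖ :=
      Finset.sum_nonneg fun _ _ => norm_nonneg _
    linarith
  · have h1 := (LinearMap.toContinuousLinearMap (X.χ i)).le_opNorm v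
    have h2 : ‖LinearMap.toContinuousLinearMap (X.χ i)‖ ≤
        ∑ i, ‖LinearMap.toContinuousLinearMap (X.χ i)‖ :=
      Finset.single_le_sum (f := fun i => ‖LinearMap.toContinuousLinearMap (X.χ i)‖)
        (fun _ _ => norm_nonneg _) (Finset.mem_univ i)
    have h3 := norm_nonneg v
    rw [Real.norm_eq_abs] at h1
    change |X.χ i v| ≤ _ at h1
    nlinarith

theorem h41_χ_le_of_ne : ∃ B : ℝ, 1 ≤ B ∧ ∀ (i : X.ι) (v : Fin k → ℝ) (r : ℝ), 0 ≤ r →
    (∀ j, j ≠ i → -r ≤ X.χ j v) → X.χ i v ≤ B * r := by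
  obtain ⟨b⟩ := X.nβ
  have hS : 0 ≤ ∑ j, X.wt b j := Finset.sum_nonneg fun j _ => (X.wt_pos b j).le
  have hq : ∀ i, 0 ≤ (∑ j, X.wt b j) / X.wt b i := fun i => div_nonneg hS (X.wt_pos b i).le
  refine ⟨1 + ∑ i, (∑ j, X.wt b j) / X.wt b i, ?_, fun i v r hr hv => ?_⟩
  · have : 0 ≤ ∑ i, (∑ j, X.wt b j) / X.wt b i := Finset.sum_nonneg fun i _ => hq i
    linarith
  · have h1 := X.wt_sum b v
    rw [← Finset.add_sum_erase _ _ (Finset.mem_univ i)] at h1
    have h2 : ∑ j ∈ Finset.univ.erase i, X.wt b j * (-r) ≤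
        ∑ j ∈ Finset.univ.erase i, X.wt b j * X.χ j v :=
      Finset.sum_le_sum fun j hj =>
        mul_le_mul_of_nonneg_left (hv j (Finset.ne_of_mem_erase hj)) (X.wt_pos b j).le
    rw [← Finset.sum_mul] at h2
    have h3 : ∑ j ∈ Finset.univ.erase i, X.wt b j ≤ ∑ j, X.wt b j :=
      Finset.sum_le_sum_of_subset_of_nonneg (Finset.erase_subset _ _)
        fun j _ _ => (X.wt_pos b j).le
    have h4 : X.wt b i * X.χ i v ≤ (∑ j, X.wt b j) * r := by nlinarith
    have h5 : X.χ i v ≤ (∑ j, X.wt b j) / X.wt b i * r := by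
      rw [div_mul_eq_mul_div, le_div_iff₀ (X.wt_pos b i)]
      linarith
    have h6 : (∑ j, X.wt b j) / X.wt b i ≤ ∑ i, (∑ j, X.wt b j) / X.wt b i :=
      Finset.single_le_sum (f := fun i => (∑ j, X.wt b j) / X.wt b i) (fun i _ => hq i)
        (Finset.mem_univ i)
    nlinarith

/-- `wt_sum` bounds every `χ i v` from above; `span` and compactness -/
theorem norm_le_of_χ : ∃ B : ℝ, 1 ≤ B ∧ ∀ (v : Fin k → ℝ) (r : ℝ), 0 ≤ r →
    (∀ i, -r ≤ X.χ i v) → ‖v‖ ≤ B * r := by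
  obtain ⟨B, hB, h⟩ := X.h41_χ_le_of_ne
  let L : (Fin k → ℝ) →ₗ[ℝ] (X.ι → ℝ) := LinearMap.pi X.χ
  have hL : LinearMap.ker L = ⊥ := by
    rw [LinearMap.ker_eq_bot']
    intro v hv
    exact X.span v fun i => congrFun hv i
  obtain ⟨K, -, hK⟩ := L.exists_antilipschitzWith hL
  refine ⟨(1 + K) * B, ?_, fun v r hr hv => ?_⟩
  · have : (0 : ℝ) ≤ K := K.2
    nlinarith
  · have h1 : ‖v‖ ≤ K * ‖L v‖ := by
      have := hK.le_mul_dist v 0
      simpa [dist_eq_norm] using this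
    have h2 : ‖L v‖ ≤ B * r := by
      refine (pi_norm_le_iff_of_nonneg (by positivity)).2 fun i => ?_
      change ‖X.χ i v‖ ≤ _
      rw [Real.norm_eq_abs, abs_le]
      refine ⟨?_, h i v r hr fun j _ => hv j⟩
      have := hv i
      nlinarith
    have h3 : (0 : ℝ) ≤ K := K.2
    have h4 : 0 ≤ B * r := by positivity
    nlinarith

/-- if all classes but `i` are bounded below then `χ i` is bounded above (`wt_sum`) -/
theorem χ_le_of_ne : ∃ B : ℝ, 1 ≤ B ∧ ∀ (i : X.ι) (v : Fin k → ℝ) (r : ℝ), 0 ≤ r →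
    (∀ j, j ≠ i → -r ≤ X.χ j v) → X.χ i v ≤ B * r := by
  exact X.h41_χ_le_of_ne

theorem le_V (b : X.β) (a : X.ι → ℝ) : ∑ i, X.wt b i * a i ≤ X.V a := by
  exact le_ciSup (f := fun b => ∑ i, X.wt b i * a i) (Set.finite_range _).bddAbove b

theorem exists_V (a : X.ι → ℝ) : ∃ b, X.V a = ∑ i, X.wt b i * a i := by
  obtain ⟨b, hb⟩ := Finite.exists_max (fun b : X.β => ∑ i, X.wt b i * a i)
  exact ⟨b, le_antisymm (ciSup_le hb) (X.le_V b a)⟩

theorem V_mono {a a' : X.ι → ℝ} (h : a ≤ a') : X.V a ≤ X.V a' := by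
  obtain ⟨b, hb⟩ := X.exists_V a
  rw [hb]
  exact (Finset.sum_le_sum fun i _ =>
    mul_le_mul_of_nonneg_left (h i) (X.wt_pos b i).le).trans (X.le_V b a')

theorem V_add_pt (a : X.ι → ℝ) (v : Fin k → ℝ) : X.V (fun i => a i + X.χ i v) = X.V a := by
  have key : ∀ b, ∑ i, X.wt b i * (a i + X.χ i v) = ∑ i, X.wt b i * a i := by
    intro b
    simp only [mul_add, Finset.sum_add_distrib, X.wt_sum b v, add_zero]
  unfold V Vol
  exact iSup_congr key

theorem V_smul (a : X.ι → ℝ) {t : ℝ} (ht : 0 ≤ t) : X.V (fun i => t * a i) = t * X.V a := by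
  have key : ∀ b, ∑ i, X.wt b i * (t * a i) = t * ∑ i, X.wt b i * a i := by
    intro b
    rw [Finset.mul_sum]
    exact Finset.sum_congr rfl fun i _ => by ring
  apply le_antisymm
  · obtain ⟨b, hb⟩ := X.exists_V fun i => t * a i
    rw [hb, key]
    exact mul_le_mul_of_nonneg_left (X.le_V b a) ht
  · obtain ⟨b, hb⟩ := X.exists_V a
    rw [hb, ← key]
    exact X.le_V b fun i => t * a i

theorem V_lip : ∃ B : ℝ, 1 ≤ B ∧ ∀ (a a' : X.ι → ℝ) (r : ℝ), 0 ≤ r → (∀ i, a' i ≤ a i + r) →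
    X.V a' ≤ X.V a + B * r := by
  have h0 : ∀ b, 0 ≤ ∑ i, X.wt b i := fun b => Finset.sum_nonneg fun i _ => (X.wt_pos b i).le
  have h1 : 0 ≤ ∑ b, ∑ i, X.wt b i := Finset.sum_nonneg fun b _ => h0 b
  refine ⟨1 + ∑ b, ∑ i, X.wt b i, by linarith, fun a a' r hr h => ?_⟩
  obtain ⟨b, hb⟩ := X.exists_V a'
  have h2 : ∑ i, X.wt b i * a' i ≤ ∑ i, X.wt b i * (a i + r) :=
    Finset.sum_le_sum fun i _ => mul_le_mul_of_nonneg_left (h i) (X.wt_pos b i).le
  simp only [mul_add, Finset.sum_add_distrib] at h2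
  rw [← Finset.sum_mul] at h2
  have h3 : ∑ i, X.wt b i ≤ ∑ b, ∑ i, X.wt b i :=
    Finset.single_le_sum (f := fun b => ∑ i, X.wt b i) (fun b _ => h0 b) (Finset.mem_univ b)
  have h4 := X.le_V b a
  rw [hb]
  nlinarith

/-- the norm -/
noncomputable def nu (v : Fin k → ℝ) : ℝ := X.V (lev X.χ {0, v})

theorem lev_pair (v : Fin k → ℝ) : lev X.χ {0, v} = fun i => max (X.χ i v) 0 := by
  funext i
  unfold lev
  rw [Set.image_pair, map_zero, csSup_pair, max_comm]

theorem nu_neg (v : Fin k → ℝ) : X.nu (-v) = X.nu v := by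
  rw [nu, nu, lev_pair, lev_pair, ← X.V_add_pt _ v]
  congr 1
  funext i
  rw [map_neg]
  rcases le_total (X.χ i v) 0 with h | h
  · rw [max_eq_left (by linarith), max_eq_right h]
    ring
  · rw [max_eq_right (by linarith), max_eq_left h]
    ring

theorem nu_smul (v : Fin k → ℝ) {t : ℝ} (ht : 0 ≤ t) : X.nu (t • v) = t * X.nu v := by
  rw [nu, nu, lev_pair, lev_pair, ← X.V_smul _ ht]
  congr 1
  funext i
  rw [map_smul, smul_eq_mul, mul_max_of_nonneg _ _ ht, mul_zero]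

theorem nu_add_le (v v' : Fin k → ℝ) : X.nu (v + v') ≤ X.nu v + X.nu v' := by
  rw [nu, nu, nu, lev_pair, lev_pair, lev_pair]
  obtain ⟨b, hb⟩ := X.exists_V fun i => max (X.χ i (v + v')) 0
  rw [hb]
  refine le_trans ?_ (add_le_add (X.le_V b _) (X.le_V b _))
  rw [← Finset.sum_add_distrib]
  refine Finset.sum_le_sum fun i _ => ?_
  rw [← mul_add, map_add]
  refine mul_le_mul_of_nonneg_left (max_le ?_ ?_) (X.wt_pos b i).le
  · exact add_le_add (le_max_left _ _) (le_max_left _ _)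
  · exact add_nonneg (le_max_right _ _) (le_max_right _ _)

theorem nu_bound : ∃ B : ℝ, 1 ≤ B ∧ ∀ v, ‖v‖ ≤ B * X.nu v ∧ X.nu v ≤ B * ‖v‖ := by
  obtain ⟨B₁, hB₁, h₁⟩ := X.norm_le_of_χ
  obtain ⟨B₂, hB₂, h₂⟩ := X.χ_bound
  obtain ⟨B₃, hB₃, h₃⟩ := X.V_lip
  obtain ⟨b⟩ := X.nβ
  have hw : ∀ i, 0 < (X.wt b i)⁻¹ := fun i => inv_pos.2 (X.wt_pos b i)
  have hs : 0 ≤ ∑ i, (X.wt b i)⁻¹ := Finset.sum_nonneg fun i _ => (hw i).le
  have hlow : ∀ v i, X.wt b i * max (X.χ i v) 0 ≤ X.nu v := by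
    intro v i
    rw [nu, lev_pair]
    refine le_trans ?_ (X.le_V b _)
    exact Finset.single_le_sum (f := fun i => X.wt b i * max (X.χ i v) 0)
      (fun j _ => mul_nonneg (X.wt_pos b j).le (le_max_right _ _)) (Finset.mem_univ i)
  have hnn : ∀ v, 0 ≤ X.nu v := by
    intro v
    rw [nu, lev_pair]
    exact le_trans (Finset.sum_nonneg fun j _ =>
      mul_nonneg (X.wt_pos b j).le (le_max_right _ _)) (X.le_V b _)
  have hV0 : X.V (fun _ => 0) = 0 := by
    simpa using X.V_smul (fun _ => 0) (le_refl (0 : ℝ))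
  refine ⟨B₁ * (1 + ∑ i, (X.wt b i)⁻¹) + B₃ * B₂, by nlinarith, fun v => ⟨?_, ?_⟩⟩
  · have h4 := h₁ v ((∑ i, (X.wt b i)⁻¹) * X.nu v) (mul_nonneg hs (hnn v)) fun i => by
      have h5 := hlow (-v) i
      rw [nu_neg, map_neg] at h5
      have h6 : (X.wt b i)⁻¹ ≤ ∑ i, (X.wt b i)⁻¹ :=
        Finset.single_le_sum (f := fun i => (X.wt b i)⁻¹) (fun j _ => (hw j).le)
          (Finset.mem_univ i)
      have h7 : max (-X.χ i v) 0 ≤ (X.wt b i)⁻¹ * X.nu v := by
        rw [le_inv_mul_iff₀ (X.wt_pos b i)]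
        exact h5
      have h8 := le_max_left (-X.χ i v) 0
      have h9 := mul_le_mul_of_nonneg_right h6 (hnn v)
      linarith
    have h5 := hnn v
    have h6 : 0 ≤ B₁ * X.nu v := by positivity
    have h7 : 0 ≤ B₃ * B₂ * X.nu v := by positivity
    nlinarith
  · have h4 := h₃ (fun _ => 0) (fun i => max (X.χ i v) 0) (B₂ * ‖v‖) (by positivity) fun i => by
      rw [zero_add]
      exact max_le ((le_abs_self _).trans (h₂ i v)) (by positivity)
    rw [hV0, zero_add] at h4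
    rw [nu, lev_pair]
    have h5 : 0 ≤ B₁ * (1 + ∑ i, (X.wt b i)⁻¹) * ‖v‖ := by positivity
    nlinarith

theorem helper28_iso_finite {N : (Fin k → ℝ) → ℝ} (hN : ∀ v, N v = 0 → v = 0)
    (Φ : Finset ((Fin k → ℝ) →ₗ[ℝ] ℝ)) (h1 : ∀ v, ∀ φ ∈ Φ, φ v ≤ N v)
    (h2 : ∀ v, ∃ φ ∈ Φ, φ v = N v) :
    {w : Module.End ℝ (Fin k → ℝ) | ∀ v, N (w v) = N v}.Finite := by
  classical
  induction Φ using Finset.strongInduction with
  | H Φ ih =>
    by_cases hm : ∃ φ ∈ Φ, ∀ v, ∃ ψ ∈ Φ.erase φ, ψ v = N v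
    · obtain ⟨φ, hφ, h3⟩ := hm
      exact ih _ (Finset.erase_ssubset hφ)
        (fun v ψ hψ => h1 v ψ (Finset.mem_of_mem_erase hψ)) h3
    push Not at hm
    have key : ∀ w : Module.End ℝ (Fin k → ℝ), (∀ v, N (w v) = N v) → ∀ φ ∈ Φ, φ ∘ₗ w ∈ Φ := by
      intro w hw φ hφ
      have hinj : Function.Injective w := by
        refine (injective_iff_map_eq_zero w).2 fun v hv => hN v ?_
        obtain ⟨ψ, -, h3⟩ := h2 0
        rw [← hw v, hv, ← h3, map_zero]
      obtain ⟨v, hv⟩ := hm φ hφ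
      obtain ⟨x, rfl⟩ := LinearMap.surjective_of_injective hinj v
      have hU : IsOpen (⋂ ψ ∈ Φ.erase φ, {y | ψ (w y) < φ (w y)}) :=
        isOpen_biInter_finset fun ψ _ => isOpen_lt (ψ ∘ₗ w).continuous_of_finiteDimensional
          (φ ∘ₗ w).continuous_of_finiteDimensional
      have hx : x ∈ ⋂ ψ ∈ Φ.erase φ, {y | ψ (w y) < φ (w y)} := by
        refine Set.mem_iInter₂.2 fun ψ hψ => ?_
        obtain ⟨ψ', h3, h4⟩ := h2 (w x)
        have h5 : ψ' = φ := by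
          by_contra hc
          exact hv ψ' (Finset.mem_erase.2 ⟨hc, h3⟩) h4
        change ψ (w x) < φ (w x)
        rw [← h5, h4]
        exact lt_of_le_of_ne (h1 _ ψ (Finset.mem_of_mem_erase hψ)) (hv ψ hψ)
      by_contra hc
      refine hU.measure_ne_zero volume ⟨x, hx⟩ (measure_mono_null
        (t := ⋃ ψ ∈ (Φ : Set ((Fin k → ℝ) →ₗ[ℝ] ℝ)), (LinearMap.ker (φ ∘ₗ w - ψ) : Set _))
        (fun y hy => ?_) ((measure_biUnion_null_iff Φ.countable_toSet).2 fun ψ hψ =>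
          Measure.addHaar_submodule _ _ fun h3 => hc ?_))
      · obtain ⟨ψ, h3, h4⟩ := h2 y
        obtain ⟨ψ', h5, h6⟩ := h2 (w y)
        refine Set.mem_biUnion (Finset.mem_coe.2 h3) ?_
        have h7 : ψ' = φ := by
          by_contra h7
          have h8 : ψ' (w y) < φ (w y) := Set.mem_iInter₂.1 hy ψ' (Finset.mem_erase.2 ⟨h7, h5⟩)
          exact absurd (h1 _ φ hφ) (not_le.2 (h6 ▸ h8))
        change φ (w y) - ψ y = 0
        rw [← h7, h6, h4, hw, sub_self]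
      · rw [sub_eq_zero.1 (LinearMap.ker_eq_top.1 h3)]
        exact hψ
    refine Set.Finite.of_finite_image (f := fun w (φ : Φ) => φ.1 ∘ₗ w)
      ((Set.Finite.pi' fun _ : Φ => Φ.finite_toSet).subset ?_) ?_
    · rintro _ ⟨w, hw, rfl⟩ φ
      exact key w hw φ.1 φ.2
    · intro w _ w' _ he
      refine LinearMap.ext fun v => sub_eq_zero.1 (hN _ ?_)
      obtain ⟨φ, hφ, h3⟩ := h2 (w v - w' v)
      have h4 : φ (w v) = φ (w' v) := LinearMap.congr_fun (congrFun he ⟨φ, hφ⟩) v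
      rw [← h3, map_sub, h4, sub_self]

/-- `nu` is the maximum of the finitely many linear forms `∑_{i ∈ J} wt b i • χ i`; call a form exposed
if it is the unique maximiser at some point; `nu` is the maximum of the exposed forms (density of the
points with a unique maximiser), so they span the dual; an isometry permutes them -/
theorem iso_finite : {w : Module.End ℝ (Fin k → ℝ) | ∀ v, X.nu (w v) = X.nu v}.Finite := by
  classical
  obtain ⟨B, -, hB⟩ := X.nu_bound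
  refine helper28_iso_finite (fun v hv => norm_le_zero_iff.1 ?_)
    (Finset.univ.image fun p : X.β × Finset X.ι => ∑ i ∈ p.2, X.wt p.1 i • X.χ i)
    (fun v φ hφ => ?_) fun v => ?_
  · simpa [hv] using (hB v).1
  · obtain ⟨p, -, rfl⟩ := Finset.mem_image.1 hφ
    rw [nu, lev_pair]
    refine le_trans ?_ (X.le_V p.1 _)
    rw [LinearMap.sum_apply]
    refine (Finset.sum_le_sum (g := fun i => X.wt p.1 i * max (X.χ i v) 0) fun i _ =>
      mul_le_mul_of_nonneg_left (le_max_left _ _) (X.wt_pos _ _).le).trans ?_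
    exact Finset.sum_le_sum_of_subset_of_nonneg (Finset.subset_univ _) fun i _ _ =>
      mul_nonneg (X.wt_pos _ _).le (le_max_right _ _)
  · obtain ⟨b, hb⟩ := X.exists_V fun i => max (X.χ i v) 0
    refine ⟨_, Finset.mem_image_of_mem _
      (Finset.mem_univ (b, Finset.univ.filter fun i => 0 ≤ X.χ i v)), ?_⟩
    rw [nu, lev_pair, hb, LinearMap.sum_apply, Finset.sum_filter]
    refine Finset.sum_congr rfl fun i _ => ?_
    split_ifs with h
    · rw [max_eq_left h]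
      rfl
    · rw [max_eq_right (not_le.1 h).le, mul_zero]

theorem IsW.nu {X : Geo G k} {w : Module.End ℝ (Fin k → ℝ)} (h : X.IsW w) (v : Fin k → ℝ) :
    X.nu (w v) = X.nu v := by
  have h1 := h {0, v} (Set.toFinite _) (Set.insert_nonempty _ _)
  rwa [Set.image_pair, map_zero] at h1

theorem isW_finite : {w | X.IsW w}.Finite :=
  X.iso_finite.subset fun _ h => IsW.nu h

theorem isW_one : X.IsW 1 := by
  intro S _ _
  have : (1 : Module.End ℝ (Fin k → ℝ)) '' S = S := by simp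
  rw [this]

theorem IsW.mul {X : Geo G k} {w w' : Module.End ℝ (Fin k → ℝ)} (h : X.IsW w) (h' : X.IsW w') :
    X.IsW (w * w') := by
  intro S hS hn
  have : (w * w' : Module.End ℝ (Fin k → ℝ)) '' S = w '' (w' '' S) := by
    rw [Set.image_image]; rfl
  rw [this, h _ (hS.image _) (hn.image _), h' S hS hn]

theorem helper69_pow {X : Geo G k} {w : Module.End ℝ (Fin k → ℝ)} (h : X.IsW w) (n : ℕ) :
    X.IsW (w ^ n) := by
  induction n with
  | zero => rw [pow_zero]; exact X.isW_one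
  | succ n ih => rw [pow_succ]; exact ih.mul h

/-- an injective map whose powers form a finite set has finite order -/
theorem iso_order {w : Module.End ℝ (Fin k → ℝ)} (h : ∀ v, X.nu (w v) = X.nu v) :
    ∃ m : ℕ, 0 < m ∧ w ^ m = 1 := by
  have hp : ∀ (n : ℕ) (v : Fin k → ℝ), X.nu ((w ^ n) v) = X.nu v := by
    intro n
    induction n with
    | zero => intro v; rfl
    | succ n ih => intro v; rw [pow_succ, Module.End.mul_apply, ih, h]
  have hinj : Function.Injective w := by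
    obtain ⟨B, -, hB⟩ := X.nu_bound
    refine (injective_iff_map_eq_zero w).2 fun v hv => ?_
    have h0 : X.nu (0 : Fin k → ℝ) = 0 := by simpa using X.nu_smul 0 (le_refl (0 : ℝ))
    have h1 := (hB v).1
    rw [← h v, hv, h0, mul_zero] at h1
    exact norm_le_zero_iff.1 h1
  have hu : IsUnit w :=
    (Module.End.isUnit_iff w).2 ⟨hinj, LinearMap.injective_iff_surjective.1 hinj⟩
  obtain ⟨a, b, hab, he⟩ := Set.Finite.exists_lt_map_eq_of_forall_mem (f := fun n : ℕ => w ^ n)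
    (t := {w : Module.End ℝ (Fin k → ℝ) | ∀ v, X.nu (w v) = X.nu v}) hp X.iso_finite
  refine ⟨b - a, Nat.sub_pos_of_lt hab, ?_⟩
  refine (hu.pow a).mul_left_cancel ?_
  rw [← pow_add, Nat.add_sub_cancel' hab.le, mul_one]
  exact he.symm

theorem IsW.inv {X : Geo G k} {w : Module.End ℝ (Fin k → ℝ)} (h : X.IsW w) :
    ∃ w', X.IsW w' ∧ w * w' = 1 ∧ w' * w = 1 := by
  obtain ⟨m, hm, he⟩ := X.iso_order h.nu
  obtain ⟨n, rfl⟩ := Nat.exists_eq_succ_of_ne_zero hm.ne'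
  exact ⟨w ^ n, helper69_pow h n, by rw [← pow_succ', he], by rw [← pow_succ, he]⟩

/-- a volume expanding isometry preserves volumes (`iso_order`) -/
theorem isW_of_le {w : Module.End ℝ (Fin k → ℝ)} (h : ∀ v, X.nu (w v) = X.nu v)
    (h' : ∀ S : Set (Fin k → ℝ), S.Finite → S.Nonempty →
      X.V (lev X.χ S) ≤ X.V (lev X.χ (w '' S))) : X.IsW w := by
  obtain ⟨m, hm, he⟩ := X.iso_order h
  obtain ⟨n, rfl⟩ := Nat.exists_eq_succ_of_ne_zero hm.ne'
  intro S hS hn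
  refine le_antisymm ?_ (h' S hS hn)
  have key : ∀ j : ℕ, X.V (lev X.χ (w '' S)) ≤ X.V (lev X.χ ((w ^ (j + 1)) '' S)) := by
    intro j
    induction j with
    | zero => rw [zero_add, pow_one]
    | succ j ih =>
      refine ih.trans ((h' _ (hS.image _) (hn.image _)).trans (le_of_eq ?_))
      rw [Set.image_image, pow_succ' w (j + 1)]
      rfl
  have h1 := key n
  have h2 : (1 : Module.End ℝ (Fin k → ℝ)) '' S = S := by simp
  rwa [he, h2] at h1

theorem isW_bound : ∃ B : ℝ, 1 ≤ B ∧ ∀ w, X.IsW w → ∀ v, ‖w v‖ ≤ B * ‖v‖ := by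
  obtain ⟨B, hB, h⟩ := X.nu_bound
  refine ⟨B * B, by nlinarith, fun w hw v => ?_⟩
  have h1 := (h (w v)).1
  rw [hw.nu v] at h1
  have h2 := (h v).2
  calc ‖w v‖ ≤ B * X.nu v := h1
    _ ≤ B * (B * ‖v‖) := mul_le_mul_of_nonneg_left h2 (by linarith)
    _ = B * B * ‖v‖ := by ring

theorem isW_sep : ∃ ε₀ : ℝ, 0 < ε₀ ∧ ∀ w w', X.IsW w → X.IsW w' →
    (∀ l, ‖w (Pi.single l 1) - w' (Pi.single l 1)‖ ≤ ε₀) → w = w' := by
  classical
  have hfin := X.isW_finite
  let f : Module.End ℝ (Fin k → ℝ) × Module.End ℝ (Fin k → ℝ) × Fin k → ℝ :=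
    fun p => ‖p.1 (Pi.single p.2.2 1) - p.2.1 (Pi.single p.2.2 1)‖
  have hT : (f '' ({w | X.IsW w} ×ˢ ({w | X.IsW w} ×ˢ (Set.univ : Set (Fin k)))) ∩
      Set.Ioi 0).Finite :=
    ((hfin.prod (hfin.prod Set.finite_univ)).image f).inter_of_left _
  obtain ⟨ε, hε, hle⟩ : ∃ ε : ℝ, 0 < ε ∧ ∀ x ∈ f '' ({w | X.IsW w} ×ˢ ({w | X.IsW w} ×ˢ
      (Set.univ : Set (Fin k)))) ∩ Set.Ioi 0, ε ≤ x := by
    rcases Set.eq_empty_or_nonempty (f '' ({w | X.IsW w} ×ˢ ({w | X.IsW w} ×ˢ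
      (Set.univ : Set (Fin k)))) ∩ Set.Ioi 0) with h0 | h0
    · exact ⟨1, one_pos, fun x hx => by rw [h0] at hx; exact absurd hx (Set.notMem_empty x)⟩
    · obtain ⟨a, ha, hmin⟩ := Set.exists_min_image _ id hT h0
      exact ⟨a, ha.2, fun x hx => hmin x hx⟩
  refine ⟨ε / 2, by linarith, fun w w' hw hw' h => ?_⟩
  refine (Pi.basisFun ℝ (Fin k)).ext fun l => ?_
  rw [Pi.basisFun_apply]
  by_contra hne
  have hpos : 0 < f (w, w', l) := norm_pos_iff.mpr (sub_ne_zero.mpr hne)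
  have := hle (f (w, w', l)) ⟨⟨(w, w', l), ⟨hw, hw', Set.mem_univ _⟩, rfl⟩, hpos⟩
  have h2 : f (w, w', l) ≤ ε / 2 := h l
  linarith

/-- an invariant inner product, read on covectors: `sh φ` is the vector representing `φ`
(average the dot product over the finite group) -/
theorem exists_inner : ∃ B : LinearMap.BilinForm ℝ (Fin k → ℝ), (∀ x y, B x y = B y x) ∧
    (∀ x, x ≠ 0 → 0 < B x x) ∧ (∀ w, X.IsW w → ∀ x y, B (w x) (w y) = B x y) ∧
    ∀ φ : (Fin k → ℝ) →ₗ[ℝ] ℝ, ∃ s, ∀ v, φ v = B s v := by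
  classical
  have hfin := X.isW_finite
  let D : LinearMap.BilinForm ℝ (Fin k → ℝ) := Matrix.toBilin' 1
  have hD : ∀ x y, D x y = ∑ i, x i * y i := fun x y => by
    simp [D, Matrix.toBilin'_apply', dotProduct]
  let B : LinearMap.BilinForm ℝ (Fin k → ℝ) := ∑ w ∈ hfin.toFinset, D.comp w w
  have hB : ∀ x y, B x y = ∑ w ∈ hfin.toFinset, ∑ i, w x i * w y i := fun x y => by
    simp only [B, LinearMap.sum_apply, LinearMap.BilinForm.comp_apply, hD]
  have hsymm : ∀ x y, B x y = B y x := fun x y => by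
    rw [hB, hB]
    exact Finset.sum_congr rfl fun w _ => Finset.sum_congr rfl fun i _ => mul_comm _ _
  have hpos : ∀ x, x ≠ 0 → 0 < B x x := fun x hx => by
    rw [hB]
    refine Finset.sum_pos' (fun w _ => Finset.sum_nonneg fun i _ => mul_self_nonneg _)
      ⟨1, hfin.mem_toFinset.mpr X.isW_one, ?_⟩
    obtain ⟨i, hi⟩ := Function.ne_iff.mp hx
    exact Finset.sum_pos' (fun i _ => mul_self_nonneg _)
      ⟨i, Finset.mem_univ _, mul_self_pos.mpr hi⟩
  refine ⟨B, hsymm, hpos, fun w hw x y => ?_, fun φ => ?_⟩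
  · obtain ⟨w', hw', h1, h2⟩ := hw.inv
    rw [hB, hB]
    refine Finset.sum_bij' (fun a _ => a * w) (fun a _ => a * w') ?_ ?_ ?_ ?_ ?_
    · intro a ha
      exact hfin.mem_toFinset.mpr (IsW.mul (hfin.mem_toFinset.mp ha) hw)
    · intro a ha
      exact hfin.mem_toFinset.mpr (IsW.mul (hfin.mem_toFinset.mp ha) hw')
    · intro a _
      rw [mul_assoc, h1, mul_one]
    · intro a _
      rw [mul_assoc, h2, mul_one]
    · intro a _
      rfl
  · have hnd : B.Nondegenerate := by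
      refine ⟨fun x hx => ?_, fun x hx => ?_⟩
      · by_contra h0
        exact (hpos x h0).ne' (hx x)
      · by_contra h0
        exact (hpos x h0).ne' (hx x)
    refine ⟨(B.toDual hnd).symm φ, fun v => ?_⟩
    rw [LinearMap.BilinForm.apply_toDual_symm_apply]

end Geo

end Crest.Agent.R182
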