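import Crest.Agent.R182.LBIn
import Crest.Agent.R182.LMJac
import Crest.Agent.R182.MB1

/-! Row 182, block L2: the adjoint action of the flat subgroup. -/

set_option autoImplicit false
set_option linter.dupNamespace false

namespace Crest.Agent.R182

namespace LieModel

variable {G : Type} [Group G] {k : ℕ} (M : LieModel G k)

/-- `g` preserves the weight spaces and acts on the `j`-th step of the flag by `exp (wt j (π g))` -/
def Flat (g : G) : Prop :=
  ∀ j, M.Ad g (M.e j) ∈ M.Wt (M.wt j) ∧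
    M.Ad g (M.e j) - Real.exp (M.wt j (M.π g)) • M.e j ∈ M.Fl ((j : ℕ) + 1)

theorem h90_Fl_anti {m n : ℕ} (h : m ≤ n) : M.Fl n ≤ M.Fl m :=
  fun _ hX j hj => hX j (hj.trans_le h)

theorem h90_e_mem_Fl (j : Fin M.d) : M.e j ∈ M.Fl j := fun l hl =>
  Pi.single_eq_of_ne (fun h => by subst h; exact lt_irrefl _ hl) _

theorem flat_one : M.Flat 1 := by
  intro j
  rw [map_one, M.π_hom.one, map_zero, Real.exp_zero, one_smul, Module.End.one_apply, sub_self]
  exact ⟨M.e_mem_Wt j, Submodule.zero_mem _⟩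

theorem flat_c (i : Fin k) : M.Flat (M.c i) := by
  intro j
  refine ⟨fun l hl => ?_, fun l hl => ?_⟩
  · by_contra h
    exact hl (M.c_tri i j l h).2
  · rw [Pi.sub_apply, Pi.smul_apply, M.π_c, smul_eq_mul]
    by_cases h : l = j
    · subst h
      rw [e, M.c_diag, Pi.single_eq_same, mul_one, sub_self]
    · have h1 : M.Ad (M.c i) (M.e j) l = 0 := by
        by_contra h2
        have h3 : (j : ℕ) ≤ l := (M.c_tri i j l h2).1
        exact h (Fin.ext (by omega))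
      rw [h1, e, Pi.single_eq_of_ne h, mul_zero, sub_zero]

/-- `Ad_ex`, `br_Wt`, `br_Fl_right` -/
theorem flat_ex {X : Fin M.d → ℝ} (hX : X ∈ M.N0) : M.Flat (M.ex X) := by
  intro j
  have h1 : ∀ n : ℕ, (M.br X ^ n) (M.e j) ∈ M.Wt (M.wt j) ∧ (M.br X ^ n) (M.e j) ∈ M.Fl j := by
    intro n
    induction n with
    | zero => exact ⟨M.e_mem_Wt j, M.h90_e_mem_Fl j⟩
    | succ n ih =>
      rw [pow_succ', Module.End.mul_apply]
      refine ⟨?_, M.h90_Fl_anti (Nat.le_succ _) (M.br_Fl_right X ih.2)⟩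
      have := M.br_Wt (φ := 0) hX ih.1
      rwa [zero_add] at this
  rw [M.Ad_ex, M.π_ex, map_zero, Real.exp_zero, one_smul, LinearMap.sum_apply]
  refine ⟨Submodule.sum_mem _ fun n _ => Submodule.smul_mem _ _ (h1 n).1, ?_⟩
  rw [Finset.sum_range_succ', Nat.factorial_zero, Nat.cast_one, inv_one, one_smul, pow_zero,
    Module.End.one_apply, add_sub_cancel_right]
  refine Submodule.sum_mem _ fun n _ => Submodule.smul_mem _ _ ?_
  rw [pow_succ', Module.End.mul_apply]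
  exact M.br_Fl_right X (h1 n).2

variable {M} in
theorem Flat.mem_Wt {g : G} (hg : M.Flat g) {φ : (Fin k → ℝ) →ₗ[ℝ] ℝ} {X : Fin M.d → ℝ}
    (hX : X ∈ M.Wt φ) : M.Ad g X ∈ M.Wt φ := by
  rw [← M.sum_e X, map_sum]
  refine Submodule.sum_mem _ fun j _ => ?_
  by_cases h : M.wt j = φ
  · rw [map_smul]
    exact Submodule.smul_mem _ _ (h ▸ (hg j).1)
  · rw [hX j h, zero_smul, map_zero]
    exact Submodule.zero_mem _

variable {M} in
theorem Flat.sub_mem_Fl {g : G} (hg : M.Flat g) {φ : (Fin k → ℝ) →ₗ[ℝ] ℝ} {n : ℕ} {X : Fin M.d → ℝ}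
    (hX : X ∈ M.Wt φ) (hn : X ∈ M.Fl n) :
    M.Ad g X - Real.exp (φ (M.π g)) • X ∈ M.Fl (n + 1) := by
  rw [← M.sum_e X, map_sum, Finset.smul_sum, ← Finset.sum_sub_distrib]
  refine Submodule.sum_mem _ fun j _ => ?_
  by_cases h : X j = 0
  · rw [h, zero_smul, map_zero, smul_zero, sub_zero]
    exact Submodule.zero_mem _
  · have h1 : M.wt j = φ := by
      by_contra h2
      exact h (hX j h2)
    have h2 : n ≤ j := by
      by_contra h2
      exact h (hn j (not_le.1 h2))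
    rw [map_smul, smul_comm, ← smul_sub]
    exact Submodule.smul_mem _ _ (M.h90_Fl_anti (Nat.succ_le_succ h2) (h1 ▸ (hg j).2))

variable {M} in
theorem Flat.mul {g g' : G} (hg : M.Flat g) (hg' : M.Flat g') : M.Flat (g * g') := by
  intro j
  rw [map_mul, Module.End.mul_apply, M.π_hom, map_add, Real.exp_add]
  refine ⟨hg.mem_Wt (hg' j).1, ?_⟩
  have h1 : M.Ad g' (M.e j) ∈ M.Fl j := by
    have := (M.Fl j).add_mem (M.h90_Fl_anti (Nat.le_succ _) (hg' j).2)
      ((M.Fl j).smul_mem (Real.exp (M.wt j (M.π g'))) (M.h90_e_mem_Fl j))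
    rwa [sub_add_cancel] at this
  have := (M.Fl _).add_mem (hg.sub_mem_Fl (hg' j).1 h1)
    ((M.Fl _).smul_mem (Real.exp (M.wt j (M.π g))) (hg' j).2)
  rwa [smul_sub, smul_smul, sub_add_sub_cancel] at this

variable {M} in
/-- `Ad g` maps `Wt φ ⊓ Fl n` injectively into itself, hence onto -/
theorem Flat.inv {g : G} (hg : M.Flat g) : M.Flat g⁻¹ := by
  have key : ∀ (φ : (Fin k → ℝ) →ₗ[ℝ] ℝ) (m n : ℕ), M.d ≤ n + m → ∀ X ∈ M.Wt φ, X ∈ M.Fl n →
      (M.Ad g⁻¹ X ∈ M.Wt φ ∧ M.Ad g⁻¹ X ∈ M.Fl n) ∧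
        M.Ad g⁻¹ X - Real.exp (φ (M.π g⁻¹)) • X ∈ M.Fl (n + 1) := by
    intro φ m
    induction m with
    | zero =>
      intro n hn X _ hX
      rw [M.eq_zero_of_Fl hn hX, map_zero, smul_zero, sub_zero]
      exact ⟨⟨Submodule.zero_mem _, Submodule.zero_mem _⟩, Submodule.zero_mem _⟩
    | succ m ih =>
      intro n hn X hW hX
      obtain ⟨⟨h1, h2⟩, -⟩ := ih (n + 1) (by omega) _
        ((M.Wt φ).sub_mem (hg.mem_Wt hW) ((M.Wt φ).smul_mem (Real.exp (φ (M.π g))) hW))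
        (hg.sub_mem_Fl hW hX)
      have e0 : M.Ad g⁻¹ (M.Ad g X) = X := by
        rw [← Module.End.mul_apply, ← map_mul, inv_mul_cancel, map_one, Module.End.one_apply]
      have e1 : M.Ad g⁻¹ X - Real.exp (φ (M.π g⁻¹)) • X = -Real.exp (φ (M.π g⁻¹)) •
          M.Ad g⁻¹ (M.Ad g X - Real.exp (φ (M.π g)) • X) := by
        rw [map_sub, map_smul, e0, neg_smul, smul_sub, smul_smul, ← Real.exp_add, M.π_hom.inv,
          map_neg, neg_add_cancel, Real.exp_zero, one_smul, neg_sub]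
      have h3 : M.Ad g⁻¹ X - Real.exp (φ (M.π g⁻¹)) • X ∈ M.Fl (n + 1) :=
        e1 ▸ Submodule.smul_mem _ _ h2
      have h4 : M.Ad g⁻¹ X - Real.exp (φ (M.π g⁻¹)) • X ∈ M.Wt φ :=
        e1 ▸ Submodule.smul_mem _ _ h1
      refine ⟨⟨?_, ?_⟩, h3⟩
      · have := (M.Wt φ).add_mem h4 ((M.Wt φ).smul_mem (Real.exp (φ (M.π g⁻¹))) hW)
        rwa [sub_add_cancel] at this
      · have := (M.Fl n).add_mem (M.h90_Fl_anti (Nat.le_succ _) h3)
          ((M.Fl n).smul_mem (Real.exp (φ (M.π g⁻¹))) hX)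
        rwa [sub_add_cancel] at this
  intro j
  have := key (M.wt j) M.d j (by omega) _ (M.e_mem_Wt j) (M.h90_e_mem_Fl j)
  exact ⟨this.1.1, this.2⟩

theorem h90_mem_SC (x : G) :
    x ∈ M.SC ↔ (∃ i, M.c i = x) ∨ ∃ j, M.wt j = 0 ∧ M.ex (M.e j) = x := by
  classical
  simp [SC]

theorem h90_c_mem_SC (i : Fin k) : M.c i ∈ M.SC := (M.h90_mem_SC _).2 (Or.inl ⟨i, rfl⟩)

theorem flat_of_mem {g : G} (hg : g ∈ Subgroup.closure (M.SC : Set G)) : M.Flat g := by
  induction hg using Subgroup.closure_induction with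
  | mem x hx =>
    rcases (M.h90_mem_SC x).1 hx with ⟨i, rfl⟩ | ⟨j, hj, rfl⟩
    · exact M.flat_c i
    · exact M.flat_ex (X := M.e j) (hj ▸ M.e_mem_Wt j : M.e j ∈ M.Wt 0)
  | one => exact M.flat_one
  | mul x y _ _ hx hy => exact hx.mul hy
  | inv x _ hx => exact hx.inv

theorem flat_sec (a : Fin k → ℤ) : M.Flat (M.sec a) := by
  refine M.flat_of_mem (list_prod_mem fun x hx => ?_)
  obtain ⟨i, rfl⟩ := List.mem_ofFn.1 hx
  exact Subgroup.zpow_mem _ (Subgroup.subset_closure (M.h90_c_mem_SC i)) _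

theorem sec_mem_ball (a : Fin k → ℤ) : M.sec a ∈ Ball (M.SC : Set G) (∑ i, (a i).natAbs) := by
  have h1 : ∀ (T : Set G) (n : ℕ) (f : Fin n → G) (r : Fin n → ℕ), (∀ i, f i ∈ Ball T (r i)) →
      (List.ofFn f).prod ∈ Ball T (∑ i, r i) := by
    intro T n
    induction n with
    | zero => intro f r _; simpa using Ball.one_mem T 0
    | succ n ih =>
      intro f r h
      rw [List.ofFn_succ, List.prod_cons, Fin.sum_univ_succ]
      exact Ball.mul_mem (h 0) (ih _ _ fun i => h i.succ)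
  refine h1 _ _ _ _ fun i => ?_
  have h2 := Ball.pow_mem (Ball.mem_of_mem (T := (M.SC : Set G)) (M.h90_c_mem_SC i)) (a i).natAbs
  rw [mul_one] at h2
  rcases Int.natAbs_eq (a i) with h | h
  · rw [h, zpow_natCast, Int.natAbs_natCast]; exact h2
  · rw [h, zpow_neg, zpow_natCast, Int.natAbs_neg, Int.natAbs_natCast]; exact Ball.inv_mem h2

theorem SC_subset : (M.SC : Set G) ⊆ M.Sg := by
  intro x hx
  rcases (M.h90_mem_SC x).1 hx with ⟨i, rfl⟩ | ⟨j, -, rfl⟩
  · exact Or.inr ⟨i, rfl⟩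
  · refine Or.inl ⟨M.e j, ?_, rfl⟩
    rw [mem_closedBall_zero_iff, e, Pi.norm_single, norm_one]

theorem SC_surj (l : Fin k) : ∃ c ∈ M.SC, M.π c = Pi.single l 1 := by
  exact ⟨M.c l, M.h90_c_mem_SC l, M.π_c l⟩

private theorem h65_bound (g : G) : ∃ B : ℝ, 0 ≤ B ∧ ∀ (φ : (Fin k → ℝ) →ₗ[ℝ] ℝ), ∀ X ∈ M.Wt φ,
    ‖M.Ad g X‖ ≤ B * Real.exp (φ (M.π g)) * ‖X‖ := by
  let A := LinearMap.toContinuousLinearMap (M.Ad g)
  refine ⟨∑ j, ‖A‖ * Real.exp (-M.wt j (M.π g)), by positivity, fun φ X hX => ?_⟩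
  by_cases h : ∃ j, M.wt j = φ
  · obtain ⟨j, rfl⟩ := h
    have h1 : ‖A‖ * Real.exp (-M.wt j (M.π g)) ≤ ∑ j, ‖A‖ * Real.exp (-M.wt j (M.π g)) :=
      Finset.single_le_sum (f := fun j => ‖A‖ * Real.exp (-M.wt j (M.π g)))
        (fun _ _ => by positivity) (Finset.mem_univ j)
    refine (A.le_opNorm X).trans (mul_le_mul_of_nonneg_right ?_ (norm_nonneg _))
    refine le_trans (le_of_eq ?_) (mul_le_mul_of_nonneg_right h1 (Real.exp_pos _).le)
    rw [mul_assoc, ← Real.exp_add, neg_add_cancel, Real.exp_zero, mul_one]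
  · have : X = 0 := funext fun j => hX j fun e => h ⟨j, e⟩
    simp [this]

private theorem h65_step : ∃ B : ℝ, 0 ≤ B ∧ ∀ g ∈ Ball (M.SC : Set G) 1,
    ∀ (φ : (Fin k → ℝ) →ₗ[ℝ] ℝ), ∀ X ∈ M.Wt φ,
      ‖M.Ad g X - Real.exp (φ (M.π g)) • X‖ ≤ B * Real.exp (φ (M.π g)) * ‖X‖ := by
  choose B hB0 hB using h65_bound M
  have hf := Ball.finite M.SC.finite_toSet 1
  refine ⟨∑ g ∈ hf.toFinset, B g + 1, add_nonneg (Finset.sum_nonneg fun g _ => hB0 g) zero_le_one,
    fun g hg φ X hX => ?_⟩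
  have h1 : B g ≤ ∑ g ∈ hf.toFinset, B g :=
    Finset.single_le_sum (fun g _ => hB0 g) (hf.mem_toFinset.2 hg)
  have h2 := hB g φ X hX
  have h3 : 0 ≤ Real.exp (φ (M.π g)) * ‖X‖ := by positivity
  refine (norm_sub_le _ _).trans ?_
  rw [norm_smul, Real.norm_of_nonneg (Real.exp_pos _).le]
  nlinarith [mul_le_mul_of_nonneg_right h1 h3]

/-- On `Wt φ` the operator `exp (-φ (π s)) • Ad s` is `1 + N s` with `N s` strictly triangular and
bounded for `s ∈ SC ∪ SC⁻¹`; prove by induction on `m` (for all `n`, downwards in the flag) that a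
product of `m` of them has norm `≤ (B (m + 1)) ^ (d - n)` on `Wt φ ⊓ Fl n`. -/
theorem exists_Ad_le : ∃ C : ℝ, 1 ≤ C ∧ ∀ (m : ℕ), ∀ c ∈ Ball (M.SC : Set G) m,
    ∀ (φ : (Fin k → ℝ) →ₗ[ℝ] ℝ), ∀ X ∈ M.Wt φ,
      ‖M.Ad c X‖ ≤ C * ((m : ℝ) + 1) ^ M.d * Real.exp (φ (M.π c)) * ‖X‖ := by
  obtain ⟨B, hB0, hB⟩ := h65_step M
  have key : ∀ (m : ℕ), ∀ c ∈ Ball (M.SC : Set G) m, ∀ (φ : (Fin k → ℝ) →ₗ[ℝ] ℝ) (r n : ℕ),
      M.d ≤ n + r → ∀ X ∈ M.Wt φ, X ∈ M.Fl n →
        ‖M.Ad c X‖ ≤ (1 + B * m) ^ r * Real.exp (φ (M.π c)) * ‖X‖ := by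
    intro m
    have one : ∀ (m : ℕ) (φ : (Fin k → ℝ) →ₗ[ℝ] ℝ) (r : ℕ) (X : Fin M.d → ℝ),
        ‖M.Ad 1 X‖ ≤ (1 + B * m) ^ r * Real.exp (φ (M.π 1)) * ‖X‖ := fun m φ r X => by
      rw [M.π_hom.one, map_zero, Real.exp_zero, mul_one, map_one, Module.End.one_apply]
      exact le_mul_of_one_le_left (norm_nonneg _)
        (one_le_pow₀ (le_add_of_nonneg_right (by positivity)))
    induction m with
    | zero =>
      intro c hc φ r n _ X _ _
      rw [h31_ball_zero, Set.mem_singleton_iff] at hc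
      rw [hc]
      exact one 0 φ r X
    | succ m ih =>
      intro c hc φ r n hr X hX hn
      rcases h31_ball_succ (Ball.inv_mem hc) with h1 | ⟨x, hx, b, hb, e⟩
      · rw [inv_eq_one.1 h1]
        exact one _ φ r X
      cases r with
      | zero =>
        rw [M.eq_zero_of_Fl (by omega) hn]
        simp
      | succ r =>
        have hs : x⁻¹ ∈ Ball (M.SC : Set G) 1 := by
          rcases hx with hx | hx
          · exact Ball.inv_mem (Ball.mem_of_mem hx)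
          · exact Ball.mem_of_mem hx
        have ec : c = b⁻¹ * x⁻¹ := by rw [← mul_inv_rev, e, inv_inv]
        have hf := M.flat_of_mem (Ball.mem_closure hs)
        have hb' := Ball.inv_mem hb
        generalize x⁻¹ = s at hs ec hf
        generalize b⁻¹ = b' at ec hb'
        have hN := hf.sub_mem_Fl hX hn
        have hW : M.Ad s X - Real.exp (φ (M.π s)) • X ∈ M.Wt φ :=
          (M.Wt φ).sub_mem (hf.mem_Wt hX) ((M.Wt φ).smul_mem _ hX)
        have h1 := ih b' hb' φ (r + 1) n hr X hX hn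
        have h2 := ih b' hb' φ r (n + 1) (by omega) _ hW hN
        have h3 := hB s hs φ X hX
        have e1 : M.Ad c X = Real.exp (φ (M.π s)) • M.Ad b' X +
            M.Ad b' (M.Ad s X - Real.exp (φ (M.π s)) • X) := by
          rw [ec, map_mul, Module.End.mul_apply, map_sub, map_smul]
          abel
        have e2 : Real.exp (φ (M.π c)) = Real.exp (φ (M.π b')) * Real.exp (φ (M.π s)) := by
          rw [ec, M.π_hom, map_add, Real.exp_add]
        have ha : 0 ≤ 1 + B * m := by positivity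
        have h4 : (1 + B * m) ^ (r + 1) + (1 + B * m) ^ r * B ≤ (1 + B * (m + 1 : ℕ)) ^ (r + 1) := by
          have h5 : (1 + B * m) ^ r ≤ (1 + B * (m + 1 : ℕ)) ^ r :=
            pow_le_pow_left₀ ha (by push_cast; nlinarith) r
          calc (1 + B * m) ^ (r + 1) + (1 + B * m) ^ r * B
              = (1 + B * m) ^ r * (1 + B * (m + 1 : ℕ)) := by push_cast; ring
            _ ≤ _ := by
              rw [pow_succ]
              exact mul_le_mul_of_nonneg_right h5 (by positivity)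
        rw [e1, e2]
        refine (norm_add_le _ _).trans ?_
        rw [norm_smul, Real.norm_of_nonneg (Real.exp_pos _).le]
        have h6 := mul_le_mul_of_nonneg_left h1 (Real.exp_pos (φ (M.π s))).le
        have h7 := mul_le_mul_of_nonneg_left h3
          (by positivity : 0 ≤ (1 + B * m) ^ r * Real.exp (φ (M.π b')))
        have h8 := mul_le_mul_of_nonneg_right h4
          (by positivity : 0 ≤ Real.exp (φ (M.π b')) * Real.exp (φ (M.π s)) * ‖X‖)
        nlinarith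
  refine ⟨(1 + B) ^ M.d, one_le_pow₀ (le_add_of_nonneg_right hB0), fun m c hc φ X hX => ?_⟩
  refine (key m c hc φ M.d 0 (by omega) X hX fun j hj => absurd hj (Nat.not_lt_zero _)).trans ?_
  rw [← mul_pow]
  have hm : (0 : ℝ) ≤ m := m.cast_nonneg
  gcongr
  nlinarith

theorem h70_Ad_ideal {J : Submodule ℝ (Fin M.d → ℝ)} (h1 : ∀ Y, ∀ X ∈ J, M.br Y X ∈ J)
    (h2 : ∀ g, M.Flat g → ∀ X ∈ J, M.Ad g X ∈ J) (g : G) {X : Fin M.d → ℝ} (hX : X ∈ J) :
    M.Ad g X ∈ J := by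
  obtain ⟨⟨Y, a⟩, rfl⟩ := M.pt_bijective.2 g
  have h3 : ∀ n : ℕ, ∀ Z ∈ J, ((M.br Y) ^ n) Z ∈ J := fun n => by
    induction n with
    | zero => exact fun Z hZ => hZ
    | succ n ih => exact fun Z hZ => by rw [pow_succ', Module.End.mul_apply]; exact h1 _ _ (ih Z hZ)
  rw [pt, map_mul, Module.End.mul_apply, M.Ad_ex, LinearMap.sum_apply]
  exact Submodule.sum_mem _ fun n _ => by
    rw [LinearMap.smul_apply]
    exact Submodule.smul_mem _ _ (h3 n _ (h2 _ (M.flat_sec a) X hX))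

theorem h70_Wt_E {φ : (Fin k → ℝ) →ₗ[ℝ] ℝ} (hφ : φ ≠ 0) {X : Fin M.d → ℝ} (hX : X ∈ M.Wt φ) :
    X ∈ M.E := by
  rw [← M.sum_e X]
  refine Submodule.sum_mem _ fun j _ => ?_
  by_cases h : M.wt j = φ
  · exact Submodule.smul_mem _ _ (M.e_mem_E (h ▸ hφ))
  · rw [hX j h, zero_smul]; exact zero_mem _

/-- `g = ex X * sec a` -/
theorem Ad_mem_E (g : G) {X : Fin M.d → ℝ} (hX : X ∈ M.E) : M.Ad g X ∈ M.E := by
  refine M.h70_Ad_ideal (fun Y _ hX => M.br_mem_E Y hX) (fun g hg X hX => ?_) g hX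
  induction hX using Submodule.span_induction with
  | zero => rw [map_zero]; exact zero_mem _
  | add a b _ _ ha hb => rw [map_add]; exact add_mem ha hb
  | smul t a _ ha => rw [map_smul]; exact Submodule.smul_mem _ _ ha
  | mem a ha =>
    obtain ⟨w, hw, rfl⟩ := ha
    induction w with
    | nil =>
      have : M.mon [] = 0 := rfl
      rw [this, map_zero]; exact zero_mem _
    | cons l w ih =>
      by_cases hn : w = []
      · subst hn
        exact M.h70_Wt_E (hw l List.mem_cons_self) (hg l).1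
      · rw [M.mon_cons l hn, M.Ad_br]
        exact M.br_mem_E _ (ih fun x hx => hw x (List.mem_cons_of_mem _ hx))

/-- `I i` is an ideal; a flat element maps an off-ray letter into `I i` (`mem_I_of_Wt`) -/
theorem Ad_mem_I (i : M.Cl) (g : G) {X : Fin M.d → ℝ} (hX : X ∈ M.I i) : M.Ad g X ∈ M.I i := by
  refine M.h70_Ad_ideal (fun Y _ hX => M.br_mem_I i Y hX) (fun g hg X hX => ?_) g hX
  have hl1 : ∀ l ∈ M.Lam, M.dir l ≠ M.χ i → M.Ad g (M.e l) ∈ M.I i := fun l hl hd =>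
    M.mem_I_of_Wt i (fun t ht e => hd (M.dir_eq_of_wt ht e).1)
      (M.h70_Wt_E (M.wt_ne_of_Lam hl) (hg l).1) (hg l).1
  have key : ∀ w : List (Fin M.d), (∀ l ∈ w, l ∈ M.Lam) → M.Mixed i w →
      M.Ad g (M.mon w) ∈ M.I i := by
    intro w hw hm
    induction w with
    | nil =>
      have : M.mon [] = 0 := rfl
      rw [this, map_zero]; exact zero_mem _
    | cons l w ih =>
      obtain ⟨x, hx, hd⟩ := hm
      by_cases hn : w = []
      · subst hn
        rw [List.mem_singleton.1 hx] at hd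
        exact hl1 l (hw l List.mem_cons_self) hd
      · rw [M.mon_cons l hn, M.Ad_br]
        rcases List.mem_cons.1 hx with rfl | hx
        · rw [M.br_anti]
          exact neg_mem (M.br_mem_I i _ (hl1 x (hw x List.mem_cons_self) hd))
        · exact M.br_mem_I i _ (ih (fun y hy => hw y (List.mem_cons_of_mem _ hy)) ⟨x, hx, hd⟩)
  induction hX using Submodule.span_induction with
  | zero => rw [map_zero]; exact zero_mem _
  | add a b _ _ ha hb => rw [map_add]; exact add_mem ha hb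
  | smul t a _ ha => rw [map_smul]; exact Submodule.smul_mem _ _ ha
  | mem a ha =>
    obtain ⟨w, hw, rfl⟩ := ha
    exact key w (M.mem_Wd.1 hw.1).2.2 hw.2

theorem exists_Ad_RD : ∃ C : ℝ, 0 ≤ C ∧ ∀ (i : M.Cl) (b : ℝ) (m : ℕ), ∀ c ∈ Ball (M.SC : Set G) m,
    ∀ X ∈ M.RD i b, M.Ad c X ∈ M.RD i (b + M.χ i (M.π c) + C * lg m) := by
  obtain ⟨C, hC, h⟩ := M.exists_Ad_le
  obtain ⟨κ₀, κ₁, hκ₀, -, hκ, -⟩ := M.exists_kap
  have hd : (0 : ℝ) ≤ M.d := M.d.cast_nonneg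
  refine ⟨(M.d * C + M.d) / κ₀, by positivity, fun i b m c hc X hX => ?_⟩
  have hf := M.flat_of_mem (Ball.mem_closure hc)
  have e0 : ∀ l, M.Ad c X l = ∑ j, X j * M.Ad c (M.e j) l := fun l => by
    conv_lhs => rw [← M.sum_e X]
    simp only [map_sum, map_smul, Finset.sum_apply, Pi.smul_apply, smul_eq_mul]
  have hz : ∀ l, M.dir l ≠ M.χ i → M.Ad c X l = 0 := fun l hl => by
    rw [e0]
    refine Finset.sum_eq_zero fun j _ => ?_
    by_cases hj : M.wt l = M.wt j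
    · rw [hX.1 j (by rwa [dir, kap, ← hj]), zero_mul]
    · rw [(hf j).1 l hj, mul_zero]
  refine ⟨hz, fun l => ?_⟩
  by_cases hl : M.dir l = M.χ i
  swap
  · rw [hz l hl, abs_zero]
    exact (Real.exp_pos _).le
  have hm : (0 : ℝ) ≤ m := m.cast_nonneg
  have h1 : ∀ j, |X j * M.Ad c (M.e j) l| ≤
      C * ((m : ℝ) + 1) ^ M.d * Real.exp (M.kap l * (b + M.χ i (M.π c))) := fun j => by
    by_cases hj : M.wt l = M.wt j
    · have h2 := h m c hc _ _ (M.e_mem_Wt j)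
      have h3 : ‖M.e j‖ = 1 := by simp [e, Pi.norm_single]
      have h4 : |M.Ad c (M.e j) l| ≤ ‖M.Ad c (M.e j)‖ := norm_le_pi_norm (M.Ad c (M.e j)) l
      have h5 : M.kap j = M.kap l := by rw [kap, kap, hj]
      have h6 := hX.2 j
      rw [h3, mul_one, ← hj, M.wt_eq l, hl, LinearMap.smul_apply, smul_eq_mul] at h2
      rw [h5] at h6
      rw [abs_mul, mul_add, Real.exp_add]
      refine (mul_le_mul h6 (h4.trans h2) (abs_nonneg _) (Real.exp_pos _).le).trans (le_of_eq ?_)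
      ring
    · rw [(hf j).1 l hj, mul_zero, abs_zero]
      positivity
  have h2 : M.d * (C * ((m : ℝ) + 1) ^ M.d) ≤ Real.exp (M.kap l * ((M.d * C + M.d) / κ₀ * lg m)) := by
    have h3 : 0 ≤ Real.log (1 + m) := Real.log_nonneg (by linarith)
    have h4 : ((m : ℝ) + 1) ^ M.d = Real.exp (M.d * Real.log (1 + m)) := by
      rw [Real.exp_nat_mul, Real.exp_log (by linarith), add_comm]
    have h5 : M.d * C ≤ Real.exp (M.d * C) := by linarith [Real.add_one_le_exp (M.d * C)]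
    have h6 : 0 ≤ M.d * C := by positivity
    have h7 : (M.d * C + M.d) * lg m ≤ M.kap l * ((M.d * C + M.d) / κ₀ * lg m) := by
      have h8 : 0 ≤ (M.d * C + M.d) / κ₀ * lg m :=
        mul_nonneg (by positivity) (zero_le_one.trans (one_le_lg m))
      refine le_trans (le_of_eq ?_) (mul_le_mul_of_nonneg_right (hκ l (M.wt_ne_of_dir hl)) h8)
      field_simp
    rw [← mul_assoc, h4]
    refine (mul_le_mul_of_nonneg_right h5 (Real.exp_pos _).le).trans ?_
    rw [← Real.exp_add, Real.exp_le_exp]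
    refine le_trans ?_ h7
    unfold lg
    nlinarith [mul_nonneg h6 h3]
  rw [e0, mul_add (M.kap l) (b + _), Real.exp_add]
  refine (Finset.abs_sum_le_sum_abs _ _).trans ((Finset.sum_le_sum fun j _ => h1 j).trans ?_)
  rw [Finset.sum_const, Finset.card_univ, Fintype.card_fin, nsmul_eq_mul, ← mul_assoc, mul_comm]
  exact mul_le_mul_of_nonneg_left h2 (Real.exp_pos _).le

theorem h70_letter : ∃ C : ℝ, 1 ≤ C ∧ ∀ a, Adm M.χ a → ∀ (m : ℕ), ∀ c ∈ Ball (M.SC : Set G) m,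
    ∀ l ∈ M.Lam, M.In top (fun i => a i + M.χ i (M.π c)) (C * ((m : ℝ) + 1) ^ M.d)
      (Real.exp (M.lw a [l]) • M.Ad c (M.e l)) := by
  obtain ⟨C₀, h0, H0⟩ := M.exists_Ad_le
  obtain ⟨C₁, h1, H1⟩ := M.exists_RD_in
  refine ⟨C₀ * C₁, one_le_mul_of_one_le_of_one_le h0 h1, fun a ha m c hc l hl => ?_⟩
  obtain ⟨i, hi⟩ := M.exists_cl hl
  have hW := (M.flat_of_mem (Ball.mem_closure hc) l).1
  have hP : 0 < C₀ * ((m : ℝ) + 1) ^ M.d := by positivity
  have hn : ‖M.Ad c (M.e l)‖ ≤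
      C₀ * ((m : ℝ) + 1) ^ M.d * Real.exp (M.kap l * M.χ i (M.π c)) := by
    have h := H0 m c hc _ _ (M.e_mem_Wt l)
    have h2 : ‖M.e l‖ = 1 := by rw [e, Pi.norm_single, norm_one]
    rwa [h2, mul_one, M.wt_eq l, hi, LinearMap.smul_apply, smul_eq_mul] at h
  have hR : (C₀ * ((m : ℝ) + 1) ^ M.d)⁻¹ • Real.exp (M.lw a [l]) • M.Ad c (M.e l) ∈
      M.RD i (a i + M.χ i (M.π c)) := by
    refine ⟨fun j hj => ?_, fun j => ?_⟩
    · have : M.wt j ≠ M.wt l := fun e => hj (by rw [← hi, dir, dir, kap, kap, e])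
      simp [hW j this]
    · by_cases e : M.wt j = M.wt l
      · have hk : M.kap j = M.kap l := by rw [kap, kap, e]
        have h3 : |M.Ad c (M.e l) j| ≤ _ := (norm_le_pi_norm (M.Ad c (M.e l)) j).trans hn
        rw [Pi.smul_apply, Pi.smul_apply, smul_eq_mul, smul_eq_mul, abs_mul, abs_mul,
          abs_of_pos (inv_pos.2 hP), abs_of_pos (Real.exp_pos _), M.lw_single a hi, hk, mul_add,
          Real.exp_add, inv_mul_le_iff₀ hP]
        calc _ ≤ Real.exp (M.kap l * a i) * (C₀ * ((m : ℝ) + 1) ^ M.d *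
              Real.exp (M.kap l * M.χ i (M.π c))) := by gcongr
          _ = _ := by ring
      · simp [hW j e, Real.exp_nonneg]
  have h4 := (H1 _ (ha.add_pt (M.π c)) i _ hR).smul (C₀ * ((m : ℝ) + 1) ^ M.d)
  rw [smul_inv_smul₀ hP.ne', abs_of_pos hP] at h4
  exact h4.mono (fun _ _ h => h) le_rfl (le_of_eq (by ring))

theorem h70_word : ∃ C : ℝ, 1 ≤ C ∧ ∀ a, Adm M.χ a → ∀ (m : ℕ), ∀ c ∈ Ball (M.SC : Set G) m,
    ∀ w : List (Fin M.d), (∀ l ∈ w, l ∈ M.Lam) → M.In top (fun i => a i + M.χ i (M.π c))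
      ((C * ((m : ℝ) + 1) ^ M.d) ^ w.length) (Real.exp (M.lw a w) • M.Ad c (M.mon w)) := by
  obtain ⟨C₀, h0, H0⟩ := M.h70_letter
  obtain ⟨C₂, h2, H2⟩ := M.exists_br
  refine ⟨C₂ * C₀, one_le_mul_of_one_le_of_one_le h2 h0, fun a ha m c hc w hw => ?_⟩
  induction w with
  | nil =>
    have : M.mon [] = 0 := rfl
    rw [this, map_zero, smul_zero]
    exact In.zero (by positivity)
  | cons l w ih =>
    have hl := H0 a ha m c hc l (hw l List.mem_cons_self)
    by_cases hn : w = []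
    · subst hn
      refine hl.mono (fun _ _ h => h) le_rfl ?_
      have : 0 ≤ C₀ * ((m : ℝ) + 1) ^ M.d := by positivity
      rw [List.length_singleton, pow_one, mul_assoc]
      exact le_mul_of_one_le_left this h2
    · have h3 := H2 top top top (fun _ _ _ _ _ _ _ _ => trivial) _ _ _ _ _ hl
        (ih fun x hx => hw x (List.mem_cons_of_mem _ hx))
      have h4 : M.lw a (l :: w) = M.lw a [l] + M.lw a w := M.lw_append a [l] w
      rw [M.mon_cons l hn, M.Ad_br, h4, Real.exp_add]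
      rw [map_smul, map_smul, LinearMap.smul_apply, smul_smul, mul_comm (Real.exp _)] at h3
      refine h3.mono (fun _ _ h => h) le_rfl (le_of_eq ?_)
      rw [List.length_cons, pow_succ]
      ring

/-- `exp (kap l * a i) • Ad c (e l)` lies in a polynomial multiple of the new box (`exists_Ad_le`,
`exists_RD_in` for the admissible level `a + pt χ (π c)`); `Ad c` is an automorphism, induction on
the word with `exists_br`. -/
theorem exists_Ad_in : ∃ C : ℝ, 0 ≤ C ∧ ∀ a, Adm M.χ a → ∀ (m : ℕ), ∀ c ∈ Ball (M.SC : Set G) m,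
    ∀ (t : ℝ) (X : Fin M.d → ℝ), M.In top a t X →
      M.In top (fun i => a i + M.χ i (M.π c)) (t * Real.exp (C * lg m)) (M.Ad c X) := by
  obtain ⟨C, hC, H⟩ := M.h70_word
  refine ⟨M.Wd.card * C ^ M.d + M.d * M.d, by positivity, fun a ha m c hc t X hX => ?_⟩
  have ht := hX.nonneg
  obtain ⟨x, hx, -, rfl⟩ := hX
  have hm : (1 : ℝ) ≤ (m : ℝ) + 1 := le_add_of_nonneg_left m.cast_nonneg
  have hQ : 1 ≤ C * ((m : ℝ) + 1) ^ M.d := one_le_mul_of_one_le_of_one_le hC (one_le_pow₀ hm)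
  rw [map_sum]
  refine (In.sum M.Wd (t := t * (C * ((m : ℝ) + 1) ^ M.d) ^ M.d) (by positivity)
    fun w hw => ?_).mono (fun _ _ h => h) le_rfl ?_
  · obtain ⟨-, h1, h2⟩ := M.mem_Wd.1 hw
    have h3 := (H a ha m c hc w h2).smul (x w * Real.exp (-M.lw a w))
    rw [smul_smul, mul_assoc, ← Real.exp_add, neg_add_cancel, Real.exp_zero, mul_one] at h3
    rw [map_smul]
    refine h3.mono (fun _ _ h => h) le_rfl (mul_le_mul ?_ (pow_le_pow_right₀ hQ h1)
      (by positivity) ht)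
    rw [abs_mul, abs_of_pos (Real.exp_pos _), Real.exp_neg, mul_inv_le_iff₀ (Real.exp_pos _)]
    exact hx w
  · have h1 := one_le_lg m
    have h2 : (m : ℝ) + 1 ≤ Real.exp (lg m) := by
      rw [exp_lg]
      nlinarith [Real.add_one_le_exp 1]
    have h3 : (0 : ℝ) ≤ M.Wd.card * C ^ M.d := by positivity
    have h4 : (M.Wd.card : ℝ) * C ^ M.d ≤ Real.exp (M.Wd.card * C ^ M.d * lg m) :=
      le_trans (by nlinarith) (Real.add_one_le_exp _)
    have h5 : (((m : ℝ) + 1) ^ M.d) ^ M.d ≤ Real.exp (M.d * M.d * lg m) := by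
      rw [← pow_mul, ← Nat.cast_mul, Real.exp_nat_mul]
      gcongr
    rw [add_mul, Real.exp_add, mul_pow]
    calc _ = t * ((M.Wd.card * C ^ M.d) * (((m : ℝ) + 1) ^ M.d) ^ M.d) := by ring
      _ ≤ _ := by gcongr

private theorem helper47_Fl_succ {n : ℕ} {X : Fin M.d → ℝ} (hX : X ∈ M.Fl (n + 1)) : X ∈ M.Fl n :=
  fun j hj => hX j (Nat.lt_succ_of_lt hj)

private theorem helper47_sub_Fl (n : ℕ) : M.Sub (M.Fl n) :=
  fun X _ _ hY => helper47_Fl_succ M (M.br_Fl_right X hY)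

private theorem helper47_hi_Fl {n : ℕ} {X Y : Fin M.d → ℝ} (hX : X ∈ M.Fl n) (hY : Y ∈ M.Fl n) :
    M.hi X Y ∈ M.Fl (n + 1) := by
  refine list_sum_mem fun v hv => ?_
  obtain ⟨p, -, rfl⟩ := List.mem_map.1 hv
  exact Submodule.smul_mem _ _ (M.br_Fl_right _ ((helper47_sub_Fl M n).ev_mem _ hX hY))

/-- the subgroup `ex (N0 ⊓ Fl n)` -/
private def helper47_Z (n : ℕ) : Subgroup G where
  carrier := {g | ∃ X, X ∈ M.N0 ∧ X ∈ M.Fl n ∧ g = M.ex X}
  one_mem' := ⟨0, Submodule.zero_mem _, Submodule.zero_mem _, M.ex_zero.symm⟩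
  mul_mem' := by
    rintro _ _ ⟨X, hX, hX', rfl⟩ ⟨Y, hY, hY', rfl⟩
    exact ⟨M.bc X Y, M.sub_N0.bc_mem hX hY, (helper47_sub_Fl M n).bc_mem hX' hY', M.ex_mul' X Y⟩
  inv_mem' := by
    rintro _ ⟨X, hX, hX', rfl⟩
    exact ⟨-X, Submodule.neg_mem _ hX, Submodule.neg_mem _ hX', (M.ex_neg X).symm⟩

private theorem helper47_comm {n : ℕ} {x g : G} (hx : x ∈ helper47_Z M n) (hg : M.Flat g) :
    x * g * x⁻¹ * g⁻¹ ∈ helper47_Z M (n + 1) := by
  obtain ⟨X, hX, hX', rfl⟩ := hx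
  have h0 : M.Ad g X ∈ M.N0 := hg.mem_Wt (φ := 0) hX
  have h1 : M.Ad g X - X ∈ M.Fl (n + 1) := by
    simpa using hg.sub_mem_Fl (φ := 0) hX hX'
  have h2 : M.Ad g X ∈ M.Fl n := by
    simpa using Submodule.add_mem _ (helper47_Fl_succ M h1) hX'
  refine ⟨M.bc X (-M.Ad g X), M.sub_N0.bc_mem hX (Submodule.neg_mem _ h0), ?_, ?_⟩
  · refine Submodule.add_mem _ ?_ (helper47_hi_Fl M hX' (Submodule.neg_mem _ h2))
    have := Submodule.neg_mem _ h1
    rwa [neg_sub, sub_eq_add_neg] at this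
  · rw [← M.ex_mul', M.ex_neg, ← M.Ad_conj]
    group

/-- The subgroups `ex (N0 ⊓ Fl n)` form a central series of `{g | Flat..} ⊇ closure SC` below
`ex N0 ⊇` the commutator subgroup (`c_comm`). -/
theorem nil_SC : Group.IsNilpotent (Subgroup.closure (M.SC : Set G)) := by
  classical
  let K := Subgroup.closure (M.SC : Set G)
  let N : Subgroup K := (helper47_Z M 0).subgroupOf K
  have hN : N.Normal := ⟨fun x hx g => by
    obtain ⟨X, hX, -, e⟩ := Subgroup.mem_subgroupOf.1 hx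
    refine Subgroup.mem_subgroupOf.2 ⟨M.Ad g X, (M.flat_of_mem g.2).mem_Wt (φ := 0) hX,
      fun j hj => absurd hj (Nat.not_lt_zero _), ?_⟩
    rw [← M.Ad_conj, ← e]
    rfl⟩
  let q := QuotientGroup.mk' N
  have hgen : ∀ s (hs : s ∈ (M.SC : Set G)), (∃ i, s = M.c i) ∨
      q ⟨s, Subgroup.subset_closure hs⟩ = 1 := by
    intro s hs
    have hs' := hs
    rw [Finset.mem_coe, SC, Finset.mem_union, Finset.mem_image, Finset.mem_image] at hs'
    rcases hs' with ⟨i, -, rfl⟩ | ⟨j, hj, rfl⟩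
    · exact Or.inl ⟨i, rfl⟩
    · refine Or.inr ((QuotientGroup.eq_one_iff _).2 (Subgroup.mem_subgroupOf.2
        ⟨M.e j, ?_, fun j hj => absurd hj (Nat.not_lt_zero _), rfl⟩))
      have := M.e_mem_Wt j
      rwa [(Finset.mem_filter.1 hj).2] at this
  have hbase : ∀ s (hs : s ∈ (M.SC : Set G)) t (ht : t ∈ (M.SC : Set G)),
      Commute (q ⟨s, Subgroup.subset_closure hs⟩) (q ⟨t, Subgroup.subset_closure ht⟩) := by
    intro s hs t ht
    rcases hgen s hs with ⟨i, rfl⟩ | h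
    · rcases hgen t ht with ⟨j, rfl⟩ | h
      · rw [← commutatorElement_eq_one_iff_commute, ← map_commutatorElement]
        obtain ⟨X, hX, e⟩ := M.c_comm i j
        exact (QuotientGroup.eq_one_iff _).2 (Subgroup.mem_subgroupOf.2
          ⟨X, hX, fun j hj => absurd hj (Nat.not_lt_zero _), e⟩)
      · rw [h]; exact Commute.one_right _
    · rw [h]; exact Commute.one_left _
  have hstep : ∀ s (hs : s ∈ (M.SC : Set G)) y (hy : y ∈ K),
      Commute (q ⟨s, Subgroup.subset_closure hs⟩) (q ⟨y, hy⟩) := by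
    intro s hs y hy
    induction hy using Subgroup.closure_induction with
    | mem t ht => exact hbase s hs t ht
    | one => exact Commute.one_right _
    | mul a b ha hb iha ihb => exact iha.mul_right ihb
    | inv a ha iha => exact iha.inv_right
  have hall : ∀ x (hx : x ∈ K) (y : K), Commute (q ⟨x, hx⟩) (q y) := by
    intro x hx y
    induction hx using Subgroup.closure_induction with
    | mem t ht => exact hstep t ht y y.2
    | one => exact Commute.one_left _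
    | mul a b ha hb iha ihb => exact iha.mul_left ihb
    | inv a ha iha => exact iha.inv_left
  refine (Subgroup.nilpotent_iff_finite_descending_central_series _).2
    ⟨M.d + 1, fun n => Nat.casesOn n ⊤ fun m => (helper47_Z M m).subgroupOf K, ⟨rfl, ?_⟩, ?_⟩
  · intro x n hx g
    cases n with
    | zero =>
      have := commutatorElement_eq_one_iff_commute.2 (hall x x.2 g)
      rw [← map_commutatorElement] at this
      exact (QuotientGroup.eq_one_iff _).1 this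
    | succ m =>
      exact Subgroup.mem_subgroupOf.2
        (helper47_comm M (Subgroup.mem_subgroupOf.1 hx) (M.flat_of_mem g.2))
  · refine (Subgroup.eq_bot_iff_forall _).2 fun x hx => ?_
    obtain ⟨X, -, hX, e⟩ := Subgroup.mem_subgroupOf.1 hx
    rw [M.eq_zero_of_Fl le_rfl hX, M.ex_zero] at e
    exact Subtype.ext e

theorem h44_zpow_mem {T : Set G} {g : G} (hg : g ∈ T) (z : ℤ) : g ^ z ∈ Ball T z.natAbs := by
  have h := Ball.pow_mem (Ball.mem_of_mem hg) z.natAbs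
  rw [mul_one, ← zpow_natCast] at h
  rcases Int.natAbs_eq z with e | e
  · rwa [← e] at h
  · have := Ball.inv_mem h
    rwa [← zpow_neg, ← e] at this

theorem h44_bound {f : (Fin M.d → ℝ) × (Fin M.d → ℝ) → Fin M.d → ℝ} (hf : Continuous f) (R R' : ℝ) :
    ∃ B : ℝ, ∀ X Y, ‖X‖ ≤ R → ‖Y‖ ≤ R' → ‖f (X, Y)‖ ≤ B := by
  obtain ⟨B, hB⟩ := ((isCompact_closedBall (0 : Fin M.d → ℝ) R).prod
    (isCompact_closedBall (0 : Fin M.d → ℝ) R')).exists_bound_of_continuousOn hf.continuousOn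
  exact ⟨B, fun X Y hX hY => hB _ ⟨mem_closedBall_zero_iff.2 hX, mem_closedBall_zero_iff.2 hY⟩⟩

theorem h44_round (R : ℝ) (n : ℕ) : ∃ (m : ℕ) (B : ℝ), ∀ Y ∈ M.N0, ‖Y‖ ≤ R →
    ∃ c ∈ Ball (M.SC : Set G) m, ∃ Y' ∈ M.N0, ‖Y'‖ ≤ B ∧ (∀ j : Fin M.d, (j : ℕ) < n → |Y' j| ≤ 1) ∧
      M.ex Y = c * M.ex Y' := by
  classical
  induction n with
  | zero =>
    exact ⟨0, R, fun Y hY hR => ⟨1, Ball.one_mem _ _, Y, hY, hR, fun j hj => absurd hj (by omega),
      (one_mul _).symm⟩⟩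
  | succ n ih =>
    obtain ⟨m, B, h⟩ := ih
    by_cases hn : ∃ j₀ : Fin M.d, (j₀ : ℕ) = n ∧ M.wt j₀ = 0
    · obtain ⟨j₀, rfl, hj₀⟩ := hn
      obtain ⟨B', hB'⟩ := M.h44_bound M.continuous_bc (B + 1) B
      refine ⟨m + (⌈B⌉₊ + 1), B', fun Y hY hR => ?_⟩
      obtain ⟨c, hc, Y', hY', h1, h2, h3⟩ := h Y hY hR
      have hz := abs_sub_round (Y' j₀)
      have hb : |Y' j₀| ≤ B := (norm_le_pi_norm Y' j₀).trans h1
      generalize round (Y' j₀) = z at hz
      have hz' : |(z : ℝ)| ≤ B + 1 := by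
        have := abs_sub_abs_le_abs_sub (z : ℝ) (Y' j₀)
        rw [abs_sub_comm] at this
        linarith
      have hzn : z.natAbs ≤ ⌈B⌉₊ + 1 := by
        have h4 : ((z.natAbs : ℕ) : ℝ) ≤ ((⌈B⌉₊ + 1 : ℕ) : ℝ) := by
          rw [Nat.cast_natAbs, Int.cast_abs]
          push_cast
          linarith [Nat.le_ceil B]
        exact_mod_cast h4
      have he : M.ex (M.e j₀) ∈ (M.SC : Set G) := by
        simp only [SC, Finset.coe_union, Finset.coe_image, Set.mem_union]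
        exact Or.inr ⟨j₀, by simpa using hj₀, rfl⟩
      have he0 : M.e j₀ ∈ M.N0 := fun j hj =>
        Pi.single_eq_of_ne (fun e => hj (by rw [e, hj₀])) _
      have hhi : ∀ l ≤ j₀, M.hi (((-z : ℤ) : ℝ) • M.e j₀) Y' l = 0 := fun l hl => by
        have h0 : M.hi 0 Y' = 0 := by simpa [bc] using M.zero_bc Y'
        rw [M.hi_dep (X' := 0) (Y' := Y') (fun j hj => ?_) fun _ _ => rfl, h0, Pi.zero_apply]
        simp [e, Pi.single_eq_of_ne (hj.trans_le hl).ne]
      refine ⟨c * M.ex (M.e j₀) ^ z,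
        Ball.mul_mem hc (Ball.mono subset_rfl hzn (h44_zpow_mem he z)),
        M.bc (((-z : ℤ) : ℝ) • M.e j₀) Y', M.sub_N0.bc_mem (M.N0.smul_mem _ he0) hY',
        hB' _ _ ?_ h1, fun j hj => ?_, ?_⟩
      · rw [norm_smul, e, Pi.norm_single, norm_one, mul_one, Int.cast_neg, norm_neg]
        exact hz'
      · have hj' : j ≤ j₀ := Fin.le_def.2 (by omega)
        rw [bc, Pi.add_apply, Pi.add_apply, hhi j hj', add_zero]
        rcases hj'.eq_or_lt with rfl | hlt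
        · simp only [e, Pi.smul_apply, Pi.single_eq_same, smul_eq_mul, mul_one, Int.cast_neg]
          rw [neg_add_eq_sub]
          linarith
        · simp only [e, Pi.smul_apply, Pi.single_eq_of_ne hlt.ne, smul_zero, zero_add]
          exact h2 j hlt
      · rw [h3, ← ex_mul', ex_zsmul]
        group
    · refine ⟨m, B, fun Y hY hR => ?_⟩
      obtain ⟨c, hc, Y', hY', h1, h2, h3⟩ := h Y hY hR
      refine ⟨c, hc, Y', hY', h1, fun j hj => ?_, h3⟩
      rcases (Nat.lt_succ_iff.1 hj).eq_or_lt with e | hlt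
      · rw [hY' j fun h0 => hn ⟨j, e, h0⟩, abs_zero]
        exact zero_le_one
      · exact h2 j hlt

theorem h44_gen {x : G} (hx : x ∈ M.Sg ∨ x⁻¹ ∈ M.Sg) : ∃ (Z : Fin M.d → ℝ) (b : Fin k → ℤ),
    ‖Z‖ ≤ 1 ∧ ∑ i, (b i).natAbs ≤ 1 ∧ x = M.ex Z * M.sec b := by
  have hs : ∀ (i : Fin k) (z : ℤ), M.sec (Pi.single i z) = M.c i ^ z := fun i z => by
    rw [sec, prod_ofFn_single _ i fun j hj => by simp [hj]]
    simp
  have hn : ∀ (i : Fin k) (z : ℤ), ∑ j, ((Pi.single i z : Fin k → ℤ) j).natAbs = z.natAbs :=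
    fun i z => by
      rw [Finset.sum_eq_single i (fun j _ hj => by simp [hj]) (by simp)]
      simp
  rcases hx with (⟨Z, hZ, rfl⟩ | ⟨i, rfl⟩) | ⟨Z, hZ, h⟩ | ⟨i, h⟩
  · exact ⟨Z, 0, mem_closedBall_zero_iff.1 hZ, by simp, by simp⟩
  · exact ⟨0, Pi.single i 1, by simp, by simp [hn], by simp [hs]⟩
  · exact ⟨-Z, 0, by simpa using hZ, by simp, by simp [ex_neg, h]⟩
  · exact ⟨0, Pi.single i (-1), by simp, by simp [hn], by simp [hs, h]⟩

/-- round the coordinates one after the other: `ex (-n • e j) * ex Y` changes only the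
coordinates `≥ j` (`hi_dep`) -/
theorem exists_round (R : ℝ) : ∃ m : ℕ, ∀ Y ∈ M.N0, ‖Y‖ ≤ R →
    ∃ c ∈ Ball (M.SC : Set G) m, ∃ Y' ∈ M.N0, ‖Y'‖ ≤ 1 ∧ M.ex Y = c * M.ex Y' := by
  obtain ⟨m, B, h⟩ := M.h44_round R M.d
  refine ⟨m, fun Y hY hR => ?_⟩
  obtain ⟨c, hc, Y', hY', -, h2, h3⟩ := h Y hY hR
  exact ⟨c, hc, Y', hY', (pi_norm_le_iff_of_nonneg zero_le_one).2 fun j => h2 j j.2, h3⟩

/-- balls are bounded in coordinates -/
theorem exists_ball_coord (R : ℕ) : ∃ B : ℝ, ∀ g ∈ Ball M.Sg R, ∃ (a : Fin k → ℤ) (X : Fin M.d → ℝ),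
    ∑ i, (a i).natAbs ≤ R ∧ ‖X‖ ≤ B ∧ g = M.sec a * M.ex X := by
  have hfin : ∀ n : ℕ, {a : Fin k → ℤ | ∑ i, (a i).natAbs ≤ n}.Finite := fun n => by
    refine (Set.finite_Icc (fun _ => -(n : ℤ)) fun _ => (n : ℤ)).subset fun a ha => ?_
    have h : ∀ i, (a i).natAbs ≤ n := fun i =>
      (Finset.single_le_sum (f := fun i => (a i).natAbs) (fun _ _ => Nat.zero_le _)
        (Finset.mem_univ i)).trans ha
    exact ⟨fun i => by have := h i; dsimp only; omega, fun i => by have := h i; dsimp only; omega⟩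
  have hW : ∀ a b : Fin k → ℤ, ∃ W, M.ex W = (M.sec (b + a))⁻¹ * (M.sec b * M.sec a) := fun a b =>
    (M.ex_range _).1 (by
      rw [M.π_hom.inv_mul, M.π_hom, π_sec, π_sec, π_sec]
      funext l
      simp)
  choose W hW using hW
  induction R with
  | zero =>
    refine ⟨0, fun g hg => ⟨0, 0, by simp, by simp, ?_⟩⟩
    rw [h31_ball_zero] at hg
    simpa using hg
  | succ R ih =>
    obtain ⟨B, h⟩ := ih
    have hb : ∀ p : (Fin k → ℤ) × (Fin k → ℤ), ∃ B' : ℝ, ∀ Z X, ‖Z‖ ≤ 1 → ‖X‖ ≤ B →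
        ‖M.bc (M.bc (M.Ad (M.sec (p.2 + p.1))⁻¹ Z) (W p.1 p.2)) X‖ ≤ B' := fun p =>
      M.h44_bound (f := fun q => M.bc (M.bc (M.Ad (M.sec (p.2 + p.1))⁻¹ q.1) (W p.1 p.2)) q.2)
        (M.continuous_bc.comp ((M.continuous_bc.comp
          (((LinearMap.continuous_of_finiteDimensional _).comp continuous_fst).prodMk
            continuous_const)).prodMk continuous_snd)) 1 B
    choose B' hB' using hb
    obtain ⟨C, hC⟩ := (((hfin R).prod (hfin 1)).image B').bddAbove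
    refine ⟨max C 0, fun g hg => ?_⟩
    rcases h31_ball_succ hg with rfl | ⟨x, hx, y, hy, rfl⟩
    · exact ⟨0, 0, by simp, by simp, by simp⟩
    obtain ⟨a, X, ha, hX, rfl⟩ := h y hy
    obtain ⟨Z, b, hZ, hb, rfl⟩ := M.h44_gen hx
    refine ⟨b + a, _, ?_, ((hB' (a, b) Z X hZ hX).trans
      (hC (Set.mem_image_of_mem _ ⟨ha, hb⟩))).trans (le_max_left _ _), ?_⟩
    · refine (Finset.sum_le_sum fun i _ => Int.natAbs_add_le (b i) (a i)).trans ?_
      rw [Finset.sum_add_distrib]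
      omega
    · rw [← ex_mul', ← ex_mul', ← M.Ad_conj, hW]
      group

theorem closure_Sg : Subgroup.closure M.Sg = ⊤ := by
  refine eq_top_iff.2 fun g _ => ?_
  obtain ⟨⟨Y, a⟩, rfl⟩ := M.pt_bijective.2 g
  refine Subgroup.mul_mem _ ?_ (list_prod_mem fun x hx => ?_)
  · obtain ⟨n, hn⟩ := exists_nat_gt ‖Y‖
    have hn0 : (0 : ℝ) < n := (norm_nonneg _).trans_lt hn
    have e : M.ex Y = M.ex ((n : ℝ)⁻¹ • Y) ^ (n : ℤ) := by
      rw [← ex_zsmul, smul_smul, Int.cast_natCast, mul_inv_cancel₀ hn0.ne', one_smul]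
    show M.ex Y ∈ _
    rw [e]
    refine zpow_mem (Subgroup.subset_closure (k := M.Sg) (Or.inl ⟨_, ?_, rfl⟩)) _
    rw [mem_closedBall_zero_iff, norm_smul, norm_inv, Real.norm_natCast, inv_mul_le_iff₀ hn0, mul_one]
    exact hn.le
  · obtain ⟨i, rfl⟩ := List.mem_ofFn.1 hx
    exact zpow_mem (Subgroup.subset_closure (k := M.Sg) (Or.inr ⟨i, rfl⟩)) _

theorem π_lip : Lip M.Sg M.π 1 := by
  refine ⟨zero_le_one, fun x t ht => ?_⟩
  rw [M.π_hom, add_sub_cancel_left]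
  have := M.π_hom.norm_le (X := M.Sg) zero_le_one (by
    rintro _ (⟨Z, -, rfl⟩ | ⟨i, rfl⟩)
    · simp [π_ex]
    · rw [M.π_c, Pi.norm_single, norm_one]) ht
  simpa using this

end LieModel

end Crest.Agent.R182
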