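import Crest.Agent.R182.LBDefs

/-! Row 182, block L2: linear algebra of weights, monomials and classes. -/

set_option autoImplicit false
set_option linter.dupNamespace false

namespace Crest.Agent.R182

namespace LieModel

variable {G : Type} [Group G] {k : ℕ} (M : LieModel G k)

/-! ### weight spaces and the flag -/

/-- the weight space -/
def Wt (φ : (Fin k → ℝ) →ₗ[ℝ] ℝ) : Submodule ℝ (Fin M.d → ℝ) where
  carrier := {X | ∀ j, M.wt j ≠ φ → X j = 0}
  zero_mem' _ _ := rfl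
  add_mem' {X Y} hX hY j hj := by rw [Pi.add_apply, hX j hj, hY j hj, add_zero]
  smul_mem' c X hX j hj := by rw [Pi.smul_apply, hX j hj, smul_zero]

/-- the flag -/
def Fl (n : ℕ) : Submodule ℝ (Fin M.d → ℝ) where
  carrier := {X | ∀ j : Fin M.d, (j : ℕ) < n → X j = 0}
  zero_mem' _ _ := rfl
  add_mem' {X Y} hX hY j hj := by rw [Pi.add_apply, hX j hj, hY j hj, add_zero]
  smul_mem' c X hX j hj := by rw [Pi.smul_apply, hX j hj, smul_zero]

theorem sum_e (X : Fin M.d → ℝ) : ∑ j, X j • M.e j = X := by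
  funext l
  simp [e, Finset.sum_apply, Pi.single_apply]

theorem h58_br_apply (X Y : Fin M.d → ℝ) (l : Fin M.d) :
    M.br X Y l = ∑ i, ∑ j, X i * Y j * M.br (M.e i) (M.e j) l := by
  conv_lhs => rw [← M.sum_e X, ← M.sum_e Y]
  simp only [map_sum, map_smul, LinearMap.sum_apply, LinearMap.smul_apply, Finset.sum_apply,
    Pi.smul_apply, smul_eq_mul, Finset.mul_sum]
  rw [Finset.sum_comm]
  refine Finset.sum_congr rfl fun i _ => Finset.sum_congr rfl fun j _ => by ring

theorem e_mem_Wt (j : Fin M.d) : M.e j ∈ M.Wt (M.wt j) := by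
  intro l hl
  have : l ≠ j := fun h => hl (h ▸ rfl)
  simp [e, this]

theorem br_anti (X Y : Fin M.d → ℝ) : M.br X Y = -M.br Y X := by
  have h := M.br_self (X + Y)
  simp only [map_add, LinearMap.add_apply, M.br_self, zero_add, add_zero] at h
  exact eq_neg_of_add_eq_zero_right h

theorem br_Wt {φ ψ : (Fin k → ℝ) →ₗ[ℝ] ℝ} {X Y : Fin M.d → ℝ} (hX : X ∈ M.Wt φ) (hY : Y ∈ M.Wt ψ) :
    M.br X Y ∈ M.Wt (φ + ψ) := by
  intro l hl
  rw [h58_br_apply]
  refine Finset.sum_eq_zero fun i _ => Finset.sum_eq_zero fun j _ => ?_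
  by_cases hi : M.wt i = φ
  · by_cases hj : M.wt j = ψ
    · by_cases h0 : M.br (M.e i) (M.e j) l = 0
      · rw [h0, mul_zero]
      · exact absurd ((M.br_tri i j l h0).2.2.trans (by rw [hi, hj])) hl
    · rw [hY j hj, mul_zero, zero_mul]
  · rw [hX i hi, zero_mul, zero_mul]

theorem br_Fl_right (X : Fin M.d → ℝ) {n : ℕ} {Y : Fin M.d → ℝ} (hY : Y ∈ M.Fl n) :
    M.br X Y ∈ M.Fl (n + 1) := by
  intro l hl
  rw [h58_br_apply]
  refine Finset.sum_eq_zero fun i _ => Finset.sum_eq_zero fun j _ => ?_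
  by_cases h0 : M.br (M.e i) (M.e j) l = 0
  · rw [h0, mul_zero]
  · have h1 : j < l := (M.br_tri i j l h0).2.1
    have h2 : (j : ℕ) < n := by
      have : (j : ℕ) < l := h1
      omega
    rw [hY j h2, mul_zero, zero_mul]

theorem br_Fl_left {n : ℕ} {X : Fin M.d → ℝ} (hX : X ∈ M.Fl n) (Y : Fin M.d → ℝ) :
    M.br X Y ∈ M.Fl (n + 1) := by
  rw [br_anti]
  exact (M.Fl (n + 1)).neg_mem (M.br_Fl_right Y hX)

theorem eq_zero_of_Fl {n : ℕ} (hn : M.d ≤ n) {X : Fin M.d → ℝ} (hX : X ∈ M.Fl n) : X = 0 := by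
  funext j
  exact hX j (lt_of_lt_of_le j.2 hn)

theorem exists_br_le : ∃ C : ℝ, 1 ≤ C ∧ ∀ X Y, ‖M.br X Y‖ ≤ C * ‖X‖ * ‖Y‖ := by
  refine ⟨1 + ∑ i, ∑ j, ‖M.br (M.e i) (M.e j)‖, ?_, fun X Y => ?_⟩
  · have : 0 ≤ ∑ i, ∑ j, ‖M.br (M.e i) (M.e j)‖ :=
      Finset.sum_nonneg fun i _ => Finset.sum_nonneg fun j _ => norm_nonneg _
    linarith
  · have h0 : 0 ≤ ∑ i, ∑ j, ‖M.br (M.e i) (M.e j)‖ :=
      Finset.sum_nonneg fun i _ => Finset.sum_nonneg fun j _ => norm_nonneg _
    have hXY : 0 ≤ ‖X‖ * ‖Y‖ := mul_nonneg (norm_nonneg _) (norm_nonneg _)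
    refine (pi_norm_le_iff_of_nonneg (mul_nonneg (mul_nonneg (by linarith) (norm_nonneg _))
      (norm_nonneg _))).2 fun l => ?_
    rw [h58_br_apply]
    calc ‖∑ i, ∑ j, X i * Y j * M.br (M.e i) (M.e j) l‖
        ≤ ∑ i, ∑ j, ‖X‖ * ‖Y‖ * ‖M.br (M.e i) (M.e j)‖ := by
          refine (norm_sum_le _ _).trans (Finset.sum_le_sum fun i _ => (norm_sum_le _ _).trans
            (Finset.sum_le_sum fun j _ => ?_))
          rw [norm_mul, norm_mul]
          exact mul_le_mul (mul_le_mul (norm_le_pi_norm X i) (norm_le_pi_norm Y j) (norm_nonneg _)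
            (norm_nonneg _)) (norm_le_pi_norm _ l) (norm_nonneg _) hXY
      _ = ‖X‖ * ‖Y‖ * ∑ i, ∑ j, ‖M.br (M.e i) (M.e j)‖ := by
          simp only [Finset.mul_sum]
      _ ≤ (1 + ∑ i, ∑ j, ‖M.br (M.e i) (M.e j)‖) * ‖X‖ * ‖Y‖ := by
          nlinarith

/-! ### monomials -/

theorem mon_cons (l : Fin M.d) {w : List (Fin M.d)} (hw : w ≠ []) :
    M.mon (l :: w) = M.br (M.e l) (M.mon w) := by
  cases w with
  | nil => exact absurd rfl hw
  | cons l' w => rfl

theorem mon_mem_Wt (w : List (Fin M.d)) : M.mon w ∈ M.Wt (M.wwt w) := by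
  induction w with
  | nil => exact (M.Wt _).zero_mem
  | cons l w ih =>
    by_cases hw : w = []
    · subst hw
      simpa [wwt, mon] using M.e_mem_Wt l
    · rw [M.mon_cons l hw]
      have : M.wwt (l :: w) = M.wt l + M.wwt w := by simp [wwt]
      rw [this]
      exact M.br_Wt (M.e_mem_Wt l) ih

theorem mon_mem_Fl (w : List (Fin M.d)) : M.mon w ∈ M.Fl (w.length - 1) := by
  induction w with
  | nil => exact (M.Fl _).zero_mem
  | cons l w ih =>
    by_cases hw : w = []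
    · subst hw
      intro j hj
      simp at hj
    · rw [M.mon_cons l hw]
      have h1 : 0 < w.length := List.length_pos_iff.2 hw
      have : (l :: w).length - 1 = (w.length - 1) + 1 := by simp; omega
      rw [this]
      exact M.br_Fl_right _ ih

theorem mon_eq_zero {w : List (Fin M.d)} (hw : M.d < w.length) : M.mon w = 0 := by
  exact M.eq_zero_of_Fl (by omega) (M.mon_mem_Fl w)

/-- Jacobi, induction on `w`: `[[l, v], y] = [l, [v, y]] - [v, [l, y]]` -/
theorem br_mon (w w' : List (Fin M.d)) : ∃ L : List (ℝ × List (Fin M.d)), L.length ≤ 2 ^ w.length ∧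
    (∀ p ∈ L, |p.1| ≤ 1 ∧ p.2.Perm (w ++ w')) ∧
    M.br (M.mon w) (M.mon w') = (L.map fun p => p.1 • M.mon p.2).sum := by
  induction w generalizing w' with
  | nil => exact ⟨[], by simp, by simp, by simp [mon]⟩
  | cons l v ih =>
    by_cases hw' : w' = []
    · subst hw'
      exact ⟨[], by simp, by simp, by simp [mon]⟩
    by_cases hv : v = []
    · subst hv
      refine ⟨[(1, l :: w')], by simp, by simp, ?_⟩
      simp [M.mon_cons l hw', mon]
    obtain ⟨L₁, h1, h2, h3⟩ := ih w'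
    obtain ⟨L₂, k1, k2, k3⟩ := ih (l :: w')
    refine ⟨L₁.map (fun p => (p.1, l :: p.2)) ++ L₂.map (fun p => (-p.1, p.2)), ?_, ?_, ?_⟩
    · simp only [List.length_append, List.length_map, List.length_cons, pow_succ]
      omega
    · intro p hp
      rcases List.mem_append.1 hp with hp | hp
      · obtain ⟨q, hq, rfl⟩ := List.mem_map.1 hp
        exact ⟨(h2 q hq).1, (h2 q hq).2.cons l⟩
      · obtain ⟨q, hq, rfl⟩ := List.mem_map.1 hp
        refine ⟨by simpa using (k2 q hq).1, (k2 q hq).2.trans ?_⟩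
        exact List.perm_middle
    · have hj := M.jacobi (M.e l) (M.mon v) (M.mon w')
      have e1 : M.br (M.mon (l :: v)) (M.mon w') =
          M.br (M.e l) (M.br (M.mon v) (M.mon w')) - M.br (M.mon v) (M.mon (l :: w')) := by
        rw [M.mon_cons l hv, M.mon_cons l hw', hj]
        abel
      rw [e1, h3, k3, List.map_append, List.sum_append, List.map_map, List.map_map, map_list_sum,
        List.map_map, sub_eq_add_neg]
      congr 1
      · refine congrArg List.sum (List.map_congr_left fun p hp => ?_)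
        have hp2 : p.2 ≠ [] := fun h => by
          have := (h2 p hp).2.length_eq
          rw [h] at this
          simp only [List.length_nil, List.length_append] at this
          have : v.length = 0 := by omega
          exact hv (List.length_eq_zero_iff.1 this)
        simp [M.mon_cons l hp2]
      · clear k1 k2 k3
        induction L₂ with
        | nil => simp
        | cons p L ihL =>
          simp only [List.map_cons, List.sum_cons, neg_add, ihL, Function.comp, neg_smul]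

/-! ### the ideal `E`, letters and words -/

theorem mem_Wd {w : List (Fin M.d)} :
    w ∈ M.Wd ↔ w ≠ [] ∧ w.length ≤ M.d ∧ ∀ l ∈ w, l ∈ M.Lam := by
  simp only [Wd, Set.Finite.mem_toFinset, Set.mem_ofPred_eq]

theorem wt_ne_of_Lam {l : Fin M.d} (hl : l ∈ M.Lam) : M.wt l ≠ 0 :=
  M.exists_letters.choose_spec.1 l hl

theorem Lam_indep (x : Fin M.d → ℝ) (hx : ∑ l ∈ M.Lam, x l • M.e l ∈ M.E2) : ∀ l ∈ M.Lam, x l = 0 :=
  M.exists_letters.choose_spec.2.1 x hx

theorem single_mem_Wd {l : Fin M.d} (hl : l ∈ M.Lam) : [l] ∈ M.Wd := by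
  refine M.mem_Wd.2 ⟨List.cons_ne_nil _ _, ?_, fun l' hl' => ?_⟩
  · have := l.2
    simp only [List.length_singleton]
    omega
  · rwa [List.mem_singleton.1 hl']

theorem e_mem_E {j : Fin M.d} (hj : M.wt j ≠ 0) : M.e j ∈ M.E := by
  exact Submodule.subset_span ⟨[j], fun l hl => by rwa [List.mem_singleton.1 hl], rfl⟩

theorem E2_le : M.E2 ≤ M.E := by
  exact Submodule.span_mono (Set.image_mono fun _ hw => hw.2)

/-- `br_mon` -/
theorem br_mem_E2 {X Y : Fin M.d → ℝ} (hX : X ∈ M.E) (hY : Y ∈ M.E) : M.br X Y ∈ M.E2 := by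
  induction hX using Submodule.span_induction with
  | zero => simp
  | add A B _ _ hA hB => rw [map_add, LinearMap.add_apply]; exact M.E2.add_mem hA hB
  | smul c A _ hA => rw [map_smul, LinearMap.smul_apply]; exact M.E2.smul_mem c hA
  | mem A hA =>
    obtain ⟨w, hw, rfl⟩ := hA
    induction hY using Submodule.span_induction with
    | zero => simp
    | add A B _ _ hA hB => rw [map_add]; exact M.E2.add_mem hA hB
    | smul c A _ hA => rw [map_smul]; exact M.E2.smul_mem c hA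
    | mem B hB =>
      obtain ⟨w', hw', rfl⟩ := hB
      rcases w with _ | ⟨l, w⟩
      · simp [mon]
      rcases w' with _ | ⟨l', w'⟩
      · simp [mon]
      obtain ⟨L, -, hL, h⟩ := M.br_mon (l :: w) (l' :: w')
      rw [h]
      refine list_sum_mem fun v hv => ?_
      obtain ⟨p, hp, rfl⟩ := List.mem_map.1 hv
      have hperm := (hL p hp).2
      refine M.E2.smul_mem _ (Submodule.subset_span ⟨p.2, ⟨?_, fun m hm => ?_⟩, rfl⟩)
      · rw [hperm.length_eq, List.length_append, List.length_cons, List.length_cons]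
        omega
      · rcases List.mem_append.1 (hperm.subset hm) with h' | h'
        · exact hw m h'
        · exact hw' m h'

theorem sub_E : M.Sub M.E := fun _ hX _ hY => M.E2_le (M.br_mem_E2 hX hY)

theorem h38_mem_E {X : Fin M.d → ℝ} (hX : ∀ j, M.wt j = 0 → X j = 0) : X ∈ M.E := by
  rw [← M.sum_e X]
  refine M.E.sum_mem fun j _ => ?_
  by_cases hj : M.wt j = 0
  · rw [hX j hj, zero_smul]
    exact M.E.zero_mem
  · exact M.E.smul_mem _ (M.e_mem_E hj)

theorem h38_br_e_mem_E (Y : Fin M.d → ℝ) {l : Fin M.d} (hl : M.wt l ≠ 0) :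
    M.br Y (M.e l) ∈ M.E := by
  rw [← M.sum_e Y, map_sum, LinearMap.sum_apply]
  refine M.E.sum_mem fun j _ => ?_
  rw [map_smul, LinearMap.smul_apply]
  refine M.E.smul_mem _ ?_
  by_cases hj : M.wt j = 0
  · refine M.h38_mem_E fun i hi => M.br_Wt (M.e_mem_Wt j) (M.e_mem_Wt l) i ?_
    rw [hi, hj, zero_add]
    exact hl.symm
  · exact M.sub_E _ (M.e_mem_E hj) _ (M.e_mem_E hl)

/-- `E` is an ideal: `ad (e j)`, `wt j = 0`, is a derivation preserving the weight spaces -/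
theorem br_mem_E (Y : Fin M.d → ℝ) {X : Fin M.d → ℝ} (hX : X ∈ M.E) : M.br Y X ∈ M.E := by
  induction hX using Submodule.span_induction with
  | zero => simp
  | add A B _ _ hA hB => rw [map_add]; exact M.E.add_mem hA hB
  | smul c A _ hA => rw [map_smul]; exact M.E.smul_mem c hA
  | mem A hA =>
    obtain ⟨w, hw, rfl⟩ := hA
    induction w with
    | nil => simp [mon]
    | cons l w ih =>
      have hl : M.wt l ≠ 0 := hw l List.mem_cons_self
      have hw' : ∀ m ∈ w, M.wt m ≠ 0 := fun m hm => hw m (List.mem_cons_of_mem _ hm)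
      by_cases h0 : w = []
      · subst h0
        exact M.h38_br_e_mem_E Y hl
      · rw [M.mon_cons l h0, M.jacobi]
        exact M.E.add_mem
          (M.sub_E _ (M.h38_br_e_mem_E Y hl) _ (Submodule.subset_span ⟨w, hw', rfl⟩))
          (M.sub_E _ (M.e_mem_E hl) _ (ih hw'))

theorem mon_mem_E {w : List (Fin M.d)} (hw : w ∈ M.Wd) : M.mon w ∈ M.E := by
  exact Submodule.subset_span ⟨w, fun l hl => M.wt_ne_of_Lam ((M.mem_Wd.1 hw).2.2 l hl), rfl⟩

theorem mon_mem_E2 {w : List (Fin M.d)} (hw : w ∈ M.Wd) (h2 : 2 ≤ w.length) : M.mon w ∈ M.E2 := by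
  exact Submodule.subset_span
    ⟨w, ⟨h2, fun l hl => M.wt_ne_of_Lam ((M.mem_Wd.1 hw).2.2 l hl)⟩, rfl⟩

/-- the span of the monomials of length `≥ n` in letters with the property `p` -/
def h70_sp (p : Fin M.d → Prop) (n : ℕ) : Submodule ℝ (Fin M.d → ℝ) :=
  Submodule.span ℝ (M.mon '' {w | n ≤ w.length ∧ ∀ l ∈ w, p l})

theorem h70_sp_mono {p q : Fin M.d → Prop} {n m : ℕ} (hpq : ∀ l, p l → q l) (h : m ≤ n) :
    M.h70_sp p n ≤ M.h70_sp q m :=
  Submodule.span_mono (Set.image_mono fun _ hw => ⟨h.trans hw.1, fun l hl => hpq l (hw.2 l hl)⟩)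

theorem h70_sp_br {p : Fin M.d → Prop} {n m : ℕ} {X Y : Fin M.d → ℝ} (hX : X ∈ M.h70_sp p n)
    (hY : Y ∈ M.h70_sp p m) : M.br X Y ∈ M.h70_sp p (n + m) := by
  induction hX using Submodule.span_induction with
  | zero => simp
  | add a b _ _ ha hb => rw [map_add, LinearMap.add_apply]; exact add_mem ha hb
  | smul t a _ ha => rw [map_smul, LinearMap.smul_apply]; exact Submodule.smul_mem _ _ ha
  | mem a ha =>
    obtain ⟨w, hw, rfl⟩ := ha
    induction hY using Submodule.span_induction with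
    | zero => simp
    | add a b _ _ ha hb => rw [map_add]; exact add_mem ha hb
    | smul t a _ ha => rw [map_smul]; exact Submodule.smul_mem _ _ ha
    | mem b hb =>
      obtain ⟨w', hw', rfl⟩ := hb
      obtain ⟨L, -, hL, e⟩ := M.br_mon w w'
      rw [e]
      refine list_sum_mem fun v hv => ?_
      obtain ⟨r, hr, rfl⟩ := List.mem_map.1 hv
      have hp := (hL r hr).2
      refine Submodule.smul_mem _ _ (Submodule.subset_span ⟨r.2, ⟨?_, fun l hl => ?_⟩, rfl⟩)
      · rw [hp.length_eq, List.length_append]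
        exact Nat.add_le_add hw.1 hw'.1
      · rcases List.mem_append.1 (hp.subset hl) with h | h
        · exact hw.2 l h
        · exact hw'.2 l h

theorem h70_mon_mem (w : List (Fin M.d)) (hw : ∀ l ∈ w, M.wt l ≠ 0) :
    M.mon w ∈ M.h70_sp (· ∈ M.Lam) w.length ⊔ M.h70_sp (M.wt · ≠ 0) (w.length + 1) := by
  have hl1 : ∀ l, M.wt l ≠ 0 → M.e l ∈ M.h70_sp (· ∈ M.Lam) 1 ⊔ M.h70_sp (M.wt · ≠ 0) 2 := by
    intro l hl
    have h0 : Submodule.span ℝ (M.e '' M.Lam) ≤ M.h70_sp (· ∈ M.Lam) 1 := by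
      refine Submodule.span_mono ?_
      rintro _ ⟨j, hj, rfl⟩
      exact ⟨[j], ⟨le_rfl, fun x hx => by rw [List.mem_singleton.1 hx]; exact hj⟩, rfl⟩
    have h1 : Submodule.span ℝ (M.e '' M.Lam) ⊔ M.E2 ≤
        M.h70_sp (· ∈ M.Lam) 1 ⊔ M.h70_sp (M.wt · ≠ 0) 2 := sup_le_sup h0 le_rfl
    exact h1 (M.exists_letters.choose_spec.2.2 l hl)
  have hLq : ∀ n, M.h70_sp (· ∈ M.Lam) n ≤ M.h70_sp (M.wt · ≠ 0) n := fun n =>
    M.h70_sp_mono (fun _ h => M.wt_ne_of_Lam h) le_rfl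
  induction w with
  | nil => exact zero_mem _
  | cons l w ih =>
    by_cases hn : w = []
    · subst hn
      exact hl1 l (hw l List.mem_cons_self)
    · obtain ⟨a, ha, b, hb, e1⟩ := Submodule.mem_sup.1 (hl1 l (hw l List.mem_cons_self))
      obtain ⟨a', ha', b', hb', e2⟩ :=
        Submodule.mem_sup.1 (ih fun x hx => hw x (List.mem_cons_of_mem _ hx))
      rw [M.mon_cons l hn, ← e1, ← e2, map_add, map_add, LinearMap.add_apply, LinearMap.add_apply,
        List.length_cons]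
      refine add_mem (add_mem (Submodule.mem_sup_left ?_) (Submodule.mem_sup_right ?_))
        (add_mem (Submodule.mem_sup_right ?_) (Submodule.mem_sup_right ?_))
      · exact M.h70_sp_mono (fun _ h => h) (by omega) (M.h70_sp_br ha ha')
      · exact M.h70_sp_mono (fun _ h => h) (by omega) (M.h70_sp_br hb (hLq _ ha'))
      · exact M.h70_sp_mono (fun _ h => h) (by omega) (M.h70_sp_br (hLq _ ha) hb')
      · exact M.h70_sp_mono (fun _ h => h) (by omega) (M.h70_sp_br hb hb')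

theorem h70_sp_le (n : ℕ) : M.h70_sp (M.wt · ≠ 0) n ≤ M.h70_sp (· ∈ M.Lam) n := by
  have key : ∀ m n : ℕ, M.d < n + m → M.h70_sp (M.wt · ≠ 0) n ≤ M.h70_sp (· ∈ M.Lam) n := by
    intro m
    induction m with
    | zero =>
      intro n hn
      refine Submodule.span_le.2 ?_
      rintro _ ⟨w, hw, rfl⟩
      rw [M.mon_eq_zero (lt_of_lt_of_le hn hw.1)]
      exact zero_mem _
    | succ m ih =>
      intro n hn
      refine Submodule.span_le.2 ?_
      rintro _ ⟨w, hw, rfl⟩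
      have h1 : n ≤ w.length := hw.1
      have h2 : M.h70_sp (· ∈ M.Lam) w.length ⊔ M.h70_sp (M.wt · ≠ 0) (w.length + 1) ≤
          M.h70_sp (· ∈ M.Lam) n := sup_le (M.h70_sp_mono (fun _ h => h) h1)
        ((ih _ (by omega)).trans (M.h70_sp_mono (fun _ h => h) (by omega)))
      exact h2 (M.h70_mon_mem w hw.2)
  exact key (M.d + 1) n (by omega)

theorem h70_sp_Wd (n : ℕ) : M.h70_sp (· ∈ M.Lam) n ≤
    Submodule.span ℝ (M.mon '' {w | w ∈ M.Wd ∧ n ≤ w.length}) := by
  refine Submodule.span_le.2 ?_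
  rintro _ ⟨w, hw, rfl⟩
  by_cases h0 : w = []
  · subst h0; exact zero_mem _
  by_cases h1 : M.d < w.length
  · rw [M.mon_eq_zero h1]; exact zero_mem _
  exact Submodule.subset_span ⟨w, ⟨M.mem_Wd.2 ⟨h0, not_lt.1 h1, hw.2⟩, hw.1⟩, rfl⟩

/-- Let `S` be the span on the right (a subalgebra by `br_mon`) and `E_n` the span of the monomials
of length `≥ n` in letters of non-zero weight; `E_n ≤ S ⊔ E_(n+1)` (expand every letter as an
element of `span Lam ⊔ E2`, `br_mon`), and `E_(d+1) = ⊥`. -/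
theorem span_Wd : Submodule.span ℝ (M.mon '' M.Wd) = M.E := by
  refine le_antisymm (Submodule.span_le.2 ?_) ?_
  · rintro _ ⟨w, hw, rfl⟩
    exact M.mon_mem_E hw
  · refine le_trans ?_ ((M.h70_sp_le 0).trans ((M.h70_sp_Wd 0).trans ?_))
    · exact Submodule.span_mono (Set.image_mono fun _ hw => ⟨Nat.zero_le _, hw⟩)
    · exact Submodule.span_mono (Set.image_mono fun _ hw => hw.1)

/-- `E2 = [E, E]`, `span_Wd`, `br_mon` -/
theorem span_Wd2 : Submodule.span ℝ (M.mon '' {w | w ∈ M.Wd ∧ 2 ≤ w.length}) = M.E2 := by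
  refine le_antisymm (Submodule.span_le.2 ?_) ((M.h70_sp_le 2).trans (M.h70_sp_Wd 2))
  rintro _ ⟨w, hw, rfl⟩
  exact M.mon_mem_E2 hw.1 hw.2

/-- project to the weight space -/
theorem mem_span_wwt {φ : (Fin k → ℝ) →ₗ[ℝ] ℝ} {X : Fin M.d → ℝ} (hX : X ∈ M.E) (hφ : X ∈ M.Wt φ) :
    X ∈ Submodule.span ℝ (M.mon '' {w | w ∈ M.Wd ∧ M.wwt w = φ}) := by
  classical
  have h1 : ∀ Y ∈ M.Wt φ, (fun j => if M.wt j = φ then Y j else 0) = Y := fun Y hY =>
    funext fun j => by
      by_cases h : M.wt j = φ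
      · rw [if_pos h]
      · rw [if_neg h, hY j h]
  rw [← h1 X hφ]
  rw [← M.span_Wd] at hX
  clear hφ
  induction hX using Submodule.span_induction with
  | zero =>
    rw [h1 0 (zero_mem _)]
    exact zero_mem _
  | add a b _ _ ha hb =>
    convert add_mem ha hb using 1
    funext j
    by_cases h : M.wt j = φ <;> simp [h]
  | smul t a _ ha =>
    convert Submodule.smul_mem _ t ha using 1
    funext j
    by_cases h : M.wt j = φ <;> simp [h]
  | mem a ha =>
    obtain ⟨w, hw, rfl⟩ := ha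
    by_cases h : M.wwt w = φ
    · rw [h1 _ (h ▸ M.mon_mem_Wt w)]
      exact Submodule.subset_span ⟨w, ⟨hw, h⟩, rfl⟩
    · convert zero_mem (Submodule.span ℝ (M.mon '' {w | w ∈ M.Wd ∧ M.wwt w = φ})) using 1
      funext j
      by_cases hj : M.wt j = φ
      · rw [if_pos hj]
        exact M.mon_mem_Wt w j fun e => h (e.symm.trans hj)
      · rw [if_neg hj]; rfl

/-- uniform coefficients: fix them for the finitely many `e j` -/
theorem exists_coef : ∃ C : ℝ, 1 ≤ C ∧ ∀ j, M.wt j ≠ 0 → ∃ x : List (Fin M.d) → ℝ,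
    (∀ w, |x w| ≤ C) ∧ (∀ w, M.wwt w ≠ M.wt j → x w = 0) ∧ M.e j = ∑ w ∈ M.Wd, x w • M.mon w := by
  classical
  have h : ∀ j, ∃ x : List (Fin M.d) → ℝ, (∀ w, w ∉ M.Wd → x w = 0) ∧ (M.wt j ≠ 0 →
      (∀ w, M.wwt w ≠ M.wt j → x w = 0) ∧ M.e j = ∑ w ∈ M.Wd, x w • M.mon w) := by
    intro j
    by_cases hj : M.wt j = 0
    · exact ⟨0, fun _ _ => rfl, fun h => absurd hj h⟩
    have h1 := M.mem_span_wwt (M.e_mem_E hj) (M.e_mem_Wt j)
    have h2 : {w | w ∈ M.Wd ∧ M.wwt w = M.wt j} =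
        ((M.Wd.filter fun w => M.wwt w = M.wt j : Finset _) : Set (List (Fin M.d))) := by
      ext w; simp
    rw [h2, Submodule.mem_span_image_finset_iff_exists_fun'] at h1
    obtain ⟨c, hc⟩ := h1
    refine ⟨fun w => if w ∈ M.Wd ∧ M.wwt w = M.wt j then c w else 0, fun w hw => ?_,
      fun _ => ⟨fun w hw => ?_, ?_⟩⟩
    · exact if_neg fun h => hw h.1
    · exact if_neg fun h => hw h.2
    · rw [← hc, Finset.sum_filter]
      refine Finset.sum_congr rfl fun w hw => ?_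
      by_cases h : M.wwt w = M.wt j <;> simp [h, hw]
  choose x hx0 hx using h
  have hn : ∀ j, 0 ≤ ∑ w ∈ M.Wd, |x j w| := fun j => Finset.sum_nonneg fun _ _ => abs_nonneg _
  have hs : 0 ≤ ∑ j, ∑ w ∈ M.Wd, |x j w| := Finset.sum_nonneg fun j _ => hn j
  refine ⟨1 + ∑ j, ∑ w ∈ M.Wd, |x j w|, by linarith, fun j hj => ⟨x j, fun w => ?_, hx j hj⟩⟩
  by_cases hw : w ∈ M.Wd
  · have h1 : |x j w| ≤ ∑ w ∈ M.Wd, |x j w| :=
      Finset.single_le_sum (f := fun w => |x j w|) (fun _ _ => abs_nonneg _) hw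
    have h2 : ∑ w ∈ M.Wd, |x j w| ≤ ∑ j, ∑ w ∈ M.Wd, |x j w| :=
      Finset.single_le_sum (f := fun j => ∑ w ∈ M.Wd, |x j w|) (fun j _ => hn j) (Finset.mem_univ j)
    linarith
  · rw [hx0 j w hw, abs_zero]; linarith

/-- `X` minus its zero weight part -/
theorem exists_split (X : Fin M.d → ℝ) : ∃ Y ∈ M.N0, X - Y ∈ M.E ∧ ‖Y‖ ≤ ‖X‖ := by
  classical
  refine ⟨fun j => if M.wt j = 0 then X j else 0, fun j hj => if_neg hj,
    M.h38_mem_E fun j hj => by simp [hj], (pi_norm_le_iff_of_nonneg (norm_nonneg X)).2 fun j => ?_⟩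
  by_cases hj : M.wt j = 0
  · simpa only [if_pos hj] using norm_le_pi_norm X j
  · simp only [if_neg hj, norm_zero, norm_nonneg]

theorem sub_N0 : M.Sub M.N0 := by
  intro X hX Y hY
  have h := M.br_Wt (φ := 0) (ψ := 0) hX hY
  rwa [add_zero] at h

/-! ### classes -/

theorem kap_nonneg (j : Fin M.d) : 0 ≤ M.kap j := Real.sqrt_nonneg _

theorem h45_apply {k : ℕ} (φ : (Fin k → ℝ) →ₗ[ℝ] ℝ) (v : Fin k → ℝ) :
    φ v = ∑ a, v a * φ (Pi.single a 1) := by
  conv_lhs => rw [pi_eq_sum_univ' v]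
  simp [map_sum, map_smul]

theorem h45_ext {k : ℕ} {φ ψ : (Fin k → ℝ) →ₗ[ℝ] ℝ}
    (h : ∀ a, φ (Pi.single a 1) = ψ (Pi.single a 1)) : φ = ψ := by
  refine LinearMap.ext fun v => ?_
  rw [h45_apply φ, h45_apply ψ]
  exact Finset.sum_congr rfl fun a _ => by rw [h a]

theorem h45_kap_sq (j : Fin M.d) : M.kap j ^ 2 = ∑ a, M.wt j (Pi.single a 1) ^ 2 :=
  Real.sq_sqrt (Finset.sum_nonneg fun _ _ => sq_nonneg _)

theorem kap_pos {j : Fin M.d} (hj : M.wt j ≠ 0) : 0 < M.kap j := by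
  refine lt_of_le_of_ne (M.kap_nonneg j) fun h => hj ?_
  have h2 := M.h45_kap_sq j
  rw [← h, zero_pow two_ne_zero] at h2
  have h3 := (Finset.sum_eq_zero_iff_of_nonneg fun a _ => sq_nonneg _).1 h2.symm
  exact h45_ext fun a => by simpa using h3 a (Finset.mem_univ a)

theorem wt_eq (j : Fin M.d) : M.wt j = M.kap j • M.dir j := by
  by_cases hj : M.wt j = 0
  · simp [dir, hj]
  · rw [dir, smul_smul, mul_inv_cancel₀ (M.kap_pos hj).ne', one_smul]

theorem exists_kap : ∃ κ₀ κ₁ : ℝ, 0 < κ₀ ∧ 0 < κ₁ ∧ (∀ j, M.wt j ≠ 0 → κ₀ ≤ M.kap j) ∧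
    ∀ j, M.kap j ≤ κ₁ := by
  classical
  have hs : 0 ≤ ∑ j, (M.kap j)⁻¹ := Finset.sum_nonneg fun j _ => inv_nonneg.2 (M.kap_nonneg j)
  have hs' : 0 ≤ ∑ j, M.kap j := Finset.sum_nonneg fun j _ => M.kap_nonneg j
  refine ⟨(1 + ∑ j, (M.kap j)⁻¹)⁻¹, 1 + ∑ j, M.kap j, by positivity, by positivity,
    fun j hj => ?_, fun j => ?_⟩
  · have h1 : (M.kap j)⁻¹ ≤ ∑ j, (M.kap j)⁻¹ :=
      Finset.single_le_sum (f := fun j => (M.kap j)⁻¹)
        (fun j _ => inv_nonneg.2 (M.kap_nonneg j)) (Finset.mem_univ j)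
    exact inv_le_of_inv_le₀ (M.kap_pos hj) (by linarith)
  · have h1 : M.kap j ≤ ∑ j, M.kap j :=
      Finset.single_le_sum (f := fun j => M.kap j) (fun j _ => M.kap_nonneg j) (Finset.mem_univ j)
    linarith

theorem exists_cl {l : Fin M.d} (hl : l ∈ M.Lam) : ∃ i, M.dir l = M.χ i := by
  classical
  exact ⟨⟨M.dir l, by convert Finset.mem_image_of_mem M.dir hl⟩, rfl⟩

theorem exists_letter (i : M.Cl) : ∃ l ∈ M.Lam, M.dir l = M.χ i := by
  classical
  have h : M.χ i ∈ M.Lam.image M.dir := by convert i.2; rfl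
  exact Finset.mem_image.1 h

theorem χ_injective : Function.Injective M.χ := Subtype.val_injective

theorem h45_unit (i : M.Cl) : ∑ a, M.χ i (Pi.single a 1) ^ 2 = 1 := by
  obtain ⟨l, hl, h⟩ := M.exists_letter i
  have hk := M.kap_pos (M.wt_ne_of_Lam hl)
  rw [← h]
  simp only [dir, LinearMap.smul_apply, smul_eq_mul, mul_pow]
  rw [← Finset.mul_sum, ← h45_kap_sq]
  field_simp

theorem u_self (i : M.Cl) : M.χ i (M.u i) = 1 := by
  rw [h45_apply]
  exact (Finset.sum_congr rfl fun a _ => by rw [u, sq]).trans (M.h45_unit i)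

/-- strict Cauchy-Schwarz for two different unit vectors -/
theorem u_ne (i j : M.Cl) (h : j ≠ i) : M.χ j (M.u i) < 1 := by
  have h1 := M.h45_unit i
  have h2 := M.h45_unit j
  have h3 : ∑ a, (M.χ i (Pi.single a 1) - M.χ j (Pi.single a 1)) ^ 2 =
      2 - 2 * M.χ j (M.u i) := by
    rw [h45_apply (M.χ j) (M.u i), Finset.mul_sum]
    have : ∀ a, (M.χ i (Pi.single a 1) - M.χ j (Pi.single a 1)) ^ 2 =
        M.χ i (Pi.single a 1) ^ 2 + M.χ j (Pi.single a 1) ^ 2 -
          2 * (M.u i a * M.χ j (Pi.single a 1)) := fun a => by rw [u]; ring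
    simp only [this, Finset.sum_sub_distrib, Finset.sum_add_distrib, h1, h2]
    norm_num
  have h4 : 0 ≤ ∑ a, (M.χ i (Pi.single a 1) - M.χ j (Pi.single a 1)) ^ 2 :=
    Finset.sum_nonneg fun _ _ => sq_nonneg _
  refine lt_of_le_of_ne (by linarith) fun he => h ?_
  rw [he] at h3
  have h5 := (Finset.sum_eq_zero_iff_of_nonneg fun a _ => sq_nonneg _).1 (h3.trans (by norm_num))
  refine M.χ_injective (h45_ext fun a => ?_)
  have := pow_eq_zero_iff two_ne_zero |>.1 (h5 a (Finset.mem_univ a))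
  linarith

theorem wt_ne_of_dir {i : M.Cl} {j : Fin M.d} (h : M.dir j = M.χ i) : M.wt j ≠ 0 := by
  intro h0
  have h1 := M.u_self i
  rw [← h] at h1
  simp [dir, h0] at h1

/-- a weight on the open ray of `χ i` -/
theorem dir_eq_of_wt {i : M.Cl} {j : Fin M.d} {t : ℝ} (ht : 0 < t) (h : M.wt j = t • M.χ i) :
    M.dir j = M.χ i ∧ M.kap j = t := by
  have hk : M.kap j = t := by
    have h1 := M.h45_kap_sq j
    rw [h] at h1
    simp only [LinearMap.smul_apply, smul_eq_mul, mul_pow] at h1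
    rw [← Finset.mul_sum, h45_unit, mul_one] at h1
    exact (pow_left_inj₀ (M.kap_nonneg j) ht.le two_ne_zero).1 h1
  refine ⟨?_, hk⟩
  rw [dir, hk, h, smul_smul, inv_mul_cancel₀ ht.ne', one_smul]

theorem mult_nonneg (i : M.Cl) (l : Fin M.d) : 0 ≤ M.mult i l := by
  rw [mult]
  split_ifs
  · exact M.kap_nonneg l
  · exact le_rfl

theorem cw_nonneg (w : List (Fin M.d)) (i : M.Cl) : 0 ≤ M.cw w i := by
  refine List.sum_nonneg fun x hx => ?_
  obtain ⟨l, -, rfl⟩ := List.mem_map.1 hx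
  exact M.mult_nonneg i l

theorem cw_append (w w' : List (Fin M.d)) (i : M.Cl) : M.cw (w ++ w') i = M.cw w i + M.cw w' i := by
  rw [cw, List.map_append, List.sum_append, cw, cw]

theorem cw_perm {w w' : List (Fin M.d)} (h : w.Perm w') (i : M.Cl) : M.cw w i = M.cw w' i := by
  exact (h.map _).sum_eq

theorem lw_append (a : M.Cl → ℝ) (w w' : List (Fin M.d)) :
    M.lw a (w ++ w') = M.lw a w + M.lw a w' := by
  simp only [lw, cw_append, add_mul, Finset.sum_add_distrib]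

theorem lw_perm (a : M.Cl → ℝ) {w w' : List (Fin M.d)} (h : w.Perm w') : M.lw a w = M.lw a w' := by
  simp only [lw, M.cw_perm h]

theorem lw_mono {a a' : M.Cl → ℝ} (h : a ≤ a') (w : List (Fin M.d)) : M.lw a w ≤ M.lw a' w := by
  exact Finset.sum_le_sum fun i _ => mul_le_mul_of_nonneg_left (h i) (M.cw_nonneg w i)

theorem lw_add (a a' : M.Cl → ℝ) (w : List (Fin M.d)) : M.lw (a + a') w = M.lw a w + M.lw a' w := by
  simp only [lw, Pi.add_apply, mul_add, Finset.sum_add_distrib]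

theorem lw_single (a : M.Cl → ℝ) {i : M.Cl} {l : Fin M.d} (h : M.dir l = M.χ i) :
    M.lw a [l] = M.kap l * a i := by
  rw [lw, Finset.sum_eq_single i]
  · simp [cw, mult, h]
  · intro j _ hj
    have : M.dir l ≠ M.χ j := fun e => hj (M.χ_injective (e.symm.trans h))
    simp [cw, mult, this]
  · intro hi
    exact absurd (Finset.mem_univ i) hi

theorem lw_pt (v : Fin k → ℝ) {w : List (Fin M.d)} (hw : ∀ l ∈ w, l ∈ M.Lam) :
    M.lw (R182.pt M.χ v) w = M.wwt w v := by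
  induction w with
  | nil => simp [lw, cw, wwt]
  | cons l w ih =>
    obtain ⟨i, hi⟩ := M.exists_cl (hw l List.mem_cons_self)
    have e : M.wwt (l :: w) v = M.wt l v + M.wwt w v := by simp [wwt]
    rw [← List.singleton_append, lw_append, ih fun l' hl' => hw l' (List.mem_cons_of_mem _ hl'),
      M.lw_single _ hi, List.singleton_append, e, M.wt_eq l, hi]
    rfl

/-- every word has between one and `d` letters -/
theorem exists_cw_bounds : ∃ κ₀ κ₁ : ℝ, 0 < κ₀ ∧ 0 < κ₁ ∧ ∀ w ∈ M.Wd,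
    κ₀ ≤ ∑ i, M.cw w i ∧ ∑ i, M.cw w i ≤ κ₁ := by
  obtain ⟨κ₀, κ₁, h0, h1, hlo, hhi⟩ := M.exists_kap
  have key : ∀ w : List (Fin M.d), (∀ l ∈ w, l ∈ M.Lam) →
      w.length * κ₀ ≤ M.lw 1 w ∧ M.lw 1 w ≤ w.length * κ₁ := by
    intro w hw
    induction w with
    | nil => simp [lw, cw]
    | cons l w ih =>
      have hl := hw l List.mem_cons_self
      obtain ⟨i, hi⟩ := M.exists_cl hl
      obtain ⟨a1, a2⟩ := ih fun l' hl' => hw l' (List.mem_cons_of_mem _ hl')
      have b1 := hlo l (M.wt_ne_of_Lam hl)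
      have b2 := hhi l
      rw [← List.singleton_append, lw_append, M.lw_single _ hi, List.singleton_append,
        List.length_cons, Pi.one_apply, mul_one]
      push_cast
      constructor <;> linarith
  refine ⟨κ₀, (M.d + 1) * κ₁, h0, by positivity, fun w hw => ?_⟩
  obtain ⟨hne, hlen, hL⟩ := M.mem_Wd.1 hw
  obtain ⟨a1, a2⟩ := key w hL
  have e : ∑ i, M.cw w i = M.lw 1 w := by simp [lw]
  have c1 : (1 : ℝ) ≤ w.length := by exact_mod_cast List.length_pos_iff.2 hne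
  have c2 : (w.length : ℝ) ≤ M.d := by exact_mod_cast hlen
  rw [e]
  constructor <;> nlinarith

/-- support functions are subadditive -/
theorem le_lw_of_adm {a : M.Cl → ℝ} (ha : Adm M.χ a) {w : List (Fin M.d)} (hw : w ∈ M.Wd)
    {i : M.Cl} {t : ℝ} (ht : 0 < t) (h : M.wwt w = t • M.χ i) : t * a i ≤ M.lw a w := by
  obtain ⟨S, -, hS⟩ := ha
  rw [← le_div_iff₀' ht]
  refine (hS i).2 ?_
  rintro _ ⟨v, hv, rfl⟩
  rw [le_div_iff₀' ht]
  have h1 := M.lw_pt v (M.mem_Wd.1 hw).2.2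
  rw [h, LinearMap.smul_apply, smul_eq_mul] at h1
  rw [← h1]
  exact M.lw_mono (fun j => (hS j).1 ⟨v, hv, rfl⟩) w

theorem pure_wwt {i : M.Cl} {w : List (Fin M.d)} (hw : w ∈ M.Wd) (h : ¬ M.Mixed i w) :
    0 < M.cw w i ∧ M.wwt w = M.cw w i • M.χ i ∧ ∀ a, M.lw a w = M.cw w i * a i := by
  obtain ⟨hne, -, hL⟩ := M.mem_Wd.1 hw
  have hp : ∀ l ∈ w, M.dir l = M.χ i := fun l hl => by
    by_contra hc
    exact h ⟨l, hl, hc⟩
  have hc : ∀ (l : Fin M.d) (w : List (Fin M.d)), M.dir l = M.χ i →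
      M.cw (l :: w) i = M.kap l + M.cw w i := fun l w hl => by simp [cw, mult, hl]
  have key : ∀ w : List (Fin M.d), (∀ l ∈ w, M.dir l = M.χ i) →
      M.wwt w = M.cw w i • M.χ i ∧ ∀ a, M.lw a w = M.cw w i * a i := by
    intro w hp
    induction w with
    | nil => simp [wwt, cw, lw]
    | cons l w ih =>
      have hl := hp l List.mem_cons_self
      obtain ⟨a1, a2⟩ := ih fun l' hl' => hp l' (List.mem_cons_of_mem _ hl')
      have e : M.wwt (l :: w) = M.wt l + M.wwt w := by simp [wwt]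
      refine ⟨by rw [e, hc l w hl, add_smul, a1, M.wt_eq l, hl], fun a => ?_⟩
      rw [hc l w hl, ← List.singleton_append, lw_append, M.lw_single _ hl, a2, add_mul]
  refine ⟨?_, key w hp⟩
  obtain ⟨l, w', rfl⟩ := List.exists_cons_of_ne_nil hne
  rw [hc l w' (hp l List.mem_cons_self)]
  exact add_pos_of_pos_of_nonneg (M.kap_pos (M.wt_ne_of_Lam (hL l List.mem_cons_self)))
    (M.cw_nonneg w' i)

theorem χ_span (v : Fin k → ℝ) (h : ∀ i, M.χ i v = 0) : v = 0 := by
  refine M.span v fun j => ?_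
  by_cases hj : M.wt j = 0
  · simp [hj]
  obtain ⟨C, -, hC⟩ := M.exists_coef
  obtain ⟨x, -, hx, he⟩ := hC j hj
  have hne : ∑ w ∈ M.Wd, x w • M.mon w ≠ 0 := by
    rw [← he]
    intro h0
    have := congrFun h0 j
    simp [e] at this
  obtain ⟨w, hw, hw0⟩ := Finset.exists_ne_zero_of_sum_ne_zero hne
  have h1 : M.wwt w = M.wt j := by
    by_contra hc
    exact hw0 (by rw [hx w hc, zero_smul])
  rw [← h1, ← M.lw_pt v (M.mem_Wd.1 hw).2.2]
  simp [lw, R182.pt, h]

theorem sub_R (i : M.Cl) : M.Sub (M.R i) := by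
  intro X hX Y hY
  rw [← M.sum_e X, ← M.sum_e Y]
  simp only [map_sum, map_smul, LinearMap.sum_apply, LinearMap.smul_apply]
  refine Submodule.sum_mem _ fun b _ => ?_
  by_cases hb : M.dir b = M.χ i
  swap
  · rw [hY b hb, zero_smul]; exact Submodule.zero_mem _
  refine Submodule.smul_mem _ _ (Submodule.sum_mem _ fun a _ => ?_)
  by_cases ha : M.dir a = M.χ i
  swap
  · rw [hX a ha, zero_smul]; exact Submodule.zero_mem _
  refine Submodule.smul_mem _ _ fun l hl => ?_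
  by_contra hne
  have h1 := (M.br_tri a b l hne).2.2
  rw [M.wt_eq a, M.wt_eq b, ha, hb, ← add_smul] at h1
  exact hl (M.dir_eq_of_wt (add_pos (M.kap_pos (M.wt_ne_of_dir ha))
    (M.kap_pos (M.wt_ne_of_dir hb))) h1).1

theorem R_le_E (i : M.Cl) : M.R i ≤ M.E := by
  intro X hX
  rw [← M.sum_e X]
  refine Submodule.sum_mem _ fun a _ => ?_
  by_cases ha : M.dir a = M.χ i
  · exact Submodule.smul_mem _ _ (M.e_mem_E (M.wt_ne_of_dir ha))
  · rw [hX a ha, zero_smul]; exact Submodule.zero_mem _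

/-! ### bases -/

instance nonempty_Bas : Nonempty M.Bas := by
  classical
  obtain ⟨b, hb, hspan, hli⟩ := exists_linearIndepOn_extension (K := ℝ) (v := M.mon)
    (s := ∅) (t := (M.Wd : Set (List (Fin M.d)))) (linearIndepOn_empty _ _) (Set.empty_subset _)
  have hfin : b.Finite := M.Wd.finite_toSet.subset hb
  refine ⟨⟨hfin.toFinset, fun w hw => ?_, ?_, ?_⟩⟩
  · exact hb (hfin.mem_toFinset.1 hw)
  · simpa using hli.2
  · rw [hfin.coe_toFinset, ← M.span_Wd]
    refine le_antisymm (Submodule.span_mono (Set.image_mono hb)) (Submodule.span_le.2 hli.1)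

theorem single_mem_bas (b : M.Bas) {l : Fin M.d} (hl : l ∈ M.Lam) : [l] ∈ b.1 := by
  classical
  by_contra hb
  have h1 : M.E ≤ Submodule.span ℝ (M.e '' (M.Lam.erase l : Finset _)) ⊔ M.E2 := by
    rw [← b.2.2.2]
    refine Submodule.span_le.2 ?_
    rintro _ ⟨w, hw, rfl⟩
    have hw' := M.mem_Wd.1 (b.2.1 hw)
    match w, hw, hw' with
    | [], _, h => exact absurd rfl h.1
    | [l'], hw, h =>
      refine Submodule.mem_sup_left (Submodule.subset_span ⟨l', ?_, rfl⟩)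
      exact Finset.mem_coe.2 (Finset.mem_erase.2 ⟨fun e => hb (e ▸ hw), h.2.2 l' (by simp)⟩)
    | l₁ :: l₂ :: w, hw, _ =>
      exact Submodule.mem_sup_right (M.mon_mem_E2 (b.2.1 hw) (by simp))
  obtain ⟨y, hy, z, hz, e⟩ := Submodule.mem_sup.1 (h1 (M.e_mem_E (M.wt_ne_of_Lam hl)))
  obtain ⟨c, hc⟩ := (Submodule.mem_span_image_finset_iff_exists_fun' ℝ).1 hy
  have := M.Lam_indep (fun j => if j = l then 1 else -c j) (by
    rw [← Finset.add_sum_erase _ _ hl, if_pos rfl, one_smul,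
      Finset.sum_congr rfl fun j hj => by rw [if_neg (Finset.ne_of_mem_erase hj), neg_smul],
      Finset.sum_neg_distrib, hc, ← e]
    simpa using hz) l hl
  simp at this

theorem bw_pos (b : M.Bas) (i : M.Cl) : 0 < M.bw b i := by
  obtain ⟨l, hl, hd⟩ := M.exists_letter i
  refine Finset.sum_pos' (fun w _ => M.cw_nonneg w i) ⟨[l], M.single_mem_bas b hl, ?_⟩
  simp only [cw, List.map_cons, List.map_nil, List.sum_cons, List.sum_nil, add_zero, mult, hd,
    if_true]
  exact M.kap_pos (M.wt_ne_of_Lam hl)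

theorem sum_bw (b : M.Bas) (a : M.Cl → ℝ) : ∑ i, M.bw b i * a i = ∑ w ∈ b.1, M.lw a w := by
  simp only [bw, lw, Finset.sum_mul]
  exact Finset.sum_comm

/-- trace of the diagonal map `X ↦ (wt j v * X j)` on `E` (it maps everything into `E`) -/
theorem bw_sum (b : M.Bas) (v : Fin k → ℝ) : ∑ i, M.bw b i * M.χ i v = 0 := by
  classical
  have h1 : ∑ i, M.bw b i * M.χ i v = ∑ w ∈ b.1, M.wwt w v := by
    rw [show (fun i => M.bw b i * M.χ i v) = fun i => M.bw b i * R182.pt M.χ v i from rfl,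
      M.sum_bw]
    exact Finset.sum_congr rfl fun w hw => M.lw_pt v (M.mem_Wd.1 (b.2.1 hw)).2.2
  let Δ : (Fin M.d → ℝ) →ₗ[ℝ] (Fin M.d → ℝ) := Matrix.toLin' (Matrix.diagonal fun j => M.wt j v)
  have hΔ : ∀ X j, Δ X j = M.wt j v * X j := fun X j => by
    simp [Δ, Matrix.toLin'_apply, Matrix.mulVec_diagonal]
  have hE : ∀ X, Δ X ∈ M.E := fun X => by
    rw [← M.sum_e (Δ X)]
    refine Submodule.sum_mem _ fun j _ => ?_
    by_cases hj : M.wt j = 0
    · rw [hΔ, hj]; simp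
    · exact Submodule.smul_mem _ _ (M.e_mem_E hj)
  have h2 : LinearMap.trace ℝ _ Δ = 0 := by
    rw [← M.unimod v]
    simp [Δ, Matrix.trace_diagonal]
  have h3 := LinearMap.trace_restrict_eq_of_forall_mem M.E Δ hE
  have hm : ∀ w, Δ (M.mon w) = M.wwt w v • M.mon w := fun w => by
    funext j
    rw [hΔ, Pi.smul_apply, smul_eq_mul]
    by_cases hj : M.wt j = M.wwt w
    · rw [hj]
    · rw [M.mon_mem_Wt w j hj]; simp
  let B : Module.Basis b.1 ℝ M.E :=
    (Module.Basis.span b.2.2.1).map (LinearEquiv.ofEq _ _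
      ((congrArg (Submodule.span ℝ) (Set.image_eq_range M.mon _).symm).trans b.2.2.2))
  have hB : ∀ w, (B w : Fin M.d → ℝ) = M.mon w := fun w =>
    congrArg Subtype.val (Module.Basis.span_apply b.2.2.1 w)
  rw [h1, ← h2, ← h3, LinearMap.trace_eq_matrix_trace ℝ B, Matrix.trace, ← Finset.sum_coe_sort]
  refine Finset.sum_congr rfl fun w _ => ?_
  have : (Δ.restrict fun X _ => hE X) (B w) = M.wwt w v • B w :=
    Subtype.ext (by rw [LinearMap.coe_restrict_apply, hB, hm]; simp [hB])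
  simp [LinearMap.toMatrix_apply, this]

theorem h49_mon_mem_I (i : M.Cl) {w : List (Fin M.d)} (hw : ∀ l ∈ w, l ∈ M.Lam)
    (hm : M.Mixed i w) : M.mon w ∈ M.I i := by
  by_cases h0 : w = []
  · subst h0; exact zero_mem _
  by_cases h1 : M.d < w.length
  · rw [M.mon_eq_zero h1]; exact zero_mem _
  exact Submodule.subset_span ⟨w, ⟨M.mem_Wd.2 ⟨h0, not_lt.1 h1, hw⟩, hm⟩, rfl⟩

theorem h49_mon_mem_E {w : List (Fin M.d)} (hw : ∀ l ∈ w, l ∈ M.Lam) : M.mon w ∈ M.E :=
  Submodule.subset_span ⟨w, fun l hl => M.wt_ne_of_Lam (hw l hl), rfl⟩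

theorem I_le_E (i : M.Cl) : M.I i ≤ M.E := by
  refine Submodule.span_le.2 ?_
  rintro _ ⟨w, hw, rfl⟩
  exact M.mon_mem_E hw.1

/-- `I i` is an ideal of `E` (`br_mon`) -/
theorem br_mem_I_of_E (i : M.Cl) {X Y : Fin M.d → ℝ} (hY : Y ∈ M.E) (hX : X ∈ M.I i) :
    M.br Y X ∈ M.I i := by
  rw [← M.span_Wd] at hY
  induction hY using Submodule.span_induction with
  | zero => simp
  | add a b _ _ ha hb => rw [map_add, LinearMap.add_apply]; exact add_mem ha hb
  | smul t a _ ha => rw [map_smul, LinearMap.smul_apply]; exact Submodule.smul_mem _ _ ha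
  | mem a ha =>
    obtain ⟨w, hw, rfl⟩ := ha
    induction hX using Submodule.span_induction with
    | zero => simp
    | add a b _ _ ha hb => rw [map_add]; exact add_mem ha hb
    | smul t a _ ha => rw [map_smul]; exact Submodule.smul_mem _ _ ha
    | mem b hb =>
      obtain ⟨w', hw', rfl⟩ := hb
      obtain ⟨L, -, hL, e⟩ := M.br_mon w w'
      rw [e]
      refine list_sum_mem fun v hv => ?_
      obtain ⟨r, hr, rfl⟩ := List.mem_map.1 hv
      have hp := (hL r hr).2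
      refine Submodule.smul_mem _ _ (M.h49_mon_mem_I i (fun l hl => ?_) ?_)
      · rcases List.mem_append.1 (hp.subset hl) with h | h
        · exact (M.mem_Wd.1 hw).2.2 l h
        · exact (M.mem_Wd.1 hw'.1).2.2 l h
      · obtain ⟨l, hl, hd⟩ := hw'.2
        exact ⟨l, hp.symm.subset (List.mem_append_right _ hl), hd⟩

/-- all words of an off-ray weight are mixed -/
theorem mem_I_of_Wt (i : M.Cl) {φ : (Fin k → ℝ) →ₗ[ℝ] ℝ} (hφ : ∀ t : ℝ, 0 < t → φ ≠ t • M.χ i)
    {X : Fin M.d → ℝ} (hX : X ∈ M.E) (hw : X ∈ M.Wt φ) : X ∈ M.I i := by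
  refine (Submodule.span_mono (Set.image_mono ?_) : _ ≤ M.I i) (M.mem_span_wwt hX hw)
  rintro w ⟨h1, h2⟩
  refine ⟨h1, ?_⟩
  by_contra h
  obtain ⟨h3, h4, -⟩ := M.pure_wwt h1 h
  exact hφ _ h3 (h2.symm.trans h4)

theorem h49_br_I_left (i : M.Cl) {X Y : Fin M.d → ℝ} (hX : X ∈ M.I i) (hY : Y ∈ M.E) :
    M.br X Y ∈ M.I i := by
  rw [M.br_anti]
  exact neg_mem (M.br_mem_I_of_E i hY hX)

theorem h49_br_e_mem_I (i : M.Cl) {Y : Fin M.d → ℝ} (hY : Y ∈ M.N0) {l : Fin M.d}
    (hl : l ∈ M.Lam) (hd : M.dir l ≠ M.χ i) : M.br Y (M.e l) ∈ M.I i := by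
  have h1 : M.br Y (M.e l) ∈ M.Wt (0 + M.wt l) := M.br_Wt (φ := 0) hY (M.e_mem_Wt l)
  rw [zero_add] at h1
  exact M.mem_I_of_Wt i (fun t ht h => hd (M.dir_eq_of_wt ht h).1)
    (M.br_mem_E Y (M.e_mem_E (M.wt_ne_of_Lam hl))) h1

theorem h49_br_mon_mem_I (i : M.Cl) {Y : Fin M.d → ℝ} (hY : Y ∈ M.N0) (w : List (Fin M.d))
    (hw : ∀ l ∈ w, l ∈ M.Lam) (hm : M.Mixed i w) : M.br Y (M.mon w) ∈ M.I i := by
  induction w with
  | nil => simp [mon]
  | cons l w ih =>
    have hl : l ∈ M.Lam := hw l List.mem_cons_self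
    have hw' : ∀ m ∈ w, m ∈ M.Lam := fun m hm => hw m (List.mem_cons_of_mem _ hm)
    have hlE : M.e l ∈ M.E := M.e_mem_E (M.wt_ne_of_Lam hl)
    by_cases hd : M.dir l = M.χ i
    · have hm' : M.Mixed i w := by
        obtain ⟨m, hm1, hm2⟩ := hm
        rcases List.mem_cons.1 hm1 with rfl | h
        · exact absurd hd hm2
        · exact ⟨m, h, hm2⟩
      have h0 : w ≠ [] := by
        obtain ⟨m, hm1, -⟩ := hm'
        exact List.ne_nil_of_mem hm1
      rw [M.mon_cons l h0, M.jacobi]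
      exact add_mem (M.br_mem_I_of_E i (M.br_mem_E Y hlE) (M.h49_mon_mem_I i hw' hm'))
        (M.br_mem_I_of_E i hlE (ih hw' hm'))
    · by_cases h0 : w = []
      · subst h0
        exact M.h49_br_e_mem_I i hY hl hd
      · have hlI : M.e l ∈ M.I i :=
          M.h49_mon_mem_I i (w := [l]) (fun m hm => by rw [List.mem_singleton.1 hm]; exact hl)
            ⟨l, List.mem_singleton_self l, hd⟩
        rw [M.mon_cons l h0, M.jacobi]
        exact add_mem (M.h49_br_I_left i (M.h49_br_e_mem_I i hY hl hd) (M.h49_mon_mem_E hw'))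
          (M.h49_br_I_left i hlI (M.br_mem_E Y (M.h49_mon_mem_E hw')))

/-- `ad (e j)`, `wt j = 0`, acts letter by letter and keeps the weight of the off-ray letter -/
theorem br_mem_I (i : M.Cl) (Y : Fin M.d → ℝ) {X : Fin M.d → ℝ} (hX : X ∈ M.I i) :
    M.br Y X ∈ M.I i := by
  obtain ⟨Y₀, h0, h1, -⟩ := M.exists_split Y
  have e : M.br Y X = M.br Y₀ X + M.br (Y - Y₀) X := by
    rw [map_sub, LinearMap.sub_apply]; abel
  rw [e]
  refine add_mem ?_ (M.br_mem_I_of_E i h1 hX)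
  clear e
  induction hX using Submodule.span_induction with
  | zero => simp
  | add a b _ _ ha hb => rw [map_add]; exact add_mem ha hb
  | smul t a _ ha => rw [map_smul]; exact Submodule.smul_mem _ _ ha
  | mem b hb =>
    obtain ⟨w, hw, rfl⟩ := hb
    exact M.h49_br_mon_mem_I i h0 w (M.mem_Wd.1 hw.1).2.2 hw.2

theorem h49_I_coef (i : M.Cl) {l : Fin M.d} (hd : M.dir l = M.χ i) {X : Fin M.d → ℝ}
    (hX : X ∈ M.I i) : ∃ x : Fin M.d → ℝ, x l = 0 ∧ X - ∑ m ∈ M.Lam, x m • M.e m ∈ M.E2 := by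
  classical
  induction hX using Submodule.span_induction with
  | zero => exact ⟨0, rfl, by simp⟩
  | add a b _ _ ha hb =>
    obtain ⟨x, hx0, hx⟩ := ha
    obtain ⟨y, hy0, hy⟩ := hb
    refine ⟨x + y, by simp [hx0, hy0], ?_⟩
    convert add_mem hx hy using 1
    simp only [Pi.add_apply, add_smul, Finset.sum_add_distrib]
    abel
  | smul t a _ ha =>
    obtain ⟨x, hx0, hx⟩ := ha
    refine ⟨t • x, by simp [hx0], ?_⟩
    convert M.E2.smul_mem t hx using 1
    simp only [Pi.smul_apply, smul_eq_mul, mul_smul, smul_sub, Finset.smul_sum]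
  | mem b hb =>
    obtain ⟨w, ⟨hw, hm⟩, rfl⟩ := hb
    by_cases h2 : 2 ≤ w.length
    · exact ⟨0, rfl, by simpa using M.mon_mem_E2 hw h2⟩
    obtain ⟨m, hm1, hm2⟩ := hm
    have hmL : m ∈ M.Lam := (M.mem_Wd.1 hw).2.2 m hm1
    have hw1 : w = [m] := by
      rcases w with _ | ⟨a, _ | ⟨b, w⟩⟩
      · simp at hm1
      · rw [List.mem_singleton.1 hm1]
      · simp at h2
    subst hw1
    have hml : l ≠ m := fun h => hm2 (h ▸ hd)
    refine ⟨Pi.single m 1, by simp [hml], ?_⟩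
    have : ∑ m' ∈ M.Lam, (Pi.single m 1 : Fin M.d → ℝ) m' • M.e m' = M.e m := by
      rw [Finset.sum_eq_single m]
      · simp
      · intro b _ hb
        simp [hb]
      · intro h
        exact absurd hmL h
    rw [this]
    simp [mon]

theorem h49_e_notMem_I (i : M.Cl) {l : Fin M.d} (hl : l ∈ M.Lam) (hd : M.dir l = M.χ i) :
    M.e l ∉ M.I i := by
  classical
  intro h
  obtain ⟨x, hx0, hx⟩ := M.h49_I_coef i hd h
  have h1 : ∑ m' ∈ M.Lam, (Pi.single l 1 : Fin M.d → ℝ) m' • M.e m' = M.e l := by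
    rw [Finset.sum_eq_single l]
    · simp
    · intro b _ hb
      simp [hb]
    · intro h
      exact absurd hl h
  have h2 := M.Lam_indep (Pi.single l 1 - x) (by
    simp only [Pi.sub_apply, sub_smul, Finset.sum_sub_distrib]
    rw [h1]
    exact hx) l hl
  simp [hx0] at h2

/-- a letter of class `i` is not in `I i ≤ span (other letters) ⊔ E2` -/
theorem dim_pos (i : M.Cl) : 0 < M.dim i := by
  obtain ⟨h1, h2, -, h4⟩ := (M.exists_pb i).choose_spec
  refine Finset.sum_pos (fun w hw => (M.pure_wwt (h1 hw) (h2 w hw)).1) ?_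
  rw [Finset.nonempty_iff_ne_empty]
  intro h0
  obtain ⟨l, hl, hd⟩ := M.exists_letter i
  have h5 := h4 [l] (M.single_mem_Wd hl)
  have h6 : (M.exists_pb i).choose = ∅ := h0
  rw [h6] at h5
  simp only [Finset.coe_empty, Set.image_empty, Submodule.span_empty, bot_le, sup_of_le_right] at h5
  exact M.h49_e_notMem_I i hl hd h5

end LieModel

end Crest.Agent.R182
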