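import Crest.Agent.R182.LC2
import Crest.Agent.R182.NAll

/-! Row 182, block L2b: thickening. -/

set_option autoImplicit false
set_option linter.dupNamespace false

namespace Crest.Agent.R182

open Crest.GroupTheory MeasureTheory

namespace LieModel

variable {G : Type} [Group G] {k : ℕ} (M : LieModel G k)

/-- TASK LC4a. `nilGrow`; `exp_lg`, `one_le_lg`. -/
theorem card_SC (hnil : Group.IsNilpotent (Subgroup.closure (M.SC : Set G))) :
    ∃ A : ℝ, 1 ≤ A ∧ ∀ m, ((Ball (M.SC : Set G) (m + 1)).ncard : ℝ) ≤ Real.exp (A * lg m) := by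
  obtain ⟨C, d, h⟩ := nilGrow M.SC hnil
  have hC : (0 : ℝ) ≤ C := C.cast_nonneg
  have hd : (0 : ℝ) ≤ d := d.cast_nonneg
  refine ⟨C + d + 1, by linarith, fun m => ?_⟩
  have h1 : ((Ball (M.SC : Set G) (m + 1)).ncard : ℝ) ≤ C * ((m : ℝ) + 1 + 1) ^ d := by
    exact_mod_cast h (m + 1)
  have hl := one_le_lg m
  have hm : (0 : ℝ) ≤ m := m.cast_nonneg
  have h2 : (m : ℝ) + 1 + 1 ≤ Real.exp (lg m) := by
    have h3 := Real.add_one_le_exp (1 : ℝ)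
    have h4 := mul_le_mul_of_nonneg_right h3 (show (0 : ℝ) ≤ 1 + m by linarith)
    rw [exp_lg]
    linarith
  have h3 : (C : ℝ) ≤ Real.exp ((C + 1) * lg m) := by
    have h4 := Real.add_one_le_exp ((C + 1 : ℝ) * lg m)
    have h5 := mul_le_mul_of_nonneg_left hl (show (0 : ℝ) ≤ C + 1 by linarith)
    linarith
  calc _ ≤ _ := h1
    _ ≤ Real.exp ((C + 1) * lg m) * Real.exp (lg m) ^ d := by gcongr
    _ = _ := by rw [← Real.exp_nat_mul, ← Real.exp_add]; congr 1; ring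

/-- TASK LC4a. `b = ex W * g` (`ball_one_dec`); `h = c * g` does not depend on `o`;
`c * b * ex o = ex (Ad c (bc W (Ad g o))) * h`; `exists_thick`, `Ih_unit`, `Ih_Ad` at `a = 0 = pt χ 0`. -/
theorem thick_dec : ∃ A : ℝ, 1 ≤ A ∧ ∀ m, ∀ c ∈ Ball (M.SC : Set G) m, ∀ b ∈ Ball M.Sg 1,
    ∃ h ∈ Ball (M.SC : Set G) (m + 1), (∀ i, |M.χ i (M.π h) - M.χ i (M.π c)| ≤ A) ∧
      ∀ o, ‖o‖ ≤ 1 → ∃ V, M.Ih (R182.pt M.χ (M.π c)) (Real.exp (A * lg m)) V ∧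
        c * b * M.ex o = M.ex V * h := by
  obtain ⟨A₁, hA₁, hπ, hbc⟩ := M.exists_thick
  obtain ⟨A₂, hA₂, hχ⟩ := M.exists_χ_le
  obtain ⟨A₃, hA₃, hunit⟩ := M.Ih_unit
  obtain ⟨A₄, hA₄, hAd⟩ := M.Ih_Ad
  have h31 : 1 ≤ A₃ * A₁ := one_le_mul_of_one_le_of_one_le hA₃ hA₁
  have h431 : 1 ≤ A₄ * (A₃ * A₁) := one_le_mul_of_one_le_of_one_le hA₄ h31
  have h21 : 1 ≤ A₂ * A₁ := one_le_mul_of_one_le_of_one_le hA₂ hA₁
  refine ⟨A₄ * (A₃ * A₁) + A₂ * A₁, by linarith, fun m c hc b hb => ?_⟩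
  obtain ⟨W, hW, g, hg, rfl⟩ := M.ball_one_dec hb
  have hl := one_le_lg m
  refine ⟨c * g, Ball.mul_mem hc hg, fun i => ?_, fun o ho =>
    ⟨M.Ad c (M.bc W (M.Ad g o)), ?_, ?_⟩⟩
  · rw [M.π_hom, map_add, add_sub_cancel_left]
    have := (hχ i (M.π g)).trans (mul_le_mul_of_nonneg_left (hπ g hg) (by linarith))
    linarith
  · have h1 : A₃ * A₁ ≤ Real.exp (A₃ * A₁ * lg m) := by
      have h4 := Real.add_one_le_exp (A₃ * A₁ * lg m)
      have h5 := mul_le_mul_of_nonneg_left hl (show (0 : ℝ) ≤ A₃ * A₁ by linarith)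
      linarith
    have h2 := hAd _ (M.adm_const le_rfl) m c hc (A₃ * A₁ * lg m)
      (le_mul_of_one_le_left (by linarith) h31) _
      ((hunit _ _ (hbc g hg W o hW ho)).mono le_rfl h1)
    refine h2.mono (fun i => by simp [R182.pt]) (Real.exp_le_exp.2 ?_)
    have h5 := mul_nonneg (show (0 : ℝ) ≤ A₂ * A₁ by linarith) (show 0 ≤ lg m by linarith)
    linarith
  · rw [← M.Ad_conj, ← M.ex_mul', ← M.Ad_conj]
    group

end LieModel

end Crest.Agent.R182
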