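import Crest.Agent.R182.LC3
import Crest.Agent.R182.LC4a

/-! Row 182, block L2b: the count with a constraint. -/

set_option autoImplicit false
set_option linter.dupNamespace false

namespace Crest.Agent.R182

open Crest.GroupTheory MeasureTheory

namespace LieModel

variable {G : Type} [Group G] {k : ℕ} (M : LieModel G k)

/-- TASK LC4c. Split `Y` according to `(h, h')` of `thick_dec`; `pack` with `S = Cls i a a₂ (B + 2 A) t g₀ h h'`;
in the second representation use the level vector `a' ⊔ pt χ (π c')`, and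
`π h = π g₀ + π h'`. -/
theorem count_core (hnil : Group.IsNilpotent (Subgroup.closure (M.SC : Set G))) (C : ℝ) :
    ∃ A : ℝ, ∀ i a a₂, Adm M.χ a → Adm M.χ a₂ →
    (a₂ ≤ a ∨ (a i ≤ a₂ i ∧ ∀ T ∈ M.I i, ∀ r, M.Ih a₂ r T → M.Ih a (C * r) T)) →
    ∀ (B : ℝ) (m : ℕ) (g₀ : G) (Y : Finset G), Sep M.Sg 1 Y →
    (∀ y ∈ Y, ∃ e₁ ∈ M.Box a, ∃ e₂ ∈ M.Box a₂, ∃ c ∈ Ball (M.SC : Set G) m,
      ∃ b ∈ Ball M.Sg 1, y = e₁ * e₂ * c * b ∧ R182.pt M.χ (M.π c) ≤ a₂ ∧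
      M.χ i (M.π c) ≤ B ∧ ∃ a', Adm M.χ a' ∧ a' i + M.χ i (M.π g₀) ≤ B ∧
        ∃ e' ∈ M.Box a', ∃ c' ∈ Ball (M.SC : Set G) m, ∃ b' ∈ Ball M.Sg 1,
          y = g₀ * e' * c' * b') →
    (Y.card : ℝ) ≤ Real.exp (Vol M.bw a + M.dim i * (B - a i) + A * lg m) := by
  classical
  obtain ⟨Ac, hAc, hcard⟩ := M.card_SC hnil
  obtain ⟨At, hAt, hthick⟩ := M.thick_dec
  obtain ⟨Ab, hAb, hbc⟩ := M.Ih_bc
  obtain ⟨Av, hAv, hvol⟩ := M.vol_cls
  obtain ⟨Ap, hAp, hpack⟩ := M.pack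
  obtain ⟨A₀, hA₀⟩ : ∃ A₀ : ℝ, A₀ = Ab * At + lg 2 + |C| := ⟨_, rfl⟩
  obtain ⟨Dm, hDm⟩ : ∃ Dm : ℝ, Dm = ∑ i, M.dim i := ⟨_, rfl⟩
  have hbt : 1 ≤ Ab * At := one_le_mul_of_one_le_of_one_le hAb hAt
  have hl2 := one_le_lg 2
  have hC0 := abs_nonneg C
  refine ⟨2 * Ac + Ap + 2 * At * Dm + Av * A₀, fun i a a₂ ha ha₂ hor B m g₀ Y hsep hY => ?_⟩
  have hl := one_le_lg m
  have hl0 : 0 ≤ lg m := by linarith
  obtain ⟨t, ht⟩ : ∃ t : ℝ, t = A₀ * lg m := ⟨_, rfl⟩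
  have hA0t : A₀ ≤ t := by
    rw [ht]; exact le_mul_of_one_le_right (by linarith) hl
  have ht1 : 1 ≤ t := by linarith
  have htb : Ab * (At * lg m) ≤ t := by
    rw [ht, ← mul_assoc]; exact mul_le_mul_of_nonneg_right (by linarith) hl0
  have ht2 : lg (m + 1 + (m + 1)) ≤ t := by
    rw [show m + 1 + (m + 1) = 2 * m + 2 by ring, ht]
    exact (lg_mul_le 2 m).trans (mul_le_mul_of_nonneg_right (by linarith) hl0)
  have hCt : C ≤ Real.exp t := by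
    have h1 := Real.add_one_le_exp t
    have h2 := le_abs_self C
    linarith
  have hs1 : 1 ≤ At * lg m := one_le_mul_of_one_le_of_one_le hAt hl
  have he1 : 1 ≤ Real.exp (At * lg m) := Real.one_le_exp (by linarith)
  have hor' : a₂ ≤ a ∨ (a i ≤ a₂ i ∧
      ∀ T ∈ M.I i, ∀ r, M.Ih a₂ r T → M.Ih a (Real.exp t * r) T) :=
    hor.imp id fun h => ⟨h.1, fun T hT r hr => (h.2 T hT r hr).mono le_rfl
      (mul_le_mul_of_nonneg_right hCt hr.nonneg)⟩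
  have key : ∀ y : G, ∃ p : G × G, y ∈ Y → p.1 ∈ Ball (M.SC : Set G) (m + 1) ∧
      p.2 ∈ Ball (M.SC : Set G) (m + 1) ∧ ∀ o, ‖o‖ ≤ 1 →
        ∃ X ∈ M.Cls i a a₂ (B + 2 * At) t g₀ p.1 p.2, y * M.ex o = M.ex X * p.1 := by
    intro y
    by_cases hy : y ∈ Y
    swap
    · exact ⟨(1, 1), fun h => absurd h hy⟩
    obtain ⟨_, ⟨E₁, hE₁, rfl⟩, _, ⟨E₂, hE₂, rfl⟩, c, hc, b, hb, e1, hc2, hcB, a', ha', ha'B,
      _, ⟨E', hE', rfl⟩, c', hc', b', hb', e2⟩ := hY y hy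
    obtain ⟨h, hh, hh1, hh2⟩ := hthick m c hc b hb
    obtain ⟨h', hh', hh1', hh2'⟩ := hthick m c' hc' b' hb'
    refine ⟨(h, h'), fun _ => ⟨hh, hh', fun o ho => ?_⟩⟩
    obtain ⟨V, hV, eV⟩ := hh2 o ho
    obtain ⟨V', hV', eV'⟩ := hh2' o ho
    have f1 : y * M.ex o = M.ex (M.bc E₁ (M.bc E₂ V)) * h := by
      rw [← M.ex_mul', ← M.ex_mul', mul_assoc, mul_assoc, ← eV, e1]
      simp only [mul_assoc]
    have f2 : y * M.ex o = g₀ * M.ex (M.bc E' V') * h' := by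
      rw [← M.ex_mul', mul_assoc, mul_assoc, ← eV', e2]
      simp only [mul_assoc]
    have f3 : M.π h = M.π g₀ + M.π h' := by
      have := congrArg M.π (f1.symm.trans f2)
      rwa [M.π_hom, M.π_hom, M.π_hom, M.π_ex, M.π_ex, zero_add, add_zero] at this
    have hadm : Adm M.χ (a' ⊔ R182.pt M.χ (M.π c')) := ha'.sup (Adm.pt _)
    refine ⟨M.bc E₁ (M.bc E₂ V), ⟨⟨E₁, M.bc E₂ V,
      (Ih.of_D hE₁).mono le_rfl (Real.one_le_exp (by linarith)),
      (hbc a₂ ha₂ _ hs1 _ _ ((Ih.of_D hE₂).mono le_rfl he1) (hV.mono hc2 le_rfl)).mono le_rfl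
        (Real.exp_le_exp.2 htb), rfl⟩, a' ⊔ R182.pt M.χ (M.π c'), hadm, ?_, M.bc E' V',
      (hbc _ hadm _ hs1 _ _ ((Ih.of_D hE').mono le_sup_left he1)
        (hV'.mono le_sup_right le_rfl)).mono le_rfl (Real.exp_le_exp.2 htb),
      f1.symm.trans f2⟩, f1⟩
    have g1 := (abs_le.1 (hh1 i)).2
    have g2 := (abs_le.1 (hh1' i)).1
    rw [f3, map_add] at g1
    rw [Pi.sup_apply]
    rcases le_total (a' i) (R182.pt M.χ (M.π c') i) with h3 | h3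
    · rw [sup_of_le_right h3]
      change M.χ i (M.π c') + _ ≤ _
      linarith
    · rw [sup_of_le_left h3]
      linarith
  choose f hf using key
  obtain ⟨F, hF⟩ : ∃ F : Finset G, (F : Set G) = Ball (M.SC : Set G) (m + 1) :=
    ⟨(Ball.finite M.SC.finite_toSet (m + 1)).toFinset, Set.Finite.coe_toFinset _⟩
  have hFc : (F.card : ℝ) ≤ Real.exp (Ac * lg m) := by
    have := hcard m
    rwa [← hF, Set.ncard_coe_finset] at this
  have hmem : ∀ g, g ∈ Ball (M.SC : Set G) (m + 1) → g ∈ F := fun g hg => by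
    rwa [← hF] at hg
  obtain ⟨v, hv⟩ : ∃ v : ℝ,
      v = Real.exp (Vol M.bw a + M.dim i * (B + 2 * At - a i) + Av * t) := ⟨_, rfl⟩
  have hv0 : 0 ≤ v := by rw [hv]; positivity
  have hfib : ∀ p ∈ F ×ˢ F, (((Y.filter fun y => f y = p).card : ℕ) : ℝ) ≤ Ap * v := by
    intro p hp
    obtain ⟨hp1, hp2⟩ := Finset.mem_product.1 hp
    have hp1' : p.1 ∈ Ball (M.SC : Set G) (m + 1) := hF ▸ Finset.mem_coe.2 hp1
    have hp2' : p.2 ∈ Ball (M.SC : Set G) (m + 1) := hF ▸ Finset.mem_coe.2 hp2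
    refine hpack p.1 _ (M.Cls i a a₂ (B + 2 * At) t g₀ p.1 p.2) v hv0
      (fun x hx y hy => hsep x (Finset.mem_filter.1 hx).1 y (Finset.mem_filter.1 hy).1)
      (fun y hy o ho => ?_) ?_
    · obtain ⟨hy1, rfl⟩ := Finset.mem_filter.1 hy
      exact (hf y hy1).2.2 o ho
    · rw [hv]
      exact hvol i a a₂ ha ha₂ _ t ht1 hor' g₀ p.1 p.2 _
        (Ball.mul_mem hp1' (Ball.inv_mem hp2')) ht2
  have hsum : (Y.card : ℝ) ≤ F.card * F.card * (Ap * v) := by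
    rw [Finset.card_eq_sum_card_fiberwise (f := f) (t := F ×ˢ F) fun y hy =>
      Finset.mem_coe.2 (Finset.mem_product.2 ⟨hmem _ (hf y hy).1, hmem _ (hf y hy).2.1⟩)]
    push_cast
    refine (Finset.sum_le_sum hfib).trans (le_of_eq ?_)
    rw [Finset.sum_const, Finset.card_product, nsmul_eq_mul]
    push_cast
    rfl
  have hp : Ap ≤ Real.exp (Ap * lg m) := by
    have h1 := Real.add_one_le_exp (Ap * lg m)
    have h2 := mul_le_mul_of_nonneg_left hl (show (0 : ℝ) ≤ Ap by linarith)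
    linarith
  have hdim : M.dim i ≤ Dm := by
    rw [hDm]
    exact Finset.single_le_sum (f := fun j => M.dim j) (fun j _ => (M.dim_pos j).le)
      (Finset.mem_univ i)
  have hd0 := (M.dim_pos i).le
  calc (Y.card : ℝ) ≤ F.card * F.card * (Ap * v) := hsum
    _ ≤ Real.exp (Ac * lg m) * Real.exp (Ac * lg m) * (Real.exp (Ap * lg m) * v) := by gcongr
    _ ≤ _ := by
      rw [hv, ← Real.exp_add, ← Real.exp_add, ← Real.exp_add, Real.exp_le_exp, ht]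
      have h1 : M.dim i * (2 * At) ≤ Dm * (2 * At) :=
        mul_le_mul_of_nonneg_right hdim (by linarith)
      have h2 : Dm * (2 * At) * 1 ≤ Dm * (2 * At) * lg m :=
        mul_le_mul_of_nonneg_left hl (mul_nonneg (hd0.trans hdim) (by linarith))
      nlinarith

end LieModel

end Crest.Agent.R182
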