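import Crest.Agent.R182.LC4b
import Crest.Agent.R182.LC4c

/-! Row 182, block L2b: the upper counts and the abelian coordinate. -/

set_option autoImplicit false
set_option linter.dupNamespace false

namespace Crest.Agent.R182

open Crest.GroupTheory MeasureTheory

namespace LieModel

variable {G : Type} [Group G] {k : ℕ} (M : LieModel G k)

theorem count1 (hnil : Group.IsNilpotent (Subgroup.closure (M.SC : Set G))) :
    ∀ᶠ K in Filter.atTop, M.SCount1 K := by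
  obtain ⟨A, hA⟩ := M.count_core hnil 1
  filter_upwards [Filter.eventually_ge_atTop ⌈A⌉₊] with K hK a ha i B m g₀ Y _ hY h
  refine (hA i a a ha ha (Or.inl le_rfl) B m g₀ Y hY fun y hy => ?_).trans (Real.exp_le_exp.2 ?_)
  · obtain ⟨e, he, c, hc, b, hb, rfl, h1, h2, a', ha', -, h3, h4⟩ := h y hy
    exact ⟨e, he, 1, ⟨0, ⟨0, fun w => by simp [Real.exp_nonneg], fun _ _ => rfl, by simp⟩,
      M.ex_zero⟩, c, hc, b, hb, by rw [mul_one], h1, h2,
      a', ha', h3, h4⟩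
  · have h1 := one_le_lg m
    have h2 : A ≤ K := (Nat.le_ceil A).trans (by exact_mod_cast hK)
    nlinarith

theorem count2 (hnil : Group.IsNilpotent (Subgroup.closure (M.SC : Set G))) :
    ∀ᶠ K in Filter.atTop, M.SCount2 K := by
  obtain ⟨A1, a1, hup⟩ := M.Ih_up
  obtain ⟨A2, κ, a2, hκ, habs⟩ := M.Ih_abs
  obtain ⟨A, hA⟩ := M.count_core hnil (A2 * A1)
  filter_upwards [Filter.eventually_ge_atTop ⌈A⌉₊, Filter.eventually_ge_atTop ⌈A1 / κ⌉₊,
    Filter.eventually_ge_atTop 1] with K hK hK1 hK2 a ha i s D B m g₀ Y hD hi hj _ hY h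
  have k1 : (1 : ℝ) ≤ K := by exact_mod_cast hK2
  have k2 : A1 ≤ κ * K := by
    have : A1 / κ ≤ K := (Nat.le_ceil _).trans (by exact_mod_cast hK1)
    rwa [div_le_iff₀' hκ] at this
  have ha₂ : Adm M.χ fun j => M.χ j s + D := by
    simpa only [add_comm] using (M.adm_const hD).add_pt s
  refine (hA i a _ ha ha₂ ?_ B m g₀ Y hY fun y hy => ?_).trans (Real.exp_le_exp.2 ?_)
  · rcases le_total (M.χ i s + D) (a i) with h1 | h1
    · refine Or.inl fun j => ?_
      by_cases e : j = i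
      · exact e ▸ h1
      · exact le_trans (by nlinarith) (hj j e)
    · refine Or.inr ⟨h1, fun T hT r hr => ?_⟩
      have h0 := hr.nonneg
      rw [mul_assoc]
      refine habs a i s (K * D) (by positivity) hi hj T hT _ (by positivity) fun l =>
        (hup s D hD r T hr l).trans ?_
      refine mul_le_mul_of_nonneg_left (Real.exp_le_exp.2 ?_) (by positivity)
      nlinarith [mul_le_mul_of_nonneg_right k2 hD]
  · obtain ⟨e₁, he₁, e₂, he₂, c, hc, b, hb, rfl, h1, h2, a', ha', -, h3, h4⟩ := h y hy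
    exact ⟨e₁, he₁, e₂, he₂, c, hc, b, hb, rfl, h1, h2, a', ha', h3, h4⟩
  · have h1 := one_le_lg m
    have h2 : A ≤ K := (Nat.le_ceil A).trans (by exact_mod_cast hK)
    nlinarith

theorem abel : ∀ᶠ K in Filter.atTop, M.SAbel K := by
  obtain ⟨A, hA, hbc, hAd, hquo, -⟩ := M.exists_log
  obtain ⟨A1, a1, hunit⟩ := M.Ih_unit
  obtain ⟨A2, a2, hth, -⟩ := M.exists_thick
  obtain ⟨A3, a3, hχ⟩ := M.exists_χ_le
  refine Filter.eventually_all.2 fun i => ?_
  obtain ⟨l₀, hQ, hdir, hκ⟩ := M.exists_Qs i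
  filter_upwards [Filter.eventually_ge_atTop
    ⌈A ^ 5 * (A1 + lg 2) + M.mult i l₀ * (A3 * A2)⌉₊] with K hK
  refine ⟨fun τ => M.ex (τ • M.e l₀), M.mult i l₀, hκ, fun τ hτ => ⟨_, ⟨fun j hj => ?_, fun j => ?_⟩,
    rfl⟩, fun m U g₀ τ _ h => ?_⟩
  · have : j ≠ l₀ := fun e => hj (e ▸ hdir)
    simp [e, this]
  · rw [mul_zero, Real.exp_zero]
    by_cases hj : j = l₀
    · simpa [e, hj] using hτ
    · simp [e, hj]
  have m1 := one_le_lg m
  have m2 := one_le_lg 2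
  set t := (A1 + lg 2) * lg m with ht
  have t1 : A1 ≤ t := by nlinarith
  have t2 : lg (m + 1 + m) ≤ t :=
    (lg_mono (by omega)).trans ((lg_mul_le 2 m).trans (by nlinarith))
  have t3 : lg m ≤ t := (lg_mono (by omega)).trans t2
  have t4 : 1 ≤ t := m1.trans t3
  have t5 : t ≤ A * t := by nlinarith
  have t6 : A * t ≤ A * (A * t) := by nlinarith
  have t7 : A * (A * t) ≤ A * (A * (A * t)) := by nlinarith
  have t8 : A * (A * (A * t)) ≤ A * (A * (A * (A * t))) := by nlinarith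
  have key : ∀ l, ∃ f ∈ Ball (M.SC : Set G) (m + 1 + m), ∃ b, Adm M.χ b ∧
      b i + M.χ i (M.π g₀) ≤ -U + A3 * A2 ∧ ∃ P, M.Ih b (Real.exp (A * (A * t))) P ∧
        M.ex (τ l • M.e l₀) = g₀ * M.ex P * f⁻¹ := fun l => by
    obtain ⟨c, hc, hcU, a', ha', -, haU, _, ⟨X, hX, rfl⟩, c', hc', b', hb', e⟩ := h l
    obtain ⟨W, hW, g, hg, rfl⟩ := M.ball_one_dec hb'
    have h0 := M.adm_const le_rfl
    have h1 : M.Ih (fun _ => 0) (Real.exp t) W :=
      (hunit 1 W hW).mono le_rfl (by linarith [Real.add_one_le_exp t])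
    have h2 := hAd _ h0 m c' hc' t t3 W h1
    have hb := ha'.sup (h0.add_pt (M.π c'))
    have h3 : M.Ih a' (Real.exp (A * t)) X :=
      (Ih.of_D hX).mono le_rfl (Real.one_le_exp (by linarith))
    refine ⟨c * g⁻¹ * c'⁻¹, Ball.mul_mem (Ball.mul_mem hc (Ball.inv_mem hg)) (Ball.inv_mem hc'), _,
      hb, ?_, _, hbc _ hb _ (by linarith) _ _ (h3.mono le_sup_left le_rfl)
        (h2.mono le_sup_right le_rfl), ?_⟩
    · have e1 := congrArg (fun x => M.χ i (M.π x)) e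
      simp only [M.π_hom _ _, π_ex, zero_add, add_zero, map_add] at e1
      have e2 := (abs_le.1 ((hχ i (M.π g)).trans
        (mul_le_mul_of_nonneg_left (hth g hg) (by linarith)))).1
      rw [Pi.sup_apply, ← le_sub_iff_add_le]
      exact sup_le (by nlinarith) (by linarith)
    · rw [← ex_mul', ← M.Ad_conj]
      refine (eq_mul_inv_of_mul_eq e).trans ?_
      group
  obtain ⟨f₀, hf₀, b₀, hb₀, u₀, P₀, hP₀, e₀⟩ := key 0
  obtain ⟨f₁, hf₁, b₁, hb₁, u₁, P₁, hP₁, e₁⟩ := key 1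
  have hπ : ∀ {x f P}, M.ex x = g₀ * M.ex P * f⁻¹ → M.π f = M.π g₀ := fun {x f P} e => by
    have := congrArg M.π e
    rw [M.π_hom, M.π_hom, π_ex, π_ex, M.π_hom.inv, add_zero] at this
    exact (add_neg_eq_zero.1 this.symm).symm
  obtain ⟨Z, hZ, eZ⟩ := M.flat_ker (f := f₁ * f₀⁻¹)
    (mul_mem (Ball.mem_closure hf₁) (inv_mem (Ball.mem_closure hf₀)))
    (by rw [M.π_hom, M.π_hom.inv, hπ e₀, hπ e₁, add_neg_cancel])
  have e2 : M.Ad f₁ (M.bc (-P₁) P₀) = M.bc ((τ 0 - τ 1) • M.e l₀) (-Z) := M.ex_inj (by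
    rw [← M.Ad_conj, ← ex_mul', ← ex_mul', ex_neg, ex_neg, ← eZ, sub_eq_neg_add, ex_smul_add,
      neg_smul, ex_neg, e₀, e₁]
    group)
  have hb := hb₁.sup hb₀
  have h1 := hbc _ hb _ (by linarith) _ _ (hP₁.neg.mono le_sup_left le_rfl)
    (hP₀.mono le_sup_right le_rfl)
  have h2 := hquo _ i _ (by linarith) _ (hAd _ hb _ f₁ hf₁ _ (by linarith) _ h1) l₀
  rw [e2, M.pr_bc_single i hQ (M.wt_ne_of_dir hdir) _ (M.N0.neg_mem hZ), hπ e₁] at h2
  refine h2.trans (Real.exp_le_exp.2 ?_)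
  have h3 : (b₁ ⊔ b₀) i + M.χ i (M.π g₀) ≤ -U + A3 * A2 := by
    rw [Pi.sup_apply, ← le_sub_iff_add_le]
    exact sup_le (by linarith) (by linarith)
  have h4 := mul_le_mul_of_nonneg_left h3 hκ.le
  have h5 : A ^ 5 * (A1 + lg 2) + M.mult i l₀ * (A3 * A2) ≤ K :=
    (Nat.le_ceil _).trans (by exact_mod_cast hK)
  have h6 := mul_le_mul_of_nonneg_right h5 (show 0 ≤ lg m by linarith)
  have h7 : M.mult i l₀ * (A3 * A2) ≤ M.mult i l₀ * (A3 * A2) * lg m :=
    le_mul_of_one_le_right (by positivity) m1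
  have h8 : A * (A * (A * (A * (A * t)))) = A ^ 5 * (A1 + lg 2) * lg m := by rw [ht]; ring
  linarith

end LieModel

end Crest.Agent.R182
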