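import Crest.Agent.R182.LMTop

/-! Row 182, block L2 (controlled Følner sets): the abstract part. -/

set_option autoImplicit false
set_option linter.dupNamespace false

namespace Crest.Agent.R182

open MeasureTheory Pointwise

/-- doubling scales of a polynomially bounded function.  `K = 2 * A ^ D`; otherwise iterate along
`j, A j, A² j, …` from `j = max j₀ 1`: `(2 A ^ D) ^ n * c ≤ f (A ^ n * j) ≤ |C| (j + 1) ^ D * A ^ (n D)` -/
theorem lf_doubling_poly {f : ℕ → ℝ} {c C : ℝ} {D : ℕ} (A : ℕ) (hA : 1 ≤ A) (hc : 0 < c)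
    (h1 : ∀ j, c ≤ f j)
    (h2 : ∀ j, f j ≤ C * (j + 1) ^ D) :
    ∃ K : ℝ, 0 ≤ K ∧ ∀ j₀, ∃ j ≥ j₀, f (A * j) ≤ K * f j := by
  refine ⟨2 * (A : ℝ) ^ D, by positivity, fun j₀ => ?_⟩
  by_contra hcon
  push Not at hcon
  have hA' : (1 : ℝ) ≤ A := by exact_mod_cast hA
  have hAD : (0 : ℝ) < (A : ℝ) ^ D := by positivity
  have key : ∀ n : ℕ, (2 * (A : ℝ) ^ D) ^ n * c ≤ f (A ^ n * j₀) := by
    intro n
    induction n with
    | zero => simpa using h1 j₀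
    | succ n ih =>
      have h3 := hcon (A ^ n * j₀) (Nat.le_mul_of_pos_left _ (by positivity))
      rw [pow_succ' A, mul_assoc A, pow_succ', mul_assoc]
      exact (mul_le_mul_of_nonneg_left ih (by positivity)).trans h3.le
  obtain ⟨n, hn⟩ := pow_unbounded_of_one_lt (|C| * ((j₀ : ℝ) + 1) ^ D / c) (one_lt_two (α := ℝ))
  have h4 := (key n).trans (h2 _)
  have h5 : ((A ^ n * j₀ : ℕ) : ℝ) + 1 ≤ (A : ℝ) ^ n * ((j₀ : ℝ) + 1) := by
    push_cast
    have : (1 : ℝ) ≤ (A : ℝ) ^ n := one_le_pow₀ hA'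
    nlinarith
  have h6 : C * (((A ^ n * j₀ : ℕ) : ℝ) + 1) ^ D ≤ |C| * ((A : ℝ) ^ n * ((j₀ : ℝ) + 1)) ^ D :=
    mul_le_mul (le_abs_self C) (pow_le_pow_left₀ (by positivity) h5 D) (by positivity)
      (abs_nonneg C)
  rw [div_lt_iff₀ hc] at hn
  have h7 := h4.trans h6
  rw [mul_pow, mul_pow, ← pow_mul, ← pow_mul, mul_comm n D] at h7
  have h8 : (0 : ℝ) < (A : ℝ) ^ (D * n) := by positivity
  nlinarith [mul_lt_mul_of_pos_left hn h8]

/-- a doubling step of an exponentially bounded sequence.  Otherwise `K ^ j * c ≤ g j`; take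
`K = exp (2 |C| + |log c| + 1)` -/
theorem lf_doubling_exp {c : ℝ} (hc : 0 < c) (C : ℝ) : ∃ K : ℝ, 0 ≤ K ∧ ∀ j : ℕ, 1 ≤ j →
    ∀ g : ℕ → ℝ, c ≤ g 0 → g j ≤ Real.exp (C * (j + 1)) → ∃ r < j, g (r + 1) ≤ K * g r := by
  refine ⟨Real.exp (2 * |C| + |Real.log c| + 1), (Real.exp_pos _).le, fun j hj g h0 h1 => ?_⟩
  by_contra hcon
  push Not at hcon
  have key : ∀ n ≤ j, Real.exp ((2 * |C| + |Real.log c| + 1) * n) * c ≤ g n := by
    intro n
    induction n with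
    | zero => intro _; simpa using h0
    | succ n ih =>
      intro hn
      refine le_trans ?_ (hcon n hn).le
      push_cast
      rw [mul_add, mul_one, Real.exp_add, mul_comm (Real.exp _) (Real.exp _), mul_assoc]
      exact mul_le_mul_of_nonneg_left (ih (by omega)) (Real.exp_pos _).le
  have h2 := (key j le_rfl).trans h1
  rw [← Real.exp_log hc, ← Real.exp_add, Real.exp_le_exp, Real.exp_log hc] at h2
  have hj' : (1 : ℝ) ≤ j := by exact_mod_cast hj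
  nlinarith [le_abs_self C, neg_abs_le (Real.log c), abs_nonneg C, abs_nonneg (Real.log c),
    mul_le_mul_of_nonneg_left hj' (abs_nonneg C), mul_le_mul_of_nonneg_left hj' (abs_nonneg (Real.log c)),
    mul_le_mul_of_nonneg_right (le_abs_self C) (by linarith : (0 : ℝ) ≤ j + 1)]

variable {G : Type} [Group G]

variable [MeasurableSpace G] {μ : Measure G}

/-- Ruzsa covering: `Y ⊆ S` of maximal cardinality with pairwise disjoint translates `A * {z}`
(the cardinalities are bounded by `μ (A * S) / μ A`) -/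
theorem lf_ruzsa (hr : ∀ g A, MeasurableSet A → μ ((fun x => x * g) ⁻¹' A) = μ A)
    [MeasurableMul G] {A S : Set G} (hA : MeasurableSet A) (h0 : μ A ≠ 0) (hf : μ (A * S) ≠ ⊤) :
    ∃ Y : Finset G, (Y.card : ℝ) * μ.real A ≤ μ.real (A * S) ∧
      ∀ y ∈ S, ∃ a ∈ A, ∃ a' ∈ A, ∃ z ∈ Y, y = a⁻¹ * a' * z := by
  classical
  let T : G → Set G := fun z => (fun x => x * z⁻¹) ⁻¹' A
  have hTm : ∀ z, MeasurableSet (T z) := fun z => (measurable_mul_const z⁻¹) hA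
  have hTμ : ∀ z, μ (T z) = μ A := fun z => hr _ _ hA
  let P : Finset G → Prop := fun Y => (∀ z ∈ Y, z ∈ S) ∧ (Y : Set G).PairwiseDisjoint T
  have hb : ∀ Y, P Y → (Y.card : ENNReal) * μ A ≤ μ (A * S) := by
    intro Y hY
    have h1 : μ (⋃ z ∈ Y, T z) = ∑ z ∈ Y, μ (T z) :=
      measure_biUnion_finset hY.2 (fun z _ => hTm z)
    have h2 : (⋃ z ∈ Y, T z) ⊆ A * S := by
      intro x hx
      simp only [Set.mem_iUnion] at hx
      obtain ⟨z, hz, hx⟩ := hx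
      exact ⟨x * z⁻¹, hx, z, hY.1 z hz, by simp⟩
    have h3 := measure_mono (μ := μ) h2
    rw [h1] at h3
    simpa [hTμ] using h3
  have hbR : ∀ Y, P Y → (Y.card : ℝ) * μ.real A ≤ μ.real (A * S) := by
    intro Y hY
    have := ENNReal.toReal_mono hf (hb Y hY)
    simpa [Measure.real, ENNReal.toReal_mul] using this
  have hbd : BddAbove {n : ℕ | ∃ Y, P Y ∧ Y.card = n} := by
    have hne : μ (A * S) / μ A ≠ ⊤ := ENNReal.div_ne_top hf h0
    obtain ⟨N, hN⟩ := ENNReal.exists_nat_gt hne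
    refine ⟨N, ?_⟩
    rintro n ⟨Y, hY, rfl⟩
    have h1 : (Y.card : ENNReal) ≤ μ (A * S) / μ A :=
      (ENNReal.le_div_iff_mul_le (Or.inl h0) (Or.inr hf)).2 (hb Y hY)
    exact_mod_cast (h1.trans_lt hN).le
  have hne : {n : ℕ | ∃ Y, P Y ∧ Y.card = n}.Nonempty :=
    ⟨0, ∅, ⟨by simp, by simp⟩, rfl⟩
  obtain ⟨Y, hY, hYc⟩ := Nat.sSup_mem hne hbd
  refine ⟨Y, hbR Y hY, fun y hy => ?_⟩
  by_contra hcon
  have hdis : ∀ z ∈ Y, Disjoint (T y) (T z) := by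
    intro z hz
    rw [Set.disjoint_left]
    intro x hx1 hx2
    exact hcon ⟨x * y⁻¹, hx1, x * z⁻¹, hx2, z, hz, by group⟩
  have hyY : y ∉ Y := by
    intro h
    have := hdis y h
    rw [disjoint_self, Set.bot_eq_empty] at this
    exact h0 (by rw [← hTμ y, this]; simp)
  have hP : P (insert y Y) := by
    refine ⟨?_, ?_⟩
    · intro z hz
      rcases Finset.mem_insert.1 hz with rfl | hz
      · exact hy
      · exact hY.1 z hz
    · rw [Finset.coe_insert]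
      exact hY.2.insert (fun z hz _ => hdis z hz)
  have h5 : (insert y Y).card ≤ sSup {n : ℕ | ∃ Y, P Y ∧ Y.card = n} :=
    le_csSup hbd ⟨_, hP, rfl⟩
  rw [Finset.card_insert_of_notMem hyY, ← hYc] at h5
  omega

theorem lf_cover (hr : ∀ g A, MeasurableSet A → μ ((fun x => x * g) ⁻¹' A) = μ A)
    {A B : Set G} (hA : MeasurableSet A) (hf : μ A ≠ ⊤) (Y : Finset G)
    (h : ∀ b ∈ B, ∃ a ∈ A, ∃ z ∈ Y, b = a * z) : μ.real B ≤ Y.card * μ.real A := by
  have h2 : B ⊆ ⋃ z ∈ Y, (fun x => x * z⁻¹) ⁻¹' A := by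
    intro b hb
    obtain ⟨a, ha, z, hz, rfl⟩ := h b hb
    simp only [Set.mem_iUnion]
    exact ⟨z, hz, by simpa using ha⟩
  have h3 : μ B ≤ (Y.card : ENNReal) * μ A := by
    refine (measure_mono h2).trans ((measure_biUnion_finset_le Y _).trans ?_)
    simp [hr _ _ hA]
  have h4 := ENNReal.toReal_mono (ENNReal.mul_ne_top (by simp) hf) h3
  simpa [Measure.real, ENNReal.toReal_mul] using h4

theorem h81_chain_list {Sg : Set G} (D : ℕ → Set G) (j : ℕ)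
    (hs : ∀ i < j, ∀ x ∈ D i, ∀ s ∈ Ball Sg 1, x * s ∈ D (i + 1)) :
    ∀ (l : List G), (∀ x ∈ l, x ∈ Sg ∨ x⁻¹ ∈ Sg) → ∀ (i : ℕ) (x : G), x ∈ D i → i + l.length ≤ j →
      x * l.prod ∈ D (i + l.length) := by
  intro l
  induction l with
  | nil => intro _ i x hx _; simpa using hx
  | cons a l ih =>
    intro hl i x hx hi
    simp only [List.length_cons] at hi
    have ha : a ∈ Ball Sg 1 := ⟨[a], by simp, by
      intro y hy
      simp only [List.mem_singleton] at hy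
      subst hy
      exact hl _ (by simp), by simp⟩
    have h1 := hs i (by omega) x hx a ha
    have h2 := ih (fun y hy => hl y (by simp [hy])) (i + 1) (x * a) h1 (by omega)
    have e : i + 1 + l.length = i + (a :: l).length := by simp only [List.length_cons]; omega
    rw [e] at h2
    simpa [mul_assoc] using h2

theorem h81_chain_mono {Sg : Set G} (D : ℕ → Set G) (j : ℕ)
    (hs : ∀ i < j, ∀ x ∈ D i, ∀ s ∈ Ball Sg 1, x * s ∈ D (i + 1)) :
    ∀ (i k : ℕ), i + k ≤ j → D i ⊆ D (i + k) := by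
  intro i k
  induction k with
  | zero => intro _; simp
  | succ k ih =>
    intro hk x hx
    have h1 := ih (by omega) hx
    have h2 := hs (i + k) (by omega) x h1 1 ⟨[], by simp, by simp, by simp⟩
    simpa [add_assoc] using h2

theorem h81_chain_mono' {Sg : Set G} (D : ℕ → Set G) (j : ℕ)
    (hs : ∀ i < j, ∀ x ∈ D i, ∀ s ∈ Ball Sg 1, x * s ∈ D (i + 1)) {i k : ℕ} (hik : i ≤ k)
    (hk : k ≤ j) : D i ⊆ D k := by
  have := h81_chain_mono D j hs i (k - i) (by omega)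
  rwa [Nat.add_sub_cancel' hik] at this

theorem h81_chain_ball {Sg : Set G} (D : ℕ → Set G) (j : ℕ)
    (hs : ∀ i < j, ∀ x ∈ D i, ∀ s ∈ Ball Sg 1, x * s ∈ D (i + 1)) {i R : ℕ} (hi : i + R ≤ j)
    {x b : G} (hx : x ∈ D i) (hb : b ∈ Ball Sg R) : x * b ∈ D (i + R) := by
  obtain ⟨l, hl, hm, rfl⟩ := hb
  exact h81_chain_mono' D j hs (by omega) hi (h81_chain_list D j hs l hm i x hx (by omega))

theorem h81_ball_inv {Sg : Set G} {R : ℕ} {b : G} (hb : b ∈ Ball Sg R) : b⁻¹ ∈ Ball Sg R := by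
  obtain ⟨l, hl, hm, rfl⟩ := hb
  refine ⟨(l.map fun x => x⁻¹).reverse, by simpa using hl, ?_, ?_⟩
  · intro x hx
    simp only [List.mem_reverse, List.mem_map] at hx
    obtain ⟨y, hy, rfl⟩ := hx
    rcases hm y hy with h | h
    · right; simpa using h
    · left; exact h
  · rw [List.prod_inv_reverse]

/-- pigeonhole along a chain.  `D` increases on `[0, j]` (`s = 1`), `x ∈ D i`, `b ∈ Ball Sg R`,
`i + R ≤ j` gives `x * b ∈ D (i + R)`; with `q = j / (2 R) ≥ 1`, `j ≤ 4 R q`, some `t < q` has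
`μ (D (2 R t + 2 R)) - μ (D (2 R t)) ≤ μ (D j) / q`; take `i = 2 R t + R`: the boundary lies in
`D (i + R) \ D (i - R)` -/
theorem lf_chain {Sg : Set G} (D : ℕ → Set G) (j R : ℕ) {K : ℝ} (hK0 : 0 ≤ K) (hR : 1 ≤ R)
    (hj : 2 * R ≤ j)
    (hm : ∀ i, MeasurableSet (D i)) (hf : ∀ i, μ (D i) ≠ ⊤)
    (hs : ∀ i < j, ∀ x ∈ D i, ∀ s ∈ Ball Sg 1, x * s ∈ D (i + 1))
    (hK : μ.real (D j) ≤ K * μ.real (D 0)) :
    ∃ i ≤ j, D 0 ⊆ D i ∧
      μ.real {y | (∃ b ∈ Ball Sg R, y * b ∈ D i) ∧ ∃ b ∈ Ball Sg R, y * b ∉ D i} ≤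
        4 * R * K / j * μ.real (D i) := by
  set q := j / (2 * R) with hq
  have hR2 : 0 < 2 * R := by omega
  have hq1 : 1 ≤ q := (Nat.le_div_iff_mul_le hR2).2 (by omega)
  have hqj : 2 * R * q ≤ j := Nat.mul_div_le j (2 * R)
  have hjq : j ≤ 4 * R * q := by
    have h1 : j < 2 * R * (q + 1) := by
      have := Nat.lt_mul_div_succ j hR2
      simpa [hq] using this
    nlinarith
  have hmono : ∀ {a b : ℕ}, a ≤ b → b ≤ j → μ.real (D a) ≤ μ.real (D b) := fun hab hb =>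
    measureReal_mono (h81_chain_mono' D j hs hab hb) (hf _)
  have hq0 : (0 : ℝ) < q := by exact_mod_cast hq1
  have hex : ∃ t < q, μ.real (D (2 * R * (t + 1))) - μ.real (D (2 * R * t)) ≤ μ.real (D j) / q := by
    by_contra hne
    push Not at hne
    have hsum : ∑ t ∈ Finset.range q, (μ.real (D j) / q) <
        ∑ t ∈ Finset.range q, (μ.real (D (2 * R * (t + 1))) - μ.real (D (2 * R * t))) :=
      Finset.sum_lt_sum_of_nonempty (Finset.nonempty_range_iff.2 (by omega))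
        fun t ht => hne t (Finset.mem_range.1 ht)
    rw [Finset.sum_range_sub (fun t => μ.real (D (2 * R * t))), Finset.sum_const, Finset.card_range,
      nsmul_eq_mul, mul_div_cancel₀ _ hq0.ne'] at hsum
    have h1 := hmono hqj le_rfl
    have h2 : 0 ≤ μ.real (D (2 * R * 0)) := measureReal_nonneg
    linarith
  obtain ⟨t, ht, hle⟩ := hex
  have ht1 : 2 * R * (t + 1) ≤ j := le_trans (Nat.mul_le_mul_left _ ht) hqj
  have e1 : 2 * R * (t + 1) = 2 * R * t + R + R := by ring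
  refine ⟨2 * R * t + R, by omega, h81_chain_mono' D j hs (Nat.zero_le _) (by omega), ?_⟩
  have hsub : {y | (∃ b ∈ Ball Sg R, y * b ∈ D (2 * R * t + R)) ∧
      ∃ b ∈ Ball Sg R, y * b ∉ D (2 * R * t + R)} ⊆ D (2 * R * (t + 1)) \ D (2 * R * t) := by
    rintro y ⟨⟨b, hb, hyb⟩, ⟨b', hb', hyb'⟩⟩
    refine ⟨?_, fun hy => hyb' (h81_chain_ball D j hs (by omega) hy hb')⟩
    have := h81_chain_ball D j hs (i := 2 * R * t + R) (R := R) (by omega) hyb (h81_ball_inv hb)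
    rw [e1]
    simpa using this
  have hd : μ.real (D (2 * R * (t + 1)) \ D (2 * R * t)) =
      μ.real (D (2 * R * (t + 1))) - μ.real (D (2 * R * t)) :=
    measureReal_diff (h81_chain_mono' D j hs (by omega) ht1) (hm _) (hf _)
  have h1 := measureReal_mono hsub (ne_top_of_le_ne_top (hf (2 * R * (t + 1)))
    (measure_mono Set.diff_subset))
  have h0 : μ.real (D 0) ≤ μ.real (D (2 * R * t + R)) := hmono (Nat.zero_le _) (by omega)
  have hj0 : (0 : ℝ) < j := by exact_mod_cast (show 0 < j by omega)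
  have hjq' : (j : ℝ) ≤ 4 * R * q := by exact_mod_cast hjq
  have hA : μ.real (D j) ≤ K * μ.real (D (2 * R * t + R)) :=
    hK.trans (mul_le_mul_of_nonneg_left h0 hK0)
  have hB : 0 ≤ K * μ.real (D (2 * R * t + R)) := mul_nonneg hK0 measureReal_nonneg
  have hC : (1 : ℝ) / q ≤ 4 * R / j := by
    rw [div_le_div_iff₀ hq0 hj0]; linarith
  calc _ ≤ μ.real (D j) / q := by rw [hd] at h1; linarith
    _ ≤ K * μ.real (D (2 * R * t + R)) * (1 / q) := by
        rw [mul_one_div]; exact div_le_div_of_nonneg_right hA hq0.le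
    _ ≤ K * μ.real (D (2 * R * t + R)) * (4 * R / j) := mul_le_mul_of_nonneg_left hC hB
    _ = _ := by ring

variable [TopologicalSpace G] [IsTopologicalGroup G] [T2Space G] [BorelSpace G]

/-- at most exponential growth.  `B = Ball Sg 1`; `lf_ruzsa` with `A = B`, `S = Ball Sg 3`
(`Ball Sg 3 ⊆ Ball Sg 2 * Y`), so by induction `Ball Sg (m + 2) ⊆ Ball Sg 2 * Y ^ m`
(`s * (b * y) = (s * b) * y`); `lf_cover` -/
theorem lf_ball_exp (hr : ∀ g A, MeasurableSet A → μ ((fun x => x * g) ⁻¹' A) = μ A)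
    (hfin : ∀ K, IsCompact K → μ K ≠ ⊤) {Sg : Set G} (hSg : IsCompact Sg)
    (hpos : μ (Ball Sg 1) ≠ 0) :
    ∃ C : ℝ, 0 ≤ C ∧ ∀ m : ℕ, μ.real (Ball Sg m) ≤ Real.exp (C * (m + 1)) := by
  classical
  have hm : ∀ n, MeasurableSet (Ball Sg n) := fun n => (Ball.isCompact hSg n).isClosed.measurableSet
  have hf : ∀ n, μ (Ball Sg n) ≠ ⊤ := fun n => hfin _ (Ball.isCompact hSg n)
  have h4 : μ (Ball Sg 1 * Ball Sg 3) ≠ ⊤ := by
    refine ne_top_of_le_ne_top (hf 4) (measure_mono ?_)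
    rintro _ ⟨a, ha, b, hb, rfl⟩
    exact Ball.mul_mem ha hb
  obtain ⟨Y, -, hY⟩ := lf_ruzsa hr (hm 1) hpos h4
  have key : ∀ m : ℕ, ∃ Z : Finset G, Z.card ≤ Y.card ^ m ∧
      ∀ g ∈ Ball Sg m, ∃ b ∈ Ball Sg 2, ∃ z ∈ Z, g = b * z := by
    intro m
    induction m with
    | zero =>
      refine ⟨{1}, by simp, fun g hg => ⟨g, Ball.mono subset_rfl (by norm_num) hg, 1, by simp, by simp⟩⟩
    | succ m ih =>
      obtain ⟨Z, hZ, hZ'⟩ := ih
      refine ⟨Finset.image₂ (· * ·) Y Z, ?_, fun g hg => ?_⟩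
      · refine (Finset.card_image₂_le _ _ _).trans ?_
        rw [pow_succ']
        exact Nat.mul_le_mul_left _ hZ
      · have h1 : ∃ s ∈ Ball Sg 1, ∃ b ∈ Ball Sg m, s * b = g := by
          rcases h31_ball_succ hg with rfl | ⟨x, hx, b, hb, rfl⟩
          · exact ⟨1, Ball.one_mem _ _, 1, Ball.one_mem _ _, one_mul _⟩
          · refine ⟨x, ?_, b, hb, rfl⟩
            rcases hx with hx | hx
            · exact Ball.mem_of_mem hx
            · simpa using Ball.inv_mem (Ball.mem_of_mem hx)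
        obtain ⟨s, hs, b, hb, rfl⟩ := h1
        obtain ⟨b', hb', z, hz, rfl⟩ := hZ' b hb
        obtain ⟨a, ha, a', ha', y, hy, e⟩ := hY (s * b') (Ball.mul_mem hs hb')
        refine ⟨a⁻¹ * a', Ball.mul_mem (Ball.inv_mem ha) ha', y * z,
          Finset.mem_image₂_of_mem hy hz, ?_⟩
        rw [← mul_assoc, e, mul_assoc]
  have h0 : (0 : ℝ) ≤ μ.real (Ball Sg 2) := measureReal_nonneg
  have hY0 : (0 : ℝ) ≤ Y.card := Nat.cast_nonneg _
  refine ⟨Y.card + μ.real (Ball Sg 2), add_nonneg hY0 h0, fun m => ?_⟩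
  obtain ⟨Z, hZ, hZ'⟩ := key m
  have h1 := lf_cover hr (hm 2) (hf 2) Z hZ'
  have hC : (Y.card : ℝ) + μ.real (Ball Sg 2) ≤ Real.exp (Y.card + μ.real (Ball Sg 2)) := by
    linarith [Real.add_one_le_exp ((Y.card : ℝ) + μ.real (Ball Sg 2))]
  have h2 : (Z.card : ℝ) ≤ Real.exp (Y.card + μ.real (Ball Sg 2)) ^ m := by
    calc (Z.card : ℝ) ≤ (Y.card : ℝ) ^ m := by exact_mod_cast hZ
      _ ≤ _ := pow_le_pow_left₀ hY0 (by linarith) m
  calc μ.real (Ball Sg m) ≤ Z.card * μ.real (Ball Sg 2) := h1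
    _ ≤ Real.exp (Y.card + μ.real (Ball Sg 2)) ^ m * Real.exp (Y.card + μ.real (Ball Sg 2)) :=
        mul_le_mul h2 (by linarith) h0 (by positivity)
    _ = _ := by
        rw [← pow_succ, ← Real.exp_nat_mul, mul_comm]
        push_cast
        rfl

/-- **controlled Følner sets** `W J ^ (t + i) * B_C (2 j + 2 + i)` -/
theorem lf_folner (hr : ∀ g A, MeasurableSet A → μ ((fun x => x * g) ⁻¹' A) = μ A)
    (hfin : ∀ K, IsCompact K → μ K ≠ ⊤) {Sg SC : Set G} (W : ℕ → Set G) (hSg : IsCompact Sg)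
    (hSC : IsCompact SC) (hW : ∀ j, IsCompact (W j)) (hpos : μ (Ball Sg 1) ≠ 0) (hsub : SC ⊆ Sg)
    (hstep : ∀ j, ∀ x ∈ Ball SC j, ∀ s ∈ Ball Sg 1, ∃ w ∈ W j, ∃ c ∈ Ball SC 1,
      x * s = w * (x * c))
    (hball : ∃ C : ℕ, ∀ j, Ball (W j) ((j + 1) * 2 ^ j) ⊆ Ball Sg (C * j + C))
    (hpoly : ∃ (C : ℝ) (D : ℕ), ∀ j : ℕ, μ.real (Ball Sg 1 * Ball SC j) ≤ C * (j + 1) ^ D) (R : ℕ) :
    ∃ KR : ℝ, ∀ n₀ : ℕ, ∃ n ≥ n₀, ∃ D : Set G, MeasurableSet D ∧ D ⊆ Ball Sg n ∧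
      μ D ≠ 0 ∧ μ.real {y | (∃ b ∈ Ball Sg R, y * b ∈ D) ∧ ∃ b ∈ Ball Sg R, y * b ∉ D} ≤
        KR / n * μ.real D := by
  rcases Nat.eq_zero_or_pos R with rfl | hR
  · refine ⟨0, fun n₀ => ⟨n₀ + 1, Nat.le_succ _, Ball Sg 1,
      (Ball.isCompact hSg 1).isClosed.measurableSet, Ball.mono subset_rfl (by omega), hpos, ?_⟩⟩
    have h : {y | (∃ b ∈ Ball Sg 0, y * b ∈ Ball Sg 1) ∧ ∃ b ∈ Ball Sg 0, y * b ∉ Ball Sg 1} =
        (∅ : Set G) := by
      refine Set.eq_empty_of_forall_notMem ?_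
      rintro y ⟨⟨b, hb, h1⟩, b', hb', h2⟩
      rw [h31_ball_zero] at hb hb'
      rw [hb] at h1
      rw [hb'] at h2
      exact h2 h1
    rw [h]
    simp
  obtain ⟨C, hC⟩ := hball
  obtain ⟨Cp, Dp, hp⟩ := hpoly
  obtain ⟨C₀, hC₀, hexp⟩ := lf_ball_exp hr hfin hSg hpos
  have hB1 := Ball.isCompact hSg 1
  have hc : 0 < μ.real (Ball Sg 1) := ENNReal.toReal_pos hpos (hfin _ hB1)
  have hAc : ∀ j, IsCompact (Ball Sg 1 * Ball SC j) := fun j => hB1.mul (Ball.isCompact hSC j)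
  have hA1 : ∀ j, Ball Sg 1 ⊆ Ball Sg 1 * Ball SC j := fun j s hs =>
    ⟨s, hs, 1, Ball.one_mem _ _, mul_one s⟩
  have hf1 : ∀ j, μ.real (Ball Sg 1) ≤ μ.real (Ball Sg 1 * Ball SC j) := fun j =>
    measureReal_mono (hA1 j) (hfin _ (hAc j))
  obtain ⟨K₁, hK₁, h1⟩ := lf_doubling_poly (f := fun j => μ.real (Ball Sg 1 * Ball SC j)) 6
    (by norm_num) hc hf1 hp
  obtain ⟨K₂, hK₂, h2⟩ := lf_doubling_exp hc (C₀ * (C + 1))
  refine ⟨24 * R * (K₁ * K₂) * (C + 1), fun n₀ => ?_⟩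
  obtain ⟨j, hj, hdb⟩ := h1 (n₀ + 2 * R)
  have hj1 : 1 ≤ j := by omega
  obtain ⟨J, hJ⟩ : ∃ J, J = 3 * j + 2 := ⟨_, rfl⟩
  have hEc : ∀ a b, IsCompact (Ball (W J) a * Ball SC b) := fun a b =>
    (Ball.isCompact (hW J) a).mul (Ball.isCompact hSC b)
  have hEm : ∀ {a b a' b' : ℕ}, a ≤ a' → b ≤ b' →
      Ball (W J) a * Ball SC b ⊆ Ball (W J) a' * Ball SC b' := fun ha hb =>
    Set.mul_subset_mul (Ball.mono subset_rfl ha) (Ball.mono subset_rfl hb)
  have hst : ∀ a b, b ≤ J → ∀ x ∈ Ball (W J) a * Ball SC b, ∀ s ∈ Ball Sg 1,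
      x * s ∈ Ball (W J) (a + 1) * Ball SC (b + 1) := by
    rintro a b hb _ ⟨u, hu, v, hv, rfl⟩ s hs
    obtain ⟨w, hw, c, hc, h⟩ := hstep J v (Ball.mono subset_rfl hb hv) s hs
    exact ⟨u * w, Ball.mul_mem hu (Ball.mem_of_mem hw), v * c, Ball.mul_mem hv hc, by
      change u * w * (v * c) = u * v * s
      rw [mul_assoc u v s, h, mul_assoc]⟩
  have hone : (1 : G) ∈ Ball (W J) 0 * Ball SC 0 :=
    ⟨1, Ball.one_mem _ _, 1, Ball.one_mem _ _, mul_one 1⟩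
  have hB : ∀ a b, 1 ≤ a → 1 ≤ b → Ball Sg 1 ⊆ Ball (W J) a * Ball SC b := fun a b ha hb s hs =>
    hEm ha hb (one_mul s ▸ hst 0 0 (Nat.zero_le _) 1 hone s hs)
  have hE : ∀ a b, a ≤ (J + 1) * 2 ^ J → b ≤ J →
      Ball (W J) a * Ball SC b ⊆ Ball Sg (C * J + C + J) := by
    rintro a b ha hb _ ⟨u, hu, v, hv, rfl⟩
    exact Ball.mul_mem (hC J (Ball.mono subset_rfl ha hu)) (Ball.mono hsub hb hv)
  -- Ruzsa covering
  have hAS : Ball Sg 1 * Ball SC j * Ball SC J ⊆ Ball Sg 1 * Ball SC (6 * j) := by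
    rintro _ ⟨_, ⟨s, hs, v, hv, rfl⟩, v', hv', rfl⟩
    exact ⟨s, hs, v * v', Ball.mono subset_rfl (by omega) (Ball.mul_mem hv hv'),
      (mul_assoc _ _ _).symm⟩
  obtain ⟨Y, hY, hcov⟩ := lf_ruzsa hr (A := Ball Sg 1 * Ball SC j) (S := Ball SC J)
    (hAc j).isClosed.measurableSet (fun h => hpos (measure_mono_null (hA1 j) h))
    (hfin _ ((hAc j).mul (Ball.isCompact hSC J)))
  have hYK : (Y.card : ℝ) ≤ K₁ :=
    le_of_mul_le_mul_right (hY.trans ((measureReal_mono hAS (hfin _ (hAc _))).trans hdb))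
      (hc.trans_le (hf1 j))
  have hcov' : ∀ y ∈ Ball SC J, ∃ a ∈ Ball (W J) 2 * Ball SC (2 * j + 2), ∃ z ∈ Y, y = a * z := by
    intro y hy
    obtain ⟨_, ⟨s, hs, v, hv, rfl⟩, _, ⟨s', hs', v', hv', rfl⟩, z, hz, rfl⟩ := hcov y hy
    have e1 : v⁻¹ ∈ Ball (W J) 0 * Ball SC j :=
      ⟨1, Ball.one_mem _ _, v⁻¹, Ball.inv_mem hv, one_mul _⟩
    obtain ⟨u, hu, w, hw, e2⟩ := hst _ _ (by omega) _ (hst 0 j (by omega) _ e1 _ (Ball.inv_mem hs))
      _ hs'
    refine ⟨u * (w * v'), ⟨u, hu, w * v', Ball.mono subset_rfl (by omega) (Ball.mul_mem hw hv'),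
      rfl⟩, z, hz, ?_⟩
    have e3 : u * w = v⁻¹ * s⁻¹ * s' := e2
    change (s * v)⁻¹ * (s' * v') * z = u * (w * v') * z
    rw [← mul_assoc u, e3]
    group
  -- a doubling scale for the powers of `W J`
  obtain ⟨r, hrJ, hg⟩ := h2 J (by omega)
    (fun r => μ.real (Ball (W J) ((J + 1) * 2 ^ r) * Ball SC (2 * j + 2)))
    (measureReal_mono (hB _ _ (by omega) (by omega)) (hfin _ (hEc _ _)))
    ((measureReal_mono (hE _ _ le_rfl (by omega)) (hfin _ (Ball.isCompact hSg _))).trans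
      ((hexp _).trans_eq (by congr 1; push_cast; ring)))
  obtain ⟨t, ht⟩ : ∃ t, t = (J + 1) * 2 ^ r := ⟨_, rfl⟩
  have ht1 : J + 1 ≤ t := ht ▸ Nat.le_mul_of_pos_right _ (Nat.two_pow_pos r)
  have ht2 : (J + 1) * 2 ^ (r + 1) = 2 * t := by rw [ht]; ring
  have ht3 : 2 * t ≤ (J + 1) * 2 ^ J :=
    ht2 ▸ Nat.mul_le_mul_left _ (Nat.pow_le_pow_right (by norm_num) hrJ)
  simp only [ht2, ← ht] at hg
  have hK : μ.real (Ball (W J) (t + j) * Ball SC (2 * j + 2 + j)) ≤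
      K₁ * K₂ * μ.real (Ball (W J) (t + 0) * Ball SC (2 * j + 2 + 0)) := by
    have h3 := lf_cover hr (A := Ball (W J) (2 * t) * Ball SC (2 * j + 2))
      (B := Ball (W J) (t + j) * Ball SC (2 * j + 2 + j)) (hEc _ _).isClosed.measurableSet
      (hfin _ (hEc _ _)) Y (by
        rintro _ ⟨u, hu, v, hv, rfl⟩
        obtain ⟨_, ⟨u', hu', v', hv', rfl⟩, z, hz, rfl⟩ :=
          hcov' v (Ball.mono subset_rfl (by omega) hv)
        exact ⟨u * u' * v', ⟨u * u', Ball.mono subset_rfl (by omega) (Ball.mul_mem hu hu'), v', hv',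
          rfl⟩, z, hz, by simp only [mul_assoc]⟩)
    calc _ ≤ _ := h3
      _ ≤ K₁ * (K₂ * μ.real (Ball (W J) t * Ball SC (2 * j + 2))) :=
        mul_le_mul hYK hg measureReal_nonneg hK₁
      _ = _ := by rw [mul_assoc]; rfl
  obtain ⟨i, hi, h0, hbd⟩ := lf_chain (μ := μ) (Sg := Sg)
    (fun i => Ball (W J) (t + i) * Ball SC (2 * j + 2 + i)) j R (mul_nonneg hK₁ hK₂) hR (by omega)
    (fun i => (hEc _ _).isClosed.measurableSet) (fun i => hfin _ (hEc _ _))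
    (fun i hi x hx s hs => hst _ _ (by omega) x hx s hs) hK
  have hn : J ≤ C * J + C + J := Nat.le_add_left _ _
  refine ⟨C * J + C + J, by omega, _, (hEc _ _).isClosed.measurableSet,
    hE _ _ (by omega) (by omega), fun h => hpos (measure_mono_null
      (hB _ _ (by omega) (by omega)) h), hbd.trans (mul_le_mul_of_nonneg_right ?_ measureReal_nonneg)⟩
  have hj0 : (1 : ℝ) ≤ j := by exact_mod_cast hj1
  have hn0 : (0 : ℝ) < (C * J + C + J : ℕ) := by exact_mod_cast (by omega : 0 < C * J + C + J)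
  have hn1 : ((C * J + C + J : ℕ) : ℝ) ≤ 6 * (C + 1) * j := by
    rw [hJ]
    push_cast
    nlinarith [mul_nonneg (Nat.cast_nonneg (α := ℝ) C) (sub_nonneg.2 hj0)]
  rw [div_le_div_iff₀ (by linarith) hn0]
  calc 4 * (R : ℝ) * (K₁ * K₂) * (C * J + C + J : ℕ)
      ≤ 4 * (R : ℝ) * (K₁ * K₂) * (6 * (C + 1) * j) := by gcongr
    _ = _ := by ring

end Crest.Agent.R182
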