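import Crest.Agent.R182.GBDefs

/-! Row 182, block S: quadratic filling in a finitely generated abelian quotient. -/

set_option autoImplicit false
set_option linter.dupNamespace false

namespace Crest.Agent.R182

variable {G : Type*} [Group G]

/-- products of at most `n` conjugates, by elements of `A`, of elements of `T ∪ T⁻¹` -/
def CP (A T : Set G) (n : ℕ) : Set G := Ball {x | ∃ a ∈ A, ∃ t ∈ T, x = a * t * a⁻¹} n

theorem CP.mono {A A' T T' : Set G} {n n' : ℕ} (hA : A ⊆ A') (hT : T ⊆ T') (hn : n ≤ n') :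
    CP A T n ⊆ CP A' T' n' := by
  refine Ball.mono ?_ hn
  rintro _ ⟨a, ha, t, ht, rfl⟩
  exact ⟨a, hA ha, t, hT ht, rfl⟩

theorem CP.mul_mem {A T : Set G} {n n' : ℕ} {x y : G} (hx : x ∈ CP A T n) (hy : y ∈ CP A T n') :
    x * y ∈ CP A T (n + n') := by
  exact Ball.mul_mem hx hy

theorem CP.inv_mem {A T : Set G} {n : ℕ} {x : G} (hx : x ∈ CP A T n) : x⁻¹ ∈ CP A T n := by
  exact Ball.inv_mem hx

theorem CP.conj_mem {A A' T : Set G} {n : ℕ} {x : G} (b : G) (hb : ∀ a ∈ A, b * a ∈ A')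
    (hx : x ∈ CP A T n) : b * x * b⁻¹ ∈ CP A' T n := by
  have h1 : (MulAut.conj b).toMonoidHom x ∈
      (MulAut.conj b).toMonoidHom '' Ball {x | ∃ a ∈ A, ∃ t ∈ T, x = a * t * a⁻¹} n :=
    Set.mem_image_of_mem _ hx
  rw [Ball.image] at h1
  refine Ball.mono ?_ le_rfl h1
  rintro _ ⟨_, ⟨a, ha, t, ht, rfl⟩, rfl⟩
  refine ⟨b * a, hb a ha, t, ht, ?_⟩
  change b * (a * t * a⁻¹) * b⁻¹ = _
  group

private theorem h67_list {ι M : Type*} [AddCommGroup M] (v : ι → M) (c : ι → ℤ) (s : Finset ι) :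
    ∃ l : List M, (∀ x ∈ l, ∃ i, x = v i ∨ x = -v i) ∧ l.sum = ∑ i ∈ s, c i • v i ∧
      l.length = ∑ i ∈ s, (c i).natAbs := by
  classical
  induction s using Finset.induction_on with
  | empty => exact ⟨[], by simp, by simp, by simp⟩
  | insert i s hi ih =>
    obtain ⟨l, h1, h2, h3⟩ := ih
    rw [Finset.sum_insert hi, Finset.sum_insert hi]
    rcases Int.natAbs_eq (c i) with h | h
    · refine ⟨List.replicate (c i).natAbs (v i) ++ l, fun x hx => ?_, ?_, by simp [h3]⟩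
      · rcases List.mem_append.1 hx with hx | hx
        · exact ⟨i, Or.inl (List.eq_of_mem_replicate hx)⟩
        · exact h1 x hx
      · rw [List.sum_append, List.sum_replicate, h2, ← natCast_zsmul, ← h]
    · refine ⟨List.replicate (c i).natAbs (-v i) ++ l, fun x hx => ?_, ?_, by simp [h3]⟩
      · rcases List.mem_append.1 hx with hx | hx
        · exact ⟨i, Or.inr (List.eq_of_mem_replicate hx)⟩
        · exact h1 x hx
      · rw [List.sum_append, List.sum_replicate, h2, ← natCast_zsmul, smul_neg, ← neg_smul, ← h]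

private theorem h67_bound {p : ℕ} (N : Submodule ℤ (Fin p → ℤ)) (φ : N →ₗ[ℤ] ℤ) :
    ∃ C : ℕ, ∀ a : N, (φ a).natAbs ≤ C * ∑ j, (a.1 j).natAbs := by
  obtain ⟨ψ, hψ⟩ := (Module.Baer.of_divisible ℚ).extension_property N.subtype N.subtype_injective
    ((Int.castAddHom ℚ).toIntLinearMap ∘ₗ φ)
  obtain ⟨C, hC⟩ := exists_nat_ge (∑ j, |ψ (Pi.single j 1)|)
  refine ⟨C, fun a => ?_⟩
  have h1 : ψ a.1 = (φ a : ℚ) := LinearMap.congr_fun hψ a
  have h2 : ψ a.1 = ∑ j, (a.1 j : ℚ) * ψ (Pi.single j 1) := by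
    conv_lhs => rw [pi_eq_sum_univ' a.1]
    rw [map_sum]
    exact Finset.sum_congr rfl fun j _ => by rw [map_smul, zsmul_eq_mul]
  have h3 : |(φ a : ℚ)| ≤ ∑ j, (C : ℚ) * |(a.1 j : ℚ)| := by
    rw [← h1, h2]
    refine (Finset.abs_sum_le_sum_abs _ _).trans (Finset.sum_le_sum fun j _ => ?_)
    rw [abs_mul, mul_comm]
    refine mul_le_mul_of_nonneg_right (le_trans ?_ hC) (abs_nonneg _)
    exact Finset.single_le_sum (f := fun j => |ψ (Pi.single j 1)|) (fun j _ => abs_nonneg _)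
      (Finset.mem_univ j)
  rw [← Finset.mul_sum] at h3
  have h4 : (((φ a).natAbs : ℕ) : ℚ) ≤ ((C * ∑ j, (a.1 j).natAbs : ℕ) : ℚ) := by
    push_cast [Nat.cast_natAbs]
    exact h3
  exact_mod_cast h4

/-- a subgroup of `ℤ^p` is undistorted (basis of the submodule, e.g. `Submodule.smithNormalForm`, or
a real-linear injective map is antilipschitz) -/
theorem exists_short_sum {p : ℕ} (Λ : AddSubgroup (Fin p → ℤ)) :
    ∃ (B : Finset (Fin p → ℤ)) (C : ℕ), (∀ b ∈ B, b ∈ Λ) ∧ ∀ a ∈ Λ, ∃ l : List (Fin p → ℤ),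
      (∀ b ∈ l, b ∈ B) ∧ l.sum = a ∧ l.length ≤ C * ∑ i, (a i).natAbs := by
  classical
  obtain ⟨n, ⟨b⟩⟩ := Submodule.nonempty_basis_of_pid (Pi.basisFun ℤ (Fin p)) Λ.toIntSubmodule
  choose C hC using fun i => h67_bound Λ.toIntSubmodule (b.coord i)
  refine ⟨Finset.univ.image (fun i => (b i).1) ∪ Finset.univ.image (fun i => -(b i).1), ∑ i, C i,
    fun x hx => ?_, fun a ha => ?_⟩
  · simp only [Finset.mem_union, Finset.mem_image, Finset.mem_univ, true_and] at hx
    rcases hx with ⟨i, rfl⟩ | ⟨i, rfl⟩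
    · exact (b i).2
    · exact Λ.neg_mem (b i).2
  · obtain ⟨l, h1, h2, h3⟩ := h67_list (fun i => (b i).1) (fun i => b.repr ⟨a, ha⟩ i) Finset.univ
    refine ⟨l, fun x hx => ?_, ?_, ?_⟩
    · simp only [Finset.mem_union, Finset.mem_image, Finset.mem_univ, true_and]
      obtain ⟨i, h | h⟩ := h1 x hx
      · exact Or.inl ⟨i, h.symm⟩
      · exact Or.inr ⟨i, h.symm⟩
    · rw [h2]
      have h4 := congrArg Subtype.val (b.sum_repr ⟨a, ha⟩)
      rw [Submodule.coe_sum] at h4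
      exact h4
    · rw [h3, Finset.sum_mul]
      exact Finset.sum_le_sum fun i _ => hC i ⟨a, ha⟩

/-- ordered product of powers -/
def opw {p : ℕ} (u : Fin p → G) (a : Fin p → ℤ) : G := (List.ofFn fun i => u i ^ a i).prod

/-- commutators of the letters and their inverses -/
def comms {p : ℕ} (u : Fin p → G) : Set G :=
  {t | ∃ (i j : Fin p) (e e' : ℤ), e.natAbs = 1 ∧ e'.natAbs = 1 ∧
    t = u i ^ e * u j ^ e' * (u i ^ e)⁻¹ * (u j ^ e')⁻¹}

private theorem h50_zpow_mem {S : Set G} {x : G} (hx : x ∈ S) (k : ℤ) :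
    x ^ k ∈ Ball S k.natAbs := by
  have h := Ball.pow_mem (Ball.mem_of_mem hx) k.natAbs
  rw [mul_one] at h
  rcases Int.natAbs_eq k with e | e
  · rw [e, zpow_natCast, Int.natAbs_natCast]; exact h
  · rw [e, zpow_neg, zpow_natCast, Int.natAbs_neg, Int.natAbs_natCast]; exact Ball.inv_mem h

private theorem h50_opw_succ {p : ℕ} (u : Fin (p + 1) → G) (a : Fin (p + 1) → ℤ) :
    opw u a = u 0 ^ a 0 * opw (fun i => u i.succ) (fun i => a i.succ) := by
  simp only [opw, List.ofFn_succ, List.prod_cons]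

private theorem h50_opw_mem {S : Set G} {p : ℕ} (u : Fin p → G) (hu : ∀ i, u i ∈ S)
    (a : Fin p → ℤ) : opw u a ∈ Ball S (∑ i, (a i).natAbs) := by
  induction p with
  | zero => simpa [opw] using Ball.one_mem S 0
  | succ p ih =>
    rw [h50_opw_succ, Fin.sum_univ_succ]
    exact Ball.mul_mem (h50_zpow_mem (hu 0) _) (ih _ (fun i => hu _) _)

theorem opw_mem_ball {p : ℕ} (u : Fin p → G) (a : Fin p → ℤ) :
    opw u a ∈ Ball (Set.range u) (∑ i, (a i).natAbs) := by
  exact h50_opw_mem u (fun i => Set.mem_range_self i) a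

private theorem h50_letter {S : Set G} {x : G} (hx : x ∈ S ∨ x⁻¹ ∈ S) : x ∈ Ball S 1 := by
  rcases hx with hx | hx
  · exact Ball.mem_of_mem hx
  · exact inv_inv x ▸ Ball.inv_mem (Ball.mem_of_mem hx)

private theorem h50_comm1 {S T : Set G}
    (hT : ∀ x y, (x ∈ S ∨ x⁻¹ ∈ S) → (y ∈ S ∨ y⁻¹ ∈ S) → x * y * x⁻¹ * y⁻¹ ∈ T) {s : G}
    (hs : s ∈ S ∨ s⁻¹ ∈ S) {m : ℕ} {w : G} (hw : w ∈ Ball S m) :
    w * s * w⁻¹ * s⁻¹ ∈ CP (Ball S m) T m := by
  induction m generalizing w with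
  | zero =>
    rw [h31_ball_zero, Set.mem_singleton_iff] at hw
    subst hw
    simpa [CP] using Ball.one_mem _ _
  | succ m ih =>
    rcases h31_ball_succ hw with rfl | ⟨x, hx, b, hb, rfl⟩
    · simpa [CP] using Ball.one_mem _ _
    · have h1 : x * (b * s * b⁻¹ * s⁻¹) * x⁻¹ ∈ CP (Ball S (m + 1)) T m :=
        CP.conj_mem x (fun a ha => add_comm 1 m ▸ Ball.mul_mem (h50_letter hx) ha) (ih hb)
      have h2 : x * s * x⁻¹ * s⁻¹ ∈ CP (Ball S (m + 1)) T 1 :=
        Ball.mem_of_mem ⟨1, Ball.one_mem _ _, _, hT x s hx hs, by simp⟩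
      have h3 := CP.mul_mem h1 h2
      convert h3 using 1
      group

private theorem h50_comm2 {S T : Set G}
    (hT : ∀ x y, (x ∈ S ∨ x⁻¹ ∈ S) → (y ∈ S ∨ y⁻¹ ∈ S) → x * y * x⁻¹ * y⁻¹ ∈ T) {m : ℕ} {w : G}
    (hw : w ∈ Ball S m) {n : ℕ} {v : G} (hv : v ∈ Ball S n) :
    w * v * w⁻¹ * v⁻¹ ∈ CP (Ball S (m + n)) T (m * n) := by
  induction n generalizing v with
  | zero =>
    rw [h31_ball_zero, Set.mem_singleton_iff] at hv
    subst hv
    simpa [CP] using Ball.one_mem _ _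
  | succ n ih =>
    rcases h31_ball_succ hv with rfl | ⟨s, hs, b, hb, rfl⟩
    · simpa [CP] using Ball.one_mem _ _
    · have h1 : w * s * w⁻¹ * s⁻¹ ∈ CP (Ball S (m + (n + 1))) T m :=
        CP.mono (Ball.mono subset_rfl (by omega)) subset_rfl le_rfl (h50_comm1 hT hs hw)
      have h2 : s * (w * b * w⁻¹ * b⁻¹) * s⁻¹ ∈ CP (Ball S (m + (n + 1))) T (m * n) :=
        CP.conj_mem s (fun a ha => Ball.mono subset_rfl (by omega)
          (Ball.mul_mem (h50_letter hs) ha)) (ih hb)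
      have h3 := CP.mul_mem h1 h2
      rw [Nat.mul_succ, add_comm (m * n) m]
      convert h3 using 1
      group

private theorem h50_opw_mul {S T : Set G}
    (hT : ∀ x y, (x ∈ S ∨ x⁻¹ ∈ S) → (y ∈ S ∨ y⁻¹ ∈ S) → x * y * x⁻¹ * y⁻¹ ∈ T) {p : ℕ}
    (u : Fin p → G) (hu : ∀ i, u i ∈ S) (a b : Fin p → ℤ) :
    opw u a * opw u b * (opw u (a + b))⁻¹ ∈
      CP (Ball S (∑ i, (a i).natAbs + ∑ i, (b i).natAbs)) T
        ((∑ i, (a i).natAbs) * ∑ i, (b i).natAbs) := by
  induction p with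
  | zero => simpa [opw, CP] using Ball.one_mem _ _
  | succ p ih =>
    have h0 := ih (fun i => u i.succ) (fun i => hu _) (fun i => a i.succ) (fun i => b i.succ)
    have hA := h50_opw_mem (fun i : Fin p => u i.succ) (fun i => hu _) (fun i => a i.succ)
    have e : (fun i : Fin p => (a + b) i.succ) = (fun i => a i.succ) + fun i => b i.succ := rfl
    rw [h50_opw_succ u a, h50_opw_succ u b, h50_opw_succ u (a + b), e, Fin.sum_univ_succ,
      Fin.sum_univ_succ, Pi.add_apply, zpow_add]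
    have ha0 := h50_zpow_mem (hu 0) (a 0)
    have hb0 := h50_zpow_mem (hu 0) (b 0)
    generalize opw (fun i : Fin p => u i.succ) ((fun i => a i.succ) + fun i => b i.succ) = C at *
    generalize opw (fun i : Fin p => u i.succ) (fun i => a i.succ) = A at *
    generalize opw (fun i : Fin p => u i.succ) (fun i => b i.succ) = B at *
    generalize ∑ i : Fin p, (a i.succ).natAbs = m at *
    generalize ∑ i : Fin p, (b i.succ).natAbs = n at *
    generalize u 0 ^ a 0 = x at *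
    generalize u 0 ^ b 0 = y at *
    generalize (a 0).natAbs = m0 at *
    generalize (b 0).natAbs = n0 at *
    have h1 : x * (A * y * A⁻¹ * y⁻¹) * x⁻¹ ∈ CP (Ball S (m0 + m + (n0 + n))) T (m * n0) :=
      CP.conj_mem x (fun c hc => Ball.mono subset_rfl (by omega) (Ball.mul_mem ha0 hc))
        (h50_comm2 hT hA hb0)
    have h2 : x * y * (A * B * C⁻¹) * (x * y)⁻¹ ∈ CP (Ball S (m0 + m + (n0 + n))) T (m * n) :=
      CP.conj_mem (x * y) (fun c hc => Ball.mono subset_rfl (by omega)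
        (Ball.mul_mem (Ball.mul_mem ha0 hb0) hc)) h0
    have h3 := CP.mono subset_rfl subset_rfl
      (show m * n0 + m * n ≤ (m0 + m) * (n0 + n) by nlinarith [Nat.zero_le (m0 * (n0 + n))])
      (CP.mul_mem h1 h2)
    convert h3 using 1
    group

/-- Collection.  First `b = ± e_l` (move one letter through the word `∏_{i > l} u i ^ a i`, one
commutator per letter; e.g. prove for a list `w` of letters and a letter `s` that
`w.prod * s * w.prod⁻¹ * s⁻¹ ∈ CP (Ball _ w.length) (comms u) w.length`), then induction on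
`∑ |b i|` (write `opw u b` as a list of letters with exponent sum `b`). -/
theorem opw_mul {p : ℕ} (u : Fin p → G) (a b : Fin p → ℤ) {M : ℕ}
    (ha : ∑ i, (a i).natAbs ≤ M) (hb : ∑ i, (b i).natAbs ≤ M) :
    opw u a * opw u b * (opw u (a + b))⁻¹ ∈
      CP (Ball (Set.range u) (4 * M)) (comms u) (2 * M ^ 2) := by
  have hl : ∀ x : G, (x ∈ Set.range u ∨ x⁻¹ ∈ Set.range u) →
      ∃ (i : Fin p) (e : ℤ), e.natAbs = 1 ∧ x = u i ^ e := by
    rintro x (⟨i, hi⟩ | ⟨i, hi⟩)
    · exact ⟨i, 1, rfl, by rw [zpow_one, hi]⟩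
    · exact ⟨i, -1, rfl, by rw [zpow_neg_one, hi, inv_inv]⟩
  refine CP.mono (Ball.mono subset_rfl (by omega)) subset_rfl ?_
    (h50_opw_mul (T := comms u) (fun x y hx hy => ?_) u (fun i => Set.mem_range_self i) a b)
  · have := Nat.mul_le_mul ha hb
    nlinarith
  · obtain ⟨i, e, he, rfl⟩ := hl x hx
    obtain ⟨j, e', he', rfl⟩ := hl y hy
    exact ⟨i, j, e, e', he, he', rfl⟩

private theorem h65_comms_subset (K : Subgroup G) [K.Normal] {p : ℕ} (u : Fin p → G)
    (h : ∀ i j, u i * u j * (u i)⁻¹ * (u j)⁻¹ ∈ K) : comms u ⊆ K := by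
  rintro _ ⟨i, j, e, e', -, -, rfl⟩
  have h1 : Commute ((u i : G) : G ⧸ K) (u j : G ⧸ K) := by
    have h2 := (QuotientGroup.eq_one_iff _).2 (h i j)
    simp only [QuotientGroup.mk_mul, QuotientGroup.mk_inv] at h2
    exact commutatorElement_eq_one_iff_commute.1 h2
  refine (QuotientGroup.eq_one_iff _).1 ?_
  simp only [QuotientGroup.mk_mul, QuotientGroup.mk_inv, QuotientGroup.mk_zpow]
  exact commutatorElement_eq_one_iff_commute.2 (h1.zpow_zpow e e')

private theorem h65_comms_finite {p : ℕ} (u : Fin p → G) : (comms u).Finite := by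
  refine (((Set.finite_univ (α := Fin p × Fin p)).prod
    ((Set.finite_Icc (-1 : ℤ) 1).prod (Set.finite_Icc (-1 : ℤ) 1))).image fun q =>
      u q.1.1 ^ q.2.1 * u q.1.2 ^ q.2.2 * (u q.1.1 ^ q.2.1)⁻¹ * (u q.1.2 ^ q.2.2)⁻¹).subset ?_
  rintro _ ⟨i, j, e, e', he, he', rfl⟩
  exact ⟨((i, j), (e, e')), ⟨Set.mem_univ _, ⟨by change -1 ≤ e; omega, by change e ≤ 1; omega⟩,
    ⟨by change -1 ≤ e'; omega, by change e' ≤ 1; omega⟩⟩, rfl⟩

private theorem h65_CP_subset (K : Subgroup G) [hK : K.Normal] {A T : Set G} (hT : T ⊆ K) {n : ℕ}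
    {x : G} (hx : x ∈ CP A T n) : x ∈ K := by
  refine (Subgroup.closure_le K).2 ?_ (Ball.mem_closure hx)
  rintro _ ⟨a, -, t, ht, rfl⟩
  exact hK.conj_mem t (hT ht) a

private theorem h65_opw_zero {p : ℕ} (u : Fin p → G) : opw u 0 = 1 := by
  simp [opw]

private theorem h65_opw_single {p : ℕ} (u : Fin p → G) (i : Fin p) (e : ℤ) :
    opw u (Pi.single i e) = u i ^ e := by
  induction p with
  | zero => exact i.elim0
  | succ p ih =>
    unfold opw
    rw [List.ofFn_succ, List.prod_cons]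
    refine Fin.cases ?_ (fun j => ?_) i
    · simp [Fin.succ_ne_zero]
    · have h := ih (fun k => u k.succ) j
      unfold opw at h
      rw [← h]
      simp [Pi.single_apply, (Fin.succ_ne_zero j).symm]

private theorem h65_sum_le {p : ℕ} (l : List (Fin p → ℤ)) :
    ∑ i, (l.sum i).natAbs ≤ (l.map fun b => ∑ i, (b i).natAbs).sum := by
  induction l with
  | nil => simp
  | cons b l ih =>
    rw [List.sum_cons, List.map_cons, List.sum_cons]
    refine le_trans ?_ (Nat.add_le_add_left ih _)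
    rw [← Finset.sum_add_distrib]
    exact Finset.sum_le_sum fun i _ => Int.natAbs_add_le _ _

private theorem h65_collect {p : ℕ} (u : Fin p → G) (M : ℕ) (l : List (Fin p → ℤ))
    (hl : (l.map fun b => ∑ i, (b i).natAbs).sum ≤ M) :
    (l.map (opw u)).prod * (opw u l.sum)⁻¹ ∈
      CP (Ball (Set.range u) (4 * M + (l.map fun b => ∑ i, (b i).natAbs).sum)) (comms u)
        (l.length * (2 * M ^ 2)) := by
  induction l with
  | nil =>
    rw [List.sum_nil, h65_opw_zero, inv_one, mul_one]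
    exact Ball.one_mem _ _
  | cons b l ih =>
    rw [List.map_cons, List.sum_cons] at hl
    have h1 := CP.conj_mem (A' := Ball (Set.range u) (4 * M + (∑ i, (b i).natAbs +
      (l.map fun b => ∑ i, (b i).natAbs).sum))) (opw u b)
      (fun a ha => Ball.mono subset_rfl (by omega) (Ball.mul_mem (opw_mem_ball u b) ha))
      (ih (by omega))
    have h2 := CP.mono (Ball.mono subset_rfl (Nat.le_add_right _ (∑ i, (b i).natAbs +
      (l.map fun b => ∑ i, (b i).natAbs).sum))) subset_rfl le_rfl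
      (opw_mul u b l.sum (M := M) (by omega) ((h65_sum_le l).trans (by omega)))
    have h3 := CP.mul_mem h1 h2
    rw [List.map_cons, List.map_cons, List.sum_cons, List.sum_cons, List.prod_cons,
      List.length_cons, Nat.succ_mul]
    convert h3 using 1
    group

private theorem h65_letters {p : ℕ} (u : Fin p → G) {M : ℕ} {w : G}
    (hw : w ∈ Ball (Set.range u) M) : ∃ L : List (Fin p → ℤ), L.length ≤ M ∧
      (L.map fun b => ∑ i, (b i).natAbs).sum ≤ M ∧ (L.map (opw u)).prod = w := by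
  induction M generalizing w with
  | zero =>
    rw [h31_ball_zero] at hw
    exact ⟨[], le_rfl, le_rfl, hw.symm⟩
  | succ M ih =>
    rcases h31_ball_succ hw with rfl | ⟨x, hx, b, hb, rfl⟩
    · exact ⟨[], Nat.zero_le _, Nat.zero_le _, rfl⟩
    · obtain ⟨L, h1, h2, h3⟩ := ih hb
      obtain ⟨i, e, he, hx⟩ : ∃ (i : Fin p) (e : ℤ), e.natAbs = 1 ∧ u i ^ e = x := by
        rcases hx with ⟨i, hi⟩ | ⟨i, hi⟩
        · exact ⟨i, 1, rfl, by rw [zpow_one, hi]⟩
        · exact ⟨i, -1, rfl, by rw [zpow_neg_one, hi, inv_inv]⟩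
      have h4 : ∑ j, ((Pi.single i e : Fin p → ℤ) j).natAbs = 1 := by
        rw [Finset.sum_eq_single i (fun j _ hj => by simp [hj]) (by simp)]
        simpa using he
      refine ⟨Pi.single i e :: L, by rw [List.length_cons]; omega, ?_, ?_⟩
      · rw [List.map_cons, List.sum_cons, h4]
        omega
      · rw [List.map_cons, List.prod_cons, h65_opw_single, hx, h3]

/-- `U = range u`; a word `w` of length `M` is `c * opw u a` with `∑ |a i| ≤ M`, `c ∈ CP ..`
(`opw_mul` letter by letter); `Λ = {a | opw u a ∈ K}` is a subgroup (`opw_mul`), `exists_short_sum`,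
`T = comms u ∪ opw u '' B`. -/
theorem dehn_ab (K : Subgroup G) [K.Normal] (U : Finset G)
    (hU : ∀ u ∈ U, ∀ u' ∈ U, u * u' * u⁻¹ * u'⁻¹ ∈ K) :
    ∃ (T : Finset G) (C : ℕ), (∀ t ∈ T, t ∈ K) ∧ ∀ M : ℕ, ∀ w ∈ Ball (U : Set G) M, w ∈ K →
      w ∈ CP (Ball (U : Set G) (C * (M + 1))) T (C * (M + 1) ^ 3) := by
  classical
  obtain ⟨p, u, hu⟩ : ∃ (p : ℕ) (u : Fin p → G), Set.range u = (U : Set G) :=
    ⟨U.card, fun i => (U.equivFin.symm i : G), by
      ext x
      exact ⟨by rintro ⟨i, rfl⟩; exact (U.equivFin.symm i).2,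
        fun hx => ⟨U.equivFin ⟨x, hx⟩, by simp⟩⟩⟩
  have hmem : ∀ i, u i ∈ U := fun i => by
    have : u i ∈ Set.range u := ⟨i, rfl⟩
    rwa [hu] at this
  have hcK : comms u ⊆ K := h65_comms_subset K u fun i j => hU _ (hmem i) _ (hmem j)
  have hmul : ∀ a b : Fin p → ℤ, opw u a * opw u b * (opw u (a + b))⁻¹ ∈ K := fun a b =>
    h65_CP_subset K hcK (opw_mul u a b (le_max_left _ _) (le_max_right _ _))
  let Λ : AddSubgroup (Fin p → ℤ) :=
    { carrier := {a | opw u a ∈ K}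
      zero_mem' := by
        change opw u 0 ∈ K
        rw [h65_opw_zero]
        exact K.one_mem
      add_mem' := fun {a b} ha hb =>
        (K.inv_mem_iff).1 ((K.mul_mem_cancel_left (K.mul_mem ha hb)).1 (hmul a b))
      neg_mem' := fun {a} ha => by
        have h := hmul (-a) a
        rw [neg_add_cancel, h65_opw_zero, inv_one, mul_one] at h
        exact (K.mul_mem_cancel_right ha).1 h }
  obtain ⟨B, C0, hB, hC0⟩ := exists_short_sum Λ
  set D : ℕ := B.sup fun b => ∑ i, (b i).natAbs with hD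
  refine ⟨(h65_comms_finite u).toFinset ∪ B.image (opw u),
    5 + 5 * (C0 * D) + 2 * C0 * (C0 * D) ^ 2 + C0, fun t ht => ?_, fun M w hw hwK => ?_⟩
  · rcases Finset.mem_union.1 ht with h | h
    · exact hcK ((Set.Finite.mem_toFinset _).1 h)
    · obtain ⟨b, hb, rfl⟩ := Finset.mem_image.1 h
      exact hB b hb
  rw [← hu] at hw ⊢
  obtain ⟨L, hL1, hL2, hL3⟩ := h65_letters u hw
  have h1 := h65_collect u M L hL2
  rw [hL3] at h1
  have ha : L.sum ∈ Λ :=
    (K.inv_mem_iff).1 ((K.mul_mem_cancel_left hwK).1 (h65_CP_subset K hcK h1))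
  obtain ⟨l, hl1, hl2, hl3⟩ := hC0 _ ha
  have hl4 : l.length ≤ C0 * M :=
    hl3.trans (Nat.mul_le_mul_left _ ((h65_sum_le L).trans hL2))
  have hl5 : (l.map fun b => ∑ i, (b i).natAbs).sum ≤ C0 * D * M := by
    have h := List.sum_le_card_nsmul (l.map fun b => ∑ i, (b i).natAbs) D fun x hx => by
      obtain ⟨b, hb, rfl⟩ := List.mem_map.1 hx
      exact Finset.le_sup (f := fun b : Fin p → ℤ => ∑ i, (b i).natAbs) (hl1 b hb)
    rw [List.length_map, smul_eq_mul] at h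
    calc _ ≤ l.length * D := h
      _ ≤ C0 * M * D := Nat.mul_le_mul_right _ hl4
      _ = C0 * D * M := by ring
  have h2 := h65_collect u (C0 * D * M) l hl5
  rw [hl2] at h2
  set C : ℕ := 5 + 5 * (C0 * D) + 2 * C0 * (C0 * D) ^ 2 + C0 with hC
  set T : Finset G := (h65_comms_finite u).toFinset ∪ B.image (opw u) with hT
  have hcT : comms u ⊆ (T : Set G) := fun t ht =>
    Finset.mem_coe.2 (Finset.mem_union_left _ ((Set.Finite.mem_toFinset _).2 ht))
  have h3 : (l.map (opw u)).prod ∈ CP (Ball (Set.range u) (C * (M + 1))) T (C0 * M) := by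
    refine ⟨l.map (opw u), by rwa [List.length_map], fun x hx => Or.inl ?_, rfl⟩
    obtain ⟨b, hb, rfl⟩ := List.mem_map.1 hx
    exact ⟨1, Ball.one_mem _ _, opw u b, Finset.mem_coe.2 (Finset.mem_union_right _
      (Finset.mem_image_of_mem _ (hl1 b hb))), by simp⟩
  have h1' := CP.mono (Ball.mono subset_rfl (show 4 * M + (L.map fun b => ∑ i, (b i).natAbs).sum ≤
    C * (M + 1) by rw [hC]; nlinarith)) hcT (Nat.mul_le_mul_right (2 * M ^ 2) hL1) h1
  have h2' := CP.mono (Ball.mono subset_rfl (show 4 * (C0 * D * M) +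
    (l.map fun b => ∑ i, (b i).natAbs).sum ≤ C * (M + 1) by rw [hC]; nlinarith)) hcT
    (Nat.mul_le_mul_right (2 * (C0 * D * M) ^ 2) hl4) h2
  have h4 := CP.mul_mem (CP.mul_mem h1' (CP.inv_mem h2')) h3
  have e : w * (opw u L.sum)⁻¹ * ((l.map (opw u)).prod * (opw u L.sum)⁻¹)⁻¹ *
      (l.map (opw u)).prod = w := by group
  rw [e] at h4
  refine CP.mono subset_rfl subset_rfl ?_ h4
  have h5 : M ^ 3 ≤ (M + 1) ^ 3 := Nat.pow_le_pow_left (Nat.le_succ M) 3
  have h6 : M ≤ (M + 1) ^ 3 := (Nat.le_succ M).trans (Nat.le_self_pow (by norm_num) _)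
  calc M * (2 * M ^ 2) + C0 * M * (2 * (C0 * D * M) ^ 2) + C0 * M
      = 2 * M ^ 3 + 2 * C0 * (C0 * D) ^ 2 * M ^ 3 + C0 * M := by ring
    _ ≤ 2 * (M + 1) ^ 3 + 2 * C0 * (C0 * D) ^ 2 * (M + 1) ^ 3 + C0 * (M + 1) ^ 3 := by gcongr
    _ ≤ C * (M + 1) ^ 3 := by rw [hC]; nlinarith [Nat.zero_le ((M + 1) ^ 3), Nat.zero_le (C0 * D * (M + 1) ^ 3)]

end Crest.Agent.R182
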