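import Crest.Agent.R182.LMDefs
import Crest.Agent.R182.SDehn
import Crest.Agent.R182.LFAbs

/-! Row 182, block L2 (controlled Følner sets): crude size bounds in a `LieModel`. -/

set_option autoImplicit false
set_option linter.dupNamespace false

namespace Crest.Agent.R182

section collect

variable {G : Type*} [Group G]

theorem lf65_comms_finite {p : ℕ} (u : Fin p → G) : (comms u).Finite := by
  refine (((Set.finite_univ (α := Fin p × Fin p)).prod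
    ((Set.finite_Icc (-1 : ℤ) 1).prod (Set.finite_Icc (-1 : ℤ) 1))).image fun q =>
      u q.1.1 ^ q.2.1 * u q.1.2 ^ q.2.2 * (u q.1.1 ^ q.2.1)⁻¹ * (u q.1.2 ^ q.2.2)⁻¹).subset ?_
  rintro _ ⟨i, j, e, e', he, he', rfl⟩
  exact ⟨((i, j), (e, e')), ⟨Set.mem_univ _, ⟨by change -1 ≤ e; omega, by change e ≤ 1; omega⟩,
    ⟨by change -1 ≤ e'; omega, by change e' ≤ 1; omega⟩⟩, rfl⟩

theorem lf65_opw_zero {p : ℕ} (u : Fin p → G) : opw u 0 = 1 := by
  simp [opw]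

theorem lf65_opw_single {p : ℕ} (u : Fin p → G) (i : Fin p) (e : ℤ) :
    opw u (Pi.single i e) = u i ^ e := by
  induction p with
  | zero => exact i.elim0
  | succ p ih =>
    unfold opw
    rw [List.ofFn_succ, List.prod_cons]
    refine Fin.cases ?_ (fun j => ?_) i
    · simp [Fin.succ_ne_zero]
    · have h := ih (fun k => u k.succ) j
      unfold opw at h
      rw [← h]
      simp [Pi.single_apply, (Fin.succ_ne_zero j).symm]

theorem lf65_sum_le {p : ℕ} (l : List (Fin p → ℤ)) :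
    ∑ i, (l.sum i).natAbs ≤ (l.map fun b => ∑ i, (b i).natAbs).sum := by
  induction l with
  | nil => simp
  | cons b l ih =>
    rw [List.sum_cons, List.map_cons, List.sum_cons]
    refine le_trans ?_ (Nat.add_le_add_left ih _)
    rw [← Finset.sum_add_distrib]
    exact Finset.sum_le_sum fun i _ => Int.natAbs_add_le _ _

theorem lf65_collect {p : ℕ} (u : Fin p → G) (M : ℕ) (l : List (Fin p → ℤ))
    (hl : (l.map fun b => ∑ i, (b i).natAbs).sum ≤ M) :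
    (l.map (opw u)).prod * (opw u l.sum)⁻¹ ∈
      CP (Ball (Set.range u) (4 * M + (l.map fun b => ∑ i, (b i).natAbs).sum)) (comms u)
        (l.length * (2 * M ^ 2)) := by
  induction l with
  | nil =>
    rw [List.sum_nil, lf65_opw_zero, inv_one, mul_one]
    exact Ball.one_mem _ _
  | cons b l ih =>
    rw [List.map_cons, List.sum_cons] at hl
    have h1 := CP.conj_mem (A' := Ball (Set.range u) (4 * M + (∑ i, (b i).natAbs +
      (l.map fun b => ∑ i, (b i).natAbs).sum))) (opw u b)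
      (fun a ha => Ball.mono subset_rfl (by omega) (Ball.mul_mem (opw_mem_ball u b) ha))
      (ih (by omega))
    have h2 := CP.mono (Ball.mono subset_rfl (Nat.le_add_right _ (∑ i, (b i).natAbs +
      (l.map fun b => ∑ i, (b i).natAbs).sum))) subset_rfl le_rfl
      (opw_mul u b l.sum (M := M) (by omega) ((lf65_sum_le l).trans (by omega)))
    have h3 := CP.mul_mem h1 h2
    rw [List.map_cons, List.map_cons, List.sum_cons, List.sum_cons, List.prod_cons,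
      List.length_cons, Nat.succ_mul]
    convert h3 using 1
    group

theorem lf65_letters {p : ℕ} (u : Fin p → G) {M : ℕ} {w : G}
    (hw : w ∈ Ball (Set.range u) M) : ∃ L : List (Fin p → ℤ), L.length ≤ M ∧
      (L.map fun b => ∑ i, (b i).natAbs).sum ≤ M ∧ (L.map (opw u)).prod = w := by
  induction M generalizing w with
  | zero =>
    rw [h31_ball_zero] at hw
    exact ⟨[], le_rfl, le_rfl, hw.symm⟩
  | succ M ih =>
    rcases h31_ball_succ hw with rfl | ⟨x, hx, b, hb, rfl⟩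
    · exact ⟨[], Nat.zero_le _, Nat.zero_le _, rfl⟩
    · obtain ⟨L, h1, h2, h3⟩ := ih hb
      obtain ⟨i, e, he, hx⟩ : ∃ (i : Fin p) (e : ℤ), e.natAbs = 1 ∧ u i ^ e = x := by
        rcases hx with ⟨i, hi⟩ | ⟨i, hi⟩
        · exact ⟨i, 1, rfl, by rw [zpow_one, hi]⟩
        · exact ⟨i, -1, rfl, by rw [zpow_neg_one, hi, inv_inv]⟩
      have h4 : ∑ j, ((Pi.single i e : Fin p → ℤ) j).natAbs = 1 := by
        rw [Finset.sum_eq_single i (fun j _ hj => by simp [hj]) (by simp)]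
        simpa using he
      refine ⟨Pi.single i e :: L, by rw [List.length_cons]; omega, ?_, ?_⟩
      · rw [List.map_cons, List.sum_cons, h4]
        omega
      · rw [List.map_cons, List.prod_cons, lf65_opw_single, hx, h3]

/-- collection of a word in the letters `u i` -/
theorem lf_collect {p : ℕ} (u : Fin p → G) {m : ℕ} {w : G} (hw : w ∈ Ball (Set.range u) m) :
    ∃ a : Fin p → ℤ, ∑ i, (a i).natAbs ≤ m ∧
      ∃ y ∈ CP (Ball (Set.range u) (5 * m)) (comms u) (2 * m ^ 3), w = y * opw u a := by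
  obtain ⟨L, h1, h2, h3⟩ := lf65_letters u hw
  refine ⟨L.sum, (lf65_sum_le L).trans h2, _, CP.mono (Ball.mono subset_rfl (by omega)) subset_rfl
    ?_ (lf65_collect u m L h2), by rw [h3, inv_mul_cancel_right]⟩
  calc L.length * (2 * m ^ 2) ≤ m * (2 * m ^ 2) := Nat.mul_le_mul_right _ h1
    _ = 2 * m ^ 3 := by ring

end collect

namespace LieModel

open MeasureTheory Pointwise

variable {G : Type} [Group G] {k : ℕ} (M : LieModel G k)

/-- the zero weight space -/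
def Z0 : Submodule ℝ (Fin M.d → ℝ) where
  carrier := {X | ∀ j, M.wt j ≠ 0 → X j = 0}
  zero_mem' _ _ := rfl
  add_mem' {X Y} hX hY j hj := by rw [Pi.add_apply, hX j hj, hY j hj, add_zero]
  smul_mem' c X hX j hj := by rw [Pi.smul_apply, hX j hj, smul_zero]

/-- the exponentials of the elements of `E` of norm at most `ρ` -/
def EB (E : Submodule ℝ (Fin M.d → ℝ)) (ρ : ℝ) : Set G := M.ex '' {X | X ∈ E ∧ ‖X‖ ≤ ρ}

/-- a compact generating set of the flat subgroup -/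
def SF : Set G := M.EB M.Z0 1 ∪ Set.range M.c

/-- expand `U`, `V` in the basis `Pi.single _ 1` (`Finset.univ_sum_single`), `br_tri` -/
theorem lf_br_le : ∃ K : ℝ, 1 ≤ K ∧ ∀ (U V : Fin M.d → ℝ) (l : Fin M.d) (a b : ℝ), 0 ≤ a → 0 ≤ b →
    (∀ j < l, |U j| ≤ a) → (∀ j < l, |V j| ≤ b) → |M.br U V l| ≤ K * a * b := by
  have h0 : ∀ l : Fin M.d, 0 ≤ ∑ i, ∑ j, |M.br (Pi.single i 1) (Pi.single j 1) l| := fun l =>
    Finset.sum_nonneg fun _ _ => Finset.sum_nonneg fun _ _ => abs_nonneg _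
  have h1 : 0 ≤ ∑ l, ∑ i, ∑ j, |M.br (Pi.single i 1) (Pi.single j 1) l| :=
    Finset.sum_nonneg fun l _ => h0 l
  refine ⟨1 + ∑ l, ∑ i, ∑ j, |M.br (Pi.single i 1) (Pi.single j 1) l|, by linarith,
    fun U V l a b ha hb hU hV => ?_⟩
  have h2 : ∑ i, ∑ j, |M.br (Pi.single i 1) (Pi.single j 1) l| ≤
      ∑ l, ∑ i, ∑ j, |M.br (Pi.single i 1) (Pi.single j 1) l| :=
    Finset.single_le_sum (f := fun l => ∑ i, ∑ j, |M.br (Pi.single i 1) (Pi.single j 1) l|)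
      (fun l _ => h0 l) (Finset.mem_univ l)
  have h3 : |M.br U V l| ≤ (∑ i, ∑ j, |M.br (Pi.single i 1) (Pi.single j 1) l|) * (a * b) := by
    rw [br_apply, Finset.sum_mul]
    refine (Finset.abs_sum_le_sum_abs _ _).trans (Finset.sum_le_sum fun i _ => ?_)
    rw [Finset.sum_mul]
    refine (Finset.abs_sum_le_sum_abs _ _).trans (Finset.sum_le_sum fun j _ => ?_)
    by_cases h : M.br (Pi.single i 1) (Pi.single j 1) l = 0
    · simp [h]
    · obtain ⟨hi, hj, -⟩ := M.br_tri i j l h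
      rw [abs_mul, abs_mul, mul_comm]
      exact mul_le_mul_of_nonneg_left (mul_le_mul (hU i hi) (hV j hj) (abs_nonneg _) ha)
        (abs_nonneg _)
  have h4 := mul_nonneg ha hb
  rw [mul_assoc]
  exact h3.trans (mul_le_mul_of_nonneg_right (by linarith) h4)

/-- `br_tri` -/
theorem lf_sub_Z0 : M.Sub M.Z0 := by
  intro X hX Y hY l hl
  rw [br_apply]
  refine Finset.sum_eq_zero fun i _ => Finset.sum_eq_zero fun j _ => ?_
  by_cases h : M.br (Pi.single i 1) (Pi.single j 1) l = 0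
  · rw [h, mul_zero]
  · obtain ⟨-, -, hw⟩ := M.br_tri i j l h
    by_cases hi : M.wt i = 0
    · have hj : M.wt j ≠ 0 := fun hj => hl (by rw [hw, hi, hj, add_zero])
      rw [hY j hj, mul_zero, zero_mul]
    · rw [hX i hi, zero_mul, zero_mul]

theorem h74_tree_le (t : LTree) : ∃ (K : ℝ) (D : ℕ), 1 ≤ K ∧ 1 ≤ D ∧
    ∀ (X Y : Fin M.d → ℝ) (l : Fin M.d) (A : ℝ), 1 ≤ A → (∀ j < l, |X j| ≤ A) →
      (∀ j < l, |Y j| ≤ A) → ∀ j < l, |M.ev t X Y j| ≤ K * A ^ D := by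
  induction t with
  | x => exact ⟨1, 1, le_rfl, le_rfl, fun X Y l A _ hX _ j hj => by simpa using hX j hj⟩
  | y => exact ⟨1, 1, le_rfl, le_rfl, fun X Y l A _ _ hY j hj => by simpa using hY j hj⟩
  | node s t hs ht =>
    obtain ⟨K, hK, hb⟩ := M.lf_br_le
    obtain ⟨K₁, D₁, hK₁, hD₁, h₁⟩ := hs
    obtain ⟨K₂, D₂, hK₂, hD₂, h₂⟩ := ht
    refine ⟨K * (K₁ * K₂), D₁ + D₂, one_le_mul_of_one_le_of_one_le hK
      (one_le_mul_of_one_le_of_one_le hK₁ hK₂), by omega, fun X Y l A hA hX hY j hj => ?_⟩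
    rw [ev_node]
    refine (hb _ _ j (K₁ * A ^ D₁) (K₂ * A ^ D₂) (by positivity) (by positivity)
      (fun i hi => h₁ X Y l A hA hX hY i (hi.trans hj))
      (fun i hi => h₂ X Y l A hA hX hY i (hi.trans hj))).trans (le_of_eq ?_)
    ring

theorem h74_list_le (L : List (ℝ × LTree × LTree)) : ∃ (K : ℝ) (D : ℕ), 1 ≤ K ∧ 1 ≤ D ∧
    ∀ (X Y : Fin M.d → ℝ) (l : Fin M.d) (A : ℝ), 1 ≤ A → (∀ j < l, |X j| ≤ A) →
      (∀ j < l, |Y j| ≤ A) →
      |(L.map fun p => p.1 • M.ev (LTree.node p.2.1 p.2.2) X Y).sum l| ≤ K * A ^ D := by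
  induction L with
  | nil => exact ⟨1, 1, le_rfl, le_rfl, fun X Y l A hA _ _ => by simp; linarith⟩
  | cons p L ih =>
    obtain ⟨K, hK, hb⟩ := M.lf_br_le
    obtain ⟨K₁, D₁, hK₁, hD₁, h₁⟩ := M.h74_tree_le p.2.1
    obtain ⟨K₂, D₂, hK₂, hD₂, h₂⟩ := M.h74_tree_le p.2.2
    obtain ⟨K₃, D₃, hK₃, hD₃, h₃⟩ := ih
    have hp : 0 ≤ |p.1| * (K * (K₁ * K₂)) := by positivity
    refine ⟨|p.1| * (K * (K₁ * K₂)) + K₃, D₁ + D₂ + D₃, by linarith, by omega,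
      fun X Y l A hA hX hY => ?_⟩
    rw [List.map_cons, List.sum_cons, Pi.add_apply, Pi.smul_apply, smul_eq_mul, ev_node]
    have e1 := hb _ _ l (K₁ * A ^ D₁) (K₂ * A ^ D₂) (by positivity) (by positivity)
      (h₁ X Y l A hA hX hY) (h₂ X Y l A hA hX hY)
    have e2 := h₃ X Y l A hA hX hY
    have e3 : A ^ (D₁ + D₂) ≤ A ^ (D₁ + D₂ + D₃) := pow_le_pow_right₀ hA (by omega)
    have e4 : A ^ D₃ ≤ A ^ (D₁ + D₂ + D₃) := pow_le_pow_right₀ hA (by omega)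
    have e5 : |p.1| * |M.br (M.ev p.2.1 X Y) (M.ev p.2.2 X Y) l| ≤
        |p.1| * (K * (K₁ * K₂)) * A ^ (D₁ + D₂ + D₃) := by
      refine (mul_le_mul_of_nonneg_left e1 (abs_nonneg _)).trans ?_
      refine le_trans (le_of_eq ?_) (mul_le_mul_of_nonneg_left e3 hp)
      ring
    have e6 : K₃ * A ^ D₃ ≤ K₃ * A ^ (D₁ + D₂ + D₃) := mul_le_mul_of_nonneg_left e4 (by linarith)
    refine (abs_add_le _ _).trans ?_
    rw [abs_mul, add_mul]
    linarith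

/-- induction on the trees (`lf_br_le`: all coordinates `j < l` of a tree, and the coordinate `l` of
a `node`, are at most `K' * A ^ D'`), then on the list `bch` -/
theorem lf_hi_le : ∃ (K : ℝ) (D : ℕ), 1 ≤ K ∧ 1 ≤ D ∧ ∀ (X Y : Fin M.d → ℝ) (l : Fin M.d) (A : ℝ),
    1 ≤ A → (∀ j < l, |X j| ≤ A) → (∀ j < l, |Y j| ≤ A) → |M.hi X Y l| ≤ K * A ^ D := by
  exact M.h74_list_le M.bch

theorem helper30_step {E : Submodule ℝ (Fin M.d → ℝ)} {ρ : ℝ} {m : ℕ} {g : G}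
    (h : g ∈ Ball (M.EB E ρ) (m + 1)) :
    g = 1 ∨ ∃ X ∈ E, ‖X‖ ≤ ρ ∧ ∃ b ∈ Ball (M.EB E ρ) m, M.ex X * b = g := by
  rcases h31_ball_succ h with h1 | ⟨x, hx, b, hb, rfl⟩
  · exact Or.inl h1
  · refine Or.inr ?_
    rcases hx with ⟨X, ⟨h1, h2⟩, rfl⟩ | ⟨X, ⟨h1, h2⟩, hX⟩
    · exact ⟨X, h1, h2, b, hb, rfl⟩
    · refine ⟨-X, E.neg_mem h1, by rwa [norm_neg], b, hb, ?_⟩
      rw [ex_neg, hX, inv_inv]

theorem helper30_mem {E : Submodule ℝ (Fin M.d → ℝ)} (hE : M.Sub E) {ρ : ℝ} {m : ℕ} {g : G}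
    (h : g ∈ Ball (M.EB E ρ) m) : ∃ Z ∈ E, M.ex Z = g := by
  induction m generalizing g with
  | zero =>
    rw [h31_ball_zero] at h
    exact ⟨0, E.zero_mem, by rw [ex_zero]; exact h.symm⟩
  | succ m ih =>
    rcases M.helper30_step h with rfl | ⟨X, hX, -, b, hb, rfl⟩
    · exact ⟨0, E.zero_mem, M.ex_zero⟩
    · obtain ⟨Z, hZ, rfl⟩ := ih hb
      exact ⟨M.bc X Z, hE.bc_mem hX hZ, (M.ex_mul' X Z).symm⟩

theorem helper30_coord (p : ℕ) : ∃ (K : ℝ) (D : ℕ), 1 ≤ K ∧ 1 ≤ D ∧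
    ∀ (E : Submodule ℝ (Fin M.d → ℝ)), M.Sub E → ∀ (m : ℕ) (ρ : ℝ), 1 ≤ ρ →
      ∀ Z, M.ex Z ∈ Ball (M.EB E ρ) m → ∀ l : Fin M.d, l.val < p →
        |Z l| ≤ (K * (m + 1) * ρ) ^ D := by
  induction p with
  | zero => exact ⟨1, 1, le_rfl, le_rfl, fun _ _ _ _ _ _ _ _ h => absurd h (Nat.not_lt_zero _)⟩
  | succ p ih =>
    obtain ⟨K, D, hK, hD, ih⟩ := ih
    obtain ⟨K1, D1, hK1, hD1, hh⟩ := M.lf_hi_le
    refine ⟨2 * K1 * K, D * D1 + 1, by nlinarith, by omega, fun E hE m0 ρ hρ Z hZ l hl => ?_⟩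
    have hm0 : (0 : ℝ) ≤ m0 := Nat.cast_nonneg _
    have hKm : (1 : ℝ) ≤ K * (m0 + 1) := by nlinarith
    have hρB : ρ ≤ K * (m0 + 1) * ρ := by nlinarith
    generalize hB : K * (m0 + 1) * ρ = B at hρB
    have hB1 : 1 ≤ B := hρ.trans hρB
    have hρA : ρ ≤ B ^ D := hρB.trans (le_self_pow₀ hB1 (by omega))
    have hA1 : 1 ≤ B ^ D := hρ.trans hρA
    have hc : 0 ≤ ρ + K1 * (B ^ D) ^ D1 := by positivity
    have key : ∀ m ≤ m0, ∀ Z, M.ex Z ∈ Ball (M.EB E ρ) m →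
        |Z l| ≤ m * (ρ + K1 * (B ^ D) ^ D1) := by
      intro m
      induction m with
      | zero =>
        intro _ Z hZ
        rw [h31_ball_zero] at hZ
        have : Z = 0 := M.ex_inj (by rw [ex_zero]; exact hZ)
        simp [this]
      | succ m ihm =>
        intro hm Z hZ
        rcases M.helper30_step hZ with h1 | ⟨X, hX, hXρ, b, hb, hg⟩
        · have : Z = 0 := M.ex_inj (by rw [ex_zero]; exact h1)
          rw [this, Pi.zero_apply, abs_zero]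
          positivity
        · obtain ⟨Y, -, rfl⟩ := M.helper30_mem hE hb
          have hZ' : Z = M.bc X Y := M.ex_inj (by rw [← hg, ex_mul'])
          have hXj : ∀ j, |X j| ≤ ρ := fun j => by
            rw [← Real.norm_eq_abs]; exact (norm_le_pi_norm X j).trans hXρ
          have h2 := ihm (by omega) Y hb
          have h3 := hh X Y l (B ^ D) hA1 (fun j _ => (hXj j).trans hρA) fun j hj => by
            refine (ih E hE m ρ hρ Y hb j (by have : j.val < l.val := hj; omega)).trans ?_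
            have hmm : (m : ℝ) ≤ m0 := by exact_mod_cast (by omega : m ≤ m0)
            rw [← hB]
            gcongr
          rw [hZ', bc, Pi.add_apply, Pi.add_apply]
          have h4 := abs_add_le (X l + Y l) (M.hi X Y l)
          have h5 := abs_add_le (X l) (Y l)
          have h6 := hXj l
          push_cast
          linarith
    refine (key m0 le_rfl Z hZ).trans ?_
    rw [← pow_mul]
    have hP1 : B ≤ B ^ (D * D1) := le_self_pow₀ hB1 (Nat.mul_ne_zero (by omega) (by omega))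
    have e : 2 * K1 * K * (m0 + 1) * ρ = 2 * K1 * B := by rw [← hB]; ring
    have hmB : (m0 : ℝ) ≤ B := by rw [← hB]; nlinarith
    have hP2 : B ^ (D * D1) ≤ (2 * K1 * B) ^ (D * D1) :=
      pow_le_pow_left₀ (by linarith) (by nlinarith) _
    rw [e, pow_succ]
    generalize B ^ (D * D1) = P at hP1 hP2
    generalize (2 * K1 * B) ^ (D * D1) = P' at hP2
    have h7 : ρ + K1 * P ≤ 2 * K1 * P' := by nlinarith
    calc (m0 : ℝ) * (ρ + K1 * P) ≤ B * (2 * K1 * P') :=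
          mul_le_mul hmB h7 (by nlinarith) (by linarith)
      _ = P' * (2 * K1 * B) := by ring

/-- **products are polynomially bounded.**  Induction on `p ≤ d` for the statement "all coordinates
`l < p` of every product of at most `m` factors are at most `(K (m + 1) ρ) ^ D`"; inside, induction on
`m` (`h31_ball_succ`, `ex_neg`, `ex_mul'`, `lf_hi_le`, `ex_inj`) -/
theorem lf_prod_le : ∃ (K : ℝ) (D : ℕ), 1 ≤ K ∧ ∀ (E : Submodule ℝ (Fin M.d → ℝ)), M.Sub E →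
    ∀ (m : ℕ) (ρ : ℝ), 1 ≤ ρ → Ball (M.EB E ρ) m ⊆ M.EB E ((K * (m + 1) * ρ) ^ D) := by
  obtain ⟨K, D, hK, -, h⟩ := M.helper30_coord M.d
  refine ⟨K, D, hK, fun E hE m ρ hρ g hg => ?_⟩
  obtain ⟨Z, hZ, rfl⟩ := M.helper30_mem hE hg
  refine ⟨Z, ⟨hZ, (pi_norm_le_iff_of_nonneg (by positivity)).2 fun l => ?_⟩, rfl⟩
  rw [Real.norm_eq_abs]
  exact h E hE m ρ hρ Z hg l l.isLt

theorem h67_Ad_apply (g : G) (X : Fin M.d → ℝ) (l : Fin M.d) :
    M.Ad g X l = ∑ j, X j * M.Ad g (Pi.single j 1) l := by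
  conv_lhs => rw [← Finset.univ_sum_single X]
  rw [map_sum, Finset.sum_apply]
  refine Finset.sum_congr rfl fun j _ => ?_
  have : (Pi.single j (X j) : Fin M.d → ℝ) = X j • Pi.single j 1 := by
    rw [← Pi.single_smul, smul_eq_mul, mul_one]
  rw [this, map_smul, Pi.smul_apply, smul_eq_mul]

/-- the filtration of the zero weight space -/
def h67F (p : ℕ) : Submodule ℝ (Fin M.d → ℝ) where
  carrier := {X | X ∈ M.Z0 ∧ ∀ l : Fin M.d, (l : ℕ) < p → X l = 0}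
  zero_mem' := ⟨M.Z0.zero_mem, fun _ _ => rfl⟩
  add_mem' {X Y} hX hY := ⟨M.Z0.add_mem hX.1 hY.1, fun l hl => by
    rw [Pi.add_apply, hX.2 l hl, hY.2 l hl, add_zero]⟩
  smul_mem' c X hX := ⟨M.Z0.smul_mem c hX.1, fun l hl => by
    rw [Pi.smul_apply, hX.2 l hl, smul_zero]⟩

theorem h67F_anti (p : ℕ) : M.h67F (p + 1) ≤ M.h67F p :=
  fun _ hX => ⟨hX.1, fun l hl => hX.2 l (Nat.lt_succ_of_lt hl)⟩

theorem h67F_step (p : ℕ) (i : Fin k) {X : Fin M.d → ℝ} (hX : X ∈ M.h67F p) :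
    M.Ad (M.c i) X - X ∈ M.h67F (p + 1) := by
  refine ⟨fun l hl => ?_, fun l hl => ?_⟩
  · rw [Pi.sub_apply, hX.1 l hl, sub_zero, h67_Ad_apply]
    refine Finset.sum_eq_zero fun j _ => ?_
    by_contra h
    have h1 := (M.c_tri i j l (right_ne_zero_of_mul h)).2
    exact left_ne_zero_of_mul h (hX.1 j (h1 ▸ hl))
  · rw [Pi.sub_apply, h67_Ad_apply, Finset.sum_eq_single l (fun j _ hj => ?_) (by simp), M.c_diag]
    · by_cases h : M.wt l = 0
      · simp [h]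
      · simp [hX.1 l h]
    · by_contra h
      have h1 : (j : ℕ) ≤ l := (M.c_tri i j l (right_ne_zero_of_mul h)).1
      have h2 : (j : ℕ) ≠ l := fun e => hj (Fin.ext e)
      exact left_ne_zero_of_mul h (hX.2 j (by omega))

theorem h67_gen_bound : ∃ L : ℝ, 1 ≤ L ∧ ∀ x : G, (x ∈ Set.range M.c ∨ x⁻¹ ∈ Set.range M.c) →
    ∀ X, ‖M.Ad x⁻¹ X - X‖ ≤ L * ‖X‖ := by
  have hb : ∀ g : G, ∃ L : ℝ, 0 ≤ L ∧ ∀ X, ‖M.Ad g X - X‖ ≤ L * ‖X‖ := fun g =>
    ⟨‖LinearMap.toContinuousLinearMap (M.Ad g - 1)‖, norm_nonneg _, fun X =>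
      (LinearMap.toContinuousLinearMap (M.Ad g - 1)).le_opNorm X⟩
  choose L hL0 hL using hb
  have hs : ∀ i, L (M.c i) + L (M.c i)⁻¹ ≤ ∑ j, (L (M.c j) + L (M.c j)⁻¹) := fun i =>
    Finset.single_le_sum (f := fun j => L (M.c j) + L (M.c j)⁻¹)
      (fun j _ => add_nonneg (hL0 _) (hL0 _)) (Finset.mem_univ i)
  have h0 : 0 ≤ ∑ j, (L (M.c j) + L (M.c j)⁻¹) :=
    Finset.sum_nonneg fun j _ => add_nonneg (hL0 _) (hL0 _)
  refine ⟨1 + ∑ j, (L (M.c j) + L (M.c j)⁻¹), by linarith, fun x hx X => ?_⟩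
  refine (hL _ X).trans (mul_le_mul_of_nonneg_right ?_ (norm_nonneg _))
  rcases hx with ⟨i, rfl⟩ | ⟨i, hi⟩
  · linarith [hs i, hL0 (M.c i)]
  · rw [← hi]
    linarith [hs i, hL0 (M.c i)⁻¹]

theorem h67_Ad_poly (n p : ℕ) (hp : p + n = M.d) : ∃ (K : ℝ) (D : ℕ), 1 ≤ K ∧ ∀ (m : ℕ),
    ∀ w ∈ Ball (Set.range M.c) m, ∀ X ∈ M.h67F p,
      M.Ad w⁻¹ X ∈ M.h67F p ∧ ‖M.Ad w⁻¹ X‖ ≤ K * (m + 1) ^ D * ‖X‖ := by
  induction n generalizing p with
  | zero =>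
    refine ⟨1, 0, le_rfl, fun m w _ X hX => ?_⟩
    have h0 : X = 0 := funext fun l => hX.2 l (by have := l.2; omega)
    subst h0
    simp
  | succ n ih =>
    obtain ⟨K, D, hK, h⟩ := ih (p + 1) (by omega)
    obtain ⟨L, hL, hgen⟩ := M.h67_gen_bound
    have hstep : ∀ x : G, (x ∈ Set.range M.c ∨ x⁻¹ ∈ Set.range M.c) → ∀ X ∈ M.h67F p,
        M.Ad x⁻¹ X - X ∈ M.h67F (p + 1) := by
      intro x hx X hX
      rcases hx with ⟨i, rfl⟩ | ⟨i, hi⟩
      · have h1 := (h 1 (M.c i) (Ball.mem_of_mem ⟨i, rfl⟩) _ (M.h67F_step p i hX)).1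
        have h2 : M.Ad (M.c i)⁻¹ (M.Ad (M.c i) X) = X := by
          rw [← Module.End.mul_apply, ← map_mul, inv_mul_cancel, map_one, Module.End.one_apply]
        rw [map_sub, h2] at h1
        simpa using (M.h67F (p + 1)).neg_mem h1
      · rw [← hi]
        exact M.h67F_step p i hX
    have hKL : 1 ≤ K * L := by nlinarith
    refine ⟨K * L, D + 1, hKL, fun m => ?_⟩
    induction m with
    | zero =>
      intro w hw X hX
      rw [h31_ball_zero] at hw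
      obtain rfl : w = 1 := hw
      simp only [inv_one, map_one, Module.End.one_apply]
      refine ⟨hX, ?_⟩
      have := norm_nonneg X
      simp only [Nat.cast_zero, zero_add, one_pow, mul_one]
      nlinarith
    | succ m ihm =>
      intro w hw X hX
      have hX0 := norm_nonneg X
      have hm0 : (0 : ℝ) ≤ m := m.cast_nonneg
      rcases h31_ball_succ hw with rfl | ⟨x, hx, b, hb, rfl⟩
      · obtain ⟨h1, h2⟩ := ihm 1 (Ball.one_mem _ _) X hX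
        refine ⟨h1, h2.trans ?_⟩
        push_cast
        gcongr
        linarith
      · have he : M.Ad (x * b)⁻¹ X = M.Ad b⁻¹ X + M.Ad b⁻¹ (M.Ad x⁻¹ X - X) := by
          rw [mul_inv_rev, map_mul, Module.End.mul_apply, map_sub]; abel
        obtain ⟨h1, h2⟩ := ihm b hb X hX
        obtain ⟨h3, h4⟩ := h m b hb _ (hstep x hx X hX)
        rw [he]
        refine ⟨(M.h67F p).add_mem h1 (M.h67F_anti p h3), (norm_add_le _ _).trans ?_⟩
        have h5 : K * ((m : ℝ) + 1) ^ D * ‖M.Ad x⁻¹ X - X‖ ≤ K * ((m : ℝ) + 1) ^ D * (L * ‖X‖) :=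
          mul_le_mul_of_nonneg_left (hgen x hx X) (by positivity)
        have h6 : ((m : ℝ) + 1) ^ D ≤ ((m : ℝ) + 1 + 1) ^ D := by
          gcongr
          linarith
        have h7 : ((m : ℝ) + 1) ^ (D + 1) + ((m : ℝ) + 1) ^ D ≤ ((m : ℝ) + 1 + 1) ^ (D + 1) := by
          rw [pow_succ, pow_succ]
          nlinarith
        have h8 : K * L * ‖X‖ * (((m : ℝ) + 1) ^ (D + 1) + ((m : ℝ) + 1) ^ D) ≤
            K * L * ‖X‖ * ((m : ℝ) + 1 + 1) ^ (D + 1) :=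
          mul_le_mul_of_nonneg_left h7 (by positivity)
        push_cast
        nlinarith

/-- the lifts act unipotently on the zero weight space.  `F p = {X ∈ Z0 | ∀ l < p, X l = 0}`;
`Ad (c i) - 1` maps `F p` to `F (p + 1)` (`c_tri`, `c_diag`), `Ad (c i)` is injective, hence bijective
on `F p`, so the same holds for `Ad (c i)⁻¹`; downward induction on `p`, induction on `m` -/
theorem lf_Ad_poly : ∃ (K : ℝ) (D : ℕ), 1 ≤ K ∧ ∀ (m : ℕ), ∀ w ∈ Ball (Set.range M.c) m,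
    ∀ X ∈ M.Z0, M.Ad w X ∈ M.Z0 ∧ ‖M.Ad w X‖ ≤ K * (m + 1) ^ D * ‖X‖ := by
  obtain ⟨K, D, hK, h⟩ := M.h67_Ad_poly M.d 0 (zero_add _)
  refine ⟨K, D, hK, fun m w hw X hX => ?_⟩
  obtain ⟨h1, h2⟩ := h m w⁻¹ (Ball.inv_mem hw) X ⟨hX, fun l hl => absurd hl (Nat.not_lt_zero _)⟩
  rw [inv_inv] at h1 h2
  exact ⟨h1.1, h2⟩

theorem h54_Ad_ex_le : ∃ B : ℝ, 0 ≤ B ∧ ∀ Y X : Fin M.d → ℝ, ‖Y‖ ≤ 1 →
    ‖M.Ad (M.ex Y) X‖ ≤ B * ‖X‖ := by
  obtain ⟨T, hT⟩ : ∃ T : (Fin M.d → ℝ) →L[ℝ] (Fin M.d → ℝ) →L[ℝ] (Fin M.d → ℝ),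
      ∀ Y X, T Y X = M.br Y X :=
    ⟨LinearMap.toContinuousLinearMap
      ((LinearMap.toContinuousLinearMap (𝕜 := ℝ) (E := Fin M.d → ℝ)
        (F' := Fin M.d → ℝ)).toLinearMap ∘ₗ M.br), fun _ _ => rfl⟩
  refine ⟨∑ n ∈ Finset.range (M.d + 1), ‖T‖ ^ n, by positivity, fun Y X hY => ?_⟩
  have h1 : ∀ Z, ‖M.br Y Z‖ ≤ ‖T‖ * ‖Z‖ := fun Z => by
    rw [← hT]
    refine (T.le_opNorm₂ Y Z).trans (mul_le_mul_of_nonneg_right ?_ (norm_nonneg _))
    exact mul_le_of_le_one_right T.opNorm_nonneg hY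
  have h2 : ∀ n : ℕ, ‖(M.br Y ^ n) X‖ ≤ ‖T‖ ^ n * ‖X‖ := by
    intro n
    induction n with
    | zero => simp
    | succ n ih =>
      rw [pow_succ', Module.End.mul_apply, pow_succ', mul_assoc]
      exact (h1 _).trans (mul_le_mul_of_nonneg_left ih T.opNorm_nonneg)
  rw [M.Ad_ex, LinearMap.sum_apply, Finset.sum_mul]
  refine (norm_sum_le _ _).trans (Finset.sum_le_sum fun n _ => ?_)
  rw [LinearMap.smul_apply, norm_smul]
  refine le_trans (mul_le_of_le_one_left (norm_nonneg _) ?_) (h2 n)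
  rw [norm_inv, Real.norm_natCast]
  exact inv_le_one_of_one_le₀ (by exact_mod_cast Nat.factorial_pos n)

theorem h54_Ad_gen_le : ∃ B : ℝ, 1 ≤ B ∧ ∀ s : G, (s ∈ M.Sg ∨ s⁻¹ ∈ M.Sg) → ∀ X,
    ‖M.Ad s X‖ ≤ B * ‖X‖ := by
  obtain ⟨B, hB, h⟩ := M.h54_Ad_ex_le
  obtain ⟨N, hN0, hN⟩ : ∃ N : G → ℝ, (∀ g, 0 ≤ N g) ∧ ∀ g X, ‖M.Ad g X‖ ≤ N g * ‖X‖ :=
    ⟨fun g => ‖LinearMap.toContinuousLinearMap (M.Ad g)‖, fun _ => norm_nonneg _,
      fun g X => (LinearMap.toContinuousLinearMap (M.Ad g)).le_opNorm X⟩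
  have hs : 0 ≤ ∑ i, (N (M.c i) + N (M.c i)⁻¹) :=
    Finset.sum_nonneg fun i _ => add_nonneg (hN0 _) (hN0 _)
  have hi : ∀ i, N (M.c i) + N (M.c i)⁻¹ ≤ ∑ i, (N (M.c i) + N (M.c i)⁻¹) := fun i =>
    Finset.single_le_sum (f := fun i => N (M.c i) + N (M.c i)⁻¹)
      (fun i _ => add_nonneg (hN0 _) (hN0 _)) (Finset.mem_univ i)
  refine ⟨1 + B + ∑ i, (N (M.c i) + N (M.c i)⁻¹), by linarith, fun s hs' X => ?_⟩
  have hX := norm_nonneg X
  rcases hs' with (⟨Y, hY, rfl⟩ | ⟨i, rfl⟩) | (⟨Y, hY, e⟩ | ⟨i, e⟩)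
  · exact (h Y X (mem_closedBall_zero_iff.1 hY)).trans
      (mul_le_mul_of_nonneg_right (by linarith) hX)
  · exact (hN _ X).trans
      (mul_le_mul_of_nonneg_right (by linarith [hi i, hN0 (M.c i)⁻¹]) hX)
  · have : s = M.ex (-Y) := by rw [M.ex_neg, e, inv_inv]
    rw [this]
    exact (h (-Y) X (by rw [norm_neg]; exact mem_closedBall_zero_iff.1 hY)).trans
      (mul_le_mul_of_nonneg_right (by linarith) hX)
  · have : s = (M.c i)⁻¹ := by rw [e, inv_inv]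
    rw [this]
    exact (hN _ X).trans
      (mul_le_mul_of_nonneg_right (by linarith [hi i, hN0 (M.c i)]) hX)

/-- `Ad_ex` (a bilinear map is bounded), finitely many `c i`, `(c i)⁻¹`; induction on `m` -/
theorem lf_Ad_exp : ∃ K : ℝ, 0 ≤ K ∧ ∀ (m : ℕ), ∀ x ∈ Ball M.Sg m, ∀ X,
    ‖M.Ad x X‖ ≤ Real.exp (K * m) * ‖X‖ := by
  obtain ⟨B, hB, h⟩ := M.h54_Ad_gen_le
  refine ⟨Real.log B, Real.log_nonneg hB, fun m => ?_⟩
  induction m with
  | zero =>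
    intro x hx X
    rw [h31_ball_zero, Set.mem_singleton_iff] at hx
    simp [hx]
  | succ m ih =>
    intro x hx X
    rcases h31_ball_succ hx with rfl | ⟨s, hs, b, hb, rfl⟩
    · rw [map_one, Module.End.one_apply]
      exact le_mul_of_one_le_left (norm_nonneg _)
        (Real.one_le_exp (mul_nonneg (Real.log_nonneg hB) (Nat.cast_nonneg _)))
    · rw [map_mul, Module.End.mul_apply, Nat.cast_succ, mul_add, mul_one, Real.exp_add,
        Real.exp_log (by linarith), mul_comm _ B, mul_assoc]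
      exact (h s hs _).trans (mul_le_mul_of_nonneg_left (ih b hb X) (by linarith))

/-- `comms c` is finite (`lf65_comms_finite`); each of its elements is a conjugate of a `c_comm` element by a word in `c`
(`Ad_conj`, `lf_Ad_poly`) -/
theorem lf_comms : ∃ ρ : ℝ, 1 ≤ ρ ∧ comms M.c ⊆ M.EB M.Z0 ρ := by
  obtain ⟨K, D, -, hK⟩ := M.lf_Ad_poly
  have hc : ∀ i, M.c i ∈ Ball (Set.range M.c) 1 := fun i => Ball.mem_of_mem ⟨i, rfl⟩
  have key : ∀ (m : ℕ) (w : G), w ∈ Ball (Set.range M.c) m → ∀ i j, ∃ X ∈ M.Z0,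
      M.ex X = w * (M.c i * M.c j * (M.c i)⁻¹ * (M.c j)⁻¹) * w⁻¹ := by
    intro m w hw i j
    obtain ⟨X, hX, e⟩ := M.c_comm i j
    exact ⟨M.Ad w X, (hK m w hw X hX).1, by rw [e, M.Ad_conj]⟩
  have h1 : ∀ g ∈ comms M.c, ∃ X ∈ M.Z0, M.ex X = g := by
    rintro _ ⟨i, j, e, e', he, he', rfl⟩
    have h0 : ∃ X ∈ M.Z0, M.ex X = 1 := ⟨0, zero_mem _, M.ex_zero⟩
    obtain rfl | rfl | rfl : e = -1 ∨ e = 0 ∨ e = 1 := by omega
    · obtain rfl | rfl | rfl : e' = -1 ∨ e' = 0 ∨ e' = 1 := by omega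
      · obtain ⟨X, hX, h⟩ := key _ _ (Ball.inv_mem (Ball.mul_mem (hc j) (hc i))) i j
        exact ⟨X, hX, by rw [h]; group⟩
      · simpa using h0
      · obtain ⟨X, hX, h⟩ := key _ _ (Ball.inv_mem (hc i)) j i
        exact ⟨X, hX, by rw [h]; group⟩
    · simpa using h0
    · obtain rfl | rfl | rfl : e' = -1 ∨ e' = 0 ∨ e' = 1 := by omega
      · obtain ⟨X, hX, h⟩ := key _ _ (Ball.inv_mem (hc j)) j i
        exact ⟨X, hX, by rw [h]; group⟩
      · simpa using h0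
      · obtain ⟨X, hX, h⟩ := key _ _ (Ball.one_mem _ 0) i j
        exact ⟨X, hX, by rw [h]; group⟩
  choose! f hf hf' using h1
  obtain ⟨ρ, hρ⟩ := ((lf65_comms_finite M.c).image fun g => ‖f g‖).bddAbove
  exact ⟨max 1 ρ, le_max_left _ _, fun g hg => ⟨f g, ⟨hf g hg,
    (hρ (Set.mem_image_of_mem _ hg)).trans (le_max_right _ _)⟩, hf' g hg⟩⟩

/-- move the letters `c i` to the right -/
theorem lf_split (m : ℕ) : ∀ x ∈ Ball M.SF m, ∃ y ∈ CP (Ball (Set.range M.c) m) (M.EB M.Z0 1) m,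
    ∃ w ∈ Ball (Set.range M.c) m, x = y * w := by
  induction m with
  | zero =>
    intro x hx
    rw [h31_ball_zero, Set.mem_singleton_iff] at hx
    exact ⟨1, Ball.one_mem _ _, 1, Ball.one_mem _ _, by rw [hx, mul_one]⟩
  | succ m ih =>
    intro x hx
    rcases h31_ball_succ hx with rfl | ⟨s, hs, b, hb, rfl⟩
    · exact ⟨1, Ball.one_mem _ _, 1, Ball.one_mem _ _, (mul_one _).symm⟩
    obtain ⟨y, hy, w, hw, rfl⟩ := ih b hb
    have h1 : ∀ t ∈ M.EB M.Z0 1, t ∈ CP (Ball (Set.range M.c) (m + 1)) (M.EB M.Z0 1) 1 :=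
      fun t ht => Ball.mem_of_mem ⟨1, Ball.one_mem _ _, t, ht, by group⟩
    have hs' : s ∈ CP (Ball (Set.range M.c) (m + 1)) (M.EB M.Z0 1) 1 ∨
        s ∈ Ball (Set.range M.c) 1 := by
      rcases hs with (hs | hs) | (hs | hs)
      · exact Or.inl (h1 s hs)
      · exact Or.inr (Ball.mem_of_mem hs)
      · exact Or.inl (inv_inv s ▸ CP.inv_mem (h1 _ hs))
      · exact Or.inr (inv_inv s ▸ Ball.inv_mem (Ball.mem_of_mem hs))
    rcases hs' with hs' | hs'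
    · refine ⟨s * y, ?_, w, Ball.mono subset_rfl (Nat.le_succ m) hw, (mul_assoc _ _ _).symm⟩
      have := CP.mul_mem hs' (CP.mono (Ball.mono subset_rfl (Nat.le_succ m)) subset_rfl le_rfl hy)
      rwa [add_comm 1 m] at this
    · refine ⟨s * y * s⁻¹, CP.mono subset_rfl subset_rfl (Nat.le_succ m) (CP.conj_mem s
        (fun a ha => add_comm 1 m ▸ Ball.mul_mem hs' ha) hy), s * w,
        add_comm 1 m ▸ Ball.mul_mem hs' hw, by group⟩

/-- `lf_split`, `lf_collect` (`sec = opw c` by `rfl`), `lf_comms`, `lf_Ad_poly`, `Ad_conj`,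
`lf_prod_le` with `E = Z0` -/
theorem lf_flat : ∃ (K : ℝ) (D : ℕ), 1 ≤ K ∧ ∀ (m : ℕ), ∀ x ∈ Ball M.SF m,
    ∃ (X : Fin M.d → ℝ) (a : Fin k → ℤ), ‖X‖ ≤ K * (m + 1) ^ D ∧ ∑ i, (a i).natAbs ≤ m ∧
      x = M.ex X * M.sec a := by
  obtain ⟨K₁, D₁, hK₁, h₁⟩ := M.lf_Ad_poly
  obtain ⟨K₂, D₂, hK₂, h₂⟩ := M.lf_prod_le
  obtain ⟨ρ, hρ, h₃⟩ := M.lf_comms
  have h5 : (1 : ℝ) ≤ 5 ^ D₁ := one_le_pow₀ (by norm_num)
  have hA : 1 ≤ K₁ * 5 ^ D₁ * ρ := one_le_mul_of_one_le_of_one_le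
    (one_le_mul_of_one_le_of_one_le hK₁ h5) hρ
  refine ⟨(K₂ * 2 * (K₁ * 5 ^ D₁ * ρ)) ^ D₂, (3 + D₁) * D₂,
    one_le_pow₀ (one_le_mul_of_one_le_of_one_le (by linarith) hA), fun m x hx => ?_⟩
  obtain ⟨y, hy, w, hw, rfl⟩ := M.lf_split m x hx
  obtain ⟨a, ha, y', hy', rfl⟩ := lf_collect M.c hw
  have hm : (0 : ℝ) ≤ m := m.cast_nonneg
  have hp : (1 : ℝ) ≤ (m + 1) ^ D₁ := one_le_pow₀ (by linarith)
  set ρ' : ℝ := K₁ * 5 ^ D₁ * ρ * (m + 1) ^ D₁ with hρ'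
  have hsub : ∀ n, CP (Ball (Set.range M.c) (5 * m)) (M.EB M.Z0 ρ) n ⊆ Ball (M.EB M.Z0 ρ') n := by
    intro n
    refine Ball.mono ?_ le_rfl
    rintro _ ⟨g, hg, _, ⟨X, ⟨hX, hXn⟩, rfl⟩, rfl⟩
    obtain ⟨h4, h6⟩ := h₁ _ g hg X hX
    refine ⟨M.Ad g X, ⟨h4, h6.trans ?_⟩, (M.Ad_conj g X).symm⟩
    have h7 : (((5 * m : ℕ) : ℝ) + 1) ^ D₁ ≤ 5 ^ D₁ * (m + 1) ^ D₁ := by
      rw [← mul_pow]
      refine pow_le_pow_left₀ (by positivity) ?_ _
      push_cast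
      linarith
    calc K₁ * (((5 * m : ℕ) : ℝ) + 1) ^ D₁ * ‖X‖ ≤ K₁ * (5 ^ D₁ * (m + 1) ^ D₁) * ρ := by
          gcongr
      _ = ρ' := by rw [hρ']; ring
  have hEB : M.EB M.Z0 1 ⊆ M.EB M.Z0 ρ := Set.image_mono fun X hX => ⟨hX.1, hX.2.trans hρ⟩
  have h8 := Ball.mul_mem
    (hsub m (CP.mono (Ball.mono subset_rfl (by omega)) hEB le_rfl hy))
    (hsub _ (CP.mono subset_rfl h₃ le_rfl hy'))
  obtain ⟨X, ⟨-, hX⟩, e⟩ := h₂ M.Z0 M.lf_sub_Z0 _ ρ' (one_le_mul_of_one_le_of_one_le hA hp) h8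
  refine ⟨X, a, hX.trans ?_, ha, by rw [e, mul_assoc]; rfl⟩
  rw [pow_mul, ← mul_pow]
  refine pow_le_pow_left₀ (by positivity) ?_ _
  have h9 : ((m + 2 * m ^ 3 : ℕ) : ℝ) + 1 ≤ 2 * (m + 1) ^ 3 := by
    push_cast
    nlinarith [sq_nonneg (m : ℝ)]
  calc K₂ * (((m + 2 * m ^ 3 : ℕ) : ℝ) + 1) * ρ' ≤ K₂ * (2 * (m + 1) ^ 3) * ρ' := by gcongr
    _ = _ := by rw [hρ']; ring

theorem h12_sg_split {s : G} (hs : s ∈ Ball M.Sg 1) :
    ∃ Y : Fin M.d → ℝ, ‖Y‖ ≤ 1 ∧ ∃ c ∈ Ball M.SF 1, s = M.ex Y * c := by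
  have h1 : ∀ c ∈ Ball M.SF 1, ∃ Y : Fin M.d → ℝ, ‖Y‖ ≤ 1 ∧ ∃ c' ∈ Ball M.SF 1, c = M.ex Y * c' :=
    fun c hc => ⟨0, by simp, c, hc, by simp⟩
  rcases h31_ball_succ hs with rfl | ⟨x, hx, b, hb, rfl⟩
  · exact h1 1 (Ball.one_mem _ _)
  rw [h31_ball_zero, Set.mem_singleton_iff] at hb
  subst hb
  rw [mul_one]
  rcases hx with (⟨Y, hY, rfl⟩ | hx) | (⟨Y, hY, e⟩ | hx)
  · exact ⟨Y, mem_closedBall_zero_iff.1 hY, 1, Ball.one_mem _ _, (mul_one _).symm⟩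
  · exact h1 x (Ball.mem_of_mem (Or.inr hx))
  · refine ⟨-Y, by rw [norm_neg]; exact mem_closedBall_zero_iff.1 hY, 1, Ball.one_mem _ _, ?_⟩
    rw [mul_one, M.ex_neg, e, inv_inv]
  · exact h1 x (inv_inv x ▸ Ball.inv_mem (Ball.mem_of_mem (Or.inr hx)))

/-- `Ball Sg 1 * Ball SF j ⊆ EB ⊤ 1 * Ball SF (j + 1)`, `lf_flat`, `lf_prod_le`; a union over
`a ∈ Fintype.piFinset fun _ => Finset.Icc (-(j + 1)) (j + 1)`; `Real.volume_pi_closedBall` -/
theorem lf_poly [MeasurableSpace G] {μ : Measure G}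
    (hex : ∀ (g : G) (ρ : ℝ), μ ((fun X => M.ex X * g) '' Metric.closedBall 0 ρ) =
      volume (Metric.closedBall (0 : Fin M.d → ℝ) ρ)) :
    ∃ (C : ℝ) (D : ℕ), ∀ j : ℕ, μ.real (Ball M.Sg 1 * Ball M.SF j) ≤ C * (j + 1) ^ D := by
  obtain ⟨K, D, hK, hfl⟩ := M.lf_flat
  obtain ⟨K', D', hK', hpr⟩ := M.lf_prod_le
  refine ⟨3 ^ k * (2 * (K' * 3 * (K * 2 ^ D)) ^ D') ^ M.d, k + D * D' * M.d, fun j => ?_⟩
  have hj : (0 : ℝ) ≤ j := j.cast_nonneg
  set ρ : ℝ := K * (2 * ((j : ℝ) + 1)) ^ D with hρ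
  have hρ1 : 1 ≤ ρ := one_le_mul_of_one_le_of_one_le hK (one_le_pow₀ (by linarith))
  set R : ℝ := (K' * 3 * ρ) ^ D' with hR
  have hR0 : 0 ≤ R := by positivity
  set A : Finset (Fin k → ℤ) :=
    Fintype.piFinset fun _ => Finset.Icc (-((j : ℤ) + 1)) ((j : ℤ) + 1) with hA
  have hsub : Ball M.Sg 1 * Ball M.SF j ⊆
      ⋃ a ∈ A, (fun X => M.ex X * M.sec a) '' Metric.closedBall 0 R := by
    rintro _ ⟨s, hs, x, hx, rfl⟩
    obtain ⟨Y, hY, c, hc, rfl⟩ := M.h12_sg_split hs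
    obtain ⟨X, a, hX, ha, e⟩ := hfl (1 + j) _ (Ball.mul_mem hc hx)
    have hX' : ‖X‖ ≤ ρ := by
      refine hX.trans (mul_le_mul_of_nonneg_left (pow_le_pow_left₀ (by positivity) ?_ D)
        (by linarith))
      push_cast; linarith
    have h2 : M.ex Y * M.ex X ∈ Ball (M.EB ⊤ ρ) (1 + 1) :=
      Ball.mul_mem (Ball.mem_of_mem ⟨Y, ⟨trivial, hY.trans hρ1⟩, rfl⟩)
        (Ball.mem_of_mem ⟨X, ⟨trivial, hX'⟩, rfl⟩)
    obtain ⟨Z, ⟨-, hZ⟩, eZ⟩ := hpr ⊤ (Sub.top M) (1 + 1) ρ hρ1 h2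
    refine Set.mem_iUnion₂.2 ⟨a, ?_, Z, mem_closedBall_zero_iff.2 (hZ.trans (le_of_eq ?_)), ?_⟩
    · refine Fintype.mem_piFinset.2 fun i => Finset.mem_Icc.2 ?_
      have := (Finset.single_le_sum (f := fun i => (a i).natAbs) (fun _ _ => Nat.zero_le _)
        (Finset.mem_univ i)).trans ha
      omega
    · rw [hR]; push_cast; norm_num
    · change M.ex Z * M.sec a = M.ex Y * c * x
      rw [eZ, mul_assoc, ← e, mul_assoc]
  have hcard : (A.card : ℝ) = (2 * (j : ℝ) + 3) ^ k := by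
    rw [hA, Fintype.card_piFinset, Finset.prod_const, Finset.card_univ, Fintype.card_fin,
      Int.card_Icc, show ((j : ℤ) + 1 + 1 - -((j : ℤ) + 1)).toNat = 2 * j + 3 by omega]
    push_cast; ring
  have hle : μ (Ball M.Sg 1 * Ball M.SF j) ≤ ENNReal.ofReal (A.card * (2 * R) ^ M.d) := by
    refine (measure_mono hsub).trans ((measure_biUnion_finset_le _ _).trans (le_of_eq ?_))
    simp only [hex, Real.volume_pi_closedBall _ hR0, Finset.sum_const, Fintype.card_fin,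
      nsmul_eq_mul]
    rw [ENNReal.ofReal_mul (Nat.cast_nonneg _), ENNReal.ofReal_natCast]
  refine (ENNReal.toReal_le_of_le_ofReal (by positivity) hle).trans ?_
  rw [hcard]
  have e : (2 * R) ^ M.d = (2 * (K' * 3 * (K * 2 ^ D)) ^ D') ^ M.d * ((j : ℝ) + 1) ^ (D * D' * M.d) := by
    rw [hR, hρ]
    simp only [mul_pow, pow_mul]
    ring
  have h3 : (2 * (j : ℝ) + 3) ^ k ≤ 3 ^ k * ((j : ℝ) + 1) ^ k := by
    rw [← mul_pow]
    exact pow_le_pow_left₀ (by positivity) (by linarith) k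
  rw [e, pow_add]
  have hK0 : 0 ≤ K := by linarith
  have hK0' : 0 ≤ K' := by linarith
  refine (mul_le_mul_of_nonneg_right h3 (by positivity)).trans (le_of_eq (by ring))

/-- the group law is compatible with congruence modulo an ideal -/
theorem lf_bc_congr {E : Submodule ℝ (Fin M.d → ℝ)} (hE : ∀ X ∈ E, ∀ Y, M.br Y X ∈ E)
    {X X' : Fin M.d → ℝ} (h : X - X' ∈ E) (Y : Fin M.d → ℝ) : M.bc X Y - M.bc X' Y ∈ E := by
  have hanti : ∀ U ∈ E, ∀ V, M.br U V ∈ E := by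
    intro U hU V
    have h1 := M.br_self (U + V)
    simp only [map_add, LinearMap.add_apply, M.br_self, zero_add, add_zero] at h1
    have h2 : M.br U V = -M.br V U := by
      first
        | exact eq_neg_of_add_eq_zero_left h1
        | exact eq_neg_of_add_eq_zero_right h1
    rw [h2]
    exact E.neg_mem (hE U hU V)
  have hev : ∀ t : LTree, M.ev t X Y - M.ev t X' Y ∈ E := by
    intro t
    induction t with
    | x => exact h
    | y => rw [ev_y, ev_y, sub_self]; exact E.zero_mem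
    | node s t hs ht =>
      have e : M.ev (.node s t) X Y - M.ev (.node s t) X' Y =
          M.br (M.ev s X Y - M.ev s X' Y) (M.ev t X Y) +
            M.br (M.ev s X' Y) (M.ev t X Y - M.ev t X' Y) := by
        rw [ev_node, ev_node, map_sub, map_sub, LinearMap.sub_apply]; abel
      rw [e]
      exact E.add_mem (hanti _ hs _) (hE _ ht _)
  have hl : ∀ l : List (ℝ × LTree × LTree),
      (l.map fun p => p.1 • M.ev (LTree.node p.2.1 p.2.2) X Y).sum -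
        (l.map fun p => p.1 • M.ev (LTree.node p.2.1 p.2.2) X' Y).sum ∈ E := by
    intro l
    induction l with
    | nil => simp
    | cons p l ih =>
      rw [List.map_cons, List.map_cons, List.sum_cons, List.sum_cons, add_sub_add_comm, ← smul_sub]
      exact E.add_mem (E.smul_mem _ (hev _)) ih
  have e : M.bc X Y - M.bc X' Y = (X - X') + (M.hi X Y - M.hi X' Y) := by
    unfold bc; abel
  rw [e]
  exact E.add_mem h (hl M.bch)

/-- `ex Y = ex (bc Y (-Y₀)) * ex Y₀`, `Y₀` the zero weight part; `lf_bc_congr`, `lf_prod_le` -/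
theorem lf_dec {E : Submodule ℝ (Fin M.d → ℝ)} (hE1 : ∀ j, M.wt j ≠ 0 → Pi.single j 1 ∈ E)
    (hE2 : ∀ X ∈ E, ∀ Y, M.br Y X ∈ E) :
    ∃ ρ : ℝ, 1 ≤ ρ ∧ ∀ s ∈ Ball M.Sg 1, ∃ e ∈ M.EB E ρ, ∃ c ∈ Ball M.SF 1, s = e * c := by
  classical
  obtain ⟨K, D, hK, hP⟩ := M.lf_prod_le
  have hρ : (1 : ℝ) ≤ (K * (((2 : ℕ) : ℝ) + 1) * 1) ^ D := one_le_pow₀ (by push_cast; linarith)
  refine ⟨_, hρ, ?_⟩
  have hone : (1 : G) ∈ M.EB E ((K * (((2 : ℕ) : ℝ) + 1) * 1) ^ D) :=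
    ⟨0, ⟨E.zero_mem, by rw [norm_zero]; linarith⟩, M.ex_zero⟩
  have hex : ∀ Y : Fin M.d → ℝ, ‖Y‖ ≤ 1 → ∃ e ∈ M.EB E ((K * (((2 : ℕ) : ℝ) + 1) * 1) ^ D),
      ∃ c ∈ Ball M.SF 1, M.ex Y = e * c := by
    intro Y hY
    set Y₀ : Fin M.d → ℝ := fun j => if M.wt j = 0 then Y j else 0 with hY₀
    have h0 : Y₀ ∈ M.Z0 := fun j hj => if_neg hj
    have hn : ‖Y₀‖ ≤ 1 := by
      refine (pi_norm_le_iff_of_nonneg zero_le_one).2 fun j => ?_
      by_cases hj : M.wt j = 0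
      · rw [show Y₀ j = Y j from if_pos hj]; exact (norm_le_pi_norm Y j).trans hY
      · rw [show Y₀ j = 0 from if_neg hj, norm_zero]; exact zero_le_one
    have hd : Y - Y₀ ∈ E := by
      rw [← Finset.univ_sum_single (Y - Y₀)]
      refine E.sum_mem fun j _ => ?_
      by_cases hj : M.wt j = 0
      · rw [Pi.sub_apply, show Y₀ j = Y j from if_pos hj, sub_self, Pi.single_zero]
        exact E.zero_mem
      · have := E.smul_mem ((Y - Y₀) j) (hE1 j hj)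
        rwa [← Pi.single_smul, smul_eq_mul, mul_one] at this
    have hm : M.bc Y (-Y₀) ∈ E := by
      have := M.lf_bc_congr hE2 hd (-Y₀)
      rwa [bc_neg_cancel, sub_zero] at this
    have hb : M.ex Y * M.ex (-Y₀) ∈ Ball (M.EB ⊤ 1) 2 :=
      Ball.mul_mem (r := 1) (s := 1) (Ball.mem_of_mem ⟨Y, ⟨trivial, hY⟩, rfl⟩)
        (Ball.mem_of_mem ⟨-Y₀, ⟨trivial, by rwa [norm_neg]⟩, rfl⟩)
    obtain ⟨Z, hZ, e⟩ := hP ⊤ (Sub.top M) 2 1 le_rfl hb
    rw [ex_mul'] at e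
    rw [M.ex_inj e] at hZ
    refine ⟨M.ex (M.bc Y (-Y₀)), ⟨_, ⟨hm, hZ.2⟩, rfl⟩, M.ex Y₀,
      Ball.mem_of_mem (Or.inl ⟨Y₀, ⟨h0, hn⟩, rfl⟩), ?_⟩
    rw [← ex_mul', ex_neg, inv_mul_cancel_right]
  intro s hs
  rcases h31_ball_succ (r := 0) hs with rfl | ⟨x, hx, b, hb, rfl⟩
  · exact ⟨1, hone, 1, Ball.one_mem _ _, (mul_one _).symm⟩
  rw [h31_ball_zero, Set.mem_singleton_iff] at hb
  rw [hb, mul_one x]
  rcases hx with (⟨Y, hY, rfl⟩ | hx) | (⟨Y, hY, e⟩ | hx)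
  · exact hex Y (by simpa using hY)
  · exact ⟨1, hone, x, Ball.mem_of_mem (Or.inr hx), (one_mul _).symm⟩
  · have e' : x = M.ex (-Y) := by rw [ex_neg, e, inv_inv]
    rw [e']
    exact hex (-Y) (by simpa using hY)
  · refine ⟨1, hone, x, ?_, (one_mul _).symm⟩
    have := Ball.inv_mem (Ball.mem_of_mem (T := M.SF) (Or.inr hx))
    rwa [inv_inv] at this

/-- **controlled Følner sets** -/
theorem lf_folner [TopologicalSpace G] [IsTopologicalGroup G] [T2Space G] [MeasurableSpace G]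
    [BorelSpace G] (hc : Continuous M.ex) {μ : Measure G}
    (hr : ∀ g A, MeasurableSet A → μ ((fun x => x * g) ⁻¹' A) = μ A)
    (hfin : ∀ K, IsCompact K → μ K ≠ ⊤) (hpos : μ (Ball M.Sg 1) ≠ 0)
    (hex : ∀ (g : G) (ρ : ℝ), μ ((fun X => M.ex X * g) '' Metric.closedBall 0 ρ) =
      volume (Metric.closedBall (0 : Fin M.d → ℝ) ρ))
    {E : Submodule ℝ (Fin M.d → ℝ)} (hE1 : ∀ j, M.wt j ≠ 0 → Pi.single j 1 ∈ E)
    (hE2 : ∀ X ∈ E, ∀ Y, M.br Y X ∈ E) (hE3 : ∀ g, ∀ X ∈ E, M.Ad g X ∈ E)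
    (hdist : ∃ C : ℕ, ∀ r : ℕ, ∀ X ∈ E, ‖X‖ ≤ Real.exp r → M.ex X ∈ Ball M.Sg (C * r + C))
    (R : ℕ) :
    ∃ KR : ℝ, ∀ n₀ : ℕ, ∃ n ≥ n₀, ∃ D : Set G, MeasurableSet D ∧ D ⊆ Ball M.Sg n ∧
      μ D ≠ 0 ∧ μ.real {y | (∃ b ∈ Ball M.Sg R, y * b ∈ D) ∧ ∃ b ∈ Ball M.Sg R, y * b ∉ D} ≤
        KR / n * μ.real D := by
  have hEB : ∀ (F : Submodule ℝ (Fin M.d → ℝ)) (ρ : ℝ), IsCompact (M.EB F ρ) := fun F ρ => by
    refine IsCompact.image ?_ hc
    refine ((isCompact_closedBall (0 : Fin M.d → ℝ) ρ).inter_left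
      F.closed_of_finiteDimensional).of_isClosed_subset ?_ fun X hX => ⟨hX.1, by simpa using hX.2⟩
    exact F.closed_of_finiteDimensional.inter (isClosed_le continuous_norm continuous_const)
  have hcc : IsCompact (Set.range M.c) := (Set.finite_range _).isCompact
  have hsub : M.SF ⊆ M.Sg := Set.union_subset_union_left _
    (Set.image_mono fun X hX => by simpa using hX.2)
  obtain ⟨ρ, hρ, hdec⟩ := M.lf_dec hE1 hE2
  obtain ⟨K, hK, hAd⟩ := M.lf_Ad_exp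
  obtain ⟨K', D, hK', hprod⟩ := M.lf_prod_le
  obtain ⟨C, hC⟩ := hdist
  obtain ⟨N, hN⟩ := exists_nat_ge (K' * ρ + K)
  have hKρ : 0 ≤ K' * ρ := by positivity
  refine R182.lf_folner hr hfin (fun j => M.EB E (Real.exp (K * j) * ρ))
    (((isCompact_closedBall _ _).image hc).union hcc) ((hEB _ _).union hcc) (fun j => hEB _ _) hpos
    hsub ?_ ⟨C * (D * (N + 2)) + C, fun j => ?_⟩ (M.lf_poly hex) R
  · intro j x hx s hs
    obtain ⟨_, ⟨X, ⟨hX, hXρ⟩, rfl⟩, c, hc, rfl⟩ := hdec s hs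
    refine ⟨M.ex (M.Ad x X), ⟨_, ⟨hE3 x X hX, (hAd j x (Ball.mono hsub le_rfl hx) X).trans
      (mul_le_mul_of_nonneg_left hXρ (Real.exp_pos _).le)⟩, rfl⟩, c, hc, ?_⟩
    rw [← M.Ad_conj]
    group
  · intro g hg
    have h1 : 1 ≤ Real.exp (K * j) := Real.one_le_exp (by positivity)
    obtain ⟨X, ⟨hX, hXρ⟩, rfl⟩ := hprod E (fun X _ Y hY => hE2 Y hY X) _ _
      (one_le_mul_of_one_le_of_one_le h1 hρ) hg
    refine Ball.mono subset_rfl (r := C * (D * ((N + 2) * (j + 1))) + C) (by nlinarith)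
      (hC _ X hX (hXρ.trans ?_))
    rw [Nat.cast_mul D, Real.exp_nat_mul]
    refine pow_le_pow_left₀ (by positivity) ?_ D
    have h2 : ((j : ℝ) + 1) ≤ Real.exp j := Real.add_one_le_exp _
    have h3 : (2 : ℝ) ^ j ≤ Real.exp j := by
      rw [← mul_one (j : ℝ), Real.exp_nat_mul]
      exact pow_le_pow_left₀ (by norm_num) (by linarith [Real.add_one_le_exp (1 : ℝ)]) j
    have h4 : (1 : ℝ) ≤ Real.exp j := Real.one_le_exp (Nat.cast_nonneg j)
    have h5 : (((j + 1) * 2 ^ j : ℕ) : ℝ) + 1 ≤ Real.exp 1 * (Real.exp j * Real.exp j) := by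
      push_cast
      have h6 : ((j : ℝ) + 1) * 2 ^ j ≤ Real.exp j * Real.exp j := by gcongr
      nlinarith [Real.add_one_le_exp (1 : ℝ), one_le_mul_of_one_le_of_one_le h4 h4]
    have h7 : K' * ρ ≤ Real.exp N := by linarith [Real.add_one_le_exp (N : ℝ)]
    have h8 : Real.exp (K * j) ≤ Real.exp (N * j) := by gcongr; linarith
    calc K' * ((((j + 1) * 2 ^ j : ℕ) : ℝ) + 1) * (Real.exp (K * j) * ρ)
        = K' * ρ * ((((j + 1) * 2 ^ j : ℕ) : ℝ) + 1) * Real.exp (K * j) := by ring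
      _ ≤ Real.exp N * (Real.exp 1 * (Real.exp j * Real.exp j)) * Real.exp (N * j) := by gcongr
      _ ≤ _ := by
        simp only [← Real.exp_add]
        push_cast
        exact Real.exp_le_exp.2 (by nlinarith)

end LieModel

end Crest.Agent.R182
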