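import Crest.Agent.R182.LBNu
import Crest.Agent.R182.LC4
import Crest.Agent.R182.LFLie

/-! Row 182, block L2: assembly of `Geo` from a `LieModel`. -/

set_option autoImplicit false
set_option linter.dupNamespace false

namespace Crest.Agent.R182

namespace LieModel

open MeasureTheory Filter

variable {G : Type} [Group G] {k : ℕ} {M : LieModel G k}
  [TopologicalSpace G] [MeasurableSpace G] [BorelSpace G]

theorem Cont.folner (hM : M.Cont) : M.SFolner := fun R => by
  have := hM.topGroup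
  have := hM.t2
  refine M.lf_folner hM.continuous_ex hM.mu_right (fun K hK => hM.mu_fin hK) hM.ball_pos
    (fun g ρ => ?_) (E := M.E) (fun j hj => M.e_mem_E hj) (fun X hX Y => M.br_mem_E Y hX)
    (fun g X hX => M.Ad_mem_E g hX) M.exists_dist R
  have := hM.mu_ex_mul (D := Metric.closedBall 0 ρ) measurableSet_closedBall 1 g
  simpa only [one_mul] using this

theorem Cont.exists_geo (hM : M.Cont) (hz0 : ∀ᶠ K : ℕ in atTop, M.SZig0 K)
    (hz : ∀ᶠ K : ℕ in atTop, M.SZig K) : ∃ X : Geo G k, X.Sg = M.Sg ∧ X.π = M.π := by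
  obtain ⟨K, ⟨⟨⟨h1, h2⟩, h3, h4⟩, ⟨h5, h6⟩, h7, h8⟩, ⟨⟨⟨h9, h10⟩, h11, h12⟩, ⟨h13, h14⟩, h15, h16⟩,
      h17⟩ :=
    ((((((eventually_ge_atTop 1).and M.SC_ball).and (M.box_prod.and M.box_conj)).and
      ((M.box_shear.and M.box_ball).and (M.box_gen.and M.RB_box))).and
      ((((M.RB_conj.and M.RB_ball).and (M.split.and (M.count0 M.nil_SC))).and
        (((M.count1 M.nil_SC).and (M.count2 M.nil_SC)).and (hz0.and hz))).and M.abel))).exists
  refine ⟨{
    Sg := M.Sg, gen := M.closure_Sg, π := M.π, π_hom := M.π_hom, π_int := M.π_int, K := K,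
    one_le_K := h1, π_lip := ?_, μ := M.mu, μ_left := hM.mu_left, μ_right := hM.mu_right,
    μ_sfin := M.mu_sfinite, ball_meas := hM.ball_meas, ball_fin := hM.ball_fin,
    ball_pos := hM.ball_pos, folner := hM.folner, SC := M.SC, nil := M.nil_SC, SC_ball := h2,
    SC_surj := M.SC_surj, ι := M.Cl, χ := M.χ, span := M.χ_span, u := M.u, u_self := M.u_self,
    u_ne := M.u_ne, β := M.Bas, wt := M.bw, wt_pos := M.bw_pos, wt_sum := M.bw_sum, dim := M.dim,
    dim_pos := M.dim_pos, Box := M.Box, RB := M.RB, box_one := M.box_one, box_inv := M.box_inv,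
    box_mono := M.box_mono, box_π := M.box_π, box_prod := h3, box_conj := h4, box_shear := h5,
    box_ball := h6, box_gen := h7, ball_dec := M.ball_dec, RB_one := M.RB_one, RB_inv := M.RB_inv,
    RB_mono := M.RB_mono, RB_box := h8, RB_conj := h9, RB_ball := h10, split := h11,
    ν := M.nu, ν_prob := hM.nu_prob, ν_box := hM.nu_box, ν_inv := hM.nu_inv,
    νR := M.nuR, νR_prob := hM.nuR_prob, νR_box := hM.nuR_box, νR_inv := hM.nuR_inv,
    count0 := h12, count1 := h13, count2 := h14, zig0 := h15, zig := h16, abel := h17 }, rfl, rfl⟩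
  have h1' : (1 : ℝ) ≤ K := by exact_mod_cast h1
  exact ⟨by positivity, fun x t ht => (M.π_lip.2 x t ht).trans h1'⟩

end LieModel

/-- block L2 from the two zigzag statements -/
theorem lieGeo_of
    (hz0 : ∀ (G : Type) [Group G] (k : ℕ) (M : LieModel G k), ∀ᶠ K : ℕ in Filter.atTop, M.SZig0 K)
    (hz : ∀ (G : Type) [Group G] (k : ℕ) (M : LieModel G k) [TopologicalSpace G] [MeasurableSpace G]
      [BorelSpace G], M.Cont → ∀ᶠ K : ℕ in Filter.atTop, M.SZig K) : LieGeo := by
  intro G _ k M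
  obtain ⟨τ, hM⟩ := M.exists_top
  letI : MeasurableSpace G := borel G
  haveI : BorelSpace G := ⟨rfl⟩
  obtain ⟨X, h1, h2⟩ := hM.exists_geo (hz0 G k M) (hz G k M hM)
  exact ⟨_, hM.measurableMul₂, hM.measurableInv, X, h1, h2⟩

end Crest.Agent.R182
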