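import Crest.Agent.R182.LBAd

/-! Row 182, block L2: the box axioms of `Geo`. -/

set_option autoImplicit false
set_option linter.dupNamespace false

namespace Crest.Agent.R182

namespace LieModel

open Filter

variable {G : Type} [Group G] {k : ℕ} (M : LieModel G k)

theorem box_one (a : M.Cl → ℝ) : (1 : G) ∈ M.Box a := by
  exact ⟨0, In.zero zero_le_one, M.ex_zero⟩

theorem box_inv (a : M.Cl → ℝ) : ∀ g ∈ M.Box a, g⁻¹ ∈ M.Box a := by
  rintro _ ⟨X, hX, rfl⟩
  exact ⟨-X, In.neg hX, M.ex_neg X⟩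

theorem box_mono (a a' : M.Cl → ℝ) (h : a ≤ a') : M.Box a ⊆ M.Box a' := by
  rintro _ ⟨X, hX, rfl⟩
  exact ⟨X, In.mono hX (fun _ _ h => h) h le_rfl, rfl⟩

theorem box_π (a : M.Cl → ℝ) : ∀ g ∈ M.Box a, M.π g = 0 := by
  rintro _ ⟨X, -, rfl⟩
  exact M.π_ex X

theorem RB_one (i : M.Cl) (b : ℝ) : (1 : G) ∈ M.RB i b := by
  refine ⟨0, ⟨(M.R i).zero_mem, fun j => ?_⟩, M.ex_zero⟩
  rw [Pi.zero_apply, abs_zero]
  exact (Real.exp_pos _).le

theorem RB_inv (i : M.Cl) (b : ℝ) : ∀ g ∈ M.RB i b, g⁻¹ ∈ M.RB i b := by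
  rintro _ ⟨X, ⟨h1, h2⟩, rfl⟩
  refine ⟨-X, ⟨(M.R i).neg_mem h1, fun j => ?_⟩, M.ex_neg X⟩
  rw [Pi.neg_apply, abs_neg]
  exact h2 j

theorem RB_mono (i : M.Cl) (b b' : ℝ) (h : b ≤ b') : M.RB i b ⊆ M.RB i b' := by
  rintro _ ⟨X, ⟨h1, h2⟩, rfl⟩
  exact ⟨X, ⟨h1, fun j => (h2 j).trans
    (Real.exp_le_exp.2 (mul_le_mul_of_nonneg_left h (M.kap_nonneg j)))⟩, rfl⟩

/-- `exists_bc`, `exists_absorb` -/
theorem exists_box_mul : ∃ C : ℝ, 0 ≤ C ∧ ∀ a, ∀ g ∈ M.Box a, ∀ g' ∈ M.Box a,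
    g * g' ∈ M.Box fun i => a i + C := by
  obtain ⟨C, hC, h⟩ := M.exists_bc 1
  obtain ⟨C', hC', h'⟩ := M.exists_absorb
  refine ⟨C' * C, by positivity, ?_⟩
  rintro a _ ⟨X, hX, rfl⟩ _ ⟨Y, hY, rfl⟩
  refine ⟨M.bc X Y, h' top a C C _ (by positivity) ?_ (h a X Y hX hY), (M.ex_mul' X Y).symm⟩
  linarith [Real.add_one_le_exp C]

/-- dyadic induction: lists of length `≤ 2 ^ j` have their product in `Box (a + j C)` -/
theorem box_prod : ∀ᶠ K : ℕ in atTop, ∀ a, ∀ l : List G, (∀ g ∈ l, g ∈ M.Box a) →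
    l.prod ∈ M.Box (fun i => a i + K * lg l.length) := by
  obtain ⟨C, hC, h⟩ := M.exists_box_mul
  have key : ∀ (j : ℕ) (a : M.Cl → ℝ) (l : List G), l.length ≤ 2 ^ j → (∀ g ∈ l, g ∈ M.Box a) →
      l.prod ∈ M.Box (fun i => a i + j * C) := by
    intro j
    induction j with
    | zero =>
      intro a l hl hg
      match l, hl, hg with
      | [], _, _ => exact M.box_one _
      | [g], _, hg =>
        rw [List.prod_singleton]
        exact M.box_mono _ _ (fun i => by simp) (hg g List.mem_cons_self)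
      | _ :: _ :: _, hl, _ => simp at hl
    | succ j ih =>
      intro a l hl hg
      rw [← List.prod_take_mul_prod_drop l (2 ^ j)]
      have h1 := ih a (l.take (2 ^ j)) (List.length_take_le _ _)
        fun g hg' => hg g (List.mem_of_mem_take hg')
      have h2 := ih a (l.drop (2 ^ j)) (by rw [List.length_drop, pow_succ] at *; omega)
        fun g hg' => hg g (List.mem_of_mem_drop hg')
      refine M.box_mono _ _ (fun i => le_of_eq ?_) (h _ _ h1 _ h2)
      push_cast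
      ring
  filter_upwards [tendsto_natCast_atTop_atTop.eventually_ge_atTop (2 * C)] with K hK a l hl
  refine M.box_mono _ _ (fun i => ?_)
    (key (Nat.log 2 l.length + 1) a l (Nat.lt_pow_succ_log_self one_lt_two _).le hl)
  have h1 : (2 : ℝ) ^ Nat.log 2 l.length ≤ 1 + l.length := by
    rcases Nat.eq_zero_or_pos l.length with h0 | h0
    · simp [h0]
    · have : 2 ^ Nat.log 2 l.length ≤ 1 + l.length :=
        (Nat.pow_log_le_self 2 h0.ne').trans (Nat.le_add_left _ _)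
      exact_mod_cast this
  have h2 := Real.log_le_log (by positivity) h1
  rw [Real.log_pow] at h2
  have h3 : (1 / 2 : ℝ) ≤ Real.log 2 := by linarith [Real.log_two_gt_d9]
  have h4 : (0 : ℝ) ≤ Nat.log 2 l.length := Nat.cast_nonneg _
  have h5 : ((Nat.log 2 l.length + 1 : ℕ) : ℝ) ≤ 2 * lg l.length := by
    push_cast
    unfold lg
    nlinarith
  have h6 := one_le_lg l.length
  change a i + ((Nat.log 2 l.length + 1 : ℕ) : ℝ) * C ≤ a i + K * lg l.length
  nlinarith [mul_le_mul_of_nonneg_right h5 hC]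

private theorem h86_ev (C : ℝ) : ∀ᶠ K : ℕ in atTop, C ≤ K :=
  tendsto_natCast_atTop_atTop.eventually_ge_atTop C

/-- `exists_Ad_in`, `exists_absorb` -/
theorem box_conj : ∀ᶠ K : ℕ in atTop, ∀ a, Adm M.χ a → ∀ m, ∀ c ∈ Ball (M.SC : Set G) m,
    ∀ g ∈ M.Box a, c * g * c⁻¹ ∈ M.Box (fun i => a i + M.χ i (M.π c) + K * lg m) := by
  obtain ⟨C, hC, h⟩ := M.exists_Ad_in
  obtain ⟨C', hC', h'⟩ := M.exists_absorb
  filter_upwards [h86_ev (C' * C)] with K hK a ha m c hc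
  rintro _ ⟨X, hX, rfl⟩
  have hl := one_le_lg m
  refine ⟨M.Ad c X, ?_, (M.Ad_conj c X).symm⟩
  have h1 := h' top _ (C * lg m) _ _ (by positivity) (by rw [one_mul]) (h a ha m c hc 1 X hX)
  refine h1.mono (fun _ _ h => h) (fun i => ?_) le_rfl
  have := mul_le_mul_of_nonneg_right hK (by linarith : 0 ≤ lg m)
  dsimp only
  linarith

/-- `exists_shift` (both elements at the level `a + t`), `exists_Ad_ex` -/
theorem box_shear : ∀ᶠ K : ℕ in atTop, ∀ (a : M.Cl → ℝ) (s t : ℝ), 0 ≤ s → K * s + K ≤ t →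
    ∀ m ∈ M.Box (fun i => a i + t + s), ∀ g ∈ M.Box a,
      m * g * m⁻¹ ∈ M.Box (fun i => a i + t) := by
  obtain ⟨κ₀, κ₁, h0, h1, h⟩ := M.exists_shift
  obtain ⟨C, hC, h'⟩ := M.exists_Ad_ex
  filter_upwards [h86_ev ((M.d * κ₁ + C) / κ₀)] with K hK a s t hs ht
  rintro _ ⟨Y, hY, rfl⟩ _ ⟨X, hX, rfl⟩
  have hK0 : (0 : ℝ) ≤ K := K.cast_nonneg
  have ht0 : 0 ≤ t := le_trans (by positivity) ht
  rw [div_le_iff₀ h0] at hK
  have hY1 := (h top (fun i => a i + t) s 1 Y hs).2 hY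
  have hX1 := (h top a t 1 X ht0).1 hX
  rw [one_mul] at hY1 hX1
  have h2 := h' top up_top _ _ _ Y X (Real.one_le_exp (by positivity)) hY1 hX1
  refine ⟨_, h2.mono (fun _ _ h => h) le_rfl ?_, (M.Ad_conj _ X).symm⟩
  have hd : (0 : ℝ) ≤ M.d * κ₁ := by positivity
  have h3 : C ≤ Real.exp C := by linarith [Real.add_one_le_exp C]
  calc C * Real.exp (κ₁ * s) ^ M.d * Real.exp (-(κ₀ * t))
      ≤ Real.exp C * Real.exp (κ₁ * s) ^ M.d * Real.exp (-(κ₀ * t)) := by gcongr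
    _ = Real.exp (C + M.d * (κ₁ * s) + -(κ₀ * t)) := by
        rw [← Real.exp_nat_mul, ← Real.exp_add, ← Real.exp_add]
    _ ≤ 1 := by
        refine Real.exp_le_one_iff.2 ?_
        have h4 := mul_le_mul_of_nonneg_left ht h0.le
        have h5 : M.d * κ₁ * s ≤ K * κ₀ * s :=
          mul_le_mul_of_nonneg_right (by linarith) hs
        nlinarith

theorem RB_box : ∀ᶠ K : ℕ in atTop, ∀ a, Adm M.χ a → ∀ i,
    M.RB i (a i) ⊆ M.Box (fun j => a j + K) := by
  obtain ⟨C, hC, h⟩ := M.exists_RD_in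
  obtain ⟨C', hC', h'⟩ := M.exists_absorb
  filter_upwards [h86_ev (C' * C)] with K hK a ha i
  rintro _ ⟨X, hX, rfl⟩
  have h1 := h' top a C C X (by linarith) (by linarith [Real.add_one_le_exp C]) (h a ha i X hX)
  exact ⟨X, h1.mono (fun _ _ h => h) (fun j => by dsimp only; linarith) le_rfl, rfl⟩

theorem RB_conj : ∀ᶠ K : ℕ in atTop, ∀ i b m, ∀ c ∈ Ball (M.SC : Set G) m, ∀ g ∈ M.RB i b,
    c * g * c⁻¹ ∈ M.RB i (b + M.χ i (M.π c) + K * lg m) := by
  obtain ⟨C, hC, h⟩ := M.exists_Ad_RD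
  filter_upwards [h86_ev C] with K hK i b m c hc
  rintro _ ⟨X, hX, rfl⟩
  have hl := one_le_lg m
  have := mul_le_mul_of_nonneg_right hK (by linarith : 0 ≤ lg m)
  exact M.RB_mono i _ _ (by linarith) ⟨M.Ad c X, h i b m c hc X hX, (M.Ad_conj c X).symm⟩

theorem h97_exists_neg (i : M.Cl) :
    ∃ (g : G) (m : ℕ), g ∈ Ball (M.SC : Set G) m ∧ M.χ i (M.π g) ≤ -1 := by
  obtain ⟨l, hl⟩ : ∃ l, M.χ i (Pi.single l 1) ≠ 0 := by
    by_contra h
    push Not at h
    have h1 := M.h45_unit i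
    simp [h] at h1
  obtain ⟨c, hc, hπ⟩ := M.SC_surj l
  obtain ⟨c', hc', h0⟩ : ∃ c' ∈ Ball (M.SC : Set G) 1, M.χ i (M.π c') < 0 := by
    have hb : c ∈ Ball (M.SC : Set G) 1 := Ball.mem_of_mem (Finset.mem_coe.2 hc)
    rcases lt_or_gt_of_ne hl with h | h
    · exact ⟨c, hb, by rwa [hπ]⟩
    · exact ⟨c⁻¹, Ball.inv_mem hb, by rw [M.π_hom.inv, map_neg, hπ]; linarith⟩
  obtain ⟨N, hN⟩ := exists_nat_ge (1 / -M.χ i (M.π c'))
  refine ⟨c' ^ N, N * 1, Ball.pow_mem hc' N, ?_⟩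
  rw [div_le_iff₀ (by linarith)] at hN
  rw [M.π_hom.pow, map_smul, smul_eq_mul]
  linarith

theorem h97_RD_nonpos {i : M.Cl} {b : ℝ} (hb : b ≤ 0) {X : Fin M.d → ℝ} (hX : X ∈ M.RD i b) :
    M.ex X ∈ Ball M.Sg 1 := by
  refine Ball.mem_of_mem (Or.inl ⟨X, ?_, rfl⟩)
  rw [mem_closedBall_zero_iff, pi_norm_le_iff_of_nonneg zero_le_one]
  intro j
  refine (hX.2 j).trans ?_
  rw [Real.exp_le_one_iff]
  exact mul_nonpos_of_nonneg_of_nonpos (M.kap_nonneg j) hb

/-- `z i` an integer vector with `χ i (z i) ≤ -1`; conjugate by `sec (z i) ^ n`, `n = 2 r + C`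
(`exists_Ad_RD`, `lg_le_lin`), `RB i 0 ⊆ Sg` -/
theorem RB_ball : ∀ᶠ K : ℕ in atTop, ∀ i (r : ℕ), M.RB i r ⊆ Ball M.Sg (K * r + K) := by
  obtain ⟨C, hC, h⟩ := M.exists_Ad_RD
  refine eventually_all.2 fun i => ?_
  obtain ⟨g, m, hg, hχ⟩ := M.h97_exists_neg i
  have hp : 0 < C * m + 1 := by positivity
  obtain ⟨B, hB, hlg⟩ := lg_le_lin (δ := 1 / (2 * (C * m + 1))) (by positivity)
  obtain ⟨N, hN⟩ := exists_nat_ge (2 * (C * B))
  filter_upwards [eventually_ge_atTop (4 * m + 2 * (N * m) + 1)] with K hK r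
  rintro _ ⟨X, hX, rfl⟩
  have hn : g ^ (2 * r + N) ∈ Ball (M.SC : Set G) ((2 * r + N) * m) := Ball.pow_mem hg _
  have hA := h i r _ _ hn X hX
  have hle : (r : ℝ) + M.χ i (M.π (g ^ (2 * r + N))) + C * lg ((2 * r + N) * m) ≤ 0 := by
    rw [M.π_hom.pow, map_smul, smul_eq_mul]
    have h1 := mul_le_mul_of_nonneg_left (hlg ((2 * r + N) * m)) hC
    have h2 : (0 : ℝ) ≤ ((2 * r + N : ℕ) : ℝ) := Nat.cast_nonneg _
    have h3 := mul_le_mul_of_nonneg_left hχ h2
    have h4 : C * (1 / (2 * (C * m + 1)) * (((2 * r + N) * m : ℕ) : ℝ)) ≤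
        ((2 * r + N : ℕ) : ℝ) / 2 := by
      rw [Nat.cast_mul, one_div_mul_eq_div, ← mul_div_assoc, div_le_div_iff₀ (by positivity) two_pos]
      nlinarith
    rw [mul_add] at h1
    have h5 : ((2 * r + N : ℕ) : ℝ) = 2 * r + N := by push_cast; ring
    linarith
  have hb := Ball.mono M.SC_subset le_rfl hn
  have e : M.ex X = (g ^ (2 * r + N))⁻¹ * M.ex (M.Ad (g ^ (2 * r + N)) X) * g ^ (2 * r + N) := by
    rw [← M.Ad_conj]
    group
  rw [e]
  refine Ball.mono subset_rfl ?_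
    (Ball.mul_mem (Ball.mul_mem (Ball.inv_mem hb) (M.h97_RD_nonpos hle hA)) hb)
  nlinarith [Nat.mul_le_mul_right r hK, Nat.zero_le (N * m * r)]

theorem h50_br_pow : ∃ C : ℝ, 1 ≤ C ∧ ∀ (s : ℕ) (a : M.Cl → ℝ) (T : ℝ) (A B : Fin M.d → ℝ),
    M.In top a T A → M.In (fun w => s ≤ w.length) a T B → ∀ n : ℕ,
      M.In (fun w => s + n ≤ w.length) a (T * (C * T) ^ n) (((M.br A) ^ n) B) := by
  obtain ⟨C, hC, h⟩ := M.exists_br
  refine ⟨C, hC, fun s a T A B hA hB n => ?_⟩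
  induction n with
  | zero => simpa using hB
  | succ n ih =>
    have h1 := h top (fun w => s + n ≤ w.length) (fun w => s + (n + 1) ≤ w.length)
      (fun w hw w' _ w'' _ h2 h3 => by
        have h4 := h3.length_eq
        have h5 := List.length_pos_iff.2 (M.mem_Wd.1 hw).1
        rw [List.length_append] at h4
        omega) a _ _ _ _ hA ih
    rw [pow_succ' (M.br A), Module.End.mul_apply]
    convert h1 using 1
    ring

theorem h50_Ad_ex (T : ℝ) (hT : 1 ≤ T) : ∃ C : ℝ, 1 ≤ C ∧ ∀ (s : ℕ) (a : M.Cl → ℝ)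
    (A B : Fin M.d → ℝ), M.In top a T A → M.In (fun w => s ≤ w.length) a T B → ∃ W,
      M.In (fun w => s + 2 ≤ w.length) a C W ∧ M.In (fun w => s + 1 ≤ w.length) a C (M.br A B) ∧
        M.Ad (M.ex A) B = B + (M.br A B + W) := by
  obtain ⟨C, hC, h⟩ := M.h50_br_pow
  have hCT : 1 ≤ C * T := one_le_mul_of_one_le_of_one_le hC hT
  have hK : 1 ≤ T * (C * T) ^ (M.d + 1) :=
    one_le_mul_of_one_le_of_one_le hT (one_le_pow₀ hCT)
  have hd : (0 : ℝ) ≤ M.d := Nat.cast_nonneg _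
  refine ⟨(M.d + 1) * (T * (C * T) ^ (M.d + 1)), by nlinarith, fun s a A B hA hB => ?_⟩
  have hn : ∀ n : ℕ, n ≤ M.d + 1 → M.In (fun w => s + n ≤ w.length) a (T * (C * T) ^ (M.d + 1))
      (((M.br A) ^ n) B) := fun n hn =>
    (h s a T A B hA hB n).mono (fun _ _ h => h) le_rfl
      (mul_le_mul_of_nonneg_left (pow_le_pow_right₀ hCT hn) (by linarith))
  have h1 : M.In (fun w => s + 1 ≤ w.length) a ((M.d + 1) * (T * (C * T) ^ (M.d + 1)))
      (M.br A B) := by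
    have := hn 1 (by omega)
    rw [pow_one] at this
    exact this.mono (fun _ _ h => h) le_rfl (by nlinarith)
  rcases Nat.eq_zero_or_pos M.d with h0 | h0
  · refine ⟨0, In.zero (by nlinarith), h1, funext fun j => ?_⟩
    exact absurd j.2 (by omega)
  · obtain ⟨d', hd'⟩ : ∃ d', M.d + 1 = d' + 1 + 1 := ⟨M.d - 1, by omega⟩
    refine ⟨∑ n ∈ Finset.range d', (((n + 1 + 1).factorial : ℝ)⁻¹) • ((M.br A) ^ (n + 1 + 1)) B,
      ?_, h1, ?_⟩
    · refine (In.sum (t := T * (C * T) ^ (M.d + 1)) _ (by linarith) fun n hn' => ?_).mono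
        (fun _ _ h => h) le_rfl ?_
      · have h2 := Finset.mem_range.1 hn'
        refine ((hn (n + 1 + 1) (by omega)).smul _).mono (fun w _ hw => ?_) le_rfl ?_
        · omega
        · have h3 : (1 : ℝ) ≤ ((n + 1 + 1).factorial : ℝ) := by
            exact_mod_cast Nat.succ_le_of_lt (Nat.factorial_pos _)
          have h4 : |(((n + 1 + 1).factorial : ℝ))⁻¹| ≤ 1 := by
            rw [abs_of_nonneg (by positivity)]
            exact inv_le_one_of_one_le₀ h3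
          exact mul_le_of_le_one_left (by linarith) h4
      · rw [Finset.card_range]
        have h5 : (d' : ℝ) ≤ M.d + 1 := by exact_mod_cast (by omega : d' ≤ M.d + 1)
        exact mul_le_mul_of_nonneg_right h5 (by linarith)
    · have h6 : Finset.range (M.d + 1) = Finset.range (d' + 1 + 1) := by rw [hd']
      rw [M.Ad_ex, h6, Finset.sum_range_succ', Finset.sum_range_succ']
      simp only [LinearMap.add_apply, LinearMap.sum_apply, LinearMap.smul_apply, zero_add, pow_one,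
        pow_zero, Nat.factorial_one, Nat.factorial_zero, Nat.cast_one, inv_one, one_smul,
        Module.End.one_apply]
      abel

/-- the group commutator: `ex A * ex B * ex (-A) = ex (B + Z)` with `Z = Ad (ex A) B - B =
[A, B] + deeper` (`Ad_ex`), `bc (B + Z) (-B) = Z + (hi (B + Z) (-B) - hi B (-B))` (`exists_hi_sub`) -/
theorem exists_comm (T : ℝ) : ∃ C : ℝ, 1 ≤ C ∧ ∀ (s : ℕ) (a : M.Cl → ℝ) (A B : Fin M.d → ℝ),
    M.In top a T A → M.In (fun w => s ≤ w.length) a T B → ∃ Z,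
      M.In (fun w => s + 2 ≤ w.length) a C Z ∧
        M.ex A * M.ex B * (M.ex A)⁻¹ * (M.ex B)⁻¹ = M.ex (M.br A B + Z) := by
  have hT : 1 ≤ max T 1 := le_max_right _ _
  obtain ⟨C, hC, h⟩ := M.h50_Ad_ex (max T 1) hT
  obtain ⟨C2, hC2, h2⟩ := M.exists_hi_sub (max T 1 + (C + C))
  refine ⟨C + C2 * (C + C), by nlinarith, fun s a A B hA hB => ?_⟩
  have hA' := hA.mono (fun _ _ h => h) le_rfl (le_max_left T 1)
  have hB' := hB.mono (fun _ _ h => h) le_rfl (le_max_left T 1)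
  obtain ⟨W, hW, hbr, hAd⟩ := h s a A B hA' hB'
  have hZ : M.In (fun w => s + 1 ≤ w.length) a (C + C) (M.br A B + W) :=
    hbr.add (hW.mono (fun w _ hw => by omega) le_rfl le_rfl)
  have hB2 : M.In top a (max T 1 + (C + C)) B :=
    hB'.mono (fun _ _ _ => trivial) le_rfl (by linarith)
  have hX : M.In top a (max T 1 + (C + C)) (B + (M.br A B + W)) :=
    (hB'.mono (fun _ _ _ => trivial) le_rfl le_rfl).add
      (hZ.mono (fun _ _ _ => trivial) le_rfl le_rfl)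
  have h3 := h2 (fun w => s + 1 ≤ w.length) (fun w => s + 1 + 1 ≤ w.length) (up_len (s + 1))
    (fun w hw => by omega) a (C + C) (B + (M.br A B + W)) (-B) B (-B) hX hB2.neg hB2 hB2.neg
    (by rwa [add_sub_cancel_left]) (by rw [sub_self]; exact In.zero (by linarith))
  have h4 : M.hi B (-B) = 0 := by simpa using M.hi_smul_self B 1 (-1)
  rw [h4, sub_zero] at h3
  refine ⟨W + M.hi (B + (M.br A B + W)) (-B), hW.add h3, ?_⟩
  rw [M.Ad_conj, hAd, ← ex_neg, ex_mul', bc]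
  congr 1
  abel

/-- elements `ex (τ • e l)` with `|τ| ≤ T exp (lw a [l])` -/
def Letter (a : M.Cl → ℝ) (T : ℝ) (x : G) : Prop :=
  ∃ l ∈ M.Lam, ∃ τ : ℝ, |τ| ≤ T * Real.exp (M.lw a [l]) ∧ x = M.ex (τ • M.e l)

theorem h50_letter_inv {a : M.Cl → ℝ} {T : ℝ} {x : G} (h : M.Letter a T x) :
    M.Letter a T x⁻¹ := by
  obtain ⟨l, hl, τ, hτ, rfl⟩ := h
  exact ⟨l, hl, -τ, by rwa [abs_neg], by rw [neg_smul, ex_neg]⟩

/-- iterated commutators of letters: induction on the word with `exists_comm`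
(put the coefficient into the last letter, the other letters get `exp (lw a [l])`) -/
theorem exists_word (T : ℝ) (hT : 1 ≤ T) (s : ℕ) : ∃ (C : ℝ) (N : ℕ), 1 ≤ C ∧
    ∀ (a : M.Cl → ℝ), ∀ w ∈ M.Wd, w.length = s → ∀ c : ℝ, |c| ≤ T * Real.exp (M.lw a w) →
      ∃ (l : List G) (Z : Fin M.d → ℝ), l.length ≤ N ∧ (∀ x ∈ l, M.Letter a T x) ∧
        M.In (fun w => s + 1 ≤ w.length) a C Z ∧ l.prod = M.ex (c • M.mon w + Z) := by
  induction s with
  | zero =>
    refine ⟨1, 0, le_rfl, fun a w hw h0 => ?_⟩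
    exact absurd (List.length_eq_zero_iff.1 h0) (M.mem_Wd.1 hw).1
  | succ s ih =>
    obtain ⟨C, N, hC, ih⟩ := ih
    obtain ⟨C1, hC1, h1⟩ := M.exists_comm (T + C)
    obtain ⟨C2, hC2, h2⟩ := M.exists_br
    have hCC : 0 ≤ C2 * 1 * C := by positivity
    refine ⟨C2 * 1 * C + C1, 2 * N + 2, by linarith, fun a w hw hs c hc => ?_⟩
    obtain ⟨hw0, hwd, hwl⟩ := M.mem_Wd.1 hw
    obtain ⟨l, w', rfl⟩ := List.exists_cons_of_ne_nil hw0
    have hl : l ∈ M.Lam := hwl l List.mem_cons_self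
    by_cases hw' : w' = []
    · subst hw'
      refine ⟨[M.ex (c • M.e l)], 0, by simp, fun x hx => ?_, In.zero (by linarith), ?_⟩
      · rw [List.mem_singleton.1 hx]
        exact ⟨l, hl, c, hc, rfl⟩
      · rw [List.prod_singleton, add_zero]
        rfl
    have hwl' : ∀ m ∈ w', m ∈ M.Lam := fun m hm => hwl m (List.mem_cons_of_mem _ hm)
    rw [List.length_cons] at hs hwd
    have hs' : w'.length = s := by omega
    have hw2 : w' ∈ M.Wd := M.mem_Wd.2 ⟨hw', by omega, hwl'⟩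
    have hlw : M.lw a (l :: w') = M.lw a [l] + M.lw a w' := M.lw_append a [l] w'
    have hp := Real.exp_pos (M.lw a [l])
    have hc' : |c / Real.exp (M.lw a [l])| ≤ T * Real.exp (M.lw a w') := by
      rw [abs_div, abs_of_pos hp, div_le_iff₀ hp]
      rw [hlw, Real.exp_add] at hc
      linarith
    obtain ⟨L, Z, hL, hLl, hZ, hprod⟩ := ih a w' hw2 hs' _ hc'
    have hA : M.In top a 1 (Real.exp (M.lw a [l]) • M.e l) :=
      In.single (w := [l]) (fun m hm => by rw [List.mem_singleton.1 hm]; exact hl) trivial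
        (by rw [abs_of_pos hp, one_mul])
    have hB : M.In (fun w => s ≤ w.length) a (T + C)
        ((c / Real.exp (M.lw a [l])) • M.mon w' + Z) :=
      (In.single (p := fun w => s ≤ w.length) hwl' hs'.ge hc').add
        (hZ.mono (fun w _ hw => by omega) le_rfl le_rfl)
    obtain ⟨Z', hZ', he⟩ := h1 s a _ _ (hA.mono (fun _ _ h => h) le_rfl (by linarith)) hB
    have hb := h2 top (fun w => s + 1 ≤ w.length) (fun w => s + 1 + 1 ≤ w.length)
      (fun w hw w' _ w'' _ h2 h3 => by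
        have h4 := h3.length_eq
        have h5 := List.length_pos_iff.2 (M.mem_Wd.1 hw).1
        rw [List.length_append] at h4
        omega) a _ _ _ _ hA hZ
    have hAl : M.Letter a T (M.ex (Real.exp (M.lw a [l]) • M.e l)) :=
      ⟨l, hl, _, by rw [abs_of_pos hp]; exact le_mul_of_one_le_left hp.le hT, rfl⟩
    refine ⟨M.ex (Real.exp (M.lw a [l]) • M.e l) :: (L ++ (M.ex (Real.exp (M.lw a [l]) • M.e l))⁻¹ ::
      (L.map fun x => x⁻¹).reverse), M.br (Real.exp (M.lw a [l]) • M.e l) Z + Z', ?_, ?_,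
      hb.add hZ', ?_⟩
    · simp only [List.length_cons, List.length_append, List.length_reverse, List.length_map]
      omega
    · intro x hx
      rcases List.mem_cons.1 hx with rfl | hx
      · exact hAl
      rcases List.mem_append.1 hx with hx | hx
      · exact hLl x hx
      rcases List.mem_cons.1 hx with rfl | hx
      · exact M.h50_letter_inv hAl
      · obtain ⟨y, hy, rfl⟩ := List.mem_map.1 (List.mem_reverse.1 hx)
        exact M.h50_letter_inv (hLl y hy)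
    · rw [List.prod_cons, List.prod_append, List.prod_cons, ← List.prod_inv_reverse, hprod,
        ← mul_assoc, ← mul_assoc, he, map_add, M.mon_cons l hw', map_smul, map_smul,
        LinearMap.smul_apply, smul_smul, div_mul_cancel₀ _ hp.ne', add_assoc]

theorem h11_Letter_mono {a : M.Cl → ℝ} {T T' : ℝ} {x : G} (h : M.Letter a T x) (hT : T ≤ T') :
    M.Letter a T' x := by
  obtain ⟨l, hl, τ, hτ, rfl⟩ := h
  exact ⟨l, hl, τ, hτ.trans (mul_le_mul_of_nonneg_right hT (Real.exp_pos _).le), rfl⟩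

theorem h11_hi (T : ℝ) : ∃ C : ℝ, 1 ≤ C ∧ ∀ (s : ℕ) (a : M.Cl → ℝ) (X Y : Fin M.d → ℝ),
    M.In (fun w => s ≤ w.length) a T X → M.In (fun w => s ≤ w.length) a T Y →
      M.In (fun w => s + 1 ≤ w.length) a (C * T) (M.hi X Y) := by
  obtain ⟨C, hC, h⟩ := M.exists_hi_sub T
  refine ⟨C, hC, fun s a X Y hX hY => ?_⟩
  have h0 : M.hi 0 0 = 0 := by simpa using M.hi_smul_self 0 0 0
  have := h _ _ (up_len s) (fun w hw => by omega) a T X Y 0 0
    (hX.mono (fun _ _ _ => trivial) le_rfl le_rfl) (hY.mono (fun _ _ _ => trivial) le_rfl le_rfl)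
    (In.zero hX.nonneg) (In.zero hX.nonneg) (by rwa [sub_zero]) (by rwa [sub_zero])
  rwa [h0, sub_zero] at this

theorem h11_layer (T : ℝ) (hT : 1 ≤ T) (s : ℕ) (F : Finset (List (Fin M.d)))
    (hF : ∀ w ∈ F, w ∈ M.Wd ∧ w.length = s) : ∃ (C : ℝ) (N : ℕ), 1 ≤ C ∧
    ∀ (a : M.Cl → ℝ) (x : List (Fin M.d) → ℝ), (∀ w, |x w| ≤ T * Real.exp (M.lw a w)) →
      ∃ (l : List G) (Z : Fin M.d → ℝ), l.length ≤ N ∧ (∀ y ∈ l, M.Letter a T y) ∧
        M.In (fun w => s + 1 ≤ w.length) a C Z ∧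
        M.In (fun w => s ≤ w.length) a C (∑ w ∈ F, x w • M.mon w) ∧
        l.prod = M.ex (∑ w ∈ F, x w • M.mon w + Z) := by
  classical
  induction F using Finset.induction_on with
  | empty =>
    exact ⟨1, 0, le_rfl, fun a x _ => ⟨[], 0, le_rfl, by simp, In.zero zero_le_one,
      by simpa using In.zero zero_le_one, by simp⟩⟩
  | insert w F hw ih =>
    obtain ⟨C₁, N₁, hC₁, h₁⟩ := ih fun v hv => hF v (Finset.mem_insert_of_mem hv)
    obtain ⟨C₂, N₂, hC₂, h₂⟩ := M.exists_word T hT s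
    obtain ⟨C₃, hC₃, h₃⟩ := M.h11_hi (T + C₂ + C₁ + C₁)
    have hp : 0 ≤ C₃ * (T + C₂ + C₁ + C₁) := by positivity
    refine ⟨T + C₂ + C₁ + C₃ * (T + C₂ + C₁ + C₁), N₂ + N₁, by linarith, fun a x hx => ?_⟩
    obtain ⟨l₁, Z₁, a1, a2, a3, a4, a5⟩ := h₁ a x hx
    obtain ⟨hW, hs⟩ := hF w (Finset.mem_insert_self _ _)
    obtain ⟨l₂, Z₂, b1, b2, b3, b4⟩ := h₂ a w hW hs (x w) (hx w)
    have c1 : M.In (fun w => s ≤ w.length) a T (x w • M.mon w) :=
      In.single (M.mem_Wd.1 hW).2.2 hs.ge (hx w)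
    have c2 : M.In (fun w => s ≤ w.length) a (T + C₂ + C₁ + C₁) (x w • M.mon w + Z₂) :=
      (c1.add (b3.mono (fun _ _ h => by omega) le_rfl le_rfl)).mono (fun _ _ h => h) le_rfl
        (by linarith)
    have c3 : M.In (fun w => s ≤ w.length) a (T + C₂ + C₁ + C₁) (∑ w ∈ F, x w • M.mon w + Z₁) :=
      (a4.add (a3.mono (fun _ _ h => by omega) le_rfl le_rfl)).mono (fun _ _ h => h) le_rfl
        (by linarith)
    refine ⟨l₂ ++ l₁, Z₂ + Z₁ + M.hi (x w • M.mon w + Z₂) (∑ w ∈ F, x w • M.mon w + Z₁),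
      by rw [List.length_append]; omega, fun y hy => ?_, ?_, ?_, ?_⟩
    · rcases List.mem_append.1 hy with h | h
      · exact b2 y h
      · exact a2 y h
    · exact ((b3.add a3).add (h₃ s a _ _ c2 c3)).mono (fun _ _ h => h) le_rfl (by linarith)
    · rw [Finset.sum_insert hw]
      exact (c1.add a4).mono (fun _ _ h => h) le_rfl (by linarith)
    · rw [List.prod_append, b4, a5, ex_mul', Finset.sum_insert hw, bc]
      congr 1
      abel

/-- downward induction on the depth `s`: multiply by the inverses of the products of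
`exists_word` for the words of length `s` one after the other (`exists_hi_sub` with `up_len`) -/
theorem exists_gen (n : ℕ) (T : ℝ) : ∃ (C : ℝ) (N : ℕ), 1 ≤ C ∧ ∀ (a : M.Cl → ℝ) (X : Fin M.d → ℝ),
    M.In (fun w => M.d + 1 ≤ w.length + n) a T X →
      ∃ l : List G, l.length ≤ N ∧ (∀ x ∈ l, M.Letter a C x) ∧ l.prod = M.ex X := by
  classical
  induction n generalizing T with
  | zero =>
    refine ⟨1, 0, le_rfl, fun a X hX => ⟨[], le_rfl, by simp, ?_⟩⟩
    rw [In.eq_zero (hX.mono (fun _ _ h => by omega) le_rfl le_rfl), ex_zero, List.prod_nil]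
  | succ n ih =>
    have hT : 1 ≤ max T 1 := le_max_right _ _
    obtain ⟨C₁, N₁, hC₁, h₁⟩ := M.h11_layer (max T 1) hT (M.d - n)
      (M.Wd.filter fun w => w.length = M.d - n) fun w hw => Finset.mem_filter.1 hw
    obtain ⟨C₃, hC₃, h₃⟩ := M.h11_hi (max T 1 + C₁ + C₁)
    obtain ⟨C₂, N₂, hC₂, h₂⟩ := ih (max T 1 + C₁ + C₃ * (max T 1 + C₁ + C₁))
    refine ⟨max T 1 + C₂, N₁ + N₂, by linarith, fun a X hX => ?_⟩
    have hX' : M.In (fun w => M.d - n ≤ w.length) a (max T 1) X :=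
      hX.mono (fun _ _ h => by omega) le_rfl (le_max_left _ _)
    obtain ⟨x, hx, hx0, hXe⟩ := id hX'
    obtain ⟨l₁, Z, a1, a2, a3, a4, a5⟩ := h₁ a x hx
    set S := ∑ w ∈ M.Wd.filter fun w => w.length = M.d - n, x w • M.mon w with hS
    have hR : M.In (fun w => M.d - n + 1 ≤ w.length) a (max T 1) (X - S) := by
      have e : X - S = ∑ w ∈ M.Wd, (if w.length = M.d - n then 0 else x w) • M.mon w := by
        rw [hXe, hS, Finset.sum_filter, ← Finset.sum_sub_distrib]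
        refine Finset.sum_congr rfl fun w _ => ?_
        split_ifs <;> simp
      rw [e]
      refine h52_in_mk (by linarith) _ (fun w _ => ?_) fun w _ hw => ?_
      · split_ifs
        · rw [abs_zero]; positivity
        · exact hx w
      · split_ifs with h
        · rfl
        · exact hx0 w (by omega)
    have c2 : M.In (fun w => M.d - n ≤ w.length) a (max T 1 + C₁ + C₁) (-(S + Z)) :=
      (a4.add (a3.mono (fun _ _ h => by omega) le_rfl le_rfl)).neg.mono (fun _ _ h => h) le_rfl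
        (by linarith)
    have c3 : M.In (fun w => M.d - n ≤ w.length) a (max T 1 + C₁ + C₁) X :=
      hX'.mono (fun _ _ h => h) le_rfl (by linarith)
    have c4 := (hR.sub a3).add (h₃ _ a _ _ c2 c3)
    obtain ⟨l₂, b1, b2, b3⟩ := h₂ a _ (c4.mono (fun _ _ h => by omega) le_rfl le_rfl)
    refine ⟨l₁ ++ l₂, by rw [List.length_append]; omega, fun y hy => ?_, ?_⟩
    · rcases List.mem_append.1 hy with h | h
      · exact M.h11_Letter_mono (a2 y h) (by linarith)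
      · exact M.h11_Letter_mono (b2 y h) (by linarith)
    · have e : X - S - Z + M.hi (-(S + Z)) X = M.bc (-(S + Z)) X := by
        rw [bc]; abel
      rw [List.prod_append, a5, b3, e, ← ex_mul', ex_neg, mul_inv_cancel_left]

theorem box_gen : ∀ᶠ K : ℕ in atTop, ∀ a, ∀ g ∈ M.Box a, ∃ l : List G, l.length ≤ K ∧
    (∀ x ∈ l, ∃ i, x ∈ M.RB i (a i + K)) ∧ l.prod = g := by
  obtain ⟨C, N, hC, h⟩ := M.exists_gen (M.d + 1) 1
  obtain ⟨κ₀, -, hκ, -, hk, -⟩ := M.exists_kap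
  filter_upwards [eventually_ge_atTop N, eventually_ge_atTop ⌈C / κ₀⌉₊] with K hN hK a g hg
  obtain ⟨X, hX, rfl⟩ := hg
  obtain ⟨l, h1, h2, h3⟩ := h a X (In.mono hX (fun _ _ _ => by omega) le_rfl le_rfl)
  refine ⟨l, h1.trans hN, fun x hx => ?_, h3⟩
  obtain ⟨j, hj, τ, hτ, rfl⟩ := h2 x hx
  obtain ⟨i, hi⟩ := M.exists_cl hj
  refine ⟨i, τ • M.e j, ⟨fun j' hj' => ?_, fun j' => ?_⟩, rfl⟩
  · have : j' ≠ j := fun e => hj' (e ▸ hi)
    simp [e, this]
  · by_cases e' : j' = j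
    · subst e'
      have hK' : C / κ₀ ≤ K := Nat.ceil_le.1 hK
      rw [div_le_iff₀ hκ] at hK'
      have h4 := hk j' (M.wt_ne_of_Lam hj)
      have h5 : C ≤ Real.exp (M.kap j' * K) := by
        have : (K : ℝ) * κ₀ ≤ M.kap j' * K := by
          rw [mul_comm]; exact mul_le_mul_of_nonneg_right h4 (Nat.cast_nonneg K)
        linarith [Real.add_one_le_exp (M.kap j' * K)]
      rw [M.lw_single a hi] at hτ
      have : (τ • M.e j') j' = τ := by simp [e]
      rw [this, mul_add, Real.exp_add, mul_comm]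
      exact hτ.trans (mul_le_mul_of_nonneg_right h5 (Real.exp_pos _).le)
    · have : (τ • M.e j) j' = 0 := by simp [e, e']
      rw [this, abs_zero]; positivity

theorem h97_list_prod {T : Set G} {s : ℕ} (l : List G) (h : ∀ x ∈ l, x ∈ Ball T s) :
    l.prod ∈ Ball T (l.length * s) := by
  induction l with
  | nil => simpa using Ball.one_mem T 0
  | cons x l ih =>
    rw [List.prod_cons, List.length_cons, add_mul, one_mul, add_comm]
    exact Ball.mul_mem (h x List.mem_cons_self) (ih fun y hy => h y (List.mem_cons_of_mem _ hy))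

/-- `box_gen`, `RB_ball` -/
theorem box_ball : ∀ᶠ K : ℕ in atTop, ∀ r : ℕ, M.Box (fun _ => r) ⊆ Ball M.Sg (K * r + K) := by
  obtain ⟨K₁, h₁⟩ := M.box_gen.exists
  obtain ⟨K₂, h₂⟩ := M.RB_ball.exists
  filter_upwards [eventually_ge_atTop (K₁ * (K₂ * K₁) + K₁ * K₂)] with K hK r g hg
  obtain ⟨l, hl, hx, rfl⟩ := h₁ _ g hg
  refine Ball.mono subset_rfl ?_ (h97_list_prod (s := K₂ * (r + K₁) + K₂) l fun x hx' => ?_)
  · refine (Nat.mul_le_mul_right _ hl).trans ?_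
    nlinarith [Nat.mul_le_mul_right r hK, Nat.zero_le (K₁ * (K₂ * K₁) * r)]
  · obtain ⟨i, hi⟩ := hx x hx'
    exact h₂ i (r + K₁) (by simpa using hi)

/-- `E` is exponentially distorted (`exists_in_norm`, `exists_absorb`, `box_ball`) -/
theorem exists_dist : ∃ C : ℕ, ∀ r : ℕ, ∀ X ∈ M.E, ‖X‖ ≤ Real.exp r →
    M.ex X ∈ Ball M.Sg (C * r + C) := by
  obtain ⟨C, hC, h⟩ := M.exists_in_norm
  obtain ⟨C', hC', h'⟩ := exists_absorb (M := M)
  obtain ⟨K, hK⟩ := M.box_ball.exists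
  obtain ⟨N, hN⟩ := exists_nat_ge (C' * C)
  refine ⟨K * N + K, fun r X hX hr => ?_⟩
  have h1 : C * ‖X‖ ≤ Real.exp (r + C) := by
    rw [Real.exp_add, mul_comm]
    exact mul_le_mul hr (by linarith [Real.add_one_le_exp C]) (by linarith) (Real.exp_pos _).le
  have h2 := h' _ _ _ _ _ (by positivity) h1 (h X hX)
  have h3 : M.ex X ∈ M.Box fun _ => ((N * r + N : ℕ) : ℝ) := by
    refine ⟨X, h2.mono (fun _ _ h => h) (fun i => ?_) le_rfl, rfl⟩
    have h4 : C' ≤ N := by nlinarith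
    have h5 := mul_le_mul_of_nonneg_right h4 (Nat.cast_nonneg r : (0 : ℝ) ≤ r)
    simp only [Pi.zero_apply]
    push_cast
    linarith
  refine Ball.mono subset_rfl ?_ (hK _ h3)
  nlinarith [Nat.zero_le (K * r)]

/-- modulo the ideal `E` the group law only depends on the classes -/
theorem bc_sub_mem_E {X Y X' Y' : Fin M.d → ℝ} (hX : X - X' ∈ M.E) (hY : Y - Y' ∈ M.E) :
    M.bc X Y - M.bc X' Y' ∈ M.E := by
  have hev : ∀ t : LTree, M.ev t X Y - M.ev t X' Y' ∈ M.E := fun t => by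
    induction t with
    | x => exact hX
    | y => exact hY
    | node s t hs ht =>
      have e : M.ev (.node s t) X Y - M.ev (.node s t) X' Y' =
          -M.br (M.ev t X Y) (M.ev s X Y - M.ev s X' Y') +
            M.br (M.ev s X' Y') (M.ev t X Y - M.ev t X' Y') := by
        rw [← br_anti, ev_node, ev_node]
        simp only [map_sub, LinearMap.sub_apply]
        abel
      rw [e]
      exact M.E.add_mem (M.E.neg_mem (M.br_mem_E _ hs)) (M.br_mem_E _ ht)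
  have hhi : M.hi X Y - M.hi X' Y' ∈ M.E := by
    unfold hi
    induction M.bch with
    | nil => simp
    | cons p l ih =>
      simp only [List.map_cons, List.sum_cons]
      rw [add_sub_add_comm, ← smul_sub]
      exact M.E.add_mem (M.E.smul_mem _ (hev _)) ih
  have e : M.bc X Y - M.bc X' Y' = X - X' + (Y - Y') + (M.hi X Y - M.hi X' Y') := by
    unfold bc; abel
  rw [e]
  exact M.E.add_mem (M.E.add_mem hX hY) hhi

/-- `g = sec a * ex X` (`exists_ball_coord`), `Y` the zero weight part of `X`,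
`ex X = ex (bc X (-Y)) * ex Y`, `exists_round`; `bc` and `Ad (sec a)` are bounded on bounded sets -/
theorem ball_dec (R : ℕ) : ∃ KR : ℕ, ∀ g ∈ Ball M.Sg R, ∃ e ∈ M.Box (fun _ => KR),
    ∃ c ∈ Ball (M.SC : Set G) KR, ∃ b ∈ Ball M.Sg 1, g = e * c * b := by
  obtain ⟨B, hB⟩ := M.exists_ball_coord R
  obtain ⟨m, hm⟩ := M.exists_round B
  obtain ⟨B₁, hB₁⟩ := ((isCompact_closedBall (0 : Fin M.d → ℝ) B).prod
    (isCompact_closedBall (0 : Fin M.d → ℝ) B)).exists_bound_of_continuousOn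
      M.continuous_bc.continuousOn
  obtain ⟨B₂, hB₂⟩ := ((Ball.finite M.SC.finite_toSet R).image fun c =>
    ‖LinearMap.toContinuousLinearMap (M.Ad c)‖).bddAbove
  obtain ⟨C, hC, hin⟩ := M.exists_in_norm
  obtain ⟨C', hC', hab⟩ := M.exists_absorb
  obtain ⟨N, hN⟩ := exists_nat_ge (C' * (C * (B₂ * B₁)))
  refine ⟨N + (R + m), fun g hg => ?_⟩
  obtain ⟨a, X, ha, hX, rfl⟩ := hB g hg
  obtain ⟨Y, hY, hXY, hYn⟩ := M.exists_split X
  obtain ⟨c, hc, Y', -, hY', e⟩ := hm Y hY (hYn.trans hX)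
  have hZ : M.bc X (-Y) ∈ M.E := by
    have := M.bc_sub_mem_E hXY (Y := -Y) (Y' := -Y) (by rw [sub_self]; exact M.E.zero_mem)
    rwa [bc_neg_cancel, sub_zero] at this
  have hZn : ‖M.bc X (-Y)‖ ≤ B₁ := hB₁ (X, -Y)
    ⟨mem_closedBall_zero_iff.2 hX, mem_closedBall_zero_iff.2 (by
      rw [norm_neg]; exact hYn.trans hX)⟩
  have hs : M.sec a ∈ Ball (M.SC : Set G) R := Ball.mono subset_rfl ha (M.sec_mem_ball a)
  have hA : ‖LinearMap.toContinuousLinearMap (M.Ad (M.sec a))‖ ≤ B₂ := hB₂ ⟨_, hs, rfl⟩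
  have hW : ‖M.Ad (M.sec a) (M.bc X (-Y))‖ ≤ B₂ * B₁ :=
    ((LinearMap.toContinuousLinearMap (M.Ad (M.sec a))).le_opNorm _).trans
      (mul_le_mul hA hZn (norm_nonneg _) ((norm_nonneg _).trans hA))
  have h0 : 0 ≤ C * (B₂ * B₁) := mul_nonneg (by linarith) ((norm_nonneg _).trans hW)
  have h1 := hab _ _ (C * (B₂ * B₁)) _ _ h0
    ((mul_le_mul_of_nonneg_left hW (by linarith)).trans
      (by linarith [Real.add_one_le_exp (C * (B₂ * B₁))]))
    (hin _ (M.Ad_mem_E (M.sec a) hZ))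
  refine ⟨M.ex (M.Ad (M.sec a) (M.bc X (-Y))), ⟨_, h1.mono (fun _ _ h => h) (fun i => ?_) le_rfl,
    rfl⟩, M.sec a * c, Ball.mono subset_rfl (Nat.le_add_left _ _) (Ball.mul_mem hs hc), M.ex Y',
    Ball.mem_of_mem (Or.inl ⟨Y', mem_closedBall_zero_iff.2 hY', rfl⟩), ?_⟩
  · have : (0 : ℝ) ≤ (R + m : ℕ) := Nat.cast_nonneg _
    simp only [Pi.zero_apply, zero_add, Nat.cast_add N]
    linarith
  · rw [← M.Ad_conj, ← ex_mul', ex_neg, e]
    group

/-- `X = Z + P` with `Z` mixed, `P` pure (`In.split`, `exists_pure_RD`); `r = ex P`,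
`x = ex (bc X (-P))` is mixed (`exists_hi_sub` with `up_mixed`); move it to the level `a` with
`In.relevel` (gain `κ₀ K D - κ₁ D`); `n = ex N` with `N` in `exp (κ₁ D)` times `RD i (a i)`
(`exists_RD_in`); `exists_Ad_ex`. -/
theorem split : ∀ᶠ K : ℕ in atTop, ∀ i (a a' : M.Cl → ℝ) (b D : ℝ), Adm M.χ a → Adm M.χ a' → K ≤ D →
    (∀ j, j ≠ i → a' j + K * D ≤ a j) → a' i ≤ b → b ≤ a i + D → ∀ g ∈ M.Box a',
      ∃ x, ∃ r ∈ M.RB i (a' i + K), g = x * r ∧ ∀ n ∈ M.RB i b, n * x * n⁻¹ ∈ M.Box a := by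
  obtain ⟨κ₀, κ₂, hκ₀, hκ₂, hk0, hk2⟩ := M.exists_kap
  obtain ⟨κ₃, κ₁, hκ₃, hκ₁, hcw⟩ := M.exists_cw_bounds
  obtain ⟨Ch, hCh, hhi⟩ := M.exists_hi_sub 1
  obtain ⟨Cp, hCp, hpure⟩ := M.exists_pure_RD
  obtain ⟨CR, hCR, hRD⟩ := M.exists_RD_in
  obtain ⟨CA, hCA, hAd⟩ := M.exists_Ad_ex
  obtain ⟨L, hL⟩ : ∃ L : ℝ, L = CA * CR ^ M.d * (1 + Ch * 1) := ⟨_, rfl⟩
  have hL0 : 0 ≤ L := by rw [hL]; positivity
  filter_upwards [eventually_ge_atTop ⌈1 + Cp + (L + M.d * κ₂ + κ₁) / κ₀⌉₊] with K hK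
  have hK' : 1 + Cp + (L + M.d * κ₂ + κ₁) / κ₀ ≤ K := Nat.ceil_le.1 hK
  have hq : 0 ≤ (L + M.d * κ₂ + κ₁) / κ₀ := by positivity
  have hK1 : (1 : ℝ) ≤ K := by linarith
  have hK2 : L + M.d * κ₂ + κ₁ ≤ κ₀ * K := by
    have : (L + M.d * κ₂ + κ₁) / κ₀ ≤ K := by linarith
    rw [div_le_iff₀ hκ₀] at this
    linarith
  rintro i a a' b D ha - hD hj hb hbD _ ⟨X, hX, rfl⟩
  have hD1 : 1 ≤ D := hK1.trans hD
  have hX' : M.In top a' 1 X := hX
  obtain ⟨Z, P, hXZ, hZ, hP⟩ := hX'.split (M.Mixed i)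
  have hPt : M.In top a' 1 P := hP.mono (fun _ _ _ => trivial) le_rfl le_rfl
  have hW : M.In (M.Mixed i) a' (1 + Ch * 1) (M.bc X (-P)) := by
    have h1 := hhi _ _ (up_mixed i) (fun _ h => h) a' 1 X (-P) P (-P) hX' hPt.neg hPt hPt.neg
      (by rw [hXZ, add_sub_cancel_right]; exact hZ) (by rw [sub_self]; exact In.zero zero_le_one)
    have h2 : M.hi P (-P) = 0 := by simpa using M.hi_smul_self P 1 (-1)
    rw [h2, sub_zero] at h1
    have h3 : M.bc X (-P) = Z + M.hi X (-P) := by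
      rw [bc]; congr 1; rw [hXZ]; abel
    rw [h3]
    exact hZ.add h1
  have hW' : M.In (M.Mixed i) a ((1 + Ch * 1) * Real.exp (κ₁ * D - κ₀ * K * D)) (M.bc X (-P)) := by
    refine hW.relevel fun w hw ⟨l, hl, hli⟩ => ?_
    have hlam := (M.mem_Wd.1 hw).2.2 l hl
    obtain ⟨j, hj0⟩ := M.exists_cl hlam
    have hji : j ≠ i := fun h => hli (h ▸ hj0)
    have h1 : κ₀ ≤ M.cw w j := by
      refine (hk0 l (M.wt_ne_of_Lam hlam)).trans ?_
      have h2 : M.mult j l = M.kap l := if_pos hj0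
      rw [← h2]
      refine List.single_le_sum (fun x hx => ?_) _ (List.mem_map_of_mem hl)
      obtain ⟨l', -, rfl⟩ := List.mem_map.1 hx
      exact M.mult_nonneg j l'
    have h2 : ∀ j', 0 ≤ a j' + D - a' j' := fun j' => by
      by_cases h : j' = i
      · subst h; linarith
      · have := hj j' h
        nlinarith
    have h3 : M.cw w j * (a j + D - a' j) ≤ ∑ j', M.cw w j' * (a j' + D - a' j') :=
      Finset.single_le_sum (f := fun j' => M.cw w j' * (a j' + D - a' j'))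
        (fun j' _ => mul_nonneg (M.cw_nonneg w j') (h2 j')) (Finset.mem_univ j)
    have h4 : ∑ j', M.cw w j' * (a j' + D - a' j') =
        M.lw a w + (∑ j', M.cw w j') * D - M.lw a' w := by
      simp only [lw, mul_sub, mul_add, Finset.sum_sub_distrib, Finset.sum_add_distrib,
        Finset.sum_mul]
    have h5 : κ₀ * (K * D) ≤ M.cw w j * (a j + D - a' j) :=
      mul_le_mul h1 (by linarith [hj j hji]) (by positivity) (M.cw_nonneg w j)
    have h6 := mul_le_mul_of_nonneg_right (hcw w hw).2 (show 0 ≤ D by linarith)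
    linarith
  refine ⟨M.ex (M.bc X (-P)), M.ex P, M.RB_mono i _ _ (by linarith) ⟨P, hpure i a' P hP, rfl⟩,
    by rw [← ex_mul', ex_neg, inv_mul_cancel_right], ?_⟩
  rintro _ ⟨N, hN, rfl⟩
  have hE : 1 ≤ Real.exp (κ₂ * D) := Real.one_le_exp (by positivity)
  have hN' : Real.exp (-(κ₂ * D)) • N ∈ M.RD i (a i) := by
    refine ⟨(M.R i).smul_mem _ hN.1, fun j => ?_⟩
    rw [Pi.smul_apply, smul_eq_mul, abs_mul, abs_of_pos (Real.exp_pos _)]
    refine (mul_le_mul_of_nonneg_left (hN.2 j) (Real.exp_pos _).le).trans ?_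
    rw [← Real.exp_add]
    refine Real.exp_le_exp.2 ?_
    have h1 := mul_le_mul_of_nonneg_left hbD (M.kap_nonneg j)
    have h2 := mul_le_mul_of_nonneg_right (hk2 j) (show 0 ≤ D by linarith)
    linarith
  have hN2 : M.In top a (Real.exp (κ₂ * D) * CR) N := by
    have := (hRD a ha i _ hN').smul (Real.exp (κ₂ * D))
    rwa [abs_of_pos (Real.exp_pos _), smul_smul, ← Real.exp_add, add_neg_cancel, Real.exp_zero,
      one_smul] at this
  refine ⟨_, (hAd _ (up_mixed i) a _ _ N _ (one_le_mul_of_one_le_of_one_le hE hCR) hN2 hW').mono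
    (fun _ _ _ => trivial) le_rfl ?_, (M.Ad_conj _ _).symm⟩
  have e : CA * (Real.exp (κ₂ * D) * CR) ^ M.d * ((1 + Ch * 1) * Real.exp (κ₁ * D - κ₀ * K * D)) =
      L * Real.exp (M.d * (κ₂ * D) + (κ₁ * D - κ₀ * K * D)) := by
    rw [hL, mul_pow, ← Real.exp_nat_mul, Real.exp_add]; ring
  rw [e]
  have h1 : L ≤ Real.exp (L * D) := by
    have := Real.add_one_le_exp (L * D)
    nlinarith
  calc L * Real.exp (M.d * (κ₂ * D) + (κ₁ * D - κ₀ * K * D))
      ≤ Real.exp (L * D) * Real.exp (M.d * (κ₂ * D) + (κ₁ * D - κ₀ * K * D)) := by gcongr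
    _ = Real.exp ((L + M.d * κ₂ + κ₁ - κ₀ * K) * D) := by rw [← Real.exp_add]; congr 1; ring
    _ ≤ 1 := Real.exp_le_one_iff.2 (mul_nonpos_of_nonpos_of_nonneg (by linarith) (by linarith))

theorem SC_ball : ∀ᶠ K : ℕ in atTop, ∀ c ∈ M.SC, c ∈ Ball M.Sg K := by
  classical
  filter_upwards [eventually_ge_atTop 1] with K hK c hc
  refine Ball.mono (fun _ h => h) hK (Ball.mem_of_mem ?_)
  unfold SC at hc
  rcases Finset.mem_union.1 hc with h | h
  · obtain ⟨i, -, rfl⟩ := Finset.mem_image.1 h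
    exact Or.inr ⟨i, rfl⟩
  · obtain ⟨j, -, rfl⟩ := Finset.mem_image.1 h
    refine Or.inl ⟨M.e j, ?_, rfl⟩
    rw [mem_closedBall_zero_iff, e, Pi.norm_single, norm_one]

end LieModel

end Crest.Agent.R182
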