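import Crest.Agent.R182.LMDefs

/-! Row 182, block L2: letters, monomials, classes and boxes of a `LieModel`. -/

set_option autoImplicit false
set_option linter.dupNamespace false

namespace Crest.Agent.R182

namespace LieModel



variable {G : Type} [Group G] {k : ℕ} (M : LieModel G k)

/-- basis vectors -/
def e (j : Fin M.d) : Fin M.d → ℝ := Pi.single j 1

/-- right-normed bracket monomials -/
def mon : List (Fin M.d) → Fin M.d → ℝ
  | [] => 0
  | [l] => M.e l
  | l :: l' :: w => M.br (M.e l) (mon (l' :: w))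

/-- the weight of a word -/
def wwt (w : List (Fin M.d)) : (Fin k → ℝ) →ₗ[ℝ] ℝ := (w.map M.wt).sum

/-- the ideal `𝔢` generated by the non-zero weight spaces -/
def E : Submodule ℝ (Fin M.d → ℝ) := Submodule.span ℝ (M.mon '' {w | ∀ l ∈ w, M.wt l ≠ 0})

/-- `[𝔢, 𝔢]` -/
def E2 : Submodule ℝ (Fin M.d → ℝ) := Submodule.span ℝ (M.mon '' {w | 2 ≤ w.length ∧ ∀ l ∈ w, M.wt l ≠ 0})

/-- a maximal subfamily that is independent modulo a subspace -/
theorem helper86_exists_indep_mod {ι V : Type*} [AddCommGroup V] [Module ℝ V] (v : ι → V)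
    (W : Submodule ℝ V) (S : Finset ι) : ∃ p : Finset ι, p ⊆ S ∧
      (∀ x : ι → ℝ, ∑ w ∈ p, x w • v w ∈ W → ∀ w ∈ p, x w = 0) ∧
      ∀ w ∈ S, v w ∈ Submodule.span ℝ (v '' p) ⊔ W := by
  classical
  induction S using Finset.induction_on with
  | empty => exact ⟨∅, Finset.Subset.refl _, by simp, by simp⟩
  | insert a S ha ih =>
    obtain ⟨p, hp, hi, hs⟩ := ih
    by_cases h : v a ∈ Submodule.span ℝ (v '' p) ⊔ W
    · refine ⟨p, hp.trans (Finset.subset_insert _ _), hi, fun w hw => ?_⟩
      rcases Finset.mem_insert.1 hw with rfl | hw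
      · exact h
      · exact hs w hw
    · have hap : a ∉ p := fun h' => ha (hp h')
      refine ⟨insert a p, Finset.insert_subset_insert _ hp, fun x hx => ?_, fun w hw => ?_⟩
      · rw [Finset.sum_insert hap] at hx
        have h0 : x a = 0 := by
          by_contra h0
          apply h
          have h1 : ∑ w ∈ p, x w • v w ∈ Submodule.span ℝ (v '' p) :=
            Submodule.sum_mem _ fun w hw =>
              Submodule.smul_mem _ _ (Submodule.subset_span ⟨w, hw, rfl⟩)
          have h2 : x a • v a ∈ Submodule.span ℝ (v '' p) ⊔ W := by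
            have := Submodule.sub_mem _ (Submodule.mem_sup_right hx)
              (Submodule.mem_sup_left h1 : _ ∈ Submodule.span ℝ (v '' p) ⊔ W)
            rwa [add_sub_cancel_right] at this
          exact (Submodule.smul_mem_iff _ h0).1 h2
        rw [h0, zero_smul, zero_add] at hx
        intro w hw
        rcases Finset.mem_insert.1 hw with rfl | hw
        · exact h0
        · exact hi x hx w hw
      · rcases Finset.mem_insert.1 hw with rfl | hw
        · exact Submodule.mem_sup_left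
            (Submodule.subset_span ⟨w, Finset.mem_coe.2 (Finset.mem_insert_self _ _), rfl⟩)
        · refine sup_le_sup_right (Submodule.span_mono (Set.image_mono ?_)) W (hs w hw)
          exact Finset.coe_subset.2 (Finset.subset_insert _ _)

/-- a maximal subset of `{j | wt j ≠ 0}` that is independent modulo `E2` -/
theorem exists_letters : ∃ Λ : Finset (Fin M.d), (∀ l ∈ Λ, M.wt l ≠ 0) ∧
    (∀ x : Fin M.d → ℝ, ∑ l ∈ Λ, x l • M.e l ∈ M.E2 → ∀ l ∈ Λ, x l = 0) ∧
    ∀ j, M.wt j ≠ 0 → M.e j ∈ Submodule.span ℝ (M.e '' Λ) ⊔ M.E2 := by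
  classical
  obtain ⟨p, hp, hi, hs⟩ :=
    helper86_exists_indep_mod M.e M.E2 (Finset.univ.filter fun j => M.wt j ≠ 0)
  exact ⟨p, fun l hl => (Finset.mem_filter.1 (hp hl)).2, hi,
    fun j hj => hs j (Finset.mem_filter.2 ⟨Finset.mem_univ _, hj⟩)⟩

/-- the letters: a basis of `𝔢 / [𝔢, 𝔢]` -/
noncomputable def Lam : Finset (Fin M.d) := M.exists_letters.choose

theorem finite_words :
    {w : List (Fin M.d) | w ≠ [] ∧ w.length ≤ M.d ∧ ∀ l ∈ w, l ∈ M.Lam}.Finite :=
  (List.finite_length_le (Fin M.d) M.d).subset fun _ h => h.2.1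

/-- the words -/
noncomputable def Wd : Finset (List (Fin M.d)) := M.finite_words.toFinset

/-- Euclidean norm of a weight -/
noncomputable def kap (j : Fin M.d) : ℝ := Real.sqrt (∑ a, M.wt j (Pi.single a 1) ^ 2)

/-- direction of a weight (zero for the zero weight) -/
noncomputable def dir (j : Fin M.d) : (Fin k → ℝ) →ₗ[ℝ] ℝ := (M.kap j)⁻¹ • M.wt j

open Classical in
/-- the classes -/
def Cl : Type := {χ : (Fin k → ℝ) →ₗ[ℝ] ℝ // χ ∈ M.Lam.image M.dir}

noncomputable instance : Fintype M.Cl := by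
  classical
  unfold Cl
  infer_instance

noncomputable instance : DecidableEq M.Cl := Classical.decEq _

/-- the class covectors -/
def χ (i : M.Cl) : (Fin k → ℝ) →ₗ[ℝ] ℝ := i.1

/-- the exposing directions -/
def u (i : M.Cl) : Fin k → ℝ := fun a => M.χ i (Pi.single a 1)

open Classical in
/-- the weight of the coordinate `l` in the class `i` -/
noncomputable def mult (i : M.Cl) (l : Fin M.d) : ℝ := if M.dir l = M.χ i then M.kap l else 0

/-- the total weight of the letters of class `i` in a word -/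
noncomputable def cw (w : List (Fin M.d)) (i : M.Cl) : ℝ := (w.map (M.mult i)).sum

/-- log-size of a monomial in the box with levels `a` -/
noncomputable def lw (a : M.Cl → ℝ) (w : List (Fin M.d)) : ℝ := ∑ i, M.cw w i * a i

/-- `X` lies in `t` times the box with levels `a`, using only words with the property `p` -/
def In (p : List (Fin M.d) → Prop) (a : M.Cl → ℝ) (t : ℝ) (X : Fin M.d → ℝ) : Prop :=
  ∃ x : List (Fin M.d) → ℝ, (∀ w, |x w| ≤ t * Real.exp (M.lw a w)) ∧ (∀ w, ¬ p w → x w = 0) ∧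
    X = ∑ w ∈ M.Wd, x w • M.mon w

/-- the box in the Lie algebra -/
def D (a : M.Cl → ℝ) : Set (Fin M.d → ℝ) := {X | M.In (fun _ => True) a 1 X}

/-- the box in the group -/
def Box (a : M.Cl → ℝ) : Set G := M.ex '' M.D a

/-- the sum of the weight spaces on the open ray of the class `i` -/
def R (i : M.Cl) : Submodule ℝ (Fin M.d → ℝ) where
  carrier := {X | ∀ j, M.dir j ≠ M.χ i → X j = 0}
  zero_mem' _ _ := rfl
  add_mem' {X Y} hX hY j hj := by rw [Pi.add_apply, hX j hj, hY j hj, add_zero]
  smul_mem' c X hX j hj := by rw [Pi.smul_apply, hX j hj, smul_zero]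

/-- the coordinate box of level `b` on the ray of `i` -/
def RD (i : M.Cl) (b : ℝ) : Set (Fin M.d → ℝ) :=
  {X | X ∈ M.R i ∧ ∀ j, |X j| ≤ Real.exp (M.kap j * b)}

/-- the ray box in the group -/
def RB (i : M.Cl) (b : ℝ) : Set G := M.ex '' M.RD i b

/-- the zero weight space -/
def N0 : Submodule ℝ (Fin M.d → ℝ) where
  carrier := {X | ∀ j, M.wt j ≠ 0 → X j = 0}
  zero_mem' _ _ := rfl
  add_mem' {X Y} hX hY j hj := by rw [Pi.add_apply, hX j hj, hY j hj, add_zero]
  smul_mem' c X hX j hj := by rw [Pi.smul_apply, hX j hj, smul_zero]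

open Classical in
/-- generators of the flat subgroup -/
noncomputable def SC : Finset G :=
  Finset.univ.image M.c ∪ (Finset.univ.filter fun j => M.wt j = 0).image fun j => M.ex (M.e j)

/-- monomial bases of `𝔢` -/
def Bas : Type :=
  {b : Finset (List (Fin M.d)) // b ⊆ M.Wd ∧ LinearIndepOn ℝ M.mon b ∧ Submodule.span ℝ (M.mon '' b) = M.E}

instance : Finite M.Bas :=
  Finite.of_injective (fun b : M.Bas => (⟨b.1, Finset.mem_powerset.2 b.2.1⟩ : M.Wd.powerset))
    fun _ _ h => Subtype.ext (Subtype.mk.inj h)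

noncomputable instance : Fintype M.Bas := Fintype.ofFinite _

/-- total weight of the class `i` in the basis `b` -/
noncomputable def bw (b : M.Bas) (i : M.Cl) : ℝ := ∑ w ∈ b.1, M.cw w i

/-- words with a letter that is not of class `i` -/
def Mixed (i : M.Cl) (w : List (Fin M.d)) : Prop := ∃ l ∈ w, M.dir l ≠ M.χ i

/-- the ideal spanned by the mixed monomials -/
def I (i : M.Cl) : Submodule ℝ (Fin M.d → ℝ) := Submodule.span ℝ (M.mon '' {w | w ∈ M.Wd ∧ M.Mixed i w})

/-- a maximal set of pure words that is independent modulo `I i` -/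
theorem exists_pb (i : M.Cl) : ∃ p : Finset (List (Fin M.d)), p ⊆ M.Wd ∧
    (∀ w ∈ p, ¬ M.Mixed i w) ∧
    (∀ x : List (Fin M.d) → ℝ, ∑ w ∈ p, x w • M.mon w ∈ M.I i → ∀ w ∈ p, x w = 0) ∧
    ∀ w ∈ M.Wd, M.mon w ∈ Submodule.span ℝ (M.mon '' p) ⊔ M.I i := by
  classical
  obtain ⟨p, hp, hi, hs⟩ :=
    helper86_exists_indep_mod M.mon (M.I i) (M.Wd.filter fun w => ¬ M.Mixed i w)
  refine ⟨p, hp.trans (Finset.filter_subset _ _), fun w hw => (Finset.mem_filter.1 (hp hw)).2, hi,
    fun w hw => ?_⟩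
  by_cases h : M.Mixed i w
  · exact Submodule.mem_sup_right (Submodule.subset_span ⟨w, ⟨hw, h⟩, rfl⟩)
  · exact hs w (Finset.mem_filter.2 ⟨hw, h⟩)

/-- pure words that form a basis of `𝔢 / I i` -/
noncomputable def pb (i : M.Cl) : Finset (List (Fin M.d)) := (M.exists_pb i).choose

/-- homogeneous dimension of `𝔢 / I i` -/
noncomputable def dim (i : M.Cl) : ℝ := ∑ w ∈ M.pb i, M.cw w i

end LieModel

end Crest.Agent.R182
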