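import Crest.Agent.R182.LC4
import Crest.Agent.R182.LBAd

/-! Row 182, block L2b: the final statements. -/

set_option autoImplicit false
set_option linter.dupNamespace false

namespace Crest.Agent.R182

namespace LieModel

variable {G : Type} [Group G] {k : ℕ} (M : LieModel G k)

theorem sCount0 : ∀ᶠ K in Filter.atTop, M.SCount0 K := M.count0 M.nil_SC

theorem sCount1 : ∀ᶠ K in Filter.atTop, M.SCount1 K := M.count1 M.nil_SC

theorem sCount2 : ∀ᶠ K in Filter.atTop, M.SCount2 K := M.count2 M.nil_SC

theorem sAbel : ∀ᶠ K in Filter.atTop, M.SAbel K := M.abel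

end LieModel

end Crest.Agent.R182
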