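import Crest.Agent.R182.LCDefs
import Crest.Agent.R182.LMJac
import Crest.Agent.R182.LBAlg

/-! Row 182, block L2b: weight components. -/

set_option autoImplicit false
set_option linter.dupNamespace false

namespace Crest.Agent.R182

open Crest.GroupTheory MeasureTheory

namespace LieModel

variable {G : Type} [Group G] {k : ℕ} (M : LieModel G k)

/-- the component of weight `γ` -/
noncomputable def wp (γ : (Fin k → ℝ) →ₗ[ℝ] ℝ) : (Fin M.d → ℝ) →ₗ[ℝ] (Fin M.d → ℝ) := by
  classical
  exact LinearMap.pi fun l => if M.wt l = γ then LinearMap.proj l else 0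

open Classical in
theorem wp_apply (γ : (Fin k → ℝ) →ₗ[ℝ] ℝ) (X : Fin M.d → ℝ) (l : Fin M.d) :
    M.wp γ X l = if M.wt l = γ then X l else 0 := by
  unfold wp
  rw [LinearMap.pi_apply]
  split_ifs <;> simp

/-- a monomial is a weight vector (`br_apply`, `br_tri`, induction on the word) -/
theorem wt_of_mon (w : List (Fin M.d)) (l : Fin M.d) (h : M.mon w l ≠ 0) : M.wt l = M.wwt w := by
  by_contra hl
  exact h (M.mon_mem_Wt w l hl)

theorem Ad_bc (g : G) (X Y : Fin M.d → ℝ) : M.Ad g (M.bc X Y) = M.bc (M.Ad g X) (M.Ad g Y) :=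
  M.ex_inj (by rw [← M.Ad_conj, ← ex_mul', ← ex_mul', ← M.Ad_conj, ← M.Ad_conj]; group)

theorem mul_ex (g : G) (X : Fin M.d → ℝ) : g * M.ex X = M.ex (M.Ad g X) * g := by
  rw [← M.Ad_conj]; group

theorem c_mem_SC (i : Fin k) : M.c i ∈ M.SC := by
  classical
  exact Finset.mem_union_left _ (Finset.mem_image_of_mem _ (Finset.mem_univ i))

end LieModel

end Crest.Agent.R182
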