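import Crest.Agent.R182.LC1a

/-! Row 182, block L2b: congruences modulo `I i`. -/

set_option autoImplicit false
set_option linter.dupNamespace false

namespace Crest.Agent.R182

open Crest.GroupTheory MeasureTheory

namespace LieModel

variable {G : Type} [Group G] {k : ℕ} (M : LieModel G k)

theorem h86_br_sub_mem (i : M.Cl) {A A' B B' : Fin M.d → ℝ} (hA : A - A' ∈ M.I i)
    (hB : B - B' ∈ M.I i) : M.br A B - M.br A' B' ∈ M.I i := by
  have e : M.br A B - M.br A' B' = M.br A (B - B') - M.br B' (A - A') := by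
    rw [map_sub, map_sub, M.br_anti B' A, M.br_anti B' A']
    abel
  rw [e]
  exact (M.I i).sub_mem (M.br_mem_I i _ hB) (M.br_mem_I i _ hA)

theorem h86_ev_sub_mem (i : M.Cl) (t : LTree) {X X' Y Y' : Fin M.d → ℝ} (hX : X - X' ∈ M.I i)
    (hY : Y - Y' ∈ M.I i) : M.ev t X Y - M.ev t X' Y' ∈ M.I i := by
  induction t with
  | x => exact hX
  | y => exact hY
  | node s t hs ht => exact M.h86_br_sub_mem i hs ht

theorem h86_hi_sub_mem (i : M.Cl) {X X' Y Y' : Fin M.d → ℝ} (hX : X - X' ∈ M.I i)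
    (hY : Y - Y' ∈ M.I i) : M.hi X Y - M.hi X' Y' ∈ M.I i := by
  unfold hi
  induction M.bch with
  | nil => simp
  | cons p q ih =>
    simp only [List.map_cons, List.sum_cons]
    rw [add_sub_add_comm, ← smul_sub]
    exact (M.I i).add_mem ((M.I i).smul_mem _ (M.h86_ev_sub_mem i _ hX hY)) ih

theorem h86_pow_dep (V : Fin M.d → ℝ) {X X' : Fin M.d → ℝ} {l : Fin M.d}
    (h : ∀ j < l, X j = X' j) (n : ℕ) : ∀ j < l, (M.br V ^ n) X j = (M.br V ^ n) X' j := by
  induction n with
  | zero => simpa using h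
  | succ n ih =>
    intro j hj
    rw [pow_succ', Module.End.mul_apply, Module.End.mul_apply]
    exact M.br_dep (fun _ _ => rfl) fun i hi => ih i (hi.trans hj)

/-- TASK LC1d. Tree values respect congruence modulo the ideal (`br_mem_I`, antisymmetry). -/
theorem bc_sub_mem (i : M.Cl) {X X' Y Y' : Fin M.d → ℝ} (hX : X - X' ∈ M.I i)
    (hY : Y - Y' ∈ M.I i) : M.bc X Y - M.bc X' Y' ∈ M.I i := by
  unfold bc
  rw [add_sub_add_comm, add_sub_add_comm]
  exact (M.I i).add_mem ((M.I i).add_mem hX hY) (M.h86_hi_sub_mem i hX hY)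

theorem bc_neg_pr_mem (i : M.Cl) (X : Fin M.d → ℝ) : M.bc X (-M.pr i X) ∈ M.I i := by
  have h := M.bc_sub_mem i ((M.isPr i).sub_mem X) (Y := -M.pr i X) (Y' := -M.pr i X) (by simp)
  rwa [bc_neg_cancel, sub_zero] at h

theorem bc_mem_I (i : M.Cl) {X Y : Fin M.d → ℝ} (hX : X ∈ M.I i) (hY : Y ∈ M.I i) :
    M.bc X Y ∈ M.I i := by
  have h := M.bc_sub_mem i (X' := 0) (Y' := 0) (by simpa using hX) (by simpa using hY)
  rwa [bc_zero, sub_zero] at h

/-- TASK LC1d. `Ad_ex` -/
theorem Ad_ex_mem_I (i : M.Cl) (V : Fin M.d → ℝ) {X : Fin M.d → ℝ} (h : X ∈ M.I i) :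
    M.Ad (M.ex V) X ∈ M.I i := by
  rw [M.Ad_ex, LinearMap.sum_apply]
  refine Submodule.sum_mem _ fun n _ => ?_
  rw [LinearMap.smul_apply]
  refine Submodule.smul_mem _ _ ?_
  induction n with
  | zero => simpa using h
  | succ n ih =>
    rw [pow_succ', Module.End.mul_apply]
    exact M.br_mem_I i _ (ih (Finset.mem_range.2 (by
      have := Finset.mem_range.1 ‹n + 1 ∈ _›
      omega)))

/-- TASK LC1d. `(Ad (ex V) X - X) l` depends only on the coordinates below `l` (`Ad_ex`, `br_dep`). -/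
theorem Ad_ex_dep (V : Fin M.d → ℝ) {X X' : Fin M.d → ℝ} {l : Fin M.d} (h : ∀ j < l, X j = X' j) :
    M.Ad (M.ex V) X l - X l = M.Ad (M.ex V) X' l - X' l := by
  rw [M.Ad_ex, Finset.sum_range_succ']
  simp only [LinearMap.add_apply, LinearMap.sum_apply, LinearMap.smul_apply, Pi.add_apply,
    Finset.sum_apply, Pi.smul_apply, pow_zero, Module.End.one_apply, Nat.factorial_zero,
    Nat.cast_one, inv_one, one_smul, add_sub_cancel_right]
  refine Finset.sum_congr rfl fun n _ => ?_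
  rw [pow_succ', Module.End.mul_apply, Module.End.mul_apply,
    M.br_dep (fun _ _ => rfl) (M.h86_pow_dep V h n)]

end LieModel

end Crest.Agent.R182
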