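import Crest.Agent.R182.LC0

/-! Row 182, block L2b: flat elements of height zero. -/

set_option autoImplicit false
set_option linter.dupNamespace false

namespace Crest.Agent.R182

open Crest.GroupTheory MeasureTheory

namespace LieModel

variable {G : Type} [Group G] {k : ℕ} (M : LieModel G k)

theorem h1_ofFn_zpow_add {Q : Type*} [Group Q] {n : ℕ} (q : Fin n → Q)
    (hq : ∀ i j, Commute (q i) (q j)) (a b : Fin n → ℤ) :
    (List.ofFn fun i => q i ^ a i).prod * (List.ofFn fun i => q i ^ b i).prod =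
      (List.ofFn fun i => q i ^ (a + b) i).prod := by
  induction n with
  | zero => simp
  | succ n ih =>
    simp only [List.ofFn_succ, List.prod_cons]
    have hc : Commute (q 0 ^ b 0) (List.ofFn fun i : Fin n => q i.succ ^ a i.succ).prod :=
      Commute.list_prod_right _ _ fun x hx => by
        obtain ⟨j, rfl⟩ := List.mem_ofFn.1 hx
        exact (hq _ _).zpow_zpow _ _
    have := ih (fun i => q i.succ) (fun i j => hq _ _) (fun i => a i.succ) fun i => b i.succ
    simp only [Pi.add_apply] at this ⊢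
    rw [← this, zpow_add, mul_assoc, ← mul_assoc _ (q 0 ^ b 0), ← hc.eq]
    simp only [mul_assoc]

/-- the subgroup `ex '' N0` -/
def h1_H0 : Subgroup G where
  carrier := M.ex '' M.N0
  one_mem' := ⟨0, M.N0.zero_mem, M.ex_zero⟩
  mul_mem' := by
    rintro _ _ ⟨X, hX, rfl⟩ ⟨Y, hY, rfl⟩
    exact ⟨_, M.sub_N0.bc_mem hX hY, (M.ex_mul' X Y).symm⟩
  inv_mem' := by
    rintro _ ⟨X, hX, rfl⟩
    exact ⟨-X, M.N0.neg_mem hX, M.ex_neg X⟩

theorem h1_Ad_c (i : Fin k) {X : Fin M.d → ℝ} (hX : X ∈ M.N0) : M.Ad (M.c i) X ∈ M.N0 := by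
  rw [← M.sum_e X, map_sum]
  refine M.N0.sum_mem fun j _ => ?_
  by_cases hj : M.wt j = 0
  · rw [map_smul]
    refine M.N0.smul_mem _ fun l hl => ?_
    by_contra h
    exact hl ((M.c_tri i j l h).2.trans hj)
  · rw [hX j hj, zero_smul, map_zero]
    exact M.N0.zero_mem

theorem h1_c_norm (i : Fin k) : M.c i ∈ Subgroup.normalizer (M.h1_H0 : Set G) := by
  rw [Subgroup.mem_normalizer_iff]
  intro n
  constructor
  · rintro ⟨X, hX, rfl⟩
    exact ⟨_, M.h1_Ad_c i hX, (M.Ad_conj _ _).symm⟩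
  · rintro ⟨Z, hZ, h⟩
    have hinj : Function.Injective (M.Ad (M.c i)) := fun X Y hXY => M.ex_inj (by
      have := congrArg M.ex hXY
      rw [← M.Ad_conj, ← M.Ad_conj] at this
      simpa using this)
    have hs : Function.Surjective ((M.Ad (M.c i)).restrict fun X hX => M.h1_Ad_c i hX) :=
      LinearMap.surjective_of_injective fun X Y hXY => Subtype.ext (hinj (congrArg Subtype.val hXY))
    obtain ⟨Y, hY⟩ := hs ⟨Z, hZ⟩
    have hY' : M.Ad (M.c i) Y = Z := congrArg Subtype.val hY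
    refine ⟨Y, Y.2, ?_⟩
    rw [← hY', ← M.Ad_conj] at h
    simpa using h

theorem h1_sec_mul (a b : Fin k → ℤ) : M.sec a * M.sec b * (M.sec (a + b))⁻¹ ∈ M.h1_H0 := by
  set N := Subgroup.normalizer (M.h1_H0 : Set G) with hN
  let c' : Fin k → N := fun i => ⟨M.c i, M.h1_c_norm i⟩
  let f : N →* N ⧸ M.h1_H0.subgroupOf N := QuotientGroup.mk' _
  have hq : ∀ i j, Commute (f (c' i)) (f (c' j)) := fun i j => by
    rw [← commutatorElement_eq_one_iff_commute, commutatorElement_def, ← map_inv, ← map_inv,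
      ← map_mul, ← map_mul, ← map_mul, ← MonoidHom.mem_ker, QuotientGroup.ker_mk',
      Subgroup.mem_subgroupOf]
    obtain ⟨X, hX, e⟩ := M.c_comm i j
    exact ⟨X, hX, e.symm⟩
  let s : (Fin k → ℤ) → N := fun a => (List.ofFn fun i => c' i ^ a i).prod
  have hs : ∀ a, (s a : G) = M.sec a := fun a => by
    simp only [s, sec]
    rw [← Subgroup.coe_subtype, map_list_prod, List.map_ofFn]
    rfl
  have hf : ∀ a, f (s a) = (List.ofFn fun i => f (c' i) ^ a i).prod := fun a => by
    simp only [s]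
    rw [map_list_prod, List.map_ofFn]
    congr 2
  have h1 : f (s a * s b * (s (a + b))⁻¹) = 1 := by
    rw [map_mul, map_mul, map_inv, hf, hf, hf, h1_ofFn_zpow_add _ hq, mul_inv_cancel]
  rw [← MonoidHom.mem_ker, QuotientGroup.ker_mk', Subgroup.mem_subgroupOf] at h1
  simpa [hs] using h1

theorem h1_sec_norm (a : Fin k → ℤ) : M.sec a ∈ Subgroup.normalizer (M.h1_H0 : Set G) :=
  Subgroup.list_prod_mem _ fun x hx => by
    obtain ⟨j, rfl⟩ := List.mem_ofFn.1 hx
    exact Subgroup.zpow_mem _ (M.h1_c_norm j) _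

theorem h1_flat_dec {f : G} (hf : f ∈ Subgroup.closure (M.SC : Set G)) :
    ∃ a, f * (M.sec a)⁻¹ ∈ M.h1_H0 := by
  classical
  induction hf using Subgroup.closure_induction with
  | mem x hx =>
    rcases Finset.mem_union.1 (Finset.mem_coe.1 hx) with hx | hx
    · obtain ⟨i, -, rfl⟩ := Finset.mem_image.1 hx
      exact ⟨Pi.single i 1, by rw [sec_single, mul_inv_cancel]; exact one_mem _⟩
    · obtain ⟨j, hj, rfl⟩ := Finset.mem_image.1 hx
      refine ⟨0, M.e j, fun l hl => ?_, by simp⟩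
      have : l ≠ j := fun h => hl (h ▸ (Finset.mem_filter.1 hj).2)
      simp [e, this]
  | one => exact ⟨0, by simp⟩
  | mul x y _ _ hx hy =>
    obtain ⟨a, ha⟩ := hx
    obtain ⟨b, hb⟩ := hy
    refine ⟨a + b, ?_⟩
    have h1 := (Subgroup.mem_normalizer_iff.1 (M.h1_sec_norm a) _).1 hb
    have h2 := mul_mem (mul_mem ha h1) (M.h1_sec_mul a b)
    convert h2 using 1
    group
  | inv x _ hx =>
    obtain ⟨a, ha⟩ := hx
    refine ⟨-a, ?_⟩
    have h1 := (Subgroup.mem_normalizer_iff.1 (inv_mem (M.h1_sec_norm a)) _).1 (inv_mem ha)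
    have h2 := M.h1_sec_mul (-a) a
    rw [neg_add_cancel, sec_zero, inv_one, mul_one] at h2
    have h3 := (Subgroup.mem_normalizer_iff.1 (inv_mem (M.h1_sec_norm (-a))) _).1 (inv_mem h2)
    have h4 := (Subgroup.mem_normalizer_iff.1 (M.h1_sec_norm (-a)) _).1 h3
    have h5 := mul_mem h1 h4
    convert h5 using 1
    group

/-- TASK LC1e. Let `H₀ = ex '' N0` (a subgroup: `Sub.bc_mem`, `ex_neg`), normalised by the `c i`
(`c_tri`; for the inverse use that an injective endomorphism of `N0` is onto). The set of all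
`ex Z * sec a`, `Z ∈ N0`, is a subgroup containing `SC`: modulo `H₀` the `c i` commute (`c_comm`).
Then read off `a = 0` from `π_sec`. -/
theorem flat_ker {f : G} (hf : f ∈ Subgroup.closure (M.SC : Set G)) (h : M.π f = 0) :
    ∃ Z ∈ M.N0, f = M.ex Z := by
  obtain ⟨a, Z, hZ, e⟩ := M.h1_flat_dec hf
  have h1 := M.π_ex Z
  rw [e, M.π_hom, M.π_hom.inv, h, π_sec, zero_add, neg_eq_zero] at h1
  have h2 : a = 0 := funext fun l => by simpa using congrFun h1 l
  rw [h2, sec_zero, inv_one, mul_one] at e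
  exact ⟨Z, hZ, e.symm⟩

end LieModel

end Crest.Agent.R182
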