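import Crest.Agent.R182.LC1a

/-! Row 182, block L2b: small lemmas. -/

set_option autoImplicit false
set_option linter.dupNamespace false

namespace Crest.Agent.R182

open Crest.GroupTheory MeasureTheory

namespace LieModel

variable {G : Type} [Group G] {k : ℕ} (M : LieModel G k)

theorem h38_br_class {n : ℕ} {A B : Fin M.d → ℝ} (hA : A ∈ M.N0 ∨ A ∈ M.Fl n)
    (hB : B ∈ M.N0 ∨ B ∈ M.Fl n) : M.br A B ∈ M.N0 ∨ M.br A B ∈ M.Fl (n + 1) := by
  rcases hA with hA | hA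
  · rcases hB with hB | hB
    · exact Or.inl (M.sub_N0 _ hA _ hB)
    · exact Or.inr (M.br_Fl_right A hB)
  · exact Or.inr (M.br_Fl_left hA B)

theorem h38_ev_class {n : ℕ} {A B : Fin M.d → ℝ} (hA : A ∈ M.N0 ∨ A ∈ M.Fl n)
    (hB : B ∈ M.N0 ∨ B ∈ M.Fl n) (t : LTree) : M.ev t A B ∈ M.N0 ∨ M.ev t A B ∈ M.Fl n := by
  induction t with
  | x => exact hA
  | y => exact hB
  | node s t hs ht =>
    exact (M.h38_br_class hs ht).imp_right fun h j hj => h j (Nat.lt_succ_of_lt hj)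

theorem h38_pr_zero (i : M.Cl) {l : Fin M.d} (hw : M.wt l ≠ 0) {X : Fin M.d → ℝ}
    (hX : X ∈ M.N0 ∨ X ∈ M.Fl (l + 1)) : M.pr i X l = 0 := by
  rw [← M.sum_e X, map_sum, Finset.sum_apply]
  refine Finset.sum_eq_zero fun j _ => ?_
  rw [map_smul, Pi.smul_apply, smul_eq_mul]
  by_cases h : M.pr i (M.e j) l = 0
  · rw [h, mul_zero]
  · obtain ⟨h1, h2⟩ := (M.isPr i).tri j l h
    rcases hX with hX | hX
    · rw [hX j (h2 ▸ hw), zero_mul]
    · rw [hX j (Nat.lt_succ_of_le h1), zero_mul]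

/-- TASK LC1f. Every tree value at `(δ • e l, Z)` lies in `N0` or vanishes below `l`; every node value
lies in `N0` or vanishes below and at `l` (`br_apply`, `br_tri`); `pr i` preserves both classes
(`IsPr.tri`) and fixes `e l`. -/
theorem pr_bc_single (i : M.Cl) {l : Fin M.d} (hl : l ∈ M.Qs i) (hw : M.wt l ≠ 0) (δ : ℝ)
    {Z : Fin M.d → ℝ} (hZ : Z ∈ M.N0) : M.pr i (M.bc (δ • M.e l) Z) l = δ := by
  have hA : δ • M.e l ∈ M.N0 ∨ δ • M.e l ∈ M.Fl l :=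
    Or.inr ((M.Fl l).smul_mem δ fun j hj => Pi.single_eq_of_ne (fun e => by simp [e] at hj) _)
  have h1 : M.pr i (M.e l) = M.e l :=
    (M.isPr i).fix _ fun l' hl' => Pi.single_eq_of_ne (fun e : l' = l => hl' (e ▸ hl)) _
  have h2 : M.pr i (M.hi (δ • M.e l) Z) l = 0 := by
    have : M.hi (δ • M.e l) Z ∈ LinearMap.ker (LinearMap.proj l ∘ₗ M.pr i) := by
      refine list_sum_mem fun v hv => ?_
      obtain ⟨p, -, rfl⟩ := List.mem_map.1 hv
      exact Submodule.smul_mem _ _ (M.h38_pr_zero i hw (M.h38_br_class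
        (M.h38_ev_class hA (Or.inl hZ) _) (M.h38_ev_class hA (Or.inl hZ) _)))
    exact this
  rw [bc, map_add, map_add, map_smul, h1, Pi.add_apply, Pi.add_apply, h2,
    M.h38_pr_zero i hw (Or.inl hZ)]
  simp [e]

/-- TASK LC1f. An element of `Ball Sg 1` is `1`, `ex W`, `ex (-W)` or `(c i)^{±1}`. -/
theorem ball_one_dec {b : G} (hb : b ∈ Ball M.Sg 1) :
    ∃ W, ‖W‖ ≤ 1 ∧ ∃ g ∈ Ball (M.SC : Set G) 1, b = M.ex W * g := by
  rcases h31_ball_succ hb with rfl | ⟨x, hx, b', hb', rfl⟩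
  · exact ⟨0, by simp, 1, Ball.one_mem _ _, by simp⟩
  rw [h31_ball_zero, Set.mem_singleton_iff] at hb'
  subst hb'
  rcases hx with (⟨W, hW, rfl⟩ | ⟨i, rfl⟩) | (⟨W, hW, h⟩ | ⟨i, h⟩)
  · exact ⟨W, mem_closedBall_zero_iff.1 hW, 1, Ball.one_mem _ _, rfl⟩
  · exact ⟨0, by simp, M.c i, Ball.mem_of_mem (M.c_mem_SC i), by simp⟩
  · exact ⟨-W, by simpa using mem_closedBall_zero_iff.1 hW, 1, Ball.one_mem _ _, by
      rw [ex_neg, h, inv_inv]⟩
  · exact ⟨0, by simp, (M.c i)⁻¹, Ball.inv_mem (Ball.mem_of_mem (M.c_mem_SC i)), by simp [h]⟩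

/-- TASK LC1f. `Ball SC 1` is finite; `bc` is continuous, so bounded on compact sets. -/
theorem exists_thick : ∃ A : ℝ, 1 ≤ A ∧ (∀ g ∈ Ball (M.SC : Set G) 1, ‖M.π g‖ ≤ A) ∧
    ∀ g ∈ Ball (M.SC : Set G) 1, ∀ W o : Fin M.d → ℝ, ‖W‖ ≤ 1 → ‖o‖ ≤ 1 →
      ‖M.bc W (M.Ad g o)‖ ≤ A := by
  have h : ∀ g : G, ∃ A : ℝ, ‖M.π g‖ ≤ A ∧ ∀ W o : Fin M.d → ℝ, ‖W‖ ≤ 1 → ‖o‖ ≤ 1 →
      ‖M.bc W (M.Ad g o)‖ ≤ A := by
    intro g
    have hc : Continuous fun p : (Fin M.d → ℝ) × (Fin M.d → ℝ) => M.bc p.1 (M.Ad g p.2) :=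
      M.continuous_bc.comp (continuous_fst.prodMk
        ((LinearMap.continuous_of_finiteDimensional (M.Ad g)).comp continuous_snd))
    obtain ⟨C, hC⟩ := ((isCompact_closedBall (0 : Fin M.d → ℝ) 1).prod
      (isCompact_closedBall (0 : Fin M.d → ℝ) 1)).exists_bound_of_continuousOn hc.continuousOn
    exact ⟨max ‖M.π g‖ C, le_max_left _ _, fun W o hW ho => (hC (W, o)
      ⟨mem_closedBall_zero_iff.2 hW, mem_closedBall_zero_iff.2 ho⟩).trans (le_max_right _ _)⟩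
  choose A hA using h
  obtain ⟨B, hB⟩ := ((Ball.finite M.SC.finite_toSet 1).image A).bddAbove
  have hle : ∀ g ∈ Ball (M.SC : Set G) 1, A g ≤ max 1 B := fun g hg =>
    (hB ⟨g, hg, rfl⟩).trans (le_max_right _ _)
  exact ⟨max 1 B, le_max_left _ _, fun g hg => (hA g).1.trans (hle g hg),
    fun g hg W o hW ho => ((hA g).2 W o hW ho).trans (hle g hg)⟩

/-- TASK LC1f. `|χ i v| ≤ √k ‖v‖`; any bound will do. -/
theorem exists_χ_le : ∃ A : ℝ, 1 ≤ A ∧ ∀ i v, |M.χ i v| ≤ A * ‖v‖ := by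
  have h0 : ∀ i, 0 ≤ ‖LinearMap.toContinuousLinearMap (M.χ i)‖ := fun i => norm_nonneg _
  have hs := Finset.sum_nonneg (s := Finset.univ) fun i _ => h0 i
  refine ⟨1 + ∑ i, ‖LinearMap.toContinuousLinearMap (M.χ i)‖, by linarith, fun i v => ?_⟩
  refine ((LinearMap.toContinuousLinearMap (M.χ i)).le_opNorm v).trans
    (mul_le_mul_of_nonneg_right ?_ (norm_nonneg v))
  linarith [Finset.single_le_sum (fun i _ => h0 i) (Finset.mem_univ i)]

/-- TASK LC1f. The set `{r • u i}` (`χ i (u i) = 1`, Cauchy-Schwarz); if there is no class take `{0}`. -/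
theorem adm_const {r : ℝ} (hr : 0 ≤ r) : Adm M.χ fun _ => r := by
  refine ⟨insert 0 (Set.range fun i => r • M.u i), Set.insert_nonempty _ _, fun i =>
    IsGreatest.isLUB ⟨⟨r • M.u i, Or.inr ⟨i, rfl⟩, by rw [map_smul, u_self, smul_eq_mul, mul_one]⟩,
      ?_⟩⟩
  rintro _ ⟨v, rfl | ⟨j, rfl⟩, rfl⟩
  · simpa using hr
  · rw [map_smul, smul_eq_mul]
    refine mul_le_of_le_one_right hr ?_
    by_cases h : i = j
    · rw [h, u_self]
    · exact (M.u_ne j i h).le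

end LieModel

end Crest.Agent.R182
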