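import Crest.Agent.R182.LC1c
import Crest.Agent.R182.LC1d
import Crest.Agent.R182.LC1e
import Crest.Agent.R182.LC1f

/-! Row 182, block L2b: the ideal `I i`. -/

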