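import Crest.Agent.R182.LC1b

/-! Row 182, block L2b: the projection along `I i`. -/

set_option autoImplicit false
set_option linter.dupNamespace false

namespace Crest.Agent.R182

open Crest.GroupTheory MeasureTheory

namespace LieModel

variable {G : Type} [Group G] {k : ℕ} (M : LieModel G k)

theorem h28_span_Ioi (l : Fin M.d) (z : Fin M.d → ℝ) :
    z ∈ Submodule.span ℝ (M.e '' Set.Ioi l) ↔ ∀ l' ≤ l, z l' = 0 := by
  constructor
  · intro h
    induction h using Submodule.span_induction with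
    | mem x hx =>
      obtain ⟨j, hj, rfl⟩ := hx
      intro l' hl'
      exact Pi.single_eq_of_ne (hl'.trans_lt hj).ne _
    | zero => intro l' _; rfl
    | add x y _ _ hx hy => intro l' hl'; simp [hx l' hl', hy l' hl']
    | smul a x _ hx => intro l' hl'; simp [hx l' hl']
  · intro h
    rw [← M.sum_e z]
    refine Submodule.sum_mem _ fun j _ => ?_
    rcases le_or_gt j l with hj | hj
    · rw [h j hj, zero_smul]; exact Submodule.zero_mem _
    · exact Submodule.smul_mem _ _ (Submodule.subset_span ⟨j, hj, rfl⟩)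

theorem h28_rep (i : M.Cl) (l : Fin M.d) : ∃ y, M.e l - y ∈ M.I i ∧
    ∀ l', y l' ≠ 0 → l' ∈ M.Qs i ∧ l ≤ l' ∧ M.wt l' = M.wt l := by
  classical
  induction l using WellFoundedGT.induction with
  | ind l ih =>
  by_cases hl : l ∈ M.Qs i
  · refine ⟨M.e l, by rw [sub_self]; exact Submodule.zero_mem _, fun l' h => ?_⟩
    have : l' = l := by
      by_contra hne
      exact h (Pi.single_eq_of_ne hne _)
    subst this
    exact ⟨hl, le_rfl, rfl⟩
  · have hm : M.e l ∈ M.I i ⊔ Submodule.span ℝ (M.e '' Set.Ioi l) := by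
      by_contra hm
      exact hl (Finset.mem_filter.2 ⟨Finset.mem_univ _, hm⟩)
    obtain ⟨x, hx, z, hz, hxz⟩ := Submodule.mem_sup.1 hm
    rw [M.h28_span_Ioi] at hz
    choose! f hf1 hf2 using ih
    have he : M.wp (M.wt l) (M.e l) = M.e l := by
      funext j
      rw [wp_apply]
      split_ifs with hj
      · rfl
      · have hne : j ≠ l := by rintro rfl; exact hj rfl
        simp [e, hne]
    have hz' : ∀ j, M.wp (M.wt l) z j ≠ 0 → l < j ∧ M.wt j = M.wt l := by
      intro j hj
      rw [wp_apply] at hj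
      split_ifs at hj with hw
      · exact ⟨not_le.1 fun h => hj (hz j h), hw⟩
      · exact absurd rfl hj
    refine ⟨∑ j, M.wp (M.wt l) z j • f j, ?_, fun l' h => ?_⟩
    · have h1 : M.e l - ∑ j, M.wp (M.wt l) z j • f j =
          M.wp (M.wt l) x + ∑ j, M.wp (M.wt l) z j • (M.e j - f j) := by
        simp only [smul_sub, Finset.sum_sub_distrib, M.sum_e]
        rw [← add_sub_assoc, ← map_add, hxz, he]
      rw [h1]
      refine Submodule.add_mem _ (M.wp_mem_I i _ hx) (Submodule.sum_mem _ fun j _ => ?_)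
      by_cases hj : M.wp (M.wt l) z j = 0
      · rw [hj, zero_smul]; exact Submodule.zero_mem _
      · exact Submodule.smul_mem _ _ (hf1 j (hz' j hj).1)
    · rw [Finset.sum_apply] at h
      obtain ⟨j, -, hj⟩ := Finset.exists_ne_zero_of_sum_ne_zero h
      rw [Pi.smul_apply, smul_eq_mul, mul_ne_zero_iff] at hj
      obtain ⟨a, b, c⟩ := hf2 j (hz' j hj.1).1 l' hj.2
      exact ⟨a, (hz' j hj.1).1.le.trans b, c.trans (hz' j hj.1).2⟩

theorem h28_vanish (i : M.Cl) {X : Fin M.d → ℝ} (hX : X ∈ M.I i) (h : ∀ l ∉ M.Qs i, X l = 0) :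
    X = 0 := by
  classical
  funext l
  induction l using WellFoundedLT.induction with
  | ind l ih =>
  by_contra hl
  have hq : l ∈ M.Qs i := by
    by_contra hq
    exact hl (h l hq)
  refine (Finset.mem_filter.1 hq).2 (Submodule.mem_sup.2 ⟨(X l)⁻¹ • X, Submodule.smul_mem _ _ hX,
    M.e l - (X l)⁻¹ • X, (M.h28_span_Ioi _ _).2 fun l' hl' => ?_, by abel⟩)
  rcases hl'.lt_or_eq with h1 | rfl
  · have h2 : X l' = 0 := ih l' h1
    simp [e, h2, Pi.single_eq_of_ne h1.ne]
  · have h2 : X l' ≠ 0 := hl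
    simp [e, h2]

/-- TASK LC1a. Downward induction on `l`: `e l = x + y`, `x ∈ I i`, `y` supported on
`{l' ∈ Qs i | l ≤ l', wt l' = wt l}` (if `l ∉ Qs i` write `e l = x + ∑_{l' > l} c l' • e l'`, apply
`wp (wt l)` and the induction hypothesis). Define `p` on the basis `e l ↦ y` (`Pi.basisFun`, `Basis.constr`).
A vector of `I i` supported on `Qs i` vanishes (look at its smallest non-zero coordinate); this gives
`ker` and `fix` (for `l ∈ Qs i` take `x = 0`). -/
theorem exists_isPr (i : M.Cl) : ∃ p, M.IsPr i p := by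
  classical
  choose y hy1 hy2 using M.h28_rep i
  obtain ⟨p, hp⟩ : ∃ p : (Fin M.d → ℝ) →ₗ[ℝ] (Fin M.d → ℝ), ∀ X, p X = ∑ j, X j • y j :=
    ⟨∑ j, (LinearMap.proj j).smulRight (y j), fun X => by simp [LinearMap.sum_apply]⟩
  have h1 : ∀ X, X - p X ∈ M.I i := fun X => by
    have : X - p X = ∑ j, X j • (M.e j - y j) := by
      simp only [smul_sub, Finset.sum_sub_distrib, M.sum_e, hp]
    rw [this]
    exact Submodule.sum_mem _ fun j _ => Submodule.smul_mem _ _ (hy1 j)
  have h2 : ∀ X, ∀ l ∉ M.Qs i, p X l = 0 := fun X l hl => by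
    rw [hp, Finset.sum_apply]
    refine Finset.sum_eq_zero fun j _ => ?_
    have : y j l = 0 := by
      by_contra h
      exact hl (hy2 j l h).1
    simp [this]
  refine ⟨p, h1, fun X hX => M.h28_vanish i ?_ (h2 X), h2, fun X hX => ?_, fun l l' h => ?_⟩
  · have := Submodule.sub_mem _ hX (h1 X)
    rwa [sub_sub_cancel] at this
  · have := M.h28_vanish i (h1 X) fun l hl => by simp [hX l hl, h2 X l hl]
    exact (sub_eq_zero.1 this).symm
  · have : p (M.e l) = y l := by
      rw [hp]; simp [e, Pi.single_apply]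
    rw [this] at h
    exact (hy2 l l' h).2

theorem isPr (i : M.Cl) : M.IsPr i (M.pr i) := by
  unfold pr
  rw [dif_pos (M.exists_isPr i)]
  exact (M.exists_isPr i).choose_spec

end LieModel

end Crest.Agent.R182
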