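import Crest.Agent.R182.LC0

/-! Row 182, block L2b: the ideal `I i` is graded. -/

set_option autoImplicit false
set_option linter.dupNamespace false

namespace Crest.Agent.R182

open Crest.GroupTheory MeasureTheory

namespace LieModel

variable {G : Type} [Group G] {k : ℕ} (M : LieModel G k)

/-- TASK LC1b. `I i` is graded: `wp γ (mon w)` is `mon w` or `0` -/
theorem wp_mem_I (i : M.Cl) (γ : (Fin k → ℝ) →ₗ[ℝ] ℝ) {X : Fin M.d → ℝ} (h : X ∈ M.I i) :
    M.wp γ X ∈ M.I i := by
  classical
  have key : M.I i ≤ (M.I i).comap (M.wp γ) := by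
    refine Submodule.span_le.2 ?_
    rintro _ ⟨w, hw, rfl⟩
    change M.wp γ (M.mon w) ∈ M.I i
    by_cases hγ : M.wwt w = γ
    · have : M.wp γ (M.mon w) = M.mon w := by
        funext l
        rw [M.wp_apply]
        split_ifs with hl
        · rfl
        · by_contra h0
          exact hl ((M.wt_of_mon w l fun h => h0 h.symm).trans hγ)
      rw [this]
      exact Submodule.subset_span ⟨w, hw, rfl⟩
    · have : M.wp γ (M.mon w) = 0 := by
        funext l
        rw [M.wp_apply]
        split_ifs with hl
        · by_contra h0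
          exact hγ ((M.wt_of_mon w l h0).symm.trans hl)
        · rfl
      rw [this]
      exact zero_mem _
  exact key h

/-- TASK LC1b. A basis vector off the closed ray is a combination of monomials of its own weight,
and these are mixed (`mem_I_of_Wt`, `e_mem_E`, `dir_eq_of_wt`). -/
theorem e_mem_I (i : M.Cl) {l : Fin M.d} (h : ¬ M.OnRay i l) : M.e l ∈ M.I i := by
  have h0 : M.wt l ≠ 0 := fun h0 => h (Or.inr h0)
  exact M.mem_I_of_Wt i (fun t ht e => h (Or.inl (M.dir_eq_of_wt ht e).1)) (M.e_mem_E h0)
    (M.e_mem_Wt l)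

theorem onRay_of_mem_Qs {i : M.Cl} {l : Fin M.d} (h : l ∈ M.Qs i) : M.OnRay i l := by
  classical
  by_contra hl
  exact (Finset.mem_filter.1 h).2 (Submodule.mem_sup_left (M.e_mem_I i hl))

/-- TASK LC1b. `wt l = kap l • dir l` -/
theorem wt_eq_mult {i : M.Cl} {l : Fin M.d} (h : M.OnRay i l) : M.wt l = M.mult i l • M.χ i := by
  classical
  by_cases hd : M.dir l = M.χ i
  · rw [mult, if_pos hd, ← hd]
    exact M.wt_eq l
  · rw [mult, if_neg hd, zero_smul]
    exact h.resolve_left hd

end LieModel

end Crest.Agent.R182
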