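import Crest.Agent.R182.LC1a

/-! Row 182, block L2b: the homogeneous dimension. -/

set_option autoImplicit false
set_option linter.dupNamespace false

namespace Crest.Agent.R182

open Crest.GroupTheory MeasureTheory

namespace LieModel

variable {G : Type} [Group G] {k : ℕ} (M : LieModel G k)

/-- the trace of a map that is diagonal in two bases -/
theorem h31_trace {ι κ : Type*} [DecidableEq ι] (P : Finset κ) (Q : Finset ι) (v : κ → ι → ℝ)
    (x : ι → κ → ℝ) (c : κ → ℝ) (m : ι → ℝ) (hs : ∀ w ∈ P, ∀ l ∉ Q, v w l = 0)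
    (hi : ∀ y : κ → ℝ, ∑ w ∈ P, y w • v w = 0 → ∀ w ∈ P, y w = 0)
    (hx : ∀ l ∈ Q, (Pi.single l 1 : ι → ℝ) = ∑ w ∈ P, x l w • v w)
    (hc : ∀ w ∈ P, ∀ l ∈ Q, v w l ≠ 0 → m l = c w) : ∑ w ∈ P, c w = ∑ l ∈ Q, m l := by
  classical
  have h1 : ∀ l ∈ Q, ∑ w ∈ P, v w l * x l w = 1 := by
    intro l hl
    have h := congrFun (hx l hl) l
    rw [Pi.single_eq_same, Finset.sum_apply] at h
    rw [h]
    exact Finset.sum_congr rfl fun w _ => mul_comm _ _
  have h2 : ∀ w ∈ P, ∑ l ∈ Q, v w l * x l w = 1 := by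
    intro w hw
    have h := hi (fun w' => ∑ l ∈ Q, v w l * x l w' - if w' = w then 1 else 0) (by
      simp only [sub_smul, Finset.sum_sub_distrib, Finset.sum_smul, ite_smul, one_smul, zero_smul,
        Finset.sum_ite_eq', if_pos hw]
      rw [Finset.sum_comm, sub_eq_zero]
      have h3 : ∀ l ∈ Q, ∑ w' ∈ P, (v w l * x l w') • v w' = v w l • (Pi.single l 1 : ι → ℝ) := by
        intro l hl
        rw [hx l hl, Finset.smul_sum]
        exact Finset.sum_congr rfl fun w' _ => mul_smul _ _ _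
      rw [Finset.sum_congr rfl h3]
      funext l
      rw [Finset.sum_apply]
      simp only [Pi.smul_apply, Pi.single_apply, smul_eq_mul, mul_ite, mul_one, mul_zero,
        Finset.sum_ite_eq]
      split_ifs with hl
      · rfl
      · exact (hs w hw l hl).symm) w hw
    rwa [if_pos rfl, sub_eq_zero] at h
  calc ∑ w ∈ P, c w = ∑ w ∈ P, ∑ l ∈ Q, m l * (v w l * x l w) := by
        refine Finset.sum_congr rfl fun w hw => ?_
        rw [← mul_one (c w), ← h2 w hw, Finset.mul_sum]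
        refine Finset.sum_congr rfl fun l hl => ?_
        by_cases h : v w l = 0
        · rw [h, zero_mul, mul_zero, mul_zero]
        · rw [hc w hw l hl h]
    _ = ∑ l ∈ Q, m l := by
        rw [Finset.sum_comm]
        exact Finset.sum_congr rfl fun l hl => by rw [← Finset.mul_sum, h1 l hl, mul_one]

theorem h31_pr_Wt (i : M.Cl) {φ : (Fin k → ℝ) →ₗ[ℝ] ℝ} {X : Fin M.d → ℝ} (hX : X ∈ M.Wt φ) :
    M.pr i X ∈ M.Wt φ := by
  intro l hl
  rw [← M.sum_e X, map_sum, Finset.sum_apply]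
  refine Finset.sum_eq_zero fun j _ => ?_
  rw [map_smul, Pi.smul_apply, smul_eq_mul, mul_eq_zero]
  by_cases h : M.wt j = φ
  · exact Or.inr (by_contra fun h' => hl (((M.isPr i).tri j l h').2.trans h))
  · exact Or.inl (hX j h)

/-- TASK LC1c. For every weight `γ ≠ 0` the vectors `pr i (mon w)`, `w ∈ pb i`, `wwt w = γ`, and the
vectors `e l`, `l ∈ Qs i`, `wt l = γ`, are bases of the same space; for a pure word
`wwt w = cw w i • χ i`. -/
theorem dim_eq (i : M.Cl) : M.dim i = ∑ l ∈ M.Qs i, M.mult i l := by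
  classical
  obtain ⟨hW, hpure, hind, hspan⟩ := (M.exists_pb i).choose_spec
  change M.pb i ⊆ _ at hW
  change ∀ w ∈ M.pb i, _ at hpure
  change ∀ x : List (Fin M.d) → ℝ, ∑ w ∈ M.pb i, x w • M.mon w ∈ M.I i → ∀ w ∈ M.pb i, _ at hind
  change ∀ w ∈ M.Wd, M.mon w ∈ Submodule.span ℝ (M.mon '' (M.pb i)) ⊔ M.I i at hspan
  have hp := M.isPr i
  have hwt : ∀ w ∈ M.pb i, ∀ l, M.pr i (M.mon w) l ≠ 0 → M.wt l = M.cw w i • M.χ i := by
    intro w hw l h
    rw [← (M.pure_wwt (hW hw) (hpure w hw)).2.1]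
    exact by_contra fun h' => h (M.h31_pr_Wt i (M.mon_mem_Wt w) l h')
  have hx : ∀ l, ∃ x : List (Fin M.d) → ℝ, l ∈ (M.Qs i).filter (fun l => M.wt l ≠ 0) →
      (Pi.single l 1 : Fin M.d → ℝ) = ∑ w ∈ M.pb i, x w • M.pr i (M.mon w) := by
    intro l
    by_cases hl : l ∈ (M.Qs i).filter fun l => M.wt l ≠ 0
    · obtain ⟨h1, h2⟩ := Finset.mem_filter.1 hl
      have h3 : M.e l ∈ Submodule.span ℝ (M.mon '' (M.pb i)) ⊔ M.I i := by
        have h4 := M.e_mem_E h2
        rw [← M.span_Wd] at h4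
        refine Submodule.span_le.2 ?_ h4
        rintro _ ⟨w, hw, rfl⟩
        exact hspan w hw
      obtain ⟨y, hy, z, hz, e⟩ := Submodule.mem_sup.1 h3
      obtain ⟨x, rfl⟩ := (Submodule.mem_span_image_finset_iff_exists_fun' ℝ).1 hy
      refine ⟨x, fun _ => ?_⟩
      have h5 : M.pr i (M.e l) = M.e l :=
        hp.fix _ fun l' hl' => Pi.single_eq_of_ne (ne_of_mem_of_not_mem h1 hl').symm _
      have h6 := congrArg (M.pr i) e
      rw [map_add, hp.ker z hz, add_zero, h5, map_sum] at h6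
      simp only [map_smul] at h6
      exact h6.symm
    · exact ⟨0, fun h => absurd h hl⟩
  choose x hx using hx
  have key := h31_trace (M.pb i) ((M.Qs i).filter fun l => M.wt l ≠ 0)
    (fun w => M.pr i (M.mon w)) x (fun w => M.cw w i) (M.mult i) (fun w hw l hl => by
      by_contra h
      refine hl (Finset.mem_filter.2 ⟨by_contra fun h' => h (hp.supp _ l h'), fun h0 => ?_⟩)
      have h1 := LinearMap.congr_fun ((hwt w hw l h).symm.trans h0) (M.u i)
      rw [LinearMap.smul_apply, M.u_self, smul_eq_mul, mul_one, LinearMap.zero_apply] at h1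
      exact (M.pure_wwt (hW hw) (hpure w hw)).1.ne' h1)
    (fun y hy => hind y (by
      have h1 := hp.sub_mem (∑ w ∈ M.pb i, y w • M.mon w)
      rw [map_sum] at h1
      simp only [map_smul] at h1
      rwa [hy, sub_zero] at h1)) hx
    (fun w hw l _ h => by
      obtain ⟨h1, h2⟩ := M.dir_eq_of_wt (M.pure_wwt (hW hw) (hpure w hw)).1 (hwt w hw l h)
      rw [mult, if_pos h1, h2])
  rw [dim, key]
  refine Finset.sum_filter_of_ne fun l _ h h0 => h ?_
  rw [mult, if_neg fun h1 => M.wt_ne_of_dir h1 h0]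

/-- TASK LC1c. A letter of class `i` is not in `I i` (independence modulo `E2`), so `pr i` of it is a
non-zero vector supported on `Qs i` in its own weight. -/
theorem exists_Qs (i : M.Cl) : ∃ l ∈ M.Qs i, M.dir l = M.χ i ∧ 0 < M.mult i l := by
  have h := M.dim_pos i
  rw [M.dim_eq i] at h
  obtain ⟨l, hl, h1⟩ := Finset.exists_lt_of_sum_lt (f := fun _ => (0 : ℝ))
    (Finset.sum_const_zero.trans_lt h)
  refine ⟨l, hl, by_contra fun h2 => ?_, h1⟩
  rw [mult, if_neg h2] at h1
  exact lt_irrefl _ h1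

end LieModel

end Crest.Agent.R182
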