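import Crest.Agent.R182.LC2a
import Crest.Agent.R182.LBAd

/-! Row 182, block L2b: the adjoint action on thickened boxes. -/

set_option autoImplicit false
set_option linter.dupNamespace false

namespace Crest.Agent.R182

open Crest.GroupTheory MeasureTheory

namespace LieModel

variable {G : Type} [Group G] {k : ℕ} (M : LieModel G k)

/-- TASK LC2c. The polynomial bound for `Ad c` on `D a` and on `N0` (`LBAlg`). -/
theorem Ih_Ad : ∃ A : ℝ, 1 ≤ A ∧ ∀ a, Adm M.χ a → ∀ m, ∀ c ∈ Ball (M.SC : Set G) m, ∀ t, lg m ≤ t →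
    ∀ X, M.Ih a (Real.exp t) X →
      M.Ih (fun i => a i + M.χ i (M.π c)) (Real.exp (A * t)) (M.Ad c X) := by
  obtain ⟨C, hC, h1⟩ := M.exists_Ad_in
  obtain ⟨C', hC', h2⟩ := M.exists_Ad_le
  have hd : (0 : ℝ) ≤ M.d := Nat.cast_nonneg _
  refine ⟨1 + C + M.d + C', by linarith, fun a ha m c hc t ht X hX => ?_⟩
  obtain ⟨Y, Z, hY, hZ, hZt, rfl⟩ := hX
  have ht1 : 1 ≤ t := (one_le_lg m).trans ht
  have hdt : 0 ≤ (M.d : ℝ) * t := by positivity
  have hCt : 0 ≤ C * t := by positivity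
  have hCt' : C' ≤ C' * t := le_mul_of_one_le_right (by linarith) ht1
  refine ⟨M.Ad c Y, M.Ad c Z, (h1 a ha m c hc _ Y hY).mono (fun _ _ h => h) le_rfl ?_,
    (M.flat_of_mem (Ball.mem_closure hc)).mem_Wt (φ := 0) hZ, ?_, map_add _ _ _⟩
  · rw [← Real.exp_add]
    refine Real.exp_le_exp.mpr ?_
    have := mul_le_mul_of_nonneg_left ht hC
    linarith
  · refine (h2 m c hc 0 Z hZ).trans ?_
    rw [LinearMap.zero_apply, Real.exp_zero, mul_one]
    have a1 : C' ≤ Real.exp (C' * t) := by linarith [Real.add_one_le_exp (C' * t)]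
    have a2 : (m : ℝ) + 1 ≤ Real.exp t := by
      refine le_trans ?_ (Real.exp_le_exp.mpr ht)
      rw [exp_lg, add_comm]
      exact le_mul_of_one_le_left (by positivity) (Real.one_le_exp zero_le_one)
    have a3 : ((m : ℝ) + 1) ^ M.d ≤ Real.exp (M.d * t) := by
      rw [Real.exp_nat_mul]
      exact pow_le_pow_left₀ (by positivity) a2 _
    calc C' * ((m : ℝ) + 1) ^ M.d * ‖Z‖
        ≤ Real.exp (C' * t) * Real.exp (M.d * t) * Real.exp t := by gcongr
      _ ≤ Real.exp ((1 + C + M.d + C') * t) := by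
        rw [← Real.exp_add, ← Real.exp_add]
        exact Real.exp_le_exp.mpr (by linarith)

/-- TASK LC2c. Every `e l` with `wt l ≠ 0` is a combination of monomials. -/
theorem Ih_unit : ∃ A : ℝ, 1 ≤ A ∧ ∀ t X, ‖X‖ ≤ t → M.Ih (fun _ => 0) (A * t) X := by
  obtain ⟨C, hC, h⟩ := M.exists_in_norm
  refine ⟨2 * C, by linarith, fun t X hX => ?_⟩
  obtain ⟨Y, hY, hE, hn⟩ := M.exists_split X
  have ht : 0 ≤ t := (norm_nonneg X).trans hX
  refine ⟨X - Y, Y, (h _ hE).mono (fun _ _ h => h) le_rfl ?_, hY, ?_, (sub_add_cancel X Y).symm⟩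
  · have h1 : ‖X - Y‖ ≤ 2 * t := by linarith [norm_sub_le X Y]
    have h2 := mul_le_mul_of_nonneg_left h1 (zero_le_one.trans hC)
    linarith
  · have h1 : t ≤ 2 * C * t := le_mul_of_one_le_left ht (by linarith)
    linarith

end LieModel

end Crest.Agent.R182
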