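import Crest.Agent.R182.LC2a
import Crest.Agent.R182.LBIn

/-! Row 182, block L2b: absorption in thickened boxes. -/

set_option autoImplicit false
set_option linter.dupNamespace false

namespace Crest.Agent.R182

open Crest.GroupTheory MeasureTheory

/-- bounded coefficients in a finite spanning family -/
theorem h79_coef {ι : Type*} {n : ℕ} (s : Finset ι) (v : ι → Fin n → ℝ) : ∃ C : ℝ, 0 ≤ C ∧
    ∀ X ∈ Submodule.span ℝ (v '' s), ∃ x : ι → ℝ, (∀ w, |x w| ≤ C * ‖X‖) ∧
      X = ∑ w ∈ s, x w • v w := by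
  classical
  let T : (s → ℝ) →ₗ[ℝ] (Fin n → ℝ) := Fintype.linearCombination ℝ fun w : s => v w
  have hT : LinearMap.range T = Submodule.span ℝ (v '' s) := by
    rw [Fintype.range_linearCombination]
    congr 1
    ext y
    simp
  obtain ⟨σ, hσ⟩ := T.rangeRestrict.exists_rightInverse_of_surjective T.range_rangeRestrict
  refine ⟨‖LinearMap.toContinuousLinearMap σ‖, ContinuousLinearMap.opNorm_nonneg _, fun X hX => ?_⟩
  rw [← hT] at hX
  have h1 : ‖σ ⟨X, hX⟩‖ ≤ ‖LinearMap.toContinuousLinearMap σ‖ * ‖X‖ :=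
    (LinearMap.toContinuousLinearMap σ).le_opNorm ⟨X, hX⟩
  refine ⟨fun w => if h : w ∈ s then σ ⟨X, hX⟩ ⟨w, h⟩ else 0, fun w => ?_, ?_⟩
  · by_cases h : w ∈ s
    · simp only [dif_pos h]
      exact (norm_le_pi_norm (σ ⟨X, hX⟩) ⟨w, h⟩).trans h1
    · simp only [dif_neg h, abs_zero]
      exact (norm_nonneg _).trans h1
  · have h2 : T (σ ⟨X, hX⟩) = X := congrArg Subtype.val (LinearMap.congr_fun hσ ⟨X, hX⟩)
    rw [← Finset.sum_coe_sort]
    refine h2.symm.trans ?_
    rw [Fintype.linearCombination_apply]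
    refine Finset.sum_congr rfl fun w _ => ?_
    simp only [dif_pos w.2]

namespace LieModel

variable {G : Type} [Group G] {k : ℕ} (M : LieModel G k)

/-- TASK LC2e. Split `X` into its `N0` part and its part in `t • RD i (a i) ⊆ C t • D a` (`LBAlg`). -/
theorem Ih_ray : ∃ A : ℝ, 1 ≤ A ∧ ∀ a, Adm M.χ a → ∀ i t X, 0 ≤ t →
    (∀ l, X l ≠ 0 → M.OnRay i l) → (∀ l, |X l| ≤ t * Real.exp (M.mult i l * a i)) →
    M.Ih a (A * t) X := by
  classical
  obtain ⟨C, hC, h⟩ := M.exists_RD_in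
  refine ⟨C, hC, fun a ha i t X ht hX hb => ?_⟩
  rcases ht.eq_or_lt with rfl | ht'
  · have : X = 0 := funext fun l => by simpa using hb l
    rw [this]
    exact Ih.zero a (by simp)
  have h1 : t⁻¹ • (X - M.wp 0 X) ∈ M.RD i (a i) := by
    have h2 : ∀ j, M.dir j ≠ M.χ i → (t⁻¹ • (X - M.wp 0 X)) j = 0 := by
      intro j hj
      rw [Pi.smul_apply, Pi.sub_apply, wp_apply]
      by_cases h0 : X j = 0
      · simp [h0]
      · rcases hX j h0 with h3 | h3
        · exact absurd h3 hj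
        · simp [h3]
    refine ⟨h2, fun j => ?_⟩
    by_cases hj : M.dir j = M.χ i
    · have h3 := hb j
      rw [mult, if_pos hj] at h3
      rw [Pi.smul_apply, Pi.sub_apply, wp_apply, if_neg (M.wt_ne_of_dir hj), sub_zero, smul_eq_mul,
        abs_mul, abs_of_pos (inv_pos.2 ht'), inv_mul_le_iff₀ ht']
      exact h3
    · rw [h2 j hj, abs_zero]
      exact (Real.exp_pos _).le
  have h2 := (h a ha i _ h1).smul t
  rw [smul_smul, mul_inv_cancel₀ ht'.ne', one_smul, abs_of_pos ht', mul_comm] at h2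
  refine ⟨X - M.wp 0 X, M.wp 0 X, h2, fun j hj => ?_, ?_, by abel⟩
  · rw [wp_apply, if_neg hj]
  · refine le_trans ((pi_norm_le_iff_of_nonneg ht).2 fun j => ?_)
      (le_mul_of_one_le_left ht hC)
    rw [wp_apply, Real.norm_eq_abs]
    split_ifs with hj
    · have h3 := hb j
      rw [mult, if_neg fun h4 => M.wt_ne_of_dir h4 hj] at h3
      simpa using h3
    · simpa using ht

theorem h79_lw_mixed {κ : ℝ} (hκ : ∀ j, M.wt j ≠ 0 → κ ≤ M.kap j) {a : M.Cl → ℝ} {i : M.Cl}
    {s : Fin k → ℝ} {D : ℝ} (hD : 0 ≤ D) (hi : M.χ i s ≤ a i)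
    (hj : ∀ j, j ≠ i → M.χ j s + D ≤ a j) {w : List (Fin M.d)} (hw : w ∈ M.Wd)
    (hm : M.Mixed i w) : M.wwt w s + κ * D ≤ M.lw a w := by
  obtain ⟨l, hl, hd⟩ := hm
  have hL := (M.mem_Wd.1 hw).2.2
  obtain ⟨j, hj0⟩ := M.exists_cl (hL l hl)
  have hne : j ≠ i := fun h => hd (h ▸ hj0)
  have h1 : M.mult j l ≤ M.cw w j :=
    List.single_le_sum (fun x hx => by
      obtain ⟨l', -, rfl⟩ := List.mem_map.1 hx
      exact M.mult_nonneg j l') _ (List.mem_map_of_mem hl)
  rw [mult, if_pos hj0] at h1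
  have h2 := hκ l (M.wt_ne_of_Lam (hL l hl))
  have h3 : M.cw w j * (a j - M.χ j s) ≤ ∑ j', M.cw w j' * (a j' - M.χ j' s) := by
    refine Finset.single_le_sum (f := fun j' => M.cw w j' * (a j' - M.χ j' s))
      (fun j' _ => mul_nonneg (M.cw_nonneg w j') ?_) (Finset.mem_univ j)
    by_cases h : j' = i
    · rw [h]; linarith
    · have := hj j' h; linarith
  have h4 : ∑ j', M.cw w j' * (a j' - M.χ j' s) = M.lw a w - M.wwt w s := by
    rw [← M.lw_pt s hL, lw, lw, ← Finset.sum_sub_distrib]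
    exact Finset.sum_congr rfl fun j' _ => by unfold R182.pt; ring
  have h5 : M.cw w j * D ≤ M.cw w j * (a j - M.χ j s) :=
    mul_le_mul_of_nonneg_left (by have := hj j hne; linarith) (M.cw_nonneg w j)
  have h6 : κ * D ≤ M.cw w j * D := mul_le_mul_of_nonneg_right (h2.trans h1) hD
  linarith

open Classical in
theorem h79_wp_mon (γ : (Fin k → ℝ) →ₗ[ℝ] ℝ) (w : List (Fin M.d)) :
    M.wp γ (M.mon w) = if M.wwt w = γ then M.mon w else 0 := by
  funext l
  rw [wp_apply]
  by_cases h0 : M.mon w l = 0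
  · split_ifs <;> simp [h0]
  · rw [M.wt_of_mon w l h0]
    split_ifs <;> simp

/-- TASK LC2e. Choose a linear right inverse `σ` of `x ↦ ∑_{w mixed} x w • mon w` on `I i`; for each
weight `γ` keep in `σ (wp γ X)` only the words with `wwt w = γ` (`wp_mem_I`, `wt_of_mon`). For a mixed
word `lw a w ≥ wwt w s + κ D` with `κ` the least `kap l`, `l ∈ Lam`. -/
theorem Ih_abs : ∃ A κ : ℝ, 1 ≤ A ∧ 0 < κ ∧ ∀ (a : M.Cl → ℝ) i (s : Fin k → ℝ) (D : ℝ), 0 ≤ D →
    M.χ i s ≤ a i → (∀ j, j ≠ i → M.χ j s + D ≤ a j) → ∀ X ∈ M.I i, ∀ t : ℝ, 0 ≤ t →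
      (∀ l, |X l| ≤ t * Real.exp (M.wt l s + κ * D)) → M.Ih a (A * t) X := by
  classical
  obtain ⟨κ, -, hκ, -, hκ0, -⟩ := M.exists_kap
  choose C hC h using fun i : M.Cl => h79_coef (M.Wd.filter (M.Mixed i)) M.mon
  have hS : 0 ≤ ∑ i, C i := Finset.sum_nonneg fun i _ => hC i
  refine ⟨1 + (Finset.univ.image M.wt).card * ∑ i, C i, κ, le_add_of_nonneg_right (by positivity),
    hκ, fun a i s D hD hi hj X hX t ht hb => ?_⟩
  have hCi : C i ≤ ∑ i, C i := Finset.single_le_sum (fun j _ => hC j) (Finset.mem_univ i)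
  have key : ∀ γ ∈ Finset.univ.image M.wt,
      M.In (fun _ => True) a ((∑ i, C i) * t) (M.wp γ X) := by
    intro γ _
    have h1 : M.wp γ X ∈ Submodule.span ℝ (M.mon '' (M.Wd.filter (M.Mixed i) : Finset _)) := by
      rw [Finset.coe_filter]
      exact M.wp_mem_I i γ hX
    obtain ⟨x, hx, he⟩ := h i _ h1
    have h2 : ‖M.wp γ X‖ ≤ t * Real.exp (γ s + κ * D) := by
      refine (pi_norm_le_iff_of_nonneg (by positivity)).2 fun l => ?_
      rw [wp_apply, Real.norm_eq_abs]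
      split_ifs with hl
      · rw [← hl]; exact hb l
      · rw [abs_zero]; positivity
    refine ⟨fun w => if w ∈ M.Wd ∧ M.Mixed i w ∧ M.wwt w = γ then x w else 0, fun w => ?_,
      fun w hw => absurd trivial hw, ?_⟩
    · show |if w ∈ M.Wd ∧ M.Mixed i w ∧ M.wwt w = γ then x w else 0| ≤ _
      split_ifs with hw
      · have h3 := M.h79_lw_mixed hκ0 hD hi hj hw.1 hw.2.1
        rw [hw.2.2] at h3
        refine (hx w).trans ((mul_le_mul hCi (h2.trans (mul_le_mul_of_nonneg_left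
          (Real.exp_le_exp.2 h3) ht)) (norm_nonneg _) hS).trans_eq (by ring))
      · rw [abs_zero]; positivity
    · have h3 : M.wp γ (M.wp γ X) = M.wp γ X := by
        funext l
        rw [wp_apply, wp_apply]
        split_ifs <;> rfl
      rw [← h3, he, map_sum, Finset.sum_filter]
      refine Finset.sum_congr rfl fun w hw => ?_
      rw [map_smul, h79_wp_mon]
      by_cases h4 : M.Mixed i w <;> by_cases h5 : M.wwt w = γ <;> simp [hw, h4, h5]
  have h1 := In.sum (Finset.univ.image M.wt) (by positivity) key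
  have h2 : ∑ γ ∈ Finset.univ.image M.wt, M.wp γ X = X := by
    funext l
    rw [Finset.sum_apply]
    simp only [wp_apply]
    rw [Finset.sum_ite_eq, if_pos (Finset.mem_image_of_mem _ (Finset.mem_univ l))]
  rw [h2] at h1
  refine ⟨X, 0, h1.mono (fun _ _ h => h) le_rfl (by nlinarith), Submodule.zero_mem _, ?_, by simp⟩
  rw [norm_zero]
  positivity

end LieModel

end Crest.Agent.R182
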