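import Crest.Agent.R182.LC2a
import Crest.Agent.R182.LBIn

/-! Row 182, block L2b: volume of thickened boxes. -/

set_option autoImplicit false
set_option linter.dupNamespace false

namespace Crest.Agent.R182

open Crest.GroupTheory MeasureTheory

namespace LieModel

variable {G : Type} [Group G] {k : ℕ} (M : LieModel G k)

theorem h92_par_vol {ι : Type} [Fintype ι] {d : ℕ} (v : ι → Fin d → ℝ)
    (hv : LinearIndependent ℝ v) : ∃ c : ℝ, 0 ≤ c ∧ ∀ r : ι → ℝ, (∀ i, 0 ≤ r i) →
      volume {X : Fin d → ℝ | ∃ y : ι → ℝ, (∀ i, |y i| ≤ r i) ∧ X = ∑ i, y i • v i} ≤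
        ENNReal.ofReal (c * ∏ i, r i) := by
  classical
  by_cases h : ⊤ ≤ Submodule.span ℝ (Set.range v)
  · let B := Module.Basis.mk hv h
    let L : (Fin d → ℝ) ≃L[ℝ] (ι → ℝ) := B.equivFunL
    have hμ := Measure.isAddLeftInvariant_eq_smul ((volume : Measure (Fin d → ℝ)).map L)
      (volume : Measure (ι → ℝ))
    set c := Measure.addHaarScalarFactor ((volume : Measure (Fin d → ℝ)).map L)
      (volume : Measure (ι → ℝ))
    refine ⟨c * 2 ^ Fintype.card ι, by positivity, fun r hr => ?_⟩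
    have hsub : {X : Fin d → ℝ | ∃ y : ι → ℝ, (∀ i, |y i| ≤ r i) ∧ X = ∑ i, y i • v i} ⊆
        L ⁻¹' Set.Icc (-r) r := by
      rintro X ⟨y, hy, rfl⟩
      have e : L (∑ i, y i • v i) = y := by
        have : ∑ i, y i • v i = B.equivFun.symm y := by
          rw [Module.Basis.equivFun_symm_apply]
          simp [B]
        rw [this]
        exact B.equivFun.apply_symm_apply y
      rw [Set.mem_preimage, e]
      exact ⟨fun i => (abs_le.1 (hy i)).1, fun i => (abs_le.1 (hy i)).2⟩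
    refine (measure_mono hsub).trans (le_of_eq ?_)
    rw [← Measure.map_apply L.continuous.measurable measurableSet_Icc, hμ, Measure.smul_apply,
      Real.volume_Icc_pi, ← ENNReal.ofReal_prod_of_nonneg (fun i _ => by
        simp only [Pi.neg_apply]; linarith [hr i]), ENNReal.smul_def, smul_eq_mul,
      ← ENNReal.ofReal_coe_nnreal, ← ENNReal.ofReal_mul (NNReal.coe_nonneg c)]
    congr 1
    have : ∀ i, r i - (-r) i = 2 * r i := fun i => by simp only [Pi.neg_apply]; ring
    simp only [this, Finset.prod_mul_distrib, Finset.prod_const, Finset.card_univ]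
    ring
  · refine ⟨0, le_rfl, fun r _ => ?_⟩
    have h0 := Measure.addHaar_submodule (volume : Measure (Fin d → ℝ))
      (Submodule.span ℝ (Set.range v)) (fun e => h e.ge)
    refine (measure_mono ?_).trans (h0.le.trans bot_le)
    rintro X ⟨y, -, rfl⟩
    exact Submodule.sum_mem _ fun i _ => Submodule.smul_mem _ _ (Submodule.subset_span ⟨i, rfl⟩)

theorem h92_lw_nonneg {a : M.Cl → ℝ} (ha : Adm M.χ a) {w : List (Fin M.d)} (hw : w ∈ M.Wd)
    (h : M.wwt w = 0) : 0 ≤ M.lw a w := by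
  obtain ⟨S, ⟨v, hv⟩, hS⟩ := ha
  have h1 := M.lw_pt v (M.mem_Wd.1 hw).2.2
  rw [h, LinearMap.zero_apply] at h1
  rw [← h1]
  exact M.lw_mono (fun j => (hS j).1 ⟨v, hv, rfl⟩) w

/-- a weight zero element of `E` lies in a fixed multiple of every admissible box -/
theorem h92_in_zero {X : Fin M.d → ℝ} (hX : X ∈ M.E) (h0 : X ∈ M.N0) :
    ∃ C : ℝ, 0 ≤ C ∧ ∀ a, Adm M.χ a → M.In top a C X := by
  have h := M.mem_span_wwt (φ := 0) hX h0
  clear hX h0
  induction h using Submodule.span_induction with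
  | zero => exact ⟨0, le_rfl, fun a _ => In.zero le_rfl⟩
  | add A B _ _ hA hB =>
    obtain ⟨C, hC, h⟩ := hA
    obtain ⟨C', hC', h'⟩ := hB
    exact ⟨C + C', add_nonneg hC hC', fun a ha => (h a ha).add (h' a ha)⟩
  | smul c A _ hA =>
    obtain ⟨C, hC, h⟩ := hA
    exact ⟨|c| * C, by positivity, fun a ha => (h a ha).smul c⟩
  | mem A hA =>
    obtain ⟨w, ⟨hw, hw0⟩, rfl⟩ := hA
    refine ⟨1, zero_le_one, fun a ha => ?_⟩
    have := In.single (p := top) (a := a) (t := 1) (c := 1) (M.mem_Wd.1 hw).2.2 trivial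
      (by rw [abs_one, one_mul]; exact Real.one_le_exp (M.h92_lw_nonneg ha hw hw0))
    rwa [one_smul] at this

/-- coordinates complementary to `E` -/
theorem h92_split : ∃ (J : Finset (Fin M.d)) (C : ℝ), 0 ≤ C ∧
    (∀ x : Fin M.d → ℝ, ∑ l ∈ J, x l • M.e l ∈ M.E → ∀ l ∈ J, x l = 0) ∧
    ∀ a, Adm M.χ a → ∀ Z ∈ M.N0, ∃ (Y z : Fin M.d → ℝ), M.In top a (C * ‖Z‖) Y ∧
      (∀ l, |z l| ≤ C * ‖Z‖) ∧ Z = Y + ∑ l ∈ J, z l • M.e l := by
  classical
  obtain ⟨J, hJ, hi, hs⟩ :=
    helper86_exists_indep_mod M.e M.E (Finset.univ.filter fun j => M.wt j = 0)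
  have h1 : ∀ j, ∃ (C : ℝ) (c : Fin M.d → ℝ), 0 ≤ C ∧ (∀ l, |c l| ≤ C) ∧ (M.wt j = 0 →
      ∀ a, Adm M.χ a → M.In top a C (M.e j - ∑ l ∈ J, c l • M.e l)) := by
    intro j
    by_cases hj : M.wt j = 0
    swap
    · exact ⟨0, 0, le_rfl, fun l => by simp, fun h => absurd h hj⟩
    obtain ⟨A, hA, B, hB, hAB⟩ :=
      Submodule.mem_sup.1 (hs j (Finset.mem_filter.2 ⟨Finset.mem_univ _, hj⟩))
    obtain ⟨c, -, rfl⟩ := (Submodule.mem_span_image_finset_iff_exists_fun' ℝ).1 hA
    have hB' : M.e j - ∑ l ∈ J, c l • M.e l = B := by rw [← hAB]; abel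
    have hN : B ∈ M.N0 := by
      rw [← hB']
      refine M.N0.sub_mem ?_ (M.N0.sum_mem fun l hl => M.N0.smul_mem _ ?_)
      · have := M.e_mem_Wt j
        rwa [hj] at this
      · have := M.e_mem_Wt l
        rwa [(Finset.mem_filter.1 (hJ hl)).2] at this
    obtain ⟨C, hC, h⟩ := M.h92_in_zero hB hN
    refine ⟨C + ‖c‖, c, by positivity, fun l => ?_, fun _ a ha => ?_⟩
    · have := norm_le_pi_norm c l
      rw [Real.norm_eq_abs] at this
      linarith
    · rw [hB']
      exact (h a ha).mono (fun _ _ h => h) le_rfl (by linarith [norm_nonneg c])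
  choose C c hC hc h using h1
  refine ⟨J, ∑ j, C j, Finset.sum_nonneg fun j _ => hC j, hi, fun a ha Z hZ => ?_⟩
  have hZj : ∀ j, |Z j| ≤ ‖Z‖ := fun j => by
    have := norm_le_pi_norm Z j
    rwa [Real.norm_eq_abs] at this
  refine ⟨∑ j, Z j • (M.e j - ∑ l ∈ J, c j l • M.e l), fun l => ∑ j, Z j * c j l, ?_, fun l => ?_, ?_⟩
  · rw [Finset.sum_mul]
    have key : ∀ s : Finset (Fin M.d), M.In top a (∑ j ∈ s, C j * ‖Z‖)
        (∑ j ∈ s, Z j • (M.e j - ∑ l ∈ J, c j l • M.e l)) := by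
      intro s
      induction s using Finset.induction_on with
      | empty => simpa using In.zero le_rfl
      | insert j s hj ih =>
        rw [Finset.sum_insert hj, Finset.sum_insert hj]
        refine In.add ?_ ih
        by_cases h0 : M.wt j = 0
        · refine ((h j h0 a ha).smul (Z j)).mono (fun _ _ h => h) le_rfl ?_
          rw [mul_comm]
          exact mul_le_mul_of_nonneg_left (hZj j) (hC j)
        · rw [hZ j h0, zero_smul]
          exact In.zero (mul_nonneg (hC j) (norm_nonneg _))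
    exact key _
  · rw [Finset.sum_mul]
    refine (Finset.abs_sum_le_sum_abs _ _).trans (Finset.sum_le_sum fun j _ => ?_)
    rw [abs_mul, mul_comm]
    exact mul_le_mul (hc j l) (hZj j) (abs_nonneg _) (hC j)
  · simp only [smul_sub, Finset.sum_sub_distrib, M.sum_e, Finset.smul_sum, Finset.sum_smul, smul_smul]
    rw [Finset.sum_comm]
    abel

theorem h92_indep (J : Finset (Fin M.d))
    (hi : ∀ x : Fin M.d → ℝ, ∑ l ∈ J, x l • M.e l ∈ M.E → ∀ l ∈ J, x l = 0) (b : M.Bas) :
    LinearIndependent ℝ (Sum.elim (fun v : b.1 => M.mon v) (fun l : J => M.e l)) := by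
  classical
  rw [Fintype.linearIndependent_iff]
  intro g hg
  rw [Fintype.sum_sum_type] at hg
  simp only [Sum.elim_inl, Sum.elim_inr] at hg
  have hE : ∑ v : b.1, g (Sum.inl v) • M.mon v ∈ M.E :=
    M.E.sum_mem fun v _ => M.E.smul_mem _ (M.mon_mem_E (b.2.1 v.2))
  have e : ∑ l : J, g (Sum.inr l) • M.e l =
      ∑ l ∈ J, (if h : l ∈ J then g (Sum.inr ⟨l, h⟩) else 0) • M.e l := by
    rw [← Finset.sum_coe_sort J]
    exact Finset.sum_congr rfl fun l _ => by rw [dif_pos l.2]
  have h1 : ∀ l : J, g (Sum.inr l) = 0 := by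
    intro l
    have := hi (fun l => if h : l ∈ J then g (Sum.inr ⟨l, h⟩) else 0) (by
      rw [← e, eq_neg_of_add_eq_zero_right hg]
      exact M.E.neg_mem hE) l l.2
    simpa [dif_pos l.2] using this
  simp only [h1, zero_smul, Finset.sum_const_zero, add_zero] at hg
  have h2 := Fintype.linearIndependent_iff.1 b.2.2.1.linearIndependent (fun v => g (Sum.inl v)) hg
  rintro (v | l)
  · exact h2 v
  · exact h1 l

theorem Ih_vol : ∃ A : ℝ, 1 ≤ A ∧ ∀ a, Adm M.χ a → ∀ t, 1 ≤ t →
    volume {X | M.Ih a (Real.exp t) X} ≤ ENNReal.ofReal (Real.exp (Vol M.bw a + A * t)) := by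
  classical
  obtain ⟨J, C, hC, hi, hJ⟩ := M.h92_split
  obtain ⟨C0, hC0, hopt⟩ := M.exists_opt
  choose c hc hvol using fun b : M.Bas => h92_par_vol _ (M.h92_indep J hi b)
  set K := C0 * (1 + C) with hK
  have hK0 : 0 ≤ K := by positivity
  have hCK : C ≤ K := by nlinarith
  let n : M.Bas → ℕ := fun b => b.1.card + J.card
  have hf : ∀ b, 0 ≤ (n b : ℝ) + c b * K ^ n b := fun b => by
    have := hc b
    positivity
  refine ⟨1 + ∑ b, ((n b : ℝ) + c b * K ^ n b), ?_, fun a ha t ht => ?_⟩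
  · linarith [Finset.sum_nonneg fun b (_ : b ∈ Finset.univ) => hf b]
  obtain ⟨b, hb, hcoef⟩ := hopt a
  have hT := Real.exp_pos t
  have h1 := hvol b (Sum.elim (fun v => K * Real.exp t * Real.exp (M.lw a v)) fun _ => K * Real.exp t)
    (by rintro (v | l) <;> simp only [Sum.elim_inl, Sum.elim_inr] <;> positivity)
  refine le_trans (measure_mono ?_) (h1.trans (ENNReal.ofReal_le_ofReal ?_))
  · rintro X ⟨Y, Z, hY, hZ, hZn, rfl⟩
    obtain ⟨Y', z, hY', hz, hZ'⟩ := hJ a ha Z hZ
    have hCZ : C * ‖Z‖ ≤ C * Real.exp t := mul_le_mul_of_nonneg_left hZn hC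
    obtain ⟨y, hy, hyy⟩ := hcoef _ _ (In.add hY (hY'.mono (fun _ _ h => h) le_rfl hCZ))
    refine ⟨Sum.elim (fun v => y v) fun l => z l, ?_, ?_⟩
    · rintro (v | l) <;> simp only [Sum.elim_inl, Sum.elim_inr]
      · refine (hy v).trans (le_of_eq ?_)
        rw [hK]; ring
      · exact (hz l).trans (hCZ.trans (mul_le_mul_of_nonneg_right hCK hT.le))
    · rw [Fintype.sum_sum_type]
      simp only [Sum.elim_inl, Sum.elim_inr]
      rw [Finset.sum_coe_sort b.1 fun v => y v • M.mon v, Finset.sum_coe_sort J fun l => z l • M.e l,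
        ← hyy, add_assoc, ← hZ']
  · rw [Fintype.prod_sum_type]
    simp only [Sum.elim_inl, Sum.elim_inr]
    rw [Finset.prod_coe_sort b.1 fun v => K * Real.exp t * Real.exp (M.lw a v),
      Finset.prod_mul_distrib, Finset.prod_const, Finset.prod_const, ← Real.exp_sum, hb,
      Finset.card_univ, Fintype.card_coe]
    have e : c b * ((K * Real.exp t) ^ b.1.card * Real.exp (Vol M.bw a) * (K * Real.exp t) ^ J.card) =
        c b * K ^ n b * Real.exp (Vol M.bw a + n b * t) := by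
      rw [Real.exp_add, Real.exp_nat_mul]
      simp only [n]
      ring
    rw [e]
    have h2 : c b * K ^ n b ≤ Real.exp (c b * K ^ n b * t) := by
      have h3 : 0 ≤ c b * K ^ n b := by have := hc b; positivity
      have := Real.add_one_le_exp (c b * K ^ n b * t)
      nlinarith
    refine (mul_le_mul_of_nonneg_right h2 (Real.exp_pos _).le).trans ?_
    rw [← Real.exp_add]
    refine Real.exp_le_exp.2 ?_
    have h4 : (n b : ℝ) + c b * K ^ n b ≤ ∑ b, ((n b : ℝ) + c b * K ^ n b) :=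
      Finset.single_le_sum (f := fun b => (n b : ℝ) + c b * K ^ n b) (fun b _ => hf b)
        (Finset.mem_univ b)
    nlinarith

end LieModel

end Crest.Agent.R182
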