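import Crest.Agent.R182.LC2b
import Crest.Agent.R182.LC2c
import Crest.Agent.R182.LC2d
import Crest.Agent.R182.LC2e
import Crest.Agent.R182.LC2f
import Crest.Agent.R182.MB1

/-! Row 182, block L2b: thickened boxes. -/

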