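import Crest.Agent.R182.LC1

/-! Row 182, block L2b: thickened boxes. -/

set_option autoImplicit false
set_option linter.dupNamespace false

namespace Crest.Agent.R182

open Crest.GroupTheory MeasureTheory

namespace LieModel

variable {G : Type} [Group G] {k : ℕ} (M : LieModel G k)

variable {M} {a a' : M.Cl → ℝ} {t t' : ℝ} {X Y : Fin M.d → ℝ}

theorem Ih.nonneg (h : M.Ih a t X) : 0 ≤ t := by
  obtain ⟨_, _, _, _, h, _⟩ := h
  exact (norm_nonneg _).trans h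

/-- TASK LC2a -/
theorem Ih.mono (h : M.Ih a t X) (ha : a ≤ a') (ht : t ≤ t') : M.Ih a' t' X := by
  have h0 := h.nonneg
  obtain ⟨Y, Z, ⟨x, hx, hp, hY⟩, hZ, hn, rfl⟩ := h
  refine ⟨Y, Z, ⟨x, fun w => (hx w).trans ?_, hp, hY⟩, hZ, hn.trans ht, rfl⟩
  exact mul_le_mul ht (Real.exp_le_exp.2 (M.lw_mono ha w)) (Real.exp_pos _).le (h0.trans ht)

/-- TASK LC2a -/
theorem Ih.neg (h : M.Ih a t X) : M.Ih a t (-X) := by
  obtain ⟨Y, Z, ⟨x, hx, -, hY⟩, hZ, hn, rfl⟩ := h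
  refine ⟨-Y, -Z, ⟨fun w => -x w, fun w => by rw [abs_neg]; exact hx w,
    fun w hw => absurd trivial hw, ?_⟩, M.N0.neg_mem hZ, by rwa [norm_neg], neg_add _ _⟩
  rw [hY, ← Finset.sum_neg_distrib]
  exact Finset.sum_congr rfl fun w _ => (neg_smul _ _).symm

/-- TASK LC2a -/
theorem Ih.add (h : M.Ih a t X) (h' : M.Ih a t' Y) : M.Ih a (t + t') (X + Y) := by
  obtain ⟨Y₁, Z₁, ⟨x, hx, -, hY⟩, hZ, hn, rfl⟩ := h
  obtain ⟨Y₂, Z₂, ⟨x', hx', -, hY'⟩, hZ', hn', rfl⟩ := h'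
  refine ⟨Y₁ + Y₂, Z₁ + Z₂, ⟨fun w => x w + x' w, fun w => ?_,
    fun w hw => absurd trivial hw, ?_⟩, M.N0.add_mem hZ hZ',
    (norm_add_le _ _).trans (add_le_add hn hn'), add_add_add_comm _ _ _ _⟩
  · rw [add_mul]
    exact (abs_add_le _ _).trans (add_le_add (hx w) (hx' w))
  · rw [hY, hY', ← Finset.sum_add_distrib]
    exact Finset.sum_congr rfl fun w _ => (add_smul _ _ _).symm

/-- TASK LC2a -/
theorem Ih.smul (h : M.Ih a t X) (r : ℝ) : M.Ih a (|r| * t) (r • X) := by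
  obtain ⟨Y, Z, ⟨x, hx, -, hY⟩, hZ, hn, rfl⟩ := h
  refine ⟨r • Y, r • Z, ⟨fun w => r * x w, fun w => ?_,
    fun w hw => absurd trivial hw, ?_⟩, M.N0.smul_mem r hZ, ?_, smul_add _ _ _⟩
  · rw [abs_mul, mul_assoc]
    exact mul_le_mul_of_nonneg_left (hx w) (abs_nonneg r)
  · rw [hY, Finset.smul_sum]
    exact Finset.sum_congr rfl fun w _ => smul_smul _ _ _
  · rw [norm_smul, Real.norm_eq_abs]
    exact mul_le_mul_of_nonneg_left hn (abs_nonneg r)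

/-- TASK LC2a -/
theorem Ih.of_D (h : X ∈ M.D a) : M.Ih a 1 X := by
  exact ⟨X, 0, h, M.N0.zero_mem, by rw [norm_zero]; exact zero_le_one, (add_zero X).symm⟩

/-- TASK LC2a -/
theorem Ih.zero (a : M.Cl → ℝ) (ht : 0 ≤ t) : M.Ih a t 0 := by
  refine ⟨0, 0, ⟨fun _ => 0, fun w => ?_, fun _ _ => rfl, by simp⟩, M.N0.zero_mem,
    by rwa [norm_zero], (add_zero _).symm⟩
  rw [abs_zero]
  exact mul_nonneg ht (Real.exp_pos _).le

end LieModel

end Crest.Agent.R182
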