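import Crest.Agent.R182.LC2a
import Crest.Agent.R182.LBIn

/-! Row 182, block L2b: brackets and products in thickened boxes. -/

set_option autoImplicit false
set_option linter.dupNamespace false

namespace Crest.Agent.R182

open Crest.GroupTheory MeasureTheory

namespace LieModel

variable {G : Type} [Group G] {k : ℕ} (M : LieModel G k)

theorem h40_e_in : ∃ C : ℝ, 1 ≤ C ∧ ∀ a, Adm M.χ a → ∀ l ∈ M.Lam, ∀ j, M.wt j = M.wt l →
    M.In top a (C * Real.exp (-M.lw a [l])) (M.e j) := by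
  classical
  obtain ⟨C, hC, h⟩ := M.exists_coef
  refine ⟨C, hC, fun a ha l hl j hj => ?_⟩
  have hl0 := M.wt_ne_of_Lam hl
  obtain ⟨x, h1, h2, h3⟩ := h j (hj ▸ hl0)
  obtain ⟨i, hi⟩ := M.exists_cl hl
  refine ⟨fun w => if w ∈ M.Wd then x w else 0, fun w => ?_, fun w hw => absurd trivial hw, ?_⟩
  · have hC0 : 0 ≤ C := by linarith
    by_cases hw : w ∈ M.Wd
    · simp only [hw, if_true]
      by_cases hw2 : M.wwt w = M.wt j
      · have h4 : M.kap l * a i ≤ M.lw a w :=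
          M.le_lw_of_adm ha hw (M.kap_pos hl0) (by rw [hw2, hj, M.wt_eq l, hi])
        rw [← M.lw_single a hi] at h4
        refine (h1 w).trans ?_
        rw [mul_assoc, ← Real.exp_add]
        exact le_mul_of_one_le_right hC0 (Real.one_le_exp (by linarith))
      · rw [h2 w hw2, abs_zero]
        positivity
    · simp only [hw, if_false, abs_zero]
      positivity
  · rw [h3]
    exact Finset.sum_congr rfl fun w hw => by simp only [hw, if_true]

theorem h40_br_e : ∃ C : ℝ, 1 ≤ C ∧ ∀ a, Adm M.χ a → ∀ l ∈ M.Lam, ∀ Z ∈ M.N0,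
    M.In top a (C * ‖Z‖ * Real.exp (-M.lw a [l])) (M.br Z (M.e l)) := by
  classical
  obtain ⟨C, hC, h⟩ := M.h40_e_in
  obtain ⟨B, hB, hb⟩ := M.exists_br_le
  refine ⟨(M.d + 1) * (B * C), ?_, fun a ha l hl Z hZ => ?_⟩
  · have h1 : (1 : ℝ) ≤ M.d + 1 := by
      have : (0 : ℝ) ≤ M.d := Nat.cast_nonneg _
      linarith
    exact one_le_mul_of_one_le_of_one_le h1 (one_le_mul_of_one_le_of_one_le hB hC)
  have hW : M.br Z (M.e l) ∈ M.Wt (0 + M.wt l) := M.br_Wt (φ := 0) hZ (M.e_mem_Wt l)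
  rw [zero_add] at hW
  have hn : ‖M.br Z (M.e l)‖ ≤ B * ‖Z‖ := by
    refine (hb _ _).trans (mul_le_of_le_one_right (by positivity) ?_)
    rw [e, Pi.norm_single, norm_one]
  have h0 : 0 ≤ B * ‖Z‖ * (C * Real.exp (-M.lw a [l])) := by positivity
  have hs := In.sum (p := top) (a := a) (Finset.univ : Finset (Fin M.d))
    (f := fun j => M.br Z (M.e l) j • M.e j) h0 (fun j _ => by
      by_cases hj : M.wt j = M.wt l
      · refine ((h a ha l hl j hj).smul _).mono (fun _ _ h => h) le_rfl ?_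
        exact mul_le_mul_of_nonneg_right ((norm_le_pi_norm (M.br Z (M.e l)) j).trans hn)
          (by positivity)
      · simp only [hW j hj, zero_smul]
        exact In.zero h0)
  rw [M.sum_e] at hs
  refine hs.mono (fun _ _ h => h) le_rfl ?_
  rw [Finset.card_univ, Fintype.card_fin]
  nlinarith

theorem h40_mon_in (a : M.Cl → ℝ) {w : List (Fin M.d)} (hw : ∀ l ∈ w, l ∈ M.Lam) :
    M.In top a (Real.exp (-M.lw a w)) (M.mon w) := by
  have := In.single (p := top) (a := a) (t := Real.exp (-M.lw a w)) (c := 1) hw trivial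
    (by rw [← Real.exp_add, neg_add_cancel, Real.exp_zero, abs_one])
  rwa [one_smul] at this

theorem h40_br_mon (n : ℕ) : ∃ C : ℝ, 1 ≤ C ∧ ∀ a, Adm M.χ a → ∀ Z ∈ M.N0,
    ∀ w : List (Fin M.d), w.length ≤ n → (∀ l ∈ w, l ∈ M.Lam) →
    M.In top a (C * ‖Z‖ * Real.exp (-M.lw a w)) (M.br Z (M.mon w)) := by
  obtain ⟨C, hC, h⟩ := M.h40_br_e
  obtain ⟨B, hB, hb⟩ := M.exists_br
  induction n with
  | zero =>
    refine ⟨1, le_rfl, fun a ha Z hZ w hw _ => ?_⟩
    obtain rfl : w = [] := List.length_eq_zero_iff.1 (by omega)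
    rw [show M.mon [] = 0 from rfl, map_zero]
    exact In.zero (by positivity)
  | succ n ih =>
    obtain ⟨A, hA, ih⟩ := ih
    have hBC : C ≤ B * C := le_mul_of_one_le_left (by linarith) hB
    have hBA : 0 ≤ B * A := by positivity
    refine ⟨B * C + B * A, by linarith, fun a ha Z hZ w hw hL => ?_⟩
    rcases w with _ | ⟨l, w⟩
    · rw [show M.mon [] = 0 from rfl, map_zero]
      exact In.zero (by positivity)
    have hl : l ∈ M.Lam := hL l List.mem_cons_self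
    have hL' : ∀ m ∈ w, m ∈ M.Lam := fun m hm => hL m (List.mem_cons_of_mem _ hm)
    by_cases h0 : w = []
    · subst h0
      refine (h a ha l hl Z hZ).mono (fun _ _ h => h) le_rfl ?_
      gcongr
      linarith
    · have e1 : M.lw a (l :: w) = M.lw a [l] + M.lw a w := M.lw_append a [l] w
      have k1 := hb top top top (fun _ _ _ _ _ _ _ _ => trivial) a _ _ _ _ (h a ha l hl Z hZ)
        (M.h40_mon_in a hL')
      have k2 := hb top top top (fun _ _ _ _ _ _ _ _ => trivial) a _ _ _ _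
        (M.h40_mon_in a (w := [l]) (fun m hm => by rw [List.mem_singleton.1 hm]; exact hl))
        (ih a ha Z hZ w (by simpa using hw) hL')
      rw [M.mon_cons l h0, M.jacobi]
      refine (k1.add k2).mono (fun _ _ h => h) le_rfl (le_of_eq ?_)
      rw [e1, neg_add, Real.exp_add]
      ring

theorem h40_br_N0 : ∃ C : ℝ, 1 ≤ C ∧ ∀ a, Adm M.χ a → ∀ Z ∈ M.N0, ∀ t Y, M.In top a t Y →
    M.In top a (C * ‖Z‖ * t) (M.br Z Y) := by
  obtain ⟨C, hC, h⟩ := M.h40_br_mon M.d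
  have hc : (0 : ℝ) ≤ M.Wd.card := Nat.cast_nonneg _
  refine ⟨(M.Wd.card + 1) * C, one_le_mul_of_one_le_of_one_le (by linarith) hC,
    fun a ha Z hZ t Y hY => ?_⟩
  have ht := hY.nonneg
  obtain ⟨x, h1, -, rfl⟩ := hY
  have h0 : 0 ≤ C * ‖Z‖ * t := by positivity
  have hs := In.sum (p := top) (a := a) M.Wd (f := fun w => x w • M.br Z (M.mon w)) h0
    (fun w hw => by
      obtain ⟨-, h2, h3⟩ := M.mem_Wd.1 hw
      refine ((h a ha Z hZ w h2 h3).smul (x w)).mono (fun _ _ h => h) le_rfl ?_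
      refine (mul_le_mul_of_nonneg_right (h1 w) (by positivity)).trans (le_of_eq ?_)
      rw [Real.exp_neg]
      field_simp)
  rw [map_sum]
  simp only [map_smul]
  refine hs.mono (fun _ _ h => h) le_rfl ?_
  nlinarith

/-- TASK LC2b. `[D, D] ⊆ C D`, `[N0, D a] ⊆ C D a` for admissible `a` (`LBAlg`), `[N0, N0] ⊆ N0`. -/
theorem Ih_br : ∃ C : ℝ, 1 ≤ C ∧ ∀ a, Adm M.χ a → ∀ t t' X Y, M.Ih a t X → M.Ih a t' Y →
    M.Ih a (C * t * t') (M.br X Y) := by
  obtain ⟨A, hA, h⟩ := M.h40_br_N0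
  obtain ⟨B, hB, hb⟩ := M.exists_br
  obtain ⟨C, hC, hc⟩ := M.exists_br_le
  refine ⟨B + A + A + C, by linarith, fun a ha t t' X Y hX hY => ?_⟩
  have ht := hX.nonneg
  have ht' := hY.nonneg
  have htt : 0 ≤ t * t' := mul_nonneg ht ht'
  obtain ⟨X₁, X₀, h1, h2, h3, rfl⟩ := hX
  obtain ⟨Y₁, Y₀, k1, k2, k3, rfl⟩ := hY
  have a1 := hb top top top (fun _ _ _ _ _ _ _ _ => trivial) a _ _ _ _ h1 k1
  have a2 := h a ha X₀ h2 _ _ k1
  have a3 := (h a ha Y₀ k2 _ _ h1).neg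
  refine ⟨M.br X₁ Y₁ + M.br X₀ Y₁ + -M.br Y₀ X₁, M.br X₀ Y₀,
    ((a1.add a2).add a3).mono (fun _ _ h => h) le_rfl ?_, M.sub_N0 _ h2 _ k2, ?_, ?_⟩
  · have b1 : A * ‖X₀‖ * t' ≤ A * t * t' := by gcongr
    have b2 : A * ‖Y₀‖ * t ≤ A * t' * t := by gcongr
    nlinarith
  · have b1 : C * ‖X₀‖ * ‖Y₀‖ ≤ C * t * t' := by gcongr
    refine (hc _ _).trans (b1.trans ?_)
    nlinarith
  · rw [← M.br_anti]
    simp only [map_add, LinearMap.add_apply]
    abel

theorem h40_Ih_ev (s : LTree) : ∃ A : ℝ, 1 ≤ A ∧ ∀ a, Adm M.χ a → ∀ t, 1 ≤ t → ∀ X Y,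
    M.Ih a (Real.exp t) X → M.Ih a (Real.exp t) Y → M.Ih a (Real.exp (A * t)) (M.ev s X Y) := by
  obtain ⟨C, hC, h⟩ := M.Ih_br
  induction s with
  | x => exact ⟨1, le_rfl, fun a _ t _ X Y hX _ => by rwa [one_mul]⟩
  | y => exact ⟨1, le_rfl, fun a _ t _ X Y _ hY => by rwa [one_mul]⟩
  | node s s' ih ih' =>
    obtain ⟨A, hA, ih⟩ := ih
    obtain ⟨A', hA', ih'⟩ := ih'
    refine ⟨C + A + A', by linarith, fun a ha t ht X Y hX hY => ?_⟩
    refine (h a ha _ _ _ _ (ih a ha t ht X Y hX hY) (ih' a ha t ht X Y hX hY)).mono le_rfl ?_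
    have h1 : C ≤ Real.exp (C * t) := by
      have := Real.add_one_le_exp (C * t)
      nlinarith
    rw [add_mul, add_mul, Real.exp_add, Real.exp_add]
    gcongr

theorem h40_exp_add {A B t : ℝ} (hA : 0 ≤ A) (hB : 0 ≤ B) (ht : 1 ≤ t) :
    Real.exp (A * t) + Real.exp (B * t) ≤ Real.exp ((A + B + 1) * t) := by
  have h1 : Real.exp (A * t) ≤ Real.exp ((A + B) * t) := Real.exp_le_exp.2 (by nlinarith)
  have h2 : Real.exp (B * t) ≤ Real.exp ((A + B) * t) := Real.exp_le_exp.2 (by nlinarith)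
  have h3 : 2 ≤ Real.exp t := by
    have := Real.add_one_le_exp t
    linarith
  have h4 := Real.exp_pos ((A + B) * t)
  rw [add_mul (A + B), one_mul, Real.exp_add]
  nlinarith

theorem h40_Ih_list (L : List (ℝ × LTree × LTree)) : ∃ A : ℝ, 1 ≤ A ∧ ∀ a, Adm M.χ a →
    ∀ t, 1 ≤ t → ∀ X Y, M.Ih a (Real.exp t) X → M.Ih a (Real.exp t) Y →
      M.Ih a (Real.exp (A * t)) (L.map fun p => p.1 • M.ev (LTree.node p.2.1 p.2.2) X Y).sum := by
  induction L with
  | nil => exact ⟨1, le_rfl, fun a _ t _ X Y _ _ => Ih.zero a (Real.exp_pos _).le⟩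
  | cons p L ih =>
    obtain ⟨A, hA, ih⟩ := ih
    obtain ⟨B, hB, h⟩ := M.h40_Ih_ev (LTree.node p.2.1 p.2.2)
    have hp := abs_nonneg p.1
    refine ⟨(|p.1| + B) + A + 1, by linarith, fun a ha t ht X Y hX hY => ?_⟩
    rw [List.map_cons, List.sum_cons]
    refine (((h a ha t ht X Y hX hY).smul p.1).add (ih a ha t ht X Y hX hY)).mono le_rfl ?_
    refine le_trans ?_ (h40_exp_add (by linarith) (by linarith) ht)
    have h1 : |p.1| ≤ Real.exp (|p.1| * t) := by
      have := Real.add_one_le_exp (|p.1| * t)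
      nlinarith
    rw [add_mul, Real.exp_add]
    gcongr

/-- TASK LC2b. Induction on trees and on the list `bch`, in the logarithmic scale. -/
theorem Ih_bc : ∃ A : ℝ, 1 ≤ A ∧ ∀ a, Adm M.χ a → ∀ t, 1 ≤ t → ∀ X Y,
    M.Ih a (Real.exp t) X → M.Ih a (Real.exp t) Y → M.Ih a (Real.exp (A * t)) (M.bc X Y) := by
  obtain ⟨A, hA, h⟩ := M.h40_Ih_list M.bch
  refine ⟨(1 + 1 + 1) + A + 1, by linarith, fun a ha t ht X Y hX hY => ?_⟩
  refine ((hX.add hY).add (h a ha t ht X Y hX hY)).mono le_rfl ?_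
  refine le_trans ?_ (h40_exp_add (by norm_num) (by linarith) ht)
  have := h40_exp_add (A := 1) (B := 1) zero_le_one zero_le_one ht
  rw [one_mul] at this
  linarith

end LieModel

end Crest.Agent.R182
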