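import Crest.Agent.R182.LC0

/-! Row 182, block L2b: packing. -/

set_option autoImplicit false
set_option linter.dupNamespace false

namespace Crest.Agent.R182

open Crest.GroupTheory MeasureTheory

namespace LieModel

variable {G : Type} [Group G] {k : ℕ} (M : LieModel G k)

/-- TASK LC3b. Choose `δ ≤ 1` with `‖bc o (-o')‖ ≤ 1` for `‖o‖, ‖o'‖ ≤ δ` (continuity at `0`). The sets
`bc (X y) '' (Ad h '' closedBall 0 δ)` are measurable (compact), pairwise disjoint (if
`y * ex o = y' * ex o'` then `y⁻¹ * y' = ex (bc o (-o')) ∈ Ball Sg 1`) and have the volume of the ball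
(`vol_bc_left`, `vol_Ad`). -/
theorem pack : ∃ A : ℝ, 1 ≤ A ∧ ∀ (h : G) (Y : Finset G) (S : Set (Fin M.d → ℝ)) (v : ℝ), 0 ≤ v →
    Sep M.Sg 1 Y → (∀ y ∈ Y, ∀ o, ‖o‖ ≤ 1 → ∃ X ∈ S, y * M.ex o = M.ex X * h) →
    volume S ≤ ENNReal.ofReal v → (Y.card : ℝ) ≤ A * v := by
  classical
  obtain ⟨ε, hε, hδ⟩ := Metric.continuousAt_iff.1 (M.continuous_bc.continuousAt (x := (0, 0))) 1
    one_pos
  set δ : ℝ := min (ε / 2) 1 with hδd
  have hδ0 : 0 < δ := lt_min (by linarith) one_pos
  have hb : ∀ o o' : Fin M.d → ℝ, ‖o‖ ≤ δ → ‖o'‖ ≤ δ → ‖M.bc o (-o')‖ ≤ 1 := by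
    intro o o' h1 h2
    have h3 : δ < ε := (min_le_left _ _).trans_lt (by linarith)
    have := hδ (x := (o, -o')) (by
      rw [Prod.dist_eq]
      simp only [dist_zero_right, norm_neg]
      exact max_lt (h1.trans_lt h3) (h2.trans_lt h3))
    simp only [bc_zero, dist_zero_right] at this
    exact this.le
  set B : Set (Fin M.d → ℝ) := Metric.closedBall 0 δ with hB
  have hBc : IsCompact B := isCompact_closedBall _ _
  have hBpos : 0 < volume B := Metric.measure_closedBall_pos _ _ hδ0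
  have hBfin : volume B ≠ ⊤ := hBc.measure_lt_top.ne
  have hw : 0 < (volume B).toReal := ENNReal.toReal_pos hBpos.ne' hBfin
  refine ⟨max 1 (volume B).toReal⁻¹, le_max_left _ _, fun h Y S v hv hsep hY hS => ?_⟩
  have hX0 : ∀ y : G, ∃ X0, y ∈ Y → y = M.ex X0 * h := by
    intro y
    by_cases hy : y ∈ Y
    · obtain ⟨X, -, hX⟩ := hY y hy 0 (by simp)
      exact ⟨X, fun _ => by simpa using hX⟩
    · exact ⟨0, fun h => absurd h hy⟩
  choose X0 hX0 using hX0
  set T : G → Set (Fin M.d → ℝ) := fun y => (fun X => M.bc (X0 y) X) '' (M.Ad h '' B) with hT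
  have hkey : ∀ y ∈ Y, ∀ o, y * M.ex o = M.ex (M.bc (X0 y) (M.Ad h o)) * h := by
    intro y hy o
    conv_lhs => rw [hX0 y hy]
    rw [mul_assoc, M.mul_ex, ← mul_assoc, M.ex_mul']
  have hAc : IsCompact (M.Ad h '' B) := hBc.image (LinearMap.continuous_of_finiteDimensional _)
  have hTc : ∀ y, IsCompact (T y) := fun y =>
    hAc.image (M.continuous_bc.comp (Continuous.prodMk continuous_const continuous_id))
  have hTv : ∀ y, volume (T y) = volume B := fun y => by
    rw [hT]
    simp only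
    rw [M.vol_bc_left _ hAc.measurableSet, M.vol_Ad _ hBc.measurableSet]
  have hnorm : ∀ o ∈ B, ‖o‖ ≤ δ := fun o ho => by simpa [hB] using ho
  have hsub : (⋃ y ∈ Y, T y) ⊆ S := by
    intro Z hZ
    simp only [Set.mem_iUnion] at hZ
    obtain ⟨y, hy, _, ⟨o, ho, rfl⟩, rfl⟩ := hZ
    obtain ⟨X, hXS, hX⟩ := hY y hy o ((hnorm o ho).trans (min_le_right _ _))
    rw [hkey y hy] at hX
    have := M.ex_inj (mul_right_cancel hX)
    simp only
    rw [this]; exact hXS
  have hdis : Set.PairwiseDisjoint (Y : Set G) T := by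
    intro y hy y' hy' hne
    refine Set.disjoint_left.2 ?_
    rintro _ ⟨_, ⟨o, ho, rfl⟩, rfl⟩ ⟨_, ⟨o', ho', rfl⟩, he⟩
    simp only at he
    have h1 : y' * M.ex o' = y * M.ex o := by rw [hkey y hy, hkey y' hy', he]
    refine hsep y hy y' hy' hne (Ball.mem_of_mem (Or.inl ⟨M.bc o (-o'), ?_, ?_⟩))
    · simpa using hb o o' (hnorm o ho) (hnorm o' ho')
    · rw [← M.ex_mul', M.ex_neg]
      calc M.ex o * (M.ex o')⁻¹ = y⁻¹ * (y * M.ex o) * (M.ex o')⁻¹ := by group
        _ = y⁻¹ * y' := by rw [← h1]; group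
  have h1 : (Y.card : ENNReal) * volume B ≤ ENNReal.ofReal v := by
    have := measure_biUnion_finset (μ := volume) hdis (fun y _ => (hTc y).measurableSet)
    simp only [hTv, Finset.sum_const, nsmul_eq_mul] at this
    rw [← this]
    exact (measure_mono hsub).trans hS
  have h2 : (Y.card : ℝ) * (volume B).toReal ≤ v := by
    have := ENNReal.toReal_mono ENNReal.ofReal_ne_top h1
    rwa [ENNReal.toReal_mul, ENNReal.toReal_ofReal hv, ENNReal.toReal_natCast] at this
  calc (Y.card : ℝ) = (volume B).toReal⁻¹ * ((Y.card : ℝ) * (volume B).toReal) := by field_simp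
    _ ≤ (volume B).toReal⁻¹ * v := by gcongr
    _ ≤ _ := by gcongr; exact le_max_right _ _

end LieModel

end Crest.Agent.R182
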