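import Crest.Agent.R182.LC3a
import Crest.Agent.R182.LC3b

/-! Row 182, block L2b: the volume of a class. -/

set_option autoImplicit false
set_option linter.dupNamespace false

namespace Crest.Agent.R182

open Crest.GroupTheory MeasureTheory

namespace LieModel

variable {G : Type} [Group G] {k : ℕ} (M : LieModel G k)

/-- the points with the flat parts `h`, `h'` in the two representations -/
def Cls (i : M.Cl) (a a₂ : M.Cl → ℝ) (B t : ℝ) (g₀ h h' : G) : Set (Fin M.d → ℝ) :=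
  {X | (∃ E V, M.Ih a (Real.exp t) E ∧ M.Ih a₂ (Real.exp t) V ∧ X = M.bc E V) ∧
    ∃ a', Adm M.χ a' ∧ a' i + M.χ i (M.π g₀) ≤ B ∧ ∃ X', M.Ih a' (Real.exp t) X' ∧
      M.ex X * h = g₀ * M.ex X' * h'}

theorem mul_exp_le {c s : ℝ} (hc : 1 ≤ c) (hs : 1 ≤ s) : c * Real.exp s ≤ Real.exp (2 * c * s) := by
  have h1 : c ≤ Real.exp c := by linarith [Real.add_one_le_exp c]
  calc c * Real.exp s ≤ Real.exp c * Real.exp s := by gcongr
    _ = Real.exp (c + s) := (Real.exp_add _ _).symm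
    _ ≤ _ := Real.exp_le_exp.2 (by nlinarith)

/-- the calculus of `Ih` in the logarithmic scale, with one constant -/
theorem exists_log : ∃ A : ℝ, 2 ≤ A ∧
    (∀ a, Adm M.χ a → ∀ t, 1 ≤ t → ∀ X Y, M.Ih a (Real.exp t) X → M.Ih a (Real.exp t) Y →
      M.Ih a (Real.exp (A * t)) (M.bc X Y)) ∧
    (∀ a, Adm M.χ a → ∀ m, ∀ c ∈ Ball (M.SC : Set G) m, ∀ t, lg m ≤ t → ∀ X,
      M.Ih a (Real.exp t) X →
        M.Ih (fun i => a i + M.χ i (M.π c)) (Real.exp (A * t)) (M.Ad c X)) ∧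
    (∀ a i t, 1 ≤ t → ∀ X, M.Ih a (Real.exp t) X → ∀ l,
      |M.pr i X l| ≤ Real.exp (A * t + M.mult i l * a i)) ∧
    ∀ a, Adm M.χ a → ∀ i t, 1 ≤ t → ∀ X : Fin M.d → ℝ, (∀ l ∉ M.Qs i, X l = 0) →
      (∀ l, |X l| ≤ Real.exp (t + M.mult i l * a i)) → M.Ih a (Real.exp (A * t)) X := by
  obtain ⟨A1, a1, h1⟩ := M.Ih_bc
  obtain ⟨A2, a2, h2⟩ := M.Ih_Ad
  obtain ⟨A3, a3, h3⟩ := M.Ih_quo
  obtain ⟨A4, a4, h4⟩ := M.Ih_ray
  refine ⟨A1 + A2 + 2 * A3 + 2 * A4, by linarith, fun a ha t ht X Y hX hY => ?_,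
    fun a ha m c hc t ht X hX => ?_, fun a i t ht X hX l => ?_, fun a ha i t ht X hX hl => ?_⟩
  · exact (h1 a ha t ht X Y hX hY).mono le_rfl (Real.exp_le_exp.2 (by nlinarith))
  · have := one_le_lg m
    exact (h2 a ha m c hc t ht X hX).mono le_rfl (Real.exp_le_exp.2 (by nlinarith))
  · refine (h3 a i _ X hX l).trans ?_
    rw [Real.exp_add]
    gcongr
    exact (mul_exp_le a3 ht).trans (Real.exp_le_exp.2 (by nlinarith))
  · refine (h4 a ha i (Real.exp t) X (Real.exp_pos _).le (fun l h => ?_) fun l => ?_).mono le_rfl ?_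
    · by_contra h'
      exact h (hX l fun hq => h' (M.onRay_of_mem_Qs hq))
    · rw [← Real.exp_add]; exact hl l
    · exact (mul_exp_le a4 ht).trans (Real.exp_le_exp.2 (by nlinarith))

/-- the volume of one class -/
theorem vol_cls : ∃ A : ℝ, 1 ≤ A ∧ ∀ i a a₂, Adm M.χ a → Adm M.χ a₂ → ∀ (B t : ℝ), 1 ≤ t →
    (a₂ ≤ a ∨ (a i ≤ a₂ i ∧ ∀ T ∈ M.I i, ∀ r, M.Ih a₂ r T → M.Ih a (Real.exp t * r) T)) →
    ∀ (g₀ h h' : G) (m : ℕ), h * h'⁻¹ ∈ Ball (M.SC : Set G) m → lg m ≤ t →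
      volume (M.Cls i a a₂ B t g₀ h h') ≤
        ENNReal.ofReal (Real.exp (Vol M.bw a + M.dim i * (B - a i) + A * t)) := by
  obtain ⟨A, hA, hbc, hAd, hquo, hray⟩ := M.exists_log
  obtain ⟨A5, a5, hcore⟩ := M.vol_core
  have hA1 : 1 ≤ A := by linarith
  refine ⟨A5 * A ^ 10, one_le_mul_of_one_le_of_one_le a5 (one_le_pow₀ hA1),
    fun i a a₂ ha ha₂ B t ht hcase g₀ h h' m hf hm => ?_⟩
  let L : ℕ → ℝ := fun j => A ^ j * t
  have L0 : L 0 = t := by simp [L]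
  have LS : ∀ j, A * L j = L (j + 1) := fun j => by simp only [L]; ring
  have Lm : ∀ {j j'}, j ≤ j' → L j ≤ L j' := fun hj =>
    mul_le_mul_of_nonneg_right (pow_le_pow_right₀ hA1 hj) (by linarith)
  have L1 : ∀ j, 1 ≤ L j := fun j => ht.trans (L0 ▸ Lm (Nat.zero_le j))
  have up : ∀ {b X j} (j'), M.Ih b (Real.exp (L j)) X → j ≤ j' → M.Ih b (Real.exp (L j')) X :=
    fun j' hX hj => hX.mono le_rfl (Real.exp_le_exp.2 (Lm hj))
  have mul : ∀ {b}, Adm M.χ b → ∀ {X Y} (j), M.Ih b (Real.exp (L j)) X →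
      M.Ih b (Real.exp (L j)) Y → M.Ih b (Real.exp (L (j + 1))) (M.bc X Y) :=
    fun hb X Y j hX hY => LS j ▸ hbc _ hb _ (L1 j) X Y hX hY
  rcases (M.Cls i a a₂ B t g₀ h h').eq_empty_or_nonempty with he | ⟨X₀, hX₀⟩
  · rw [he, measure_empty]; exact zero_le
  obtain ⟨⟨E₀, V₀, hE₀, hV₀, rfl⟩, a₀, ha₀, hB₀, X₀', hX₀', e₀⟩ := hX₀
  have hπ : M.π (h * h'⁻¹) = M.π g₀ := by
    have := congrArg M.π e₀
    rw [M.π_hom, M.π_hom, M.π_hom, π_ex, π_ex, zero_add, add_zero] at this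
    rw [M.π_hom, M.π_hom.inv, this]; abel
  rw [← L0] at hE₀ hV₀ hX₀' hm
  refine le_trans (measure_mono (t := (fun X => M.bc E₀ X) '' ((fun X => M.bc X V₀) ''
    {X | ∃ J ∈ M.I i, M.Ih a (Real.exp (L 10)) J ∧ ∃ R : Fin M.d → ℝ, (∀ l ∉ M.Qs i, R l = 0) ∧
      (∀ l, |R l| ≤ Real.exp (L 10 + M.mult i l * B)) ∧ X = M.bc J (M.Ad (M.ex V₀) R)})) ?_) ?_
  swap
  · refine (M.vol_image_le (fun s hs => M.vol_bc_left E₀ hs) _).trans
      ((M.vol_image_le (fun s hs => M.vol_bc_right V₀ hs) _).trans ?_)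
    have := hcore a ha i B (L 10) (L1 10) V₀
    rwa [show A5 * L 10 = A5 * A ^ 10 * t by simp only [L]; ring] at this
  rintro X ⟨⟨E, V, hE, hV, rfl⟩, a', ha', hB', X', hX', e⟩
  rw [← L0] at hE hV hX'
  set Et := M.bc (-E₀) E with hEt
  set U := M.bc (-V₀) (M.bc Et V) with hU
  set R := M.pr i U with hR
  have hEtI : M.Ih a (Real.exp (L 1)) Et := mul ha 0 hE₀.neg hE
  have hRs : ∀ l ∉ M.Qs i, R l = 0 := (M.isPr i).supp U
  -- the bound from the second representation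
  have hU2 : U = M.Ad (h * h'⁻¹) (M.bc (-X₀') X') := M.ex_inj (by
    have e1 : M.ex E₀ * M.ex V₀ = g₀ * M.ex X₀' * h' * h⁻¹ := by
      rw [← e₀, ex_mul', mul_inv_cancel_right]
    have e2 : M.ex E * M.ex V = g₀ * M.ex X' * h' * h⁻¹ := by
      rw [← e, ex_mul', mul_inv_cancel_right]
    rw [← M.Ad_conj, hU, hEt]
    simp only [← ex_mul', ex_neg]
    calc (M.ex V₀)⁻¹ * ((M.ex E₀)⁻¹ * M.ex E * M.ex V)
        = (M.ex E₀ * M.ex V₀)⁻¹ * (M.ex E * M.ex V) := by group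
      _ = _ := by rw [e1, e2]; group)
  have hRB : ∀ l, |R l| ≤ Real.exp (L 10 + M.mult i l * B) := fun l => by
    have h1 := mul (ha₀.sup ha') 0 (hX₀'.neg.mono le_sup_left le_rfl) (hX'.mono le_sup_right le_rfl)
    have h2 := hAd _ (ha₀.sup ha') m _ hf (L 1) (hm.trans (Lm (by omega))) _ h1
    rw [LS, ← hU2] at h2
    refine (hquo _ i _ (L1 _) U h2 l).trans (Real.exp_le_exp.2 (add_le_add ?_ ?_))
    · rw [LS]; exact Lm (by omega)
    · refine mul_le_mul_of_nonneg_left ?_ (M.mult_nonneg i l)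
      rw [hπ, Pi.sup_apply, ← le_sub_iff_add_le]
      exact sup_le (by linarith) (by linarith)
  -- the bound from the first representation
  have hRa : ∀ l, |R l| ≤ Real.exp (L 4 + M.mult i l * (a ⊔ a₂) i) := fun l => by
    have h1 := mul (ha.sup ha₂) 1 (hEtI.mono le_sup_left le_rfl)
      (up 1 (hV.mono le_sup_right le_rfl) (by omega))
    have h2 := mul (ha.sup ha₂) 2 (up 2 (hV₀.neg.mono le_sup_right le_rfl) (by omega)) h1
    exact LS 3 ▸ hquo _ i _ (L1 _) U h2 l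
  set J := M.bc Et (M.bc V (M.bc (-R) (-V₀))) with hJ
  have hJI : J ∈ M.I i := by
    have : J = M.Ad (M.ex V₀) (M.bc U (-R)) := M.ex_inj (by
      rw [← M.Ad_conj, hJ, hU]
      simp only [← ex_mul', ex_neg]
      group)
    rw [this]
    exact M.Ad_ex_mem_I i _ (M.bc_neg_pr_mem i U)
  refine ⟨_, ⟨_, ⟨J, hJI, ?_, R, hRs, hRB, rfl⟩, rfl⟩, M.ex_inj ?_⟩
  swap
  · simp only [hJ, hEt, ← ex_mul', ← M.Ad_conj, ex_neg]
    group
  rcases hcase with hle | ⟨hi, habs⟩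
  · rw [sup_eq_left.2 hle] at hRa
    have h1 : M.Ih a (Real.exp (L 5)) R := LS 4 ▸ hray a ha i _ (L1 4) R hRs hRa
    have h2 := mul ha 5 h1.neg (up 5 (hV₀.neg.mono hle le_rfl) (by omega))
    have h3 := mul ha 6 (up 6 (hV.mono hle le_rfl) (by omega)) h2
    exact up 10 (mul ha 7 (up 7 hEtI (by omega)) h3) (by omega)
  · rw [Pi.sup_apply, sup_eq_right.2 hi] at hRa
    set R₁ := M.pr i Et with hR₁
    have hq : ∀ l, |R₁ l| ≤ Real.exp (L 2 + M.mult i l * a i) := fun l =>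
      LS 1 ▸ hquo _ i _ (L1 _) Et hEtI l
    have hs₁ : ∀ l ∉ M.Qs i, R₁ l = 0 := (M.isPr i).supp Et
    have g1 : M.Ih a (Real.exp (L 3)) R₁ := LS 2 ▸ hray a ha i _ (L1 2) R₁ hs₁ hq
    have g2 : M.Ih a₂ (Real.exp (L 3)) R₁ := LS 2 ▸ hray a₂ ha₂ i _ (L1 2) R₁ hs₁ fun l =>
      (hq l).trans (Real.exp_le_exp.2 (add_le_add le_rfl
        (mul_le_mul_of_nonneg_left hi (M.mult_nonneg i l))))
    have h1 : M.Ih a₂ (Real.exp (L 5)) R := LS 4 ▸ hray a₂ ha₂ i _ (L1 4) R hRs hRa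
    have h2 := mul ha₂ 5 h1.neg (up 5 hV₀.neg (by omega))
    have h3 := mul ha₂ 6 (up 6 hV (by omega)) h2
    have h4 := mul ha₂ 7 (up 7 g2 (by omega)) h3
    have g3 := mul ha 3 (up 3 hEtI (by omega)) g1.neg
    have hT : M.bc R₁ (M.bc V (M.bc (-R) (-V₀))) = M.bc (-M.bc Et (-R₁)) J := M.ex_inj (by
      simp only [hJ, ← ex_mul', ex_neg]
      group)
    have hTI : M.bc R₁ (M.bc V (M.bc (-R) (-V₀))) ∈ M.I i :=
      hT ▸ M.bc_mem_I i ((M.I i).neg_mem (M.bc_neg_pr_mem i Et)) hJI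
    have h5 : M.Ih a (Real.exp (L 9)) (M.bc R₁ (M.bc V (M.bc (-R) (-V₀)))) := by
      refine (habs _ hTI _ h4).mono le_rfl ?_
      rw [← Real.exp_add, ← LS 8]
      have h0 : t ≤ L 8 := L0 ▸ Lm (Nat.zero_le 8)
      have h1 := L1 8
      change Real.exp (t + L 8) ≤ _
      exact Real.exp_le_exp.2 (by nlinarith)
    have hJ' : J = M.bc (M.bc Et (-R₁)) (M.bc R₁ (M.bc V (M.bc (-R) (-V₀)))) := M.ex_inj (by
      simp only [hJ, ← ex_mul', ex_neg]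
      group)
    rw [hJ']
    exact mul ha 9 (up 9 g3 (by omega)) h5

end LieModel

end Crest.Agent.R182
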