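import Crest.Agent.R182.LC2

/-! Row 182, block L2b: the volume of the container. -/

set_option autoImplicit false
set_option linter.dupNamespace false

namespace Crest.Agent.R182

open Crest.GroupTheory MeasureTheory

namespace LieModel

variable {G : Type} [Group G] {k : ℕ} (M : LieModel G k)

theorem vol_image_le {F : (Fin M.d → ℝ) → Fin M.d → ℝ}
    (hF : ∀ s, MeasurableSet s → volume (F '' s) = volume s) (s : Set (Fin M.d → ℝ)) :
    volume (F '' s) ≤ volume s := by
  refine (measure_mono (Set.image_mono (subset_toMeasurable volume s))).trans ?_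
  rw [hF _ (measurableSet_toMeasurable _ _), measure_toMeasurable]

theorem h62_pr_dep (i : M.Cl) {X X' : Fin M.d → ℝ} {l : Fin M.d} (h : ∀ j < l, X j = X' j) :
    ∀ j < l, M.pr i X j = M.pr i X' j := by
  intro j hj
  rw [← sub_eq_zero, ← Pi.sub_apply, ← map_sub, ← M.sum_e (X - X'), map_sum, Finset.sum_apply]
  refine Finset.sum_eq_zero fun m _ => ?_
  rw [map_smul, Pi.smul_apply, smul_eq_mul]
  by_cases h0 : M.pr i (M.e m) j = 0
  · rw [h0, mul_zero]
  · rw [Pi.sub_apply, h m (((M.isPr i).tri m j h0).1.trans_lt hj), sub_self, zero_mul]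

theorem h62_tri_inj {d : ℕ} {F : (Fin d → ℝ) → Fin d → ℝ}
    (h : ∀ X X' l, (∀ j < l, X j = X' j) → F X l - X l = F X' l - X' l) :
    Function.Injective F := by
  intro X X' e
  have key : ∀ n : ℕ, ∀ j : Fin d, (j : ℕ) < n → X j = X' j := by
    intro n
    induction n with
    | zero => intro j hj; omega
    | succ n ih =>
      intro j hj
      have := h X X' j fun m hm => ih m (by have := Fin.lt_def.1 hm; omega)
      rw [e] at this
      linarith
  exact funext fun j => key d j j.2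

theorem h62_vol_theta (i : M.Cl) (V : Fin M.d → ℝ) (s : Set (Fin M.d → ℝ)) :
    volume ((fun X => M.bc (X - M.pr i X) (M.Ad (M.ex V) (M.pr i X))) '' s) ≤ volume s := by
  have htri : ∀ (X X' : Fin M.d → ℝ) l, (∀ j < l, X j = X' j) →
      M.bc (X - M.pr i X) (M.Ad (M.ex V) (M.pr i X)) l - X l =
        M.bc (X' - M.pr i X') (M.Ad (M.ex V) (M.pr i X')) l - X' l := by
    intro X X' l h
    have h1 := M.h62_pr_dep i h
    have h2 := M.Ad_ex_dep V h1
    have h3 : M.hi (X - M.pr i X) (M.Ad (M.ex V) (M.pr i X)) l =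
        M.hi (X' - M.pr i X') (M.Ad (M.ex V) (M.pr i X')) l := by
      refine M.hi_dep (fun j hj => by rw [Pi.sub_apply, Pi.sub_apply, h j hj, h1 j hj]) fun j hj => ?_
      have := M.Ad_ex_dep V (l := j) fun m hm => h1 m (hm.trans hj)
      rw [h1 j hj] at this
      linarith
    simp only [bc, Pi.add_apply, Pi.sub_apply, h3]
    linarith
  have c1 : ContDiff ℝ 1 fun X : Fin M.d → ℝ => M.pr i X :=
    (LinearMap.toContinuousLinearMap (M.pr i)).contDiff
  have c2 : ContDiff ℝ 1 fun X : Fin M.d → ℝ => M.Ad (M.ex V) X :=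
    (LinearMap.toContinuousLinearMap (M.Ad (M.ex V))).contDiff
  exact M.vol_image_le (fun s hs => tri_vol volume LinearMap.id Function.injective_id _
    ((M.contDiff_bc (n := 1) (contDiff_id.sub c1) (c2.comp c1)).differentiable one_ne_zero)
    (h62_tri_inj htri) htri hs) s

/-- scale the coordinates in `Qs i` -/
noncomputable def h62_T (i : M.Cl) (c : Fin M.d → ℝ) : (Fin M.d → ℝ) →ₗ[ℝ] (Fin M.d → ℝ) :=
  LinearMap.id - M.pr i + (LinearMap.pi fun l => c l • LinearMap.proj l) ∘ₗ M.pr i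

theorem h62_T_apply (i : M.Cl) (c X : Fin M.d → ℝ) (l : Fin M.d) :
    M.h62_T i c X l = X l - M.pr i X l + c l * M.pr i X l := by
  simp [h62_T]

theorem h62_det_T (i : M.Cl) (c : Fin M.d → ℝ) :
    LinearMap.det (M.h62_T i c) = ∏ l ∈ M.Qs i, c l := by
  classical
  rw [← LinearMap.det_toMatrix (Pi.basisFun ℝ (Fin M.d)), Matrix.det_of_isLowerTriangular]
  · simp only [LinearMap.toMatrix_apply, Pi.basisFun_apply, Pi.basisFun_repr, h62_T_apply]
    rw [← Finset.prod_subset (Finset.subset_univ (M.Qs i)) fun l _ hl => ?_]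
    · refine Finset.prod_congr rfl fun l hl => ?_
      rw [(M.isPr i).fix _ fun m hm => Pi.single_eq_of_ne (ne_of_mem_of_not_mem hl hm).symm _]
      simp
    · rw [(M.isPr i).supp _ l hl]
      simp
  · intro l j h
    have h' : l < j := by simpa using h
    simp only [LinearMap.toMatrix_apply, Pi.basisFun_apply, Pi.basisFun_repr, h62_T_apply]
    have h0 : M.pr i (Pi.single j 1) l = 0 := by
      by_contra h0
      exact absurd ((M.isPr i).tri j l h0).1 (not_le.2 h')
    rw [h0, Pi.single_eq_of_ne h'.ne]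
    simp

/-- TASK LC3a. Let `q X` be `X` restricted to `Qs i`, `ι X = (X - q X) - pr i (X - q X)` and
`Θ X = bc (ι X) (Ad (ex V) (q X))`. `Θ` is injective and triangular (`IsPr.tri`, `hi_dep`, `Ad_ex_dep`),
so `tri_vol` applies. The set is contained in `Θ '' S`, `S = {X | Ih a (exp t) (ι X), |X l| ≤ exp (t + mult i l * B)
for l ∈ Qs i}` (take `X = J off Qs i`, `R` on `Qs i`). The diagonal map `T` multiplying the coordinate
`l ∈ Qs i` by `exp (mult i l * (a i - B))` has determinant `exp (dim i * (a i - B))` (`dim_eq`), and the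
unipotent linear map `X ↦ ι X + q X` sends `T '' S` into `{Ih a (exp (A' t))}` (`Ih_ray`, `Ih.add`); `Ih_vol`. -/
theorem vol_core : ∃ A : ℝ, 1 ≤ A ∧ ∀ a, Adm M.χ a → ∀ i (B t : ℝ), 1 ≤ t → ∀ V : Fin M.d → ℝ,
    volume {X | ∃ J ∈ M.I i, M.Ih a (Real.exp t) J ∧ ∃ R : Fin M.d → ℝ, (∀ l ∉ M.Qs i, R l = 0) ∧
      (∀ l, |R l| ≤ Real.exp (t + M.mult i l * B)) ∧ X = M.bc J (M.Ad (M.ex V) R)} ≤
      ENNReal.ofReal (Real.exp (Vol M.bw a + M.dim i * (B - a i) + A * t)) := by
  obtain ⟨A₁, hA₁, h₁⟩ := M.Ih_ray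
  obtain ⟨A₂, hA₂, h₂⟩ := M.Ih_vol
  refine ⟨A₂ * (A₁ + 1), by nlinarith, fun a ha i B t ht V => ?_⟩
  have ht' : 1 ≤ (A₁ + 1) * t := by nlinarith
  have hsub : {X | ∃ J ∈ M.I i, M.Ih a (Real.exp t) J ∧ ∃ R : Fin M.d → ℝ,
      (∀ l ∉ M.Qs i, R l = 0) ∧ (∀ l, |R l| ≤ Real.exp (t + M.mult i l * B)) ∧
        X = M.bc J (M.Ad (M.ex V) R)} ⊆
      (fun X => M.bc (X - M.pr i X) (M.Ad (M.ex V) (M.pr i X))) ''
        (M.h62_T i (fun l => Real.exp (M.mult i l * (B - a i))) ''
          {X | M.Ih a (Real.exp ((A₁ + 1) * t)) X}) := by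
    rintro X ⟨J, hJ, hJa, R, hR, hRb, rfl⟩
    have hp : ∀ R' : Fin M.d → ℝ, (∀ l ∉ M.Qs i, R' l = 0) → M.pr i (J + R') = R' := fun R' h => by
      rw [map_add, (M.isPr i).ker J hJ, (M.isPr i).fix R' h, zero_add]
    let R' : Fin M.d → ℝ := fun l => Real.exp (-(M.mult i l * (B - a i))) * R l
    have hR' : ∀ l ∉ M.Qs i, R' l = 0 := fun l hl => by simp only [R', hR l hl, mul_zero]
    refine ⟨J + R, ⟨J + R', ?_, ?_⟩, ?_⟩
    · have h3 := h₁ a ha i (Real.exp t) R' (Real.exp_pos t).le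
        (fun l hl => M.onRay_of_mem_Qs (by_contra fun h => hl (hR' l h))) fun l => by
          simp only [R', abs_mul, abs_of_pos (Real.exp_pos _)]
          refine (mul_le_mul_of_nonneg_left (hRb l) (Real.exp_pos _).le).trans (le_of_eq ?_)
          rw [← Real.exp_add, ← Real.exp_add]
          congr 1
          ring
      refine (hJa.add h3).mono le_rfl ?_
      rw [add_mul, one_mul, Real.exp_add]
      have h4 := Real.add_one_le_exp (A₁ * t)
      have h5 := Real.exp_pos t
      have h6 : A₁ + 1 ≤ Real.exp (A₁ * t) := by nlinarith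
      nlinarith
    · funext l
      rw [h62_T_apply, hp R' hR']
      simp only [R', Pi.add_apply]
      rw [← mul_assoc, ← Real.exp_add, add_neg_cancel, Real.exp_zero]
      ring
    · simp only [hp R hR, add_sub_cancel_right]
  refine (measure_mono hsub).trans ((M.h62_vol_theta i V _).trans ?_)
  rw [Measure.addHaar_image_linearMap, h62_det_T, ← Real.exp_sum, ← Finset.sum_mul, ← M.dim_eq,
    abs_of_pos (Real.exp_pos _)]
  refine (mul_le_mul_right (h₂ a ha _ ht') _).trans (le_of_eq ?_)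
  rw [← ENNReal.ofReal_mul (Real.exp_pos _).le, ← Real.exp_add]
  congr 2
  ring

end LieModel

end Crest.Agent.R182
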