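import Crest.Agent.R182.LC3b
import Crest.Agent.R182.LC4a

/-! Row 182, block L2b: the plain count. -/

set_option autoImplicit false
set_option linter.dupNamespace false

namespace Crest.Agent.R182

open Crest.GroupTheory MeasureTheory

namespace LieModel

variable {G : Type} [Group G] {k : ℕ} (M : LieModel G k)

/-- TASK LC4b. Split `Y` according to `h ∈ Ball SC (m + 1)` of `thick_dec`
(`Finset.card_eq_sum_card_fiberwise`); `pack` with `S = {Ih a (exp (A lg m))}`; `Ih_bc`, `Ih_vol`. -/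
theorem count0 (hnil : Group.IsNilpotent (Subgroup.closure (M.SC : Set G))) :
    ∀ᶠ K in Filter.atTop, M.SCount0 K := by
  classical
  obtain ⟨Ap, hAp, hp⟩ := M.pack
  obtain ⟨Ac, hAc, hc⟩ := M.card_SC hnil
  obtain ⟨At, hAt, ht⟩ := M.thick_dec
  obtain ⟨Ab, hAb, hb⟩ := M.Ih_bc
  obtain ⟨Av, hAv, hv⟩ := M.Ih_vol
  filter_upwards [Filter.eventually_ge_atTop ⌈Ac + Ap + Av * (Ab * At)⌉₊] with K hK
  have hK' : Ac + Ap + Av * (Ab * At) ≤ (K : ℝ) := Nat.ceil_le.1 hK
  intro a ha m Y hY hdec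
  have hl := one_le_lg m
  have h1 : 1 ≤ At * lg m := one_le_mul_of_one_le_of_one_le hAt hl
  have h2 : 1 ≤ Ab * (At * lg m) := one_le_mul_of_one_le_of_one_le hAb h1
  have hex : ∀ y ∈ Y, ∃ h ∈ Ball (M.SC : Set G) (m + 1), ∀ o, ‖o‖ ≤ 1 →
      ∃ X ∈ {X | M.Ih a (Real.exp (Ab * (At * lg m))) X}, y * M.ex o = M.ex X * h := by
    intro y hy
    obtain ⟨_, ⟨E, hE, rfl⟩, c, hcm, b, hb1, rfl, hpt⟩ := hdec y hy
    obtain ⟨h, hh, -, ho⟩ := ht m c hcm b hb1
    refine ⟨h, hh, fun o h1o => ?_⟩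
    obtain ⟨V, hV, e⟩ := ho o h1o
    refine ⟨M.bc E V, hb a ha _ h1 E V ((Ih.of_D hE).mono le_rfl (Real.one_le_exp (by linarith)))
      (hV.mono hpt le_rfl), ?_⟩
    rw [← ex_mul', mul_assoc (M.ex E) (M.ex V), ← e]
    simp only [mul_assoc]
  choose! f hf hfo using hex
  have hfin : (Ball (M.SC : Set G) (m + 1)).Finite := Ball.finite M.SC.finite_toSet _
  have hcard : Y.card = ∑ h ∈ hfin.toFinset, (Y.filter fun y => f y = h).card :=
    Finset.card_eq_sum_card_fiberwise fun y hy => hfin.mem_toFinset.2 (hf y hy)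
  have hone : ∀ h ∈ hfin.toFinset, ((Y.filter fun y => f y = h).card : ℝ) ≤
      Ap * Real.exp (Vol M.bw a + Av * (Ab * (At * lg m))) := by
    intro h _
    refine hp h _ _ _ (Real.exp_pos _).le ?_ ?_ (hv a ha _ h2)
    · intro x hx y hy hxy
      exact hY x (Finset.mem_filter.1 hx).1 y (Finset.mem_filter.1 hy).1 hxy
    · intro y hy o ho
      obtain ⟨hy1, rfl⟩ := Finset.mem_filter.1 hy
      exact hfo y hy1 o ho
  have hsum := Finset.sum_le_card_nsmul _ _ _ hone
  rw [nsmul_eq_mul, ← Set.ncard_eq_toFinset_card _ hfin] at hsum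
  have hApe : Ap ≤ Real.exp (Ap * lg m) := by
    have := Real.add_one_le_exp (Ap * lg m)
    nlinarith
  calc (Y.card : ℝ) = ∑ h ∈ hfin.toFinset, ((Y.filter fun y => f y = h).card : ℝ) := by
        rw [hcard]; push_cast; rfl
    _ ≤ _ := hsum
    _ ≤ Real.exp (Ac * lg m) * (Real.exp (Ap * lg m) *
          Real.exp (Vol M.bw a + Av * (Ab * (At * lg m)))) := by
        refine mul_le_mul (hc m) (mul_le_mul_of_nonneg_right hApe (Real.exp_pos _).le)
          (by positivity) (Real.exp_pos _).le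
    _ = Real.exp (Vol M.bw a + (Ac + Ap + Av * (Ab * At)) * lg m) := by
        rw [← Real.exp_add, ← Real.exp_add]; congr 1; ring
    _ ≤ _ := Real.exp_le_exp.2 (by
        have := mul_le_mul_of_nonneg_right hK' (by linarith : (0 : ℝ) ≤ lg m)
        linarith)

end LieModel

end Crest.Agent.R182
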