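import Crest.Agent.R182.LBStmt

/-! Row 182, block L2b: the coordinate complement of the ideal `I i` and the thickened boxes. -/

set_option autoImplicit false
set_option linter.dupNamespace false

namespace Crest.Agent.R182

open Crest.GroupTheory MeasureTheory

namespace LieModel

variable {G : Type} [Group G] {k : ℕ} (M : LieModel G k)

/-- the weight of `l` lies on the closed ray of the class `i` -/
def OnRay (i : M.Cl) (l : Fin M.d) : Prop := M.dir l = M.χ i ∨ M.wt l = 0

open Classical in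
/-- the coordinates of a complement of `I i`, chosen greedily from the top index -/
noncomputable def Qs (i : M.Cl) : Finset (Fin M.d) :=
  Finset.univ.filter fun l => M.e l ∉ M.I i ⊔ Submodule.span ℝ (M.e '' Set.Ioi l)

/-- the properties of the projection along `I i` onto the coordinates in `Qs i` -/
structure IsPr (i : M.Cl) (p : (Fin M.d → ℝ) →ₗ[ℝ] (Fin M.d → ℝ)) : Prop where
  sub_mem : ∀ X, X - p X ∈ M.I i
  ker : ∀ X ∈ M.I i, p X = 0
  supp : ∀ X, ∀ l ∉ M.Qs i, p X l = 0
  fix : ∀ X, (∀ l ∉ M.Qs i, X l = 0) → p X = X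
  tri : ∀ l l', p (M.e l) l' ≠ 0 → l ≤ l' ∧ M.wt l' = M.wt l

open Classical in
/-- the projection along `I i` (see `isPr` in `LC1`) -/
noncomputable def pr (i : M.Cl) : (Fin M.d → ℝ) →ₗ[ℝ] (Fin M.d → ℝ) :=
  if h : ∃ p, M.IsPr i p then h.choose else 0

/-- `X` lies in `t • (D a + unit ball of N0)` -/
def Ih (a : M.Cl → ℝ) (t : ℝ) (X : Fin M.d → ℝ) : Prop :=
  ∃ Y Z, M.In (fun _ => True) a t Y ∧ Z ∈ M.N0 ∧ ‖Z‖ ≤ t ∧ X = Y + Z

end LieModel

end Crest.Agent.R182
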