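import Crest.Agent.R182.MDefs

/-! Row 182, block L2c: Remez inequality on grids, and the zigzag scheme. -/

set_option autoImplicit false
set_option linter.dupNamespace false

namespace Crest.Agent.R182

/-- the integers of `[-J, J]` -/
abbrev Gr (J : ℕ) : Type := Finset.Icc (-(J : ℤ)) J

/-- `f` is a polynomial of degree at most `m` in each variable -/
def PolyIn {α : Type} [DecidableEq α] (m : ℕ) (f : (α → ℝ) → ℝ) : Prop :=
  ∀ (x : α → ℝ) (i : α), ∃ p : Polynomial ℝ, p.natDegree ≤ m ∧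
    ∀ t, f (Function.update x i t) = p.eval t

theorem h15_card_Gr (J : ℕ) : Fintype.card (Gr J) = 2 * J + 1 := by
  rw [Fintype.card_coe, Int.card_Icc]
  omega

theorem h15_sep_sub {ι : Type} [DecidableEq ι] (v : ι → ℤ) (hv : Function.Injective v) {g : ℕ}
    (hg : 1 ≤ g) (n : ℕ) : ∀ S : Finset ι, n * (2 * g) ≤ S.card → ∃ T ⊆ S, T.card = n ∧
      ∀ a ∈ T, ∀ b ∈ T, a ≠ b → (g : ℤ) ≤ |v a - v b| := by
  induction n with
  | zero => exact fun S _ => ⟨∅, Finset.empty_subset _, rfl, by simp⟩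
  | succ n ih =>
    intro S hS
    have hpos : 0 < S.card := lt_of_lt_of_le (by positivity) hS
    obtain ⟨a, ha⟩ := Finset.card_pos.1 hpos
    have h1 : (S.filter fun s => ¬ (g : ℤ) ≤ |v s - v a|).card ≤ 2 * g := by
      have : (S.filter fun s => ¬ (g : ℤ) ≤ |v s - v a|).card ≤
          (Finset.Ioo (v a - g) (v a + g)).card := by
        refine Finset.card_le_card_of_injOn v (fun s hs => ?_) hv.injOn
        have := (Finset.mem_filter.1 (Finset.mem_coe.1 hs)).2
        rw [not_le, abs_lt] at this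
        rw [Finset.mem_coe, Finset.mem_Ioo]
        constructor <;> linarith [this.1, this.2]
      rw [Int.card_Ioo] at this
      omega
    have h2 := Finset.card_filter_add_card_filter_not (s := S) fun s => (g : ℤ) ≤ |v s - v a|
    obtain ⟨T, hT, hc, hsep⟩ := ih (S.filter fun s => (g : ℤ) ≤ |v s - v a|) (by
      rw [Nat.succ_mul] at hS
      omega)
    have haT : a ∉ T := fun h => by
      have := (Finset.mem_filter.1 (hT h)).2
      rw [sub_self, abs_zero] at this
      omega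
    refine ⟨insert a T, Finset.insert_subset ha (hT.trans (Finset.filter_subset _ _)),
      by rw [Finset.card_insert_of_notMem haT, hc], fun x hx y hy hxy => ?_⟩
    rcases Finset.mem_insert.1 hx with rfl | hx'
    · rcases Finset.mem_insert.1 hy with rfl | hy'
      · exact absurd rfl hxy
      · rw [abs_sub_comm]
        exact (Finset.mem_filter.1 (hT hy')).2
    · rcases Finset.mem_insert.1 hy with rfl | hy'
      · exact (Finset.mem_filter.1 (hT hx')).2
      · exact hsep x hx' y hy' hxy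

theorem h15_lagrange {ι : Type} [DecidableEq ι] (m : ℕ) (T : Finset ι) (hT : T.card = m + 1)
    (v : ι → ℝ) (hv : ∀ i, |v i| ≤ 1) {δ : ℝ} (hδ : 0 < δ)
    (hsep : ∀ a ∈ T, ∀ b ∈ T, a ≠ b → δ ≤ |v a - v b|) (p : Polynomial ℝ) (hp : p.natDegree ≤ m)
    {x : ℝ} (hx : |x| ≤ 1) : ∃ i ∈ T, |p.eval x| ≤ (m + 1) * (2 / δ) ^ m * |p.eval (v i)| := by
  obtain ⟨i, hi, hmax⟩ := T.exists_max_image (fun i => |p.eval (v i)|)
    (Finset.card_pos.1 (by omega))
  refine ⟨i, hi, ?_⟩
  have hinj : Set.InjOn v T := fun a ha b hb hab => by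
    by_contra h
    have := hsep a ha b hb h
    rw [hab, sub_self, abs_zero] at this
    linarith
  have hdeg : p.degree < T.card := by
    rw [hT]
    exact lt_of_le_of_lt Polynomial.degree_le_natDegree (by exact_mod_cast Nat.lt_succ_of_le hp)
  have hb : ∀ j ∈ T, |(Lagrange.basis T v j).eval x| ≤ (2 / δ) ^ m := by
    intro j hj
    rw [Lagrange.basis, Polynomial.eval_prod, Finset.abs_prod]
    have hc : (T.erase j).card = m := by rw [Finset.card_erase_of_mem hj, hT]; rfl
    rw [← hc, ← Finset.prod_const]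
    refine Finset.prod_le_prod (fun _ _ => abs_nonneg _) fun l hl => ?_
    obtain ⟨hlj, hlT⟩ := Finset.mem_erase.1 hl
    have h1 := hsep j hj l hlT hlj.symm
    have h2 : |x - v l| ≤ 2 := (abs_sub _ _).trans (by linarith [hv l])
    simp only [Lagrange.basisDivisor, Polynomial.eval_mul, Polynomial.eval_C, Polynomial.eval_sub,
      Polynomial.eval_X, abs_mul, abs_inv]
    rw [mul_comm, div_eq_mul_inv]
    exact mul_le_mul h2 (inv_anti₀ hδ h1) (inv_nonneg.2 (abs_nonneg _)) zero_le_two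
  have e : p.eval x = ∑ j ∈ T, p.eval (v j) * (Lagrange.basis T v j).eval x := by
    conv_lhs => rw [Lagrange.eq_interpolate hinj hdeg]
    simp only [Lagrange.interpolate_apply, Polynomial.eval_finsetSum, Polynomial.eval_mul,
      Polynomial.eval_C]
  rw [e]
  refine (Finset.abs_sum_le_sum_abs _ _).trans ?_
  refine (Finset.sum_le_card_nsmul _ _ ((2 / δ) ^ m * |p.eval (v i)|) fun j hj => ?_).trans ?_
  · rw [abs_mul, mul_comm]
    exact mul_le_mul (hb j hj) (hmax j hj) (abs_nonneg _) (by positivity)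
  · rw [hT, nsmul_eq_mul, mul_assoc]
    push_cast
    exact le_rfl

/-- Remez inequality on a grid of `[-1, 1]` (Lagrange interpolation at `m + 1` well separated
points of `S`) -/
theorem remez_one (m : ℕ) {θ : ℝ} (hθ : 0 < θ) : ∃ C : ℝ, 0 < C ∧ ∃ J₀ : ℕ, ∀ J ≥ J₀,
    ∀ p : Polynomial ℝ, p.natDegree ≤ m → ∀ S : Finset (Gr J), θ * (2 * J + 1) ≤ S.card →
      ∀ x : ℝ, |x| ≤ 1 → ∃ s ∈ S, |p.eval x| ≤ C * |p.eval (((s : ℤ) : ℝ) / J)| := by
  refine ⟨(m + 1) * (2 / (θ / (2 * (m + 1)))) ^ m, by positivity, ⌈(m + 1) / θ⌉₊,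
    fun J hJ p hp S hS x hx => ?_⟩
  have hm : (0 : ℝ) < m + 1 := by positivity
  have hJ1 : (m + 1 : ℝ) ≤ θ * J := by
    have := Nat.ceil_le.1 hJ
    rwa [div_le_iff₀' hθ] at this
  have hJ0 : (0 : ℝ) < J := by
    by_contra h
    nlinarith [not_lt.1 h]
  have h1 : 1 ≤ θ * J / (m + 1) := by rwa [le_div_iff₀ hm, one_mul]
  have hg1 : 1 ≤ ⌊θ * J / (m + 1)⌋₊ := Nat.le_floor (by exact_mod_cast h1)
  have hg2 : (⌊θ * J / (m + 1)⌋₊ : ℝ) ≤ θ * J / (m + 1) := Nat.floor_le (by positivity)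
  have hg3 : θ * J / (m + 1) < ⌊θ * J / (m + 1)⌋₊ + 1 := Nat.lt_floor_add_one _
  generalize ⌊θ * J / (m + 1)⌋₊ = g at hg1 hg2 hg3
  have hg1' : (1 : ℝ) ≤ g := by exact_mod_cast hg1
  rw [le_div_iff₀ hm] at hg2
  rw [div_lt_iff₀ hm] at hg3
  obtain ⟨T, hTS, hc, hsep⟩ := h15_sep_sub (fun s : Gr J => (s : ℤ)) Subtype.val_injective hg1
    (m + 1) S (by
      have : (((m + 1) * (2 * g) : ℕ) : ℝ) ≤ S.card := by
        push_cast
        nlinarith
      exact_mod_cast this)
  obtain ⟨i, hi, h⟩ := h15_lagrange m T hc (fun s : Gr J => ((s : ℤ) : ℝ) / J) (fun s => by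
      have := Finset.mem_Icc.1 s.2
      rw [abs_div, abs_of_pos hJ0, div_le_one hJ0]
      exact_mod_cast abs_le.2 this) (δ := θ / (2 * (m + 1))) (by positivity)
    (fun a ha b hb hab => by
      have h2 : (g : ℝ) ≤ |((a : ℤ) : ℝ) - ((b : ℤ) : ℝ)| := by exact_mod_cast hsep a ha b hb hab
      rw [← sub_div, abs_div, abs_of_pos hJ0, div_le_div_iff₀ (by positivity) hJ0]
      nlinarith) p hp hx
  exact ⟨i, hTS hi, h⟩

theorem h15_grid_fin (m n : ℕ) : ∀ {θ : ℝ}, 0 < θ →
    ∃ C : ℝ, 0 < C ∧ ∃ J₀ : ℕ, ∀ J ≥ J₀, ∀ f : (Fin n → ℝ) → ℝ, PolyIn m f →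
      ∀ S : Finset (Fin n → Gr J), θ * (2 * J + 1) ^ n ≤ S.card →
        ∀ x : Fin n → ℝ, (∀ i, |x i| ≤ 1) →
          ∃ s ∈ S, |f x| ≤ C * |f fun i => ((s i : ℤ) : ℝ) / J| := by
  induction n with
  | zero =>
    intro θ hθ
    refine ⟨1, one_pos, 0, fun J _ f _ S hS x _ => ?_⟩
    have hpos : 0 < S.card := by
      have : (0 : ℝ) < S.card := lt_of_lt_of_le (by positivity) hS
      exact_mod_cast this
    obtain ⟨s, hs⟩ := Finset.card_pos.1 hpos
    refine ⟨s, hs, ?_⟩
    rw [one_mul, Subsingleton.elim x fun i => ((s i : ℤ) : ℝ) / J]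
  | succ n ih =>
    intro θ hθ
    obtain ⟨C₁, hC₁, J₁, h₁⟩ := remez_one m (half_pos hθ)
    obtain ⟨C₂, hC₂, J₂, h₂⟩ := ih (half_pos hθ)
    refine ⟨C₁ * C₂, mul_pos hC₁ hC₂, max J₁ J₂, fun J hJ f hf S hS x hx => ?_⟩
    let sl : Gr J → Finset (Fin n → Gr J) := fun t =>
      (S.filter fun s => s 0 = t).image fun s => Fin.tail s
    have hsl : ∀ t, (sl t).card = (S.filter fun s => s 0 = t).card := fun t =>
      Finset.card_image_of_injOn fun a ha b hb hab => by
        have h1 := (Finset.mem_filter.1 (Finset.mem_coe.1 ha)).2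
        have h2 := (Finset.mem_filter.1 (Finset.mem_coe.1 hb)).2
        rw [← Fin.cons_self_tail a, ← Fin.cons_self_tail b, h1, h2]
        exact congrArg _ hab
    have hsum : S.card = ∑ t, (sl t).card := by
      rw [Finset.card_eq_sum_card_fiberwise (f := fun s => s 0) (t := Finset.univ)
        fun _ _ => Finset.mem_coe.2 (Finset.mem_univ _)]
      exact Finset.sum_congr rfl fun t _ => (hsl t).symm
    have hle : ∀ t, ((sl t).card : ℝ) ≤ (2 * J + 1) ^ n := fun t => by
      have := Finset.card_le_univ (sl t)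
      rw [Fintype.card_fun, h15_card_Gr, Fintype.card_fin] at this
      exact_mod_cast this
    have hN : (0 : ℝ) < (2 * J + 1) ^ n := by positivity
    have hT : θ / 2 * (2 * J + 1) ≤
        (Finset.univ.filter fun t => θ / 2 * (2 * J + 1) ^ n ≤ (sl t).card).card := by
      have h1 : (S.card : ℝ) ≤ ∑ t : Gr J, ((if θ / 2 * (2 * J + 1) ^ n ≤ (sl t).card then
          (2 * J + 1 : ℝ) ^ n else 0) + θ / 2 * (2 * J + 1) ^ n) := by
        rw [hsum, Nat.cast_sum]
        refine Finset.sum_le_sum fun t _ => ?_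
        split_ifs with h
        · have : 0 ≤ θ / 2 * (2 * J + 1 : ℝ) ^ n := by positivity
          linarith [hle t]
        · linarith [not_le.1 h]
      rw [Finset.sum_add_distrib, ← Finset.sum_filter, Finset.sum_const, Finset.sum_const,
        Finset.card_univ, h15_card_Gr, nsmul_eq_mul, nsmul_eq_mul] at h1
      push_cast at h1
      refine le_of_mul_le_mul_right ?_ hN
      rw [pow_succ] at hS
      nlinarith
    obtain ⟨p, hp, hfp⟩ := hf x 0
    obtain ⟨t, ht, hpt⟩ := h₁ J (le_of_max_le_left hJ) p hp _ hT (x 0) (hx 0)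
    rw [← hfp, ← hfp, Function.update_eq_self] at hpt
    obtain ⟨s', hs', h3⟩ := h₂ J (le_of_max_le_right hJ)
      (fun y => f (Fin.cons (((t : ℤ) : ℝ) / J) y)) (fun y i => by
        obtain ⟨q, hq, hfq⟩ := hf (Fin.cons (((t : ℤ) : ℝ) / J) y) i.succ
        exact ⟨q, hq, fun u => by rw [← hfq, ← Fin.cons_update]⟩)
      (sl t) (Finset.mem_filter.1 ht).2 (Fin.tail x) fun i => hx _
    obtain ⟨s, hs, rfl⟩ := Finset.mem_image.1 hs'
    obtain ⟨hsS, hs0⟩ := Finset.mem_filter.1 hs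
    refine ⟨s, hsS, hpt.trans ?_⟩
    have e1 : Function.update x 0 (((t : ℤ) : ℝ) / J) =
        Fin.cons (((t : ℤ) : ℝ) / J) (Fin.tail x) := by
      funext i
      refine Fin.cases ?_ (fun i => ?_) i
      · simp
      · simp [Fin.tail]
    have e2 : (fun i => ((s i : ℤ) : ℝ) / J) =
        Fin.cons (((t : ℤ) : ℝ) / J) fun i => ((Fin.tail s i : ℤ) : ℝ) / J := by
      funext i
      refine Fin.cases ?_ (fun i => ?_) i
      · simp [hs0]
      · simp [Fin.tail]
    rw [e1, e2, mul_assoc]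
    exact mul_le_mul_of_nonneg_left h3 hC₁.le

/-- Remez inequality on a grid of the cube (induction on the variables, slices) -/
theorem remez_grid (α : Type) [Fintype α] [DecidableEq α] (m : ℕ) {θ : ℝ} (hθ : 0 < θ) :
    ∃ C : ℝ, 0 < C ∧ ∃ J₀ : ℕ, ∀ J ≥ J₀, ∀ f : (α → ℝ) → ℝ, PolyIn m f →
      ∀ S : Finset (α → Gr J), θ * (2 * J + 1) ^ Fintype.card α ≤ S.card →
        ∀ x : α → ℝ, (∀ i, |x i| ≤ 1) →
          ∃ s ∈ S, |f x| ≤ C * |f fun i => ((s i : ℤ) : ℝ) / J| := by
  obtain ⟨C, hC, J₀, h⟩ := h15_grid_fin m (Fintype.card α) hθ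
  refine ⟨C, hC, J₀, fun J hJ f hf S hS x hx => ?_⟩
  let e := Fintype.equivFin α
  obtain ⟨s', hs', h1⟩ := h J hJ (fun y => f (y ∘ e)) (fun y i => by
      obtain ⟨q, hq, hfq⟩ := hf (y ∘ e) (e.symm i)
      exact ⟨q, hq, fun u => by rw [← hfq, ← Function.update_comp_equiv]⟩)
    (S.map (Equiv.arrowCongr e (Equiv.refl (Gr J))).toEmbedding) (by rwa [Finset.card_map])
    (x ∘ e.symm) fun i => hx _
  obtain ⟨s, hs, rfl⟩ := Finset.mem_map.1 hs'
  refine ⟨s, hs, ?_⟩
  convert h1 using 4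
  · funext i
    simp
  · funext i
    simp

namespace Sch

variable {G : Type} [Group G]

/-- independent product of a list of schemes -/
def prodL (l : List (Sch G)) : Sch G := l.foldr mul one

/-- the zigzag scheme `∏ i, W i * h i ^ τ i * (W i)⁻¹`, `W i = ∏ j, g i j ^ x i j` -/
def zz {D s : ℕ} (g : Fin D → Fin s → G) (h : Fin D → G) (J : ℕ) : Sch G :=
  prodL (List.ofFn fun i => conj (prodL (List.ofFn fun j => fam (g i j) J)) (fam (h i) J))

/-- the word of the zigzag scheme with the parameters `x`, `τ` -/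
def zw {D s J : ℕ} (g : Fin D → Fin s → G) (h : Fin D → G) (x : Fin D × Fin s → Gr J)
    (τ : Fin D → Gr J) : List G :=
  (List.ofFn fun i => (List.ofFn fun j => g i j ^ (x (i, j) : ℤ)) ++ [h i ^ (τ i : ℤ)] ++
    winv (List.ofFn fun j => g i j ^ (x (i, j) : ℤ))).flatten

omit [Group G] in
theorem h1_prodL_succ {n : ℕ} (F : Fin (n + 1) → Sch G) :
    prodL (List.ofFn F) = mul (F 0) (prodL (List.ofFn fun i : Fin n => F i.succ)) := by
  rw [List.ofFn_succ]; rfl

omit [Group G] in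
theorem h1_size_prodL {n : ℕ} (F : Fin n → Sch G) {m : ℕ} (H : ∀ i, (F i).size = m) :
    (prodL (List.ofFn F)).size = n * m + 1 := by
  induction n with
  | zero => simp [prodL, size]
  | succ n ih => rw [h1_prodL_succ, size, H, ih _ fun i => H _]; ring

theorem h1_let_prodL {n : ℕ} (F : Fin n → Sch G) {p : G → Prop} (H : ∀ i, (F i).Let p) :
    (prodL (List.ofFn F)).Let p := by
  induction n with
  | zero => simp [prodL, Let]
  | succ n ih => rw [h1_prodL_succ]; exact ⟨H 0, ih _ fun i => H _⟩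

theorem h1_mem_prodL {n : ℕ} (F : Fin n → Sch G) (w : Fin n → List G)
    (H : ∀ i, (F i).Mem (w i)) : (prodL (List.ofFn F)).Mem (List.ofFn w).flatten := by
  induction n with
  | zero => simp [prodL, Mem]
  | succ n ih =>
    rw [h1_prodL_succ, List.ofFn_succ, List.flatten_cons]
    exact ⟨_, _, H 0, ih _ _ fun i => H _, rfl⟩

theorem h1_avg_prodL {Y : Type} [Fintype Y] {n : ℕ} (F : Fin n → Sch G) (w : Fin n → Y → List G)
    {N : ℝ} (H : ∀ i f, (F i).avg f = (∑ y, f (w i y)) / N) (f : List G → ℝ) :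
    (prodL (List.ofFn F)).avg f =
      (∑ y : Fin n → Y, f (List.ofFn fun i => w i (y i)).flatten) / N ^ n := by
  induction n generalizing f with
  | zero => simp [prodL, avg]
  | succ n ih =>
    rw [h1_prodL_succ, avg, H]
    simp only [ih _ (fun i => w i.succ) fun i => H _]
    rw [← (Fin.consEquiv fun _ => Y).sum_comp, Fintype.sum_prod_type, ← Finset.sum_div, div_div,
      pow_succ]
    simp [List.ofFn_succ, Fin.consEquiv]

omit [Group G] in
theorem h1_flatten_single {n : ℕ} (a : Fin n → G) :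
    (List.ofFn fun j => [a j]).flatten = List.ofFn a := by
  induction n with
  | zero => simp
  | succ n ih => rw [List.ofFn_succ, List.flatten_cons, ih, List.ofFn_succ]; rfl

theorem h1_avg_fam (g : G) (J : ℕ) (f : List G → ℝ) :
    (fam g J).avg f = (∑ y : Gr J, f [g ^ (y : ℤ)]) / (2 * J + 1) := by
  rw [avg, Finset.sum_coe_sort (Finset.Icc (-(J : ℤ)) J) fun i => f [g ^ i]]

theorem h1_gr_abs {J : ℕ} (y : Gr J) : |(y : ℤ)| ≤ J := abs_le.2 (Finset.mem_Icc.1 y.2)

variable {D s : ℕ} (g : Fin D → Fin s → G) (h : Fin D → G) (J : ℕ)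

theorem zz_size : (zz g h J).size = D * (2 * s + 3) + 1 := by
  refine h1_size_prodL _ fun i => ?_
  rw [size, h1_size_prodL _ (m := 1) fun j => rfl, size]
  ring

theorem zz_let {p : G → Prop} (hg : ∀ i j (n : ℤ), |n| ≤ J → p (g i j ^ n))
    (hh : ∀ i (n : ℤ), |n| ≤ J → p (h i ^ n)) : (zz g h J).Let p := by
  exact h1_let_prodL _ fun i => ⟨h1_let_prodL _ fun j => hg i j, hh i⟩

theorem zz_mem (x : Fin D × Fin s → Gr J) (τ : Fin D → Gr J) : (zz g h J).Mem (zw g h x τ) := by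
  refine h1_mem_prodL _ _ fun i => ⟨_, _, ?_, ⟨τ i, h1_gr_abs _, rfl⟩, rfl⟩
  rw [← h1_flatten_single fun j => g i j ^ (x (i, j) : ℤ)]
  exact h1_mem_prodL (fun j => fam (g i j) J) (fun j => [g i j ^ (x (i, j) : ℤ)])
    fun j => ⟨x (i, j), h1_gr_abs _, rfl⟩

theorem zz_avg (f : List G → ℝ) : (zz g h J).avg f =
    (∑ x : Fin D × Fin s → Gr J, ∑ τ : Fin D → Gr J, f (zw g h x τ)) /
      ((2 * J + 1) ^ (D * s) * (2 * J + 1) ^ D) := by
  have key : ∀ (i : Fin D) (f : List G → ℝ),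
      (conj (prodL (List.ofFn fun j => fam (g i j) J)) (fam (h i) J)).avg f =
        (∑ y : (Fin s → Gr J) × Gr J, f ((List.ofFn fun j => g i j ^ (y.1 j : ℤ)) ++
          [h i ^ (y.2 : ℤ)] ++ winv (List.ofFn fun j => g i j ^ (y.1 j : ℤ)))) /
          ((2 * J + 1) ^ s * (2 * J + 1)) := by
    intro i f
    rw [avg, h1_avg_prodL _ (fun j (y : Gr J) => [g i j ^ (y : ℤ)]) fun j f => h1_avg_fam _ _ f]
    simp only [h1_flatten_single, h1_avg_fam]
    rw [Fintype.sum_prod_type, ← Finset.sum_div, div_div, mul_comm (2 * (J : ℝ) + 1)]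
  rw [zz, h1_avg_prodL _ _ key, mul_pow, ← pow_mul, mul_comm s D, ← Fintype.sum_prod_type']
  congr 1
  refine Fintype.sum_equiv ((Equiv.arrowProdEquivProdArrow _ _ _).trans
    ((Equiv.curry _ _ _).symm.prodCongr (Equiv.refl _))) _ _ fun y => rfl

theorem zw_prod (x : Fin D × Fin s → Gr J) (τ : Fin D → Gr J) : (zw g h x τ).prod =
    (List.ofFn fun i => (List.ofFn fun j => g i j ^ (x (i, j) : ℤ)).prod * h i ^ (τ i : ℤ) *
      ((List.ofFn fun j => g i j ^ (x (i, j) : ℤ)).prod)⁻¹).prod := by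
  rw [zw, List.prod_flatten, List.map_ofFn]
  congr 2
  funext i
  simp only [Function.comp, List.prod_append, List.prod_singleton, winv,
    ← List.prod_inv_reverse]

end Sch

/-- a separated subset which is large or maximal (balls are symmetric and contain `1`; take a
separated subset of maximal cardinality if all have cardinality `< N`) -/
theorem exists_sep_max {G : Type} [Group G] (T P : Set G) (σ : ℕ) (N : ℝ) :
    ∃ Y : Finset G, Sep T σ Y ∧ (Y : Set G) ⊆ P ∧
      (N ≤ Y.card ∨ ∀ p ∈ P, ∃ y ∈ Y, y⁻¹ * p ∈ Ball T σ) := by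
  classical
  by_contra hne
  push Not at hne
  have key : ∀ n : ℕ, ∃ Y : Finset G, Sep T σ Y ∧ (Y : Set G) ⊆ P ∧ Y.card = n := by
    intro n
    induction n with
    | zero => exact ⟨∅, fun x hx => by simp at hx, by simp, rfl⟩
    | succ n ih =>
      obtain ⟨Y, h1, h2, h3⟩ := ih
      obtain ⟨-, p, hp, h4⟩ := hne Y h1 h2
      have h5 : p ∉ Y := fun h => h4 p h (by rw [inv_mul_cancel]; exact Ball.one_mem _ _)
      refine ⟨insert p Y, ?_, by rw [Finset.coe_insert]; exact Set.insert_subset hp h2,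
        by rw [Finset.card_insert_of_notMem h5, h3]⟩
      rw [Finset.coe_insert]
      rintro x (rfl | hx) y (rfl | hy) hxy
      · exact absurd rfl hxy
      · intro h
        refine h4 y hy ?_
        have := Ball.inv_mem h
        rwa [mul_inv_rev, inv_inv] at this
      · exact h4 x hx
      · exact h1 x hx y hy hxy
  obtain ⟨Y, h1, h2, h3⟩ := key ⌈N⌉₊
  exact absurd (hne Y h1 h2).1 (not_lt.2 (h3 ▸ Nat.le_ceil N))
/-- averages: many `x` have a large partial average -/
theorem card_large {A B : Type} [Fintype A] [Fintype B] [Nonempty B] (f : A → B → ℝ)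
    (hf : ∀ a b, f a b ≤ 1)
    {θ : ℝ} (hθ : 0 < θ)
    (h : θ * (Fintype.card A * Fintype.card B) ≤ ∑ a, ∑ b, f a b) :
    ∃ S : Finset A, θ / 2 * Fintype.card A ≤ S.card ∧
      ∀ a ∈ S, θ / 2 * Fintype.card B ≤ ∑ b, f a b := by
  classical
  refine ⟨Finset.univ.filter fun a => θ / 2 * Fintype.card B ≤ ∑ b, f a b, ?_,
    fun a ha => (Finset.mem_filter.1 ha).2⟩
  have hB : (0 : ℝ) < Fintype.card B := by exact_mod_cast Fintype.card_pos
  have h1 : ∑ a, ∑ b, f a b ≤ ∑ a : A, (θ / 2 * Fintype.card B +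
      if θ / 2 * Fintype.card B ≤ ∑ b, f a b then (Fintype.card B : ℝ) else 0) := by
    refine Finset.sum_le_sum fun a _ => ?_
    split_ifs with ha
    · have h2 : ∑ b, f a b ≤ ∑ _b : B, (1 : ℝ) := Finset.sum_le_sum fun b _ => hf a b
      rw [Finset.sum_const, Finset.card_univ, nsmul_eq_mul, mul_one] at h2
      have : 0 ≤ θ / 2 * Fintype.card B := by positivity
      linarith
    · linarith [not_le.1 ha]
  rw [Finset.sum_add_distrib, ← Finset.sum_filter, Finset.sum_const, Finset.sum_const,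
    Finset.card_univ, nsmul_eq_mul, nsmul_eq_mul] at h1
  refine le_of_mul_le_mul_right ?_ hB
  linarith
end Crest.Agent.R182
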