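import Crest.Agent.R182.LMTop

/-! Row 182, block L2c: the group law near the origin, for a normalised bracket. -/

set_option autoImplicit false
set_option linter.dupNamespace false

namespace Crest.Agent.R182

open MeasureTheory

section bst

variable {W : Type} [NormedAddCommGroup W] [NormedSpace ℝ W]

/-- the Baker-Campbell-Hausdorff product for the bracket `b` -/
def bst (L : List (ℝ × LTree × LTree)) (b : W →ₗ[ℝ] W →ₗ[ℝ] W) (p q : W) : W :=
  p + q + (L.map fun c => c.1 • (LTree.node c.2.1 c.2.2).eval (fun A B => b A B) p q).sum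

/-- iterated product -/
def bprod (L : List (ℝ × LTree × LTree)) (b : W →ₗ[ℝ] W →ₗ[ℝ] W) (l : List W) : W :=
  l.foldr (bst L b) 0

private theorem h65_node {A c c' ρ δ : ℝ} (hA : 0 ≤ A) {b : W →ₗ[ℝ] W →ₗ[ℝ] W}
    (hb : ∀ p q, ‖b p q‖ ≤ A * ‖p‖ * ‖q‖) {u v u' v' : W} (hv : ‖v‖ ≤ c' * ρ) (hu' : ‖u'‖ ≤ c * ρ)
    (h1 : ‖u - u'‖ ≤ c * δ) (h2 : ‖v - v'‖ ≤ c' * δ) :
    ‖b u v - b u' v'‖ ≤ 2 * A * c * c' * ρ * δ := by
  have e : b u v - b u' v' = b (u - u') v + b u' (v - v') := by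
    simp only [map_sub, LinearMap.sub_apply]; abel
  have h3 : ‖u - u'‖ * ‖v‖ ≤ c * δ * (c' * ρ) :=
    mul_le_mul h1 hv (norm_nonneg _) ((norm_nonneg _).trans h1)
  have h4 : ‖u'‖ * ‖v - v'‖ ≤ c * ρ * (c' * δ) :=
    mul_le_mul hu' h2 (norm_nonneg _) ((norm_nonneg _).trans hu')
  rw [e]
  refine (norm_add_le _ _).trans ((add_le_add (hb _ _) (hb _ _)).trans ?_)
  nlinarith [mul_le_mul_of_nonneg_left h3 hA, mul_le_mul_of_nonneg_left h4 hA]

private theorem h65_tree {A : ℝ} (hA : 0 ≤ A) (t : LTree) : ∃ c : ℝ, 0 ≤ c ∧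
    ∀ b : W →ₗ[ℝ] W →ₗ[ℝ] W, (∀ p q, ‖b p q‖ ≤ A * ‖p‖ * ‖q‖) → ∀ ρ : ℝ, ρ ≤ 1 →
      ∀ p q : W, ‖p‖ ≤ ρ → ‖q‖ ≤ ρ → ‖t.eval (fun A B => b A B) p q‖ ≤ c * ρ ∧
        ∀ p' q' : W, ‖p'‖ ≤ ρ → ‖q'‖ ≤ ρ →
          ‖t.eval (fun A B => b A B) p q - t.eval (fun A B => b A B) p' q'‖ ≤
            c * (‖p - p'‖ + ‖q - q'‖) := by
  induction t with
  | x =>
    refine ⟨1, zero_le_one, fun b _ ρ _ p q hp _ => ⟨by rwa [one_mul], fun p' q' _ _ => ?_⟩⟩
    rw [one_mul]
    exact le_add_of_nonneg_right (norm_nonneg _)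
  | y =>
    refine ⟨1, zero_le_one, fun b _ ρ _ p q _ hq => ⟨by rwa [one_mul], fun p' q' _ _ => ?_⟩⟩
    rw [one_mul]
    exact le_add_of_nonneg_left (norm_nonneg _)
  | node s t hs ht =>
    obtain ⟨c, hc, hs⟩ := hs
    obtain ⟨c', hc', ht⟩ := ht
    have h0 : 0 ≤ A * c * c' := by positivity
    refine ⟨2 * A * c * c', by positivity, fun b hb ρ hρ p q hp hq => ⟨?_, fun p' q' hp' hq' => ?_⟩⟩
    · have hρ0 : 0 ≤ ρ := (norm_nonneg _).trans hp
      have h1 := mul_le_mul (hs b hb ρ hρ p q hp hq).1 (ht b hb ρ hρ p q hp hq).1 (norm_nonneg _)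
        (by positivity)
      refine (hb _ _).trans ?_
      have h2 := mul_le_mul_of_nonneg_left h1 hA
      have h3 := mul_le_mul_of_nonneg_left hρ (mul_nonneg h0 hρ0)
      nlinarith [mul_nonneg h0 hρ0]
    · refine (h65_node hA hb (ht b hb ρ hρ p q hp hq).1 (hs b hb ρ hρ p' q' hp' hq').1
        ((hs b hb ρ hρ p q hp hq).2 p' q' hp' hq') ((ht b hb ρ hρ p q hp hq).2 p' q' hp' hq')).trans ?_
      have h1 : 0 ≤ ‖p - p'‖ + ‖q - q'‖ := by positivity
      nlinarith [mul_le_mul_of_nonneg_left hρ (mul_nonneg h0 h1)]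

private theorem h65_list {A : ℝ} (hA : 0 ≤ A) (L : List (ℝ × LTree × LTree)) : ∃ c : ℝ, 0 ≤ c ∧
    ∀ b : W →ₗ[ℝ] W →ₗ[ℝ] W, (∀ p q, ‖b p q‖ ≤ A * ‖p‖ * ‖q‖) → ∀ ρ : ℝ, ρ ≤ 1 →
      ∀ p q p' q' : W, ‖p‖ ≤ ρ → ‖q‖ ≤ ρ → ‖p'‖ ≤ ρ → ‖q'‖ ≤ ρ →
        ‖(L.map fun c => c.1 • (LTree.node c.2.1 c.2.2).eval (fun A B => b A B) p q).sum -
          (L.map fun c => c.1 • (LTree.node c.2.1 c.2.2).eval (fun A B => b A B) p' q').sum‖ ≤
            c * ρ * (‖p - p'‖ + ‖q - q'‖) := by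
  induction L with
  | nil => exact ⟨0, le_rfl, fun b _ ρ _ p q p' q' _ _ _ _ => by simp⟩
  | cons a L ih =>
    obtain ⟨C, hC, ih⟩ := ih
    obtain ⟨c, hc, hs⟩ := h65_tree (W := W) hA a.2.1
    obtain ⟨c', hc', ht⟩ := h65_tree (W := W) hA a.2.2
    refine ⟨|a.1| * (2 * A * c * c') + C, by positivity,
      fun b hb ρ hρ p q p' q' hp hq hp' hq' => ?_⟩
    have h1 := h65_node hA hb (ht b hb ρ hρ p q hp hq).1 (hs b hb ρ hρ p' q' hp' hq').1
      ((hs b hb ρ hρ p q hp hq).2 p' q' hp' hq') ((ht b hb ρ hρ p q hp hq).2 p' q' hp' hq')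
    have h2 := ih b hb ρ hρ p q p' q' hp hq hp' hq'
    rw [List.map_cons, List.map_cons, List.sum_cons, List.sum_cons, add_sub_add_comm, ← smul_sub]
    refine (norm_add_le _ _).trans ?_
    rw [norm_smul, Real.norm_eq_abs]
    refine (add_le_add (mul_le_mul_of_nonneg_left h1 (abs_nonneg _)) h2).trans (le_of_eq ?_)
    ring

private theorem h65_zero (L : List (ℝ × LTree × LTree)) (b : W →ₗ[ℝ] W →ₗ[ℝ] W) (n : ℕ) :
    bprod L b (List.ofFn fun _ : Fin n => (0 : W)) = 0 := by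
  have h : ∀ t : LTree, t.eval (fun A B => b A B) 0 0 = 0 := fun t => by
    induction t with
    | x => rfl
    | y => rfl
    | node s t hs ht => simp only [LTree.eval, hs, ht, map_zero]
  induction n with
  | zero => rfl
  | succ n ih =>
    rw [List.ofFn_succ, bprod, List.foldr_cons, ← bprod, ih, bst, add_zero, zero_add]
    refine List.sum_eq_zero fun v hv => ?_
    obtain ⟨c, -, rfl⟩ := List.mem_map.1 hv
    rw [h, smul_zero]

/-- near the origin the product is a small Lipschitz perturbation of the sum -/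
theorem bst_lip (L : List (ℝ × LTree × LTree)) {A ε : ℝ} (hA : 0 ≤ A) (hε : 0 < ε) :
    ∃ ρ : ℝ, 0 < ρ ∧ ∀ b : W →ₗ[ℝ] W →ₗ[ℝ] W, (∀ p q, ‖b p q‖ ≤ A * ‖p‖ * ‖q‖) →
      ∀ p q p' q' : W, ‖p‖ ≤ ρ → ‖q‖ ≤ ρ → ‖p'‖ ≤ ρ → ‖q'‖ ≤ ρ →
        ‖bst L b p q - bst L b p' q' - (p - p') - (q - q')‖ ≤ ε * (‖p - p'‖ + ‖q - q'‖) := by
  obtain ⟨c, hc, h⟩ := h65_list (W := W) hA L
  refine ⟨min 1 (ε / (c + 1)), lt_min one_pos (by positivity),
    fun b hb p q p' q' hp hq hp' hq' => ?_⟩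
  have h1 := h b hb _ (min_le_left _ _) p q p' q' hp hq hp' hq'
  have h2 : c * min 1 (ε / (c + 1)) ≤ ε := by
    refine (mul_le_mul_of_nonneg_left (min_le_right _ _) hc).trans ?_
    rw [← mul_div_assoc, div_le_iff₀ (by positivity)]
    nlinarith
  refine le_trans (le_of_eq ?_) (h1.trans (mul_le_mul_of_nonneg_right h2 (by positivity)))
  congr 1
  unfold bst
  abel

theorem bprod_lip (L : List (ℝ × LTree × LTree)) (n : ℕ) {A ε : ℝ} (hA : 0 ≤ A) (hε : 0 < ε) :
    ∃ ρ : ℝ, 0 < ρ ∧ ∀ b : W →ₗ[ℝ] W →ₗ[ℝ] W, (∀ p q, ‖b p q‖ ≤ A * ‖p‖ * ‖q‖) →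
      ∀ z z' : Fin n → W, (∀ i, ‖z i‖ ≤ ρ) → (∀ i, ‖z' i‖ ≤ ρ) →
        ‖bprod L b (List.ofFn z) - bprod L b (List.ofFn z') - ∑ i, (z i - z' i)‖ ≤
          ε * ∑ i, ‖z i - z' i‖ := by
  induction n generalizing ε with
  | zero => exact ⟨1, one_pos, fun b _ z z' _ _ => by simp⟩
  | succ n ih =>
    obtain ⟨ρ₁, hρ₁, h1⟩ := bst_lip (W := W) L hA (ε := ε / 2 / (1 + ε / 2)) (by positivity)
    obtain ⟨ρ₂, hρ₂, h2⟩ := ih (ε := ε / 2) (by positivity)
    have hn : (0 : ℝ) ≤ n := n.cast_nonneg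
    have hK : 1 ≤ (1 + ε / 2) * n + 1 := le_add_of_nonneg_left (by positivity)
    refine ⟨min ρ₂ (ρ₁ / ((1 + ε / 2) * n + 1)), lt_min hρ₂ (by positivity), fun b hb z z' hz hz' => ?_⟩
    have h3 : ∀ y y' : Fin n → W, (∀ i, ‖y i‖ ≤ ρ₂) → (∀ i, ‖y' i‖ ≤ ρ₂) →
        ‖bprod L b (List.ofFn y) - bprod L b (List.ofFn y')‖ ≤ (1 + ε / 2) * ∑ i, ‖y i - y' i‖ :=
      fun y y' hy hy' => by
        have h4 := h2 b hb y y' hy hy'
        have h5 := norm_sum_le Finset.univ fun i => y i - y' i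
        have h6 := norm_add_le (bprod L b (List.ofFn y) - bprod L b (List.ofFn y') -
          ∑ i, (y i - y' i)) (∑ i, (y i - y' i))
        rw [sub_add_cancel] at h6
        linarith
    have h4 : ∀ y : Fin (n + 1) → W, (∀ i, ‖y i‖ ≤ min ρ₂ (ρ₁ / ((1 + ε / 2) * n + 1))) →
        ‖y 0‖ ≤ ρ₁ ∧ ‖bprod L b (List.ofFn fun i : Fin n => y i.succ)‖ ≤ ρ₁ := fun y hy => by
      refine ⟨((hy 0).trans (min_le_right _ _)).trans (div_le_self hρ₁.le hK), ?_⟩
      have h5 := h3 (fun i => y i.succ) (fun _ => 0) (fun i => (hy _).trans (min_le_left _ _))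
        fun _ => by rw [norm_zero]; exact hρ₂.le
      rw [h65_zero, sub_zero] at h5
      have h6 : ∑ i : Fin n, ‖y i.succ - 0‖ ≤ n * (ρ₁ / ((1 + ε / 2) * n + 1)) := by
        refine (Finset.sum_le_sum fun i _ => ?_).trans (le_of_eq
          (by rw [Finset.sum_const, Finset.card_univ, Fintype.card_fin, nsmul_eq_mul]))
        rw [sub_zero]
        exact (hy _).trans (min_le_right _ _)
      refine h5.trans ((mul_le_mul_of_nonneg_left h6 (by positivity)).trans ?_)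
      rw [← mul_assoc, ← mul_div_assoc, div_le_iff₀ (by positivity)]
      nlinarith
    have h5 := h1 b hb _ _ _ _ (h4 z hz).1 (h4 z hz).2 (h4 z' hz').1 (h4 z' hz').2
    have hy : ∀ i : Fin n, ‖z i.succ‖ ≤ ρ₂ := fun i => (hz _).trans (min_le_left _ _)
    have hy' : ∀ i : Fin n, ‖z' i.succ‖ ≤ ρ₂ := fun i => (hz' _).trans (min_le_left _ _)
    have h6 := h2 b hb _ _ hy hy'
    have h7 := h3 _ _ hy hy'
    rw [List.ofFn_succ, List.ofFn_succ, Fin.sum_univ_succ, Fin.sum_univ_succ, bprod, bprod,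
      List.foldr_cons, List.foldr_cons, ← bprod, ← bprod]
    generalize bprod L b (List.ofFn fun i : Fin n => z i.succ) = P at *
    generalize bprod L b (List.ofFn fun i : Fin n => z' i.succ) = P' at *
    generalize ∑ i : Fin n, (z i.succ - z' i.succ) = S at *
    generalize ∑ i : Fin n, ‖z i.succ - z' i.succ‖ = s at *
    have e : bst L b (z 0) P - bst L b (z' 0) P' - (z 0 - z' 0 + S) =
        (bst L b (z 0) P - bst L b (z' 0) P' - (z 0 - z' 0) - (P - P')) + (P - P' - S) := by abel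
    have h8 : ε / 2 / (1 + ε / 2) ≤ ε := (div_le_self (by positivity) (by linarith)).trans (by linarith)
    have h9 : ε / 2 / (1 + ε / 2) * ‖P - P'‖ ≤ ε / 2 * s := by
      refine (mul_le_mul_of_nonneg_left h7 (by positivity)).trans (le_of_eq ?_)
      field_simp
    rw [e]
    refine (norm_add_le _ _).trans ?_
    nlinarith [mul_le_mul_of_nonneg_right h8 (norm_nonneg (z 0 - z' 0))]

theorem bprod_zero (L : List (ℝ × LTree × LTree)) (b : W →ₗ[ℝ] W →ₗ[ℝ] W) (n : ℕ) :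
    bprod L b (List.ofFn fun _ : Fin n => (0 : W)) = 0 :=
  h65_zero L b n

end bst

namespace LieModel

variable {G : Type} [Group G] {k : ℕ} (M : LieModel G k)

section chart

variable {M} {W : Type} [NormedAddCommGroup W] [NormedSpace ℝ W]
  {Λ : W →ₗ[ℝ] (Fin M.d → ℝ)} {b : W →ₗ[ℝ] W →ₗ[ℝ] W}

theorem map_bst (hb : ∀ p q, Λ (b p q) = M.br (Λ p) (Λ q)) (p q : W) :
    Λ (bst M.bch b p q) = M.bc (Λ p) (Λ q) := by
  have h1 : ∀ t : LTree, Λ (t.eval (fun A B => b A B) p q) = M.ev t (Λ p) (Λ q) := by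
    intro t
    induction t with
    | x => rfl
    | y => rfl
    | node s t hs ht => rw [ev_node, ← hs, ← ht, ← hb]; rfl
  rw [bst, map_add, map_add, map_list_sum, List.map_map, bc, hi]
  congr 2
  refine List.map_congr_left fun c _ => ?_
  rw [Function.comp_apply, map_smul, h1]

theorem ex_bprod (hb : ∀ p q, Λ (b p q) = M.br (Λ p) (Λ q)) (l : List W) :
    M.ex (Λ (bprod M.bch b l)) = (l.map fun p => M.ex (Λ p)).prod := by
  induction l with
  | nil => simp [bprod]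
  | cons p l ih =>
    rw [List.map_cons, List.prod_cons, ← ih, ex_mul', ← map_bst hb]
    rfl

variable [FiniteDimensional ℝ W] [MeasurableSpace W] [BorelSpace W]

omit [MeasurableSpace W] [BorelSpace W] in
theorem h94_diff (hΛ : Function.Injective Λ) {F : W → W}
    (hF : Differentiable ℝ fun X => Λ (F X)) : Differentiable ℝ F := by
  obtain ⟨p, hp⟩ := Λ.exists_leftInverse_of_injective (LinearMap.ker_eq_bot.2 hΛ)
  have h : F = fun X => LinearMap.toContinuousLinearMap p (Λ (F X)) :=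
    funext fun X => (LinearMap.congr_fun hp (F X)).symm
  rw [h]
  exact (LinearMap.toContinuousLinearMap p).differentiable.comp hF

theorem vol_bst_left (m : Measure W) [m.IsAddHaarMeasure] (hΛ : Function.Injective Λ)
    (hb : ∀ p q, Λ (b p q) = M.br (Λ p) (Λ q)) (p : W) {s : Set W} (hs : MeasurableSet s) :
    m ((fun q => bst M.bch b p q) '' s) = m s := by
  refine tri_vol m Λ hΛ _ (h94_diff hΛ ?_) (fun X X' h => hΛ (M.bc_right_injective (Λ p) ?_))
    (fun X X' l h => ?_) hs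
  · simp only [map_bst hb]
    exact (M.contDiff_bc (n := 1) contDiff_const
      (LinearMap.toContinuousLinearMap Λ).contDiff).differentiable one_ne_zero
  · have := congrArg Λ h
    simpa only [map_bst hb] using this
  · simp only [map_bst hb, bc, Pi.add_apply]
    rw [M.hi_dep (fun _ _ => rfl) h]
    ring

theorem vol_bst_right (m : Measure W) [m.IsAddHaarMeasure] (hΛ : Function.Injective Λ)
    (hb : ∀ p q, Λ (b p q) = M.br (Λ p) (Λ q)) (p : W) {s : Set W} (hs : MeasurableSet s) :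
    m ((fun q => bst M.bch b q p) '' s) = m s := by
  refine tri_vol m Λ hΛ _ (h94_diff hΛ ?_) (fun X X' h => hΛ (M.bc_left_injective (Λ p) ?_))
    (fun X X' l h => ?_) hs
  · simp only [map_bst hb]
    exact (M.contDiff_bc (n := 1) (LinearMap.toContinuousLinearMap Λ).contDiff
      contDiff_const).differentiable one_ne_zero
  · have := congrArg Λ h
    simpa only [map_bst hb] using this
  · simp only [map_bst hb, bc, Pi.add_apply]
    rw [M.hi_dep h fun _ _ => rfl]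
    ring

end chart

/-- the part of a ball in the nilpotent group is bounded -/
theorem ball_bdd (σ : ℕ) : ∃ R : ℝ, 0 < R ∧ ∀ X, M.ex X ∈ Ball M.Sg σ → ‖X‖ ≤ R := by
  obtain ⟨τ, hM⟩ := M.exists_top
  have hc := hM.ball_compact σ
  have h2 : IsCompact (hM.homeo ⁻¹' Ball M.Sg σ) := hM.homeo.isCompact_preimage.2 hc
  obtain ⟨R, hR, hR'⟩ := (h2.image continuous_fst).isBounded.exists_pos_norm_le
  refine ⟨R, hR, fun X hX => hR' X ⟨(X, 0), ?_, rfl⟩⟩
  rw [Set.mem_preimage, Cont.homeo_apply, pt_zero]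
  exact hX

theorem h78_br_bdd : ∃ B : ℝ, 0 ≤ B ∧ ∀ u z, ‖M.br u z‖ ≤ B * ‖u‖ * ‖z‖ := by
  let L : (Fin M.d → ℝ) →ₗ[ℝ] (Fin M.d → ℝ) →L[ℝ] (Fin M.d → ℝ) :=
    (LinearMap.toContinuousLinearMap : ((Fin M.d → ℝ) →ₗ[ℝ] (Fin M.d → ℝ)) ≃ₗ[ℝ] _).toLinearMap ∘ₗ
      M.br
  refine ⟨‖LinearMap.toContinuousLinearMap L‖, ContinuousLinearMap.opNorm_nonneg _, fun u z => ?_⟩
  exact (LinearMap.toContinuousLinearMap L).le_opNorm₂ u z

theorem Ad_ex_bdd (ρ : ℝ) : ∃ B : ℝ, 0 < B ∧ ∀ u, ‖u‖ ≤ ρ → ∀ z, ‖M.Ad (M.ex u) z‖ ≤ B * ‖z‖ := by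
  obtain ⟨B, hB, h⟩ := M.h78_br_bdd
  have hBρ : 0 ≤ B * |ρ| := by positivity
  refine ⟨1 + ∑ n ∈ Finset.range (M.d + 1), (B * |ρ|) ^ n, by positivity, fun u hu z => ?_⟩
  have h1 : ∀ n : ℕ, ‖(M.br u ^ n) z‖ ≤ (B * |ρ|) ^ n * ‖z‖ := by
    intro n
    induction n with
    | zero => simp
    | succ n ih =>
      rw [pow_succ', Module.End.mul_apply, pow_succ', mul_assoc]
      refine (h u _).trans ?_
      exact mul_le_mul (mul_le_mul_of_nonneg_left (hu.trans (le_abs_self ρ)) hB) ih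
        (norm_nonneg _) hBρ
  rw [M.Ad_ex, LinearMap.sum_apply, add_mul, Finset.sum_mul]
  refine (norm_sum_le _ _).trans (le_add_of_nonneg_of_le (by positivity)
    (Finset.sum_le_sum fun n _ => ?_))
  rw [LinearMap.smul_apply, norm_smul]
  refine (mul_le_of_le_one_left (norm_nonneg _) ?_).trans (h1 n)
  rw [Real.norm_eq_abs, abs_of_nonneg (by positivity)]
  exact inv_le_one_of_one_le₀ (by exact_mod_cast n.factorial_pos)

theorem h78_coeff_one (d : ℕ) : ∃ C : ℝ, 1 ≤ C ∧ ∀ p : Polynomial ℝ, p.degree < (d + 1 : ℕ) →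
    ∃ t : ℝ, |t| ≤ 1 ∧ |p.coeff 1| ≤ C * |p.eval t| := by
  classical
  let v : ℕ → ℝ := fun j => (j : ℝ) / (d + 1)
  have hv : Set.InjOn v (Finset.range (d + 1) : Finset ℕ) := by
    intro a _ b _ hab
    have h0 : (d + 1 : ℝ) ≠ 0 := by positivity
    have := (div_left_inj' h0).1 hab
    exact_mod_cast this
  refine ⟨1 + ∑ j ∈ Finset.range (d + 1), |(Lagrange.basis (Finset.range (d + 1)) v j).coeff 1|,
    le_add_of_nonneg_right (Finset.sum_nonneg fun _ _ => abs_nonneg _), fun p hp => ?_⟩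
  obtain ⟨j, hj, hmax⟩ := (Finset.range (d + 1)).exists_max_image (fun j => |p.eval (v j)|)
    ⟨0, by simp⟩
  refine ⟨v j, ?_, ?_⟩
  · have h0 : (0 : ℝ) < d + 1 := by positivity
    have h1 : (j : ℝ) ≤ d + 1 := by exact_mod_cast (Finset.mem_range.1 hj).le
    rw [abs_of_nonneg (by positivity)]
    exact (div_le_one h0).2 h1
  · have e := Lagrange.eq_interpolate (f := p) hv (by rwa [Finset.card_range])
    have e1 : p.coeff 1 = ∑ i ∈ Finset.range (d + 1),
        p.eval (v i) * (Lagrange.basis (Finset.range (d + 1)) v i).coeff 1 := by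
      conv_lhs => rw [e]
      rw [Lagrange.interpolate_apply, Polynomial.finsetSum_coeff]
      simp only [Polynomial.coeff_C_mul]
    rw [e1, add_mul, Finset.sum_mul]
    refine (Finset.abs_sum_le_sum_abs _ _).trans (le_add_of_nonneg_of_le (by positivity)
      (Finset.sum_le_sum fun i hi => ?_))
    rw [abs_mul, mul_comm]
    exact mul_le_mul_of_nonneg_left (hmax i hi) (abs_nonneg _)

/-- `ad X` is a fixed combination of the `Ad (ex (t X))`, `|t| ≤ 1` (Vandermonde) -/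
theorem br_comb : ∃ C : ℝ, 1 ≤ C ∧ ∀ (X z : Fin M.d → ℝ) (φ : (Fin M.d → ℝ) →ₗ[ℝ] ℝ),
    ∃ t : ℝ, |t| ≤ 1 ∧ |φ (M.br X z)| ≤ C * |φ (M.Ad (M.ex (t • X)) z)| := by
  obtain ⟨C, hC, h⟩ := h78_coeff_one M.d
  refine ⟨C, hC, fun X z φ => ?_⟩
  rcases Nat.eq_zero_or_pos M.d with h0 | h0
  · have : M.br X z = 0 := funext fun l => absurd l.2 (by omega)
    refine ⟨0, by simp, ?_⟩
    rw [this, map_zero, abs_zero]
    positivity
  obtain ⟨t, ht, h1⟩ := h (∑ n ∈ Finset.range (M.d + 1),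
    Polynomial.monomial n ((n.factorial : ℝ)⁻¹ * φ ((M.br X ^ n) z))) (by
      refine (Polynomial.degree_sum_le _ _).trans_lt ?_
      refine (Finset.sup_lt_iff (WithBot.bot_lt_coe _)).2 fun n hn => ?_
      exact (Polynomial.degree_monomial_le _ _).trans_lt
        (by exact_mod_cast Finset.mem_range.1 hn))
  refine ⟨t, ht, ?_⟩
  convert h1 using 2
  · rw [Polynomial.finsetSum_coeff, Finset.sum_eq_single 1]
    · simp
    · intro n _ hn
      simp [Polynomial.coeff_monomial, hn]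
    · intro hn
      exact absurd (Finset.mem_range.2 (by omega)) hn
  · rw [M.Ad_ex, LinearMap.sum_apply, map_sum, Polynomial.eval_finsetSum]
    congr 1
    refine Finset.sum_congr rfl fun n _ => ?_
    rw [map_smul, smul_pow, Polynomial.eval_monomial]
    simp only [LinearMap.smul_apply, map_smul, smul_eq_mul]
    ring

/-- the conjugating element of a column -/
def colW {s : ℕ} (X : Fin s → Fin M.d → ℝ) (x : Fin s → ℝ) : G :=
  (List.ofFn fun j => M.ex (x j • X j)).prod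

/-- an iterated bracket is dominated by a conjugate -/
theorem exists_col (s : ℕ) : ∃ C : ℝ, 1 ≤ C ∧ ∀ (L : List (Fin M.d → ℝ)) (y : Fin M.d → ℝ)
    (φ : (Fin M.d → ℝ) →ₗ[ℝ] ℝ), L.length ≤ s → ∃ x : Fin s → ℝ, (∀ j, |x j| ≤ 1) ∧
      |φ (L.foldr (fun X Y => M.br X Y) y)| ≤
        C * |φ (M.Ad (M.colW (fun j : Fin s => L.getD j y) x) y)| := by
  obtain ⟨C₀, hC₀, h₀⟩ := M.br_comb
  induction s with
  | zero =>
    refine ⟨1, le_rfl, fun L y φ hL => ⟨0, fun j => j.elim0, ?_⟩⟩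
    obtain rfl : L = [] := List.length_eq_zero_iff.1 (Nat.le_zero.1 hL)
    simp [colW]
  | succ s ih =>
    obtain ⟨C, hC, h⟩ := ih
    have hCC : 1 ≤ C₀ * C := one_le_mul_of_one_le_of_one_le hC₀ hC
    refine ⟨C₀ * C, hCC, fun L y φ hL => ?_⟩
    cases L with
    | nil =>
      refine ⟨0, fun j => by simp, ?_⟩
      have h1 : M.colW (fun j : Fin (s + 1) => ([] : List (Fin M.d → ℝ)).getD j y) 0 = 1 := by
        unfold colW
        refine List.prod_eq_one fun g hg => ?_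
        obtain ⟨j, rfl⟩ := (List.mem_ofFn' _ _).1 hg
        simp
      rw [h1]
      simpa using le_mul_of_one_le_left (abs_nonneg (φ y)) hCC
    | cons X L =>
      obtain ⟨t, ht, h1⟩ := h₀ X (L.foldr (fun X Y => M.br X Y) y) φ
      obtain ⟨x, hx, h2⟩ := h L y (φ ∘ₗ M.Ad (M.ex (t • X))) (by simpa using hL)
      refine ⟨Fin.cons t x, fun j => Fin.cases (by simpa using ht) (fun j => by simpa using hx j) j,
        ?_⟩
      have h3 : M.colW (fun j : Fin (s + 1) => (X :: L).getD j y) (Fin.cons t x) =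
          M.ex (t • X) * M.colW (fun j : Fin s => L.getD j y) x := by
        unfold colW
        rw [List.ofFn_succ, List.prod_cons]
        simp
      rw [h3, map_mul, List.foldr_cons, mul_assoc]
      exact h1.trans (mul_le_mul_of_nonneg_left h2 (by linarith))

/-- the determinant of the conjugated columns is somewhere as large as the determinant of the
iterated brackets -/
theorem exists_big (D s : ℕ) : ∃ C : ℝ, 1 ≤ C ∧ ∀ (Δ : (Fin M.d → ℝ) [⋀^Fin D]→ₗ[ℝ] ℝ)
    (L : Fin D → List (Fin M.d → ℝ)) (y : Fin D → Fin M.d → ℝ), (∀ i, (L i).length ≤ s) →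
      ∃ x : Fin D × Fin s → ℝ, (∀ j, |x j| ≤ 1) ∧
        |Δ fun i => (L i).foldr (fun X Y => M.br X Y) (y i)| ≤
          C * |Δ fun i => M.Ad (M.colW (fun j : Fin s => (L i).getD j (y i)) fun j => x (i, j))
            (y i)| := by
  classical
  obtain ⟨C, hC, h⟩ := M.exists_col s
  refine ⟨C ^ D, one_le_pow₀ hC, fun Δ L y hL => ?_⟩
  set u : Fin D → Fin M.d → ℝ := fun i => (L i).foldr (fun X Y => M.br X Y) (y i) with hu
  set w : Fin D → (Fin s → ℝ) → Fin M.d → ℝ := fun i x =>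
    M.Ad (M.colW (fun j : Fin s => (L i).getD j (y i)) x) (y i) with hw
  have key : ∀ T : Finset (Fin D), ∃ x : Fin D → Fin s → ℝ, (∀ i j, |x i j| ≤ 1) ∧
      |Δ u| ≤ C ^ T.card * |Δ fun i => if i ∈ T then w i (x i) else u i| := by
    intro T
    induction T using Finset.induction_on with
    | empty => exact ⟨0, fun _ _ => by simp, by simp⟩
    | insert a T ha ih =>
      obtain ⟨x, hx, h1⟩ := ih
      set m : Fin D → Fin M.d → ℝ := fun i => if i ∈ T then w i (x i) else u i with hm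
      obtain ⟨z, hz, h2⟩ := h (L a) (y a) (Δ.toMultilinearMap.toLinearMap m a) (hL a)
      refine ⟨Function.update x a z, fun i j => ?_, ?_⟩
      · by_cases hi : i = a
        · subst hi; simpa using hz j
        · simpa [Function.update_of_ne hi] using hx i j
      have e1 : Function.update m a (u a) = m := by
        funext i
        by_cases hi : i = a
        · subst hi; simp [hm, ha]
        · simp [Function.update_of_ne hi]
      have e2 : Function.update m a (w a z) =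
          fun i => if i ∈ insert a T then w i (Function.update x a z i) else u i := by
        funext i
        by_cases hi : i = a
        · subst hi; simp
        · simp [hm, hi]
      have h3 : |Δ m| ≤ C * |Δ (Function.update m a (w a z))| := by
        conv_lhs => rw [← e1]
        exact h2
      rw [Finset.card_insert_of_notMem ha, pow_succ, mul_assoc, ← e2]
      exact h1.trans (mul_le_mul_of_nonneg_left h3 (by positivity))
  obtain ⟨x, hx, h1⟩ := key Finset.univ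
  simp only [Finset.card_univ, Fintype.card_fin, Finset.mem_univ, if_true] at h1
  exact ⟨fun p => x p.1 p.2, fun p => hx _ _, h1⟩

end LieModel

end Crest.Agent.R182
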