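import Crest.Agent.R182.LD0
import Crest.Agent.R182.LD1

/-! Row 182, block L2c: gauges, charts, packing. -/

set_option autoImplicit false
set_option linter.dupNamespace false

namespace Crest.Agent.R182

open MeasureTheory

namespace LieModel

variable {G : Type} [Group G] {k : ℕ} (M : LieModel G k)

theorem h58_colW_succ {s : ℕ} (X : Fin (s + 1) → Fin M.d → ℝ) (x : Fin (s + 1) → ℝ) :
    M.colW X x = M.ex (x 0 • X 0) * M.colW (fun j => X j.succ) fun j => x j.succ := by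
  simp only [colW, List.ofFn_succ, List.prod_cons]

theorem h58_Ad_smul (t : ℝ) (X z : Fin M.d → ℝ) :
    M.Ad (M.ex (t • X)) z =
      ∑ n ∈ Finset.range (M.d + 1), (((n.factorial : ℝ)⁻¹) * t ^ n) • (M.br X ^ n) z := by
  rw [M.Ad_ex, LinearMap.sum_apply]
  refine Finset.sum_congr rfl fun n _ => ?_
  rw [map_smul, smul_pow, LinearMap.smul_apply, LinearMap.smul_apply, smul_smul]

theorem h58_col {s : ℕ} (X : Fin s → Fin M.d → ℝ) (x : Fin s → ℝ) (j : Fin s)
    (φ : (Fin M.d → ℝ) →ₗ[ℝ] ℝ) (y : Fin M.d → ℝ) :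
    ∃ p : Polynomial ℝ, p.natDegree ≤ M.d ∧
      ∀ t, φ (M.Ad (M.colW X (Function.update x j t)) y) = p.eval t := by
  induction s generalizing φ with
  | zero => exact j.elim0
  | succ s ih =>
    cases j using Fin.cases with
    | zero =>
      obtain ⟨z, hz⟩ : ∃ z, z = M.Ad (M.colW (fun j => X j.succ) fun j => x j.succ) y := ⟨_, rfl⟩
      refine ⟨∑ n ∈ Finset.range (M.d + 1),
        Polynomial.monomial n ((n.factorial : ℝ)⁻¹ * φ ((M.br (X 0) ^ n) z)), ?_, fun t => ?_⟩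
      · refine Polynomial.natDegree_sum_le_of_forall_le _ _ fun n hn => ?_
        exact (Polynomial.natDegree_monomial_le _).trans (Nat.lt_succ_iff.1 (Finset.mem_range.1 hn))
      · have h1 : (fun j : Fin s => Function.update x 0 t j.succ) = fun j => x j.succ :=
          funext fun j => Function.update_of_ne (Fin.succ_ne_zero j) _ _
        rw [h58_colW_succ, h1, map_mul, Module.End.mul_apply, ← hz, Function.update_self,
          h58_Ad_smul, map_sum, Polynomial.eval_finsetSum]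
        refine Finset.sum_congr rfl fun n _ => ?_
        rw [map_smul, Polynomial.eval_monomial, smul_eq_mul]
        ring
    | succ i =>
      obtain ⟨p, hp, h⟩ := ih (fun j => X j.succ) (fun j => x j.succ) i
        (φ ∘ₗ M.Ad (M.ex (x 0 • X 0)))
      refine ⟨p, hp, fun t => ?_⟩
      have h1 : (fun j : Fin s => Function.update x i.succ t j.succ) =
          Function.update (fun j => x j.succ) i t := by
        funext j
        by_cases hj : j = i
        · subst hj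
          simp
        · rw [Function.update_of_ne hj, Function.update_of_ne fun e => hj (Fin.succ_injective _ e)]
      rw [h58_colW_succ, h1, map_mul, Module.End.mul_apply,
        Function.update_of_ne (Fin.succ_ne_zero i).symm, ← h t]
      rfl

/-- the determinant is a polynomial in the parameters of the conjugating elements -/
theorem polyIn_det {D s : ℕ} (Δ : (Fin M.d → ℝ) [⋀^Fin D]→ₗ[ℝ] ℝ)
    (X : Fin D → Fin s → Fin M.d → ℝ) (y : Fin D → Fin M.d → ℝ) :
    PolyIn M.d fun x : Fin D × Fin s → ℝ =>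
      Δ fun i => M.Ad (M.colW (X i) fun j => x (i, j)) (y i) := by
  classical
  rintro x ⟨i₀, j₀⟩
  obtain ⟨p, hp, h⟩ := M.h58_col (X i₀) (fun j => x (i₀, j)) j₀
    (Δ.toMultilinearMap.toLinearMap (fun i => M.Ad (M.colW (X i) fun j => x (i, j)) (y i)) i₀) (y i₀)
  refine ⟨p, hp, fun t => ?_⟩
  rw [← h t, MultilinearMap.toLinearMap_apply]
  refine congrArg Δ (funext fun i => ?_)
  by_cases hi : i = i₀
  · subst hi
    rw [Function.update_self]
    congr 3
    funext j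
    by_cases hj : j = j₀
    · subst hj
      simp
    · rw [Function.update_of_ne hj, Function.update_of_ne fun e => hj (Prod.mk.inj e).2]
  · rw [Function.update_of_ne hi]
    congr 3
    funext j
    rw [Function.update_of_ne fun e => hi (Prod.mk.inj e).1]

/-- the dilates `𝒟 t` of a symmetric convex set in `E` which is stable under brackets -/
structure ZG (E : Submodule ℝ (Fin M.d → ℝ)) (C : ℝ) (𝒟 : ℝ → Set (Fin M.d → ℝ)) : Prop where
  sub : ∀ t, ∀ X ∈ 𝒟 t, X ∈ E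
  zero : (0 : Fin M.d → ℝ) ∈ 𝒟 0
  mono : ∀ s t, s ≤ t → 𝒟 s ⊆ 𝒟 t
  add : ∀ s t, ∀ X ∈ 𝒟 s, ∀ Y ∈ 𝒟 t, X + Y ∈ 𝒟 (s + t)
  smul : ∀ t (c : ℝ), ∀ X ∈ 𝒟 t, c • X ∈ 𝒟 (|c| * t)
  br : ∀ s t, 0 ≤ s → 0 ≤ t → ∀ X ∈ 𝒟 s, ∀ Y ∈ 𝒟 t, M.br X Y ∈ 𝒟 (C * s * t)

variable {M} in
theorem ZG.h58_Ad {E : Submodule ℝ (Fin M.d → ℝ)} {C : ℝ} (hC : 1 ≤ C)
    {𝒟 : ℝ → Set (Fin M.d → ℝ)} (h : M.ZG E C 𝒟) {X : Fin M.d → ℝ} (hX : X ∈ 𝒟 1) {x : ℝ}
    (hx : |x| ≤ 1) {t : ℝ} (ht : 0 ≤ t) {y : Fin M.d → ℝ} (hy : y ∈ 𝒟 t) :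
    M.Ad (M.ex (x • X)) y ∈ 𝒟 ((M.d + 1 : ℕ) * (C ^ M.d * t)) := by
  have h1 : ∀ n : ℕ, (M.br X ^ n) y ∈ 𝒟 (C ^ n * t) := by
    intro n
    induction n with
    | zero => simpa using hy
    | succ n ih =>
      have := h.br 1 _ zero_le_one (mul_nonneg (pow_nonneg (by linarith) n) ht) X hX _ ih
      rw [pow_succ' (M.br X), Module.End.mul_apply]
      convert this using 2
      ring
  have h2 : ∀ m : ℕ, m ≤ M.d + 1 →
      ∑ n ∈ Finset.range m, (((n.factorial : ℝ)⁻¹) * x ^ n) • (M.br X ^ n) y ∈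
        𝒟 (m * (C ^ M.d * t)) := by
    intro m
    induction m with
    | zero => intro _; simpa using h.zero
    | succ m ih =>
      intro hm
      rw [Finset.sum_range_succ, Nat.cast_succ, add_mul, one_mul]
      refine h.add _ _ _ (ih (by omega)) _ (h.mono _ _ ?_ (h.smul _ _ _ (h1 m)))
      have h3 : |((m.factorial : ℝ)⁻¹) * x ^ m| ≤ 1 := by
        rw [abs_mul, abs_pow]
        refine mul_le_one₀ ?_ (pow_nonneg (abs_nonneg _) _) (pow_le_one₀ (abs_nonneg _) hx)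
        rw [abs_inv, Nat.abs_cast]
        exact inv_le_one_of_one_le₀ (by exact_mod_cast Nat.succ_le_of_lt m.factorial_pos)
      have h4 : C ^ m * t ≤ C ^ M.d * t :=
        mul_le_mul_of_nonneg_right (pow_le_pow_right₀ hC (by omega)) ht
      have h5 : 0 ≤ C ^ m * t := mul_nonneg (pow_nonneg (by linarith) m) ht
      exact (mul_le_of_le_one_left h5 h3).trans h4
  rw [h58_Ad_smul]
  exact h2 _ le_rfl

/-- conjugated columns stay in a dilate -/
theorem gauge_col (s : ℕ) {C : ℝ} (hC : 1 ≤ C) : ∃ C₁ : ℝ, 1 ≤ C₁ ∧ ∀ E 𝒟, M.ZG E C 𝒟 →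
    ∀ (X : Fin s → Fin M.d → ℝ) (x : Fin s → ℝ), (∀ j, X j ∈ 𝒟 1) → (∀ j, |x j| ≤ 1) →
      ∀ y ∈ 𝒟 1, M.Ad (M.colW X x) y ∈ 𝒟 C₁ := by
  induction s with
  | zero =>
    refine ⟨1, le_rfl, fun E 𝒟 _ X x _ _ y hy => ?_⟩
    simpa [colW] using hy
  | succ s ih =>
    obtain ⟨C₁, h1, h2⟩ := ih
    refine ⟨(M.d + 1 : ℕ) * (C ^ M.d * C₁), ?_, fun E 𝒟 h X x hX hx y hy => ?_⟩
    · exact one_le_mul_of_one_le_of_one_le (by exact_mod_cast Nat.le_add_left 1 M.d)
        (one_le_mul_of_one_le_of_one_le (one_le_pow₀ hC) h1)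
    · rw [h58_colW_succ, map_mul, Module.End.mul_apply]
      exact h.h58_Ad hC (hX 0) (hx 0) (by linarith)
        (h2 E 𝒟 h _ _ (fun j => hX j.succ) (fun j => hx j.succ) y hy)

/-- the determinant in the coordinates `κ` -/
noncomputable def cdet {d D : ℕ} (κ : (Fin d → ℝ) →ₗ[ℝ] (Fin D → ℝ)) :
    (Fin d → ℝ) [⋀^Fin D]→ₗ[ℝ] ℝ := Matrix.detRowAlternating.compLinearMap κ

/-- the chart with the columns `z` -/
noncomputable def chart {d D : ℕ} (z : Fin D → Fin d → ℝ) : (Fin D → ℝ) →ₗ[ℝ] (Fin d → ℝ) :=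
  Fintype.linearCombination ℝ z

theorem h38_chart_apply {d D : ℕ} (z : Fin D → Fin d → ℝ) (q : Fin D → ℝ) :
    chart z q = ∑ i, q i • z i := Fintype.linearCombination_apply ℝ z q

theorem h38_det_chart {d D : ℕ} (κ : (Fin d → ℝ) →ₗ[ℝ] (Fin D → ℝ)) (z : Fin D → Fin d → ℝ) :
    LinearMap.det (κ ∘ₗ chart z) = cdet κ z := by
  have h := (Pi.basisFun ℝ (Fin D)).det_comp (κ ∘ₗ chart z) (Pi.basisFun ℝ (Fin D))
  rw [Module.Basis.det_self, mul_one, Pi.basisFun_det] at h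
  rw [← h, cdet, AlternatingMap.compLinearMap_apply]
  congr 1
  funext i
  simp [chart]

theorem h38_cramer {d D : ℕ} (κ : (Fin d → ℝ) →ₗ[ℝ] (Fin D → ℝ)) (z : Fin D → Fin d → ℝ)
    (r : Fin D → ℝ) (i : Fin D) :
    cdet κ (Function.update z i (chart z r)) = r i * cdet κ z := by
  rw [h38_chart_apply, AlternatingMap.map_update_sum, Finset.sum_eq_single i]
  · rw [AlternatingMap.map_update_smul, Function.update_eq_self, smul_eq_mul]
  · intro j _ hj
    rw [AlternatingMap.map_update_smul, AlternatingMap.map_update_self _ _ hj.symm, smul_zero]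
  · exact fun h => absurd (Finset.mem_univ i) h

variable {M} in
theorem ZG.h38_sum {E : Submodule ℝ (Fin M.d → ℝ)} {C : ℝ} {𝒟 : ℝ → Set (Fin M.d → ℝ)}
    (h : M.ZG E C 𝒟) {ι : Type} (s : Finset ι) {X : ι → Fin M.d → ℝ} {t : ℝ}
    (hX : ∀ i, X i ∈ 𝒟 t) : ∑ i ∈ s, X i ∈ 𝒟 (s.card * t) := by
  classical
  induction s using Finset.induction_on with
  | empty => simpa using h.zero
  | insert a s ha ih =>
    rw [Finset.sum_insert ha, Finset.card_insert_of_notMem ha, Nat.cast_succ, add_mul, one_mul,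
      add_comm _ t]
    exact h.add _ _ _ (hX a) _ ih

/-- Cramer's rule: if the determinant of `z` is comparable to the maximal one, then the chart
with the columns `z` normalises the gauge; the pulled back bracket is bounded -/
theorem chart_spec {D : ℕ} {C C₁ c : ℝ} (hC : 1 ≤ C) (hC₁ : 1 ≤ C₁) (hc : 0 < c) :
    ∃ A : ℝ, 0 ≤ A ∧ ∀ (E : Submodule ℝ (Fin M.d → ℝ)) (Λ₀ : (Fin D → ℝ) →ₗ[ℝ] (Fin M.d → ℝ))
      (κ : (Fin M.d → ℝ) →ₗ[ℝ] (Fin D → ℝ)), (∀ q, κ (Λ₀ q) = q) → LinearMap.range Λ₀ = E →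
      ∀ 𝒟, M.ZG E C 𝒟 → ∀ v : ℝ, 0 < v → (∀ u, (∀ i, u i ∈ 𝒟 1) → |cdet κ u| ≤ C * v) →
      ∀ z : Fin D → Fin M.d → ℝ, (∀ i, z i ∈ 𝒟 C₁) → c * v ≤ |cdet κ z| →
        Function.Injective (chart z) ∧ LinearMap.range (chart z) = E ∧
        (∀ q, chart z q ∈ 𝒟 (D * C₁ * ‖q‖)) ∧
        ∃ b : (Fin D → ℝ) →ₗ[ℝ] (Fin D → ℝ) →ₗ[ℝ] (Fin D → ℝ),
          (∀ p q, chart z (b p q) = M.br (chart z p) (chart z q)) ∧
          ∀ p q, ‖b p q‖ ≤ A * ‖p‖ * ‖q‖ := by
  have hC0 : 0 < C := by linarith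
  have hC₁0 : 0 < C₁ := by linarith
  set K : ℝ := C * C₁ ^ D / c with hK
  have hK0 : 0 < K := by positivity
  refine ⟨K * (C * (D * C₁) ^ 2), by positivity, ?_⟩
  intro E Λ₀ κ hκ hE 𝒟 h𝒟 v hv hmax z hz hdet
  have hd0 : cdet κ z ≠ 0 := abs_pos.1 ((mul_pos hc hv).trans_le hdet)
  have hT : LinearMap.det (κ ∘ₗ chart z) ≠ 0 := by rwa [h38_det_chart]
  set Te := (κ ∘ₗ chart z).equivOfDetNeZero hT with hTe
  have hTe' : ∀ q, Te q = κ (chart z q) := fun q => rfl
  have hinj : Function.Injective (chart z) := fun p q h =>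
    Te.injective (by rw [hTe', hTe', h])
  have hmem : ∀ q, chart z q ∈ 𝒟 (D * C₁ * ‖q‖) := by
    intro q
    have h1 := h𝒟.h38_sum Finset.univ (X := fun i => q i • z i) (t := ‖q‖ * C₁) fun i =>
      h𝒟.mono _ _ (mul_le_mul_of_nonneg_right (norm_le_pi_norm q i) hC₁0.le)
        (h𝒟.smul _ _ _ (hz i))
    rw [Finset.card_univ, Fintype.card_fin] at h1
    rw [h38_chart_apply, show D * C₁ * ‖q‖ = D * (‖q‖ * C₁) by ring]
    exact h1
  have hrange : LinearMap.range (chart z) = E := by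
    refine Submodule.eq_of_le_of_finrank_eq ?_ ?_
    · rintro _ ⟨q, rfl⟩
      exact h𝒟.sub _ _ (hmem q)
    · rw [← hE, LinearMap.finrank_range_of_inj hinj,
        LinearMap.finrank_range_of_inj (Function.LeftInverse.injective hκ)]
  have hbr : ∀ p q, M.br (chart z p) (chart z q) ∈ 𝒟 (C * (D * C₁ * ‖p‖) * (D * C₁ * ‖q‖)) :=
    fun p q => h𝒟.br _ _ (by positivity) (by positivity) _ (hmem p) _ (hmem q)
  have hcr : ∀ (r : Fin D → ℝ) (t : ℝ), 0 < t → chart z r ∈ 𝒟 t → ∀ i, |r i| ≤ K * t := by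
    intro r t ht hr i
    have hz' : ∀ j, C₁⁻¹ • z j ∈ 𝒟 1 := fun j => by
      have := h𝒟.smul _ C₁⁻¹ _ (hz j)
      rwa [abs_of_pos (inv_pos.2 hC₁0), inv_mul_cancel₀ hC₁0.ne'] at this
    have hu : t⁻¹ • chart z r ∈ 𝒟 1 := by
      have := h𝒟.smul _ t⁻¹ _ hr
      rwa [abs_of_pos (inv_pos.2 ht), inv_mul_cancel₀ ht.ne'] at this
    have e1 : t⁻¹ • chart z r = chart (fun j => C₁⁻¹ • z j) ((C₁ / t) • r) := by
      rw [h38_chart_apply, h38_chart_apply, Finset.smul_sum]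
      refine Finset.sum_congr rfl fun j _ => ?_
      rw [smul_smul, smul_smul, Pi.smul_apply, smul_eq_mul]
      congr 1
      field_simp
    have h1 := hmax (Function.update (fun j => C₁⁻¹ • z j) i (t⁻¹ • chart z r)) fun j => by
      by_cases hj : j = i
      · subst hj
        rwa [Function.update_self]
      · rw [Function.update_of_ne hj]
        exact hz' j
    rw [e1, h38_cramer, (cdet κ).map_smul_univ (fun _ => C₁⁻¹) z, Finset.prod_const,
      Finset.card_univ, Fintype.card_fin, Pi.smul_apply, smul_eq_mul, smul_eq_mul, abs_mul,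
      abs_mul, abs_mul, abs_of_pos (div_pos hC₁0 ht), abs_of_pos (pow_pos (inv_pos.2 hC₁0) D)] at h1
    have h2 : C₁ / t * |r i| * (C₁⁻¹ ^ D * (c * v)) ≤ C * v :=
      le_trans (by gcongr) h1
    have h3 : |r i| * C₁ = (C₁ / t * |r i| * (C₁⁻¹ ^ D * (c * v))) * (C₁ ^ D * t / (c * v)) := by
      rw [inv_pow]
      field_simp
    have h4 : K * t = C * v * (C₁ ^ D * t / (c * v)) := by
      rw [hK]
      field_simp
    calc |r i| ≤ |r i| * C₁ := le_mul_of_one_le_right (abs_nonneg _) hC₁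
      _ ≤ K * t := by
        rw [h3, h4]
        exact mul_le_mul_of_nonneg_right h2 (by positivity)
  have hb : ∀ p q, chart z (Te.symm (κ (M.br (chart z p) (chart z q)))) =
      M.br (chart z p) (chart z q) := by
    intro p q
    obtain ⟨r, hr⟩ : M.br (chart z p) (chart z q) ∈ LinearMap.range (chart z) :=
      hrange ▸ h𝒟.sub _ _ (hbr p q)
    rw [← hr, ← hTe', LinearEquiv.symm_apply_apply]
  refine ⟨hinj, hrange, hmem, (M.br.compl₁₂ (chart z) (chart z)).compr₂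
    (Te.symm.toLinearMap ∘ₗ κ), hb, fun p q => ?_⟩
  refine (pi_norm_le_iff_of_nonneg (by positivity)).2 fun i => ?_
  refine le_of_forall_pos_le_add fun ε hε => ?_
  have h5 := hcr (Te.symm (κ (M.br (chart z p) (chart z q))))
    (C * (D * C₁ * ‖p‖) * (D * C₁ * ‖q‖) + ε / K) (by positivity)
    (by rw [hb]; exact h𝒟.mono _ _ (le_add_of_nonneg_right (by positivity)) (hbr p q)) i
  refine h5.trans (le_of_eq ?_)
  field_simp

/-- the volume of a ball in the chart with the columns `z` (the set is contained in the preimage of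
a ball under the invertible map `κ ∘ chart z` of determinant `cdet κ z`) -/
theorem chart_vol {d D : ℕ} (κ : (Fin d → ℝ) →ₗ[ℝ] (Fin D → ℝ)) (R : ℝ) :
    ∃ B : ℝ, 0 < B ∧ ∀ z : Fin D → Fin d → ℝ, cdet κ z ≠ 0 →
      IsCompact {q | ‖chart z q‖ ≤ R} ∧
        volume.real {q | ‖chart z q‖ ≤ R} ≤ B / |cdet κ z| := by
  set ρ : ℝ := ‖LinearMap.toContinuousLinearMap κ‖ * |R| with hρ
  have hρ0 : 0 ≤ ρ := by positivity
  refine ⟨(2 * ρ) ^ D + 1, by positivity, fun z hz => ?_⟩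
  have hT : LinearMap.det (κ ∘ₗ chart z) ≠ 0 := by rwa [h38_det_chart]
  set Te := (κ ∘ₗ chart z).equivOfDetNeZero hT with hTe
  have hsub : {q | ‖chart z q‖ ≤ R} ⊆ (κ ∘ₗ chart z) ⁻¹' Metric.closedBall 0 ρ := fun q hq =>
    mem_closedBall_zero_iff.2 (((LinearMap.toContinuousLinearMap κ).le_opNorm _).trans
      (mul_le_mul_of_nonneg_left (le_trans hq (le_abs_self R)) (norm_nonneg _)))
  have hc : IsCompact ((κ ∘ₗ chart z) ⁻¹' Metric.closedBall 0 ρ) :=
    Te.toContinuousLinearEquiv.toHomeomorph.isCompact_preimage.2 (isCompact_closedBall 0 ρ)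
  refine ⟨hc.of_isClosed_subset (isClosed_le
    (LinearMap.continuous_of_finiteDimensional (chart z)).norm continuous_const) hsub, ?_⟩
  refine (measureReal_mono hsub hc.measure_lt_top.ne).trans ?_
  rw [Measure.real, Measure.addHaar_preimage_linearMap _ hT, Real.volume_pi_closedBall _ hρ0,
    ENNReal.toReal_mul, ENNReal.toReal_ofReal (abs_nonneg _),
    ENNReal.toReal_ofReal (by positivity), h38_det_chart, abs_inv, Fintype.card_fin,
    div_eq_inv_mul]
  gcongr
  linarith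

variable {M} in
/-- packing: disjoint cells of the compact set `P`, translated by a random `n`, are covered by the
translates `y * K`.  For `n ∈ R` let `U n` be the union of the cells with `n ∈ A i`; right
multiplication by `n` and left multiplication by `y⁻¹` preserve the volume (`vol_bst_right/left`,
`map_bst`), so `δ #{i | n ∈ A i} ≤ vol (U n) ≤ ∑ y, vol {r ∈ K | y * ex (Λ r) * n⁻¹ ∈ ex Λ P}`;
integrate over `n` (Tonelli) and use `hw`. -/
theorem zpack [TopologicalSpace G] [MeasurableSpace G] [BorelSpace G] (hM : M.Cont) {D : ℕ}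
    {Λ : (Fin D → ℝ) →ₗ[ℝ] (Fin M.d → ℝ)} (hΛ : Function.Injective Λ)
    {b : (Fin D → ℝ) →ₗ[ℝ] (Fin D → ℝ) →ₗ[ℝ] (Fin D → ℝ)}
    (hb : ∀ p q, Λ (b p q) = M.br (Λ p) (Λ q)) (ν : Measure G) [IsProbabilityMeasure ν]
    {R : Set G} (hR : ∀ᵐ n ∂ν, n ∈ R) (hRE : ∀ n ∈ R, ∃ q, n = M.ex (Λ q))
    {P K : Set (Fin D → ℝ)} (hP : IsCompact P) (hK : IsCompact K) {w : ℝ}
    (hw : ∀ g, ν.real {n | g * n⁻¹ ∈ M.ex '' (Λ '' P)} ≤ w) {I : Type} [Fintype I]
    (cell : I → Set (Fin D → ℝ)) (hc : ∀ i, MeasurableSet (cell i))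
    (hd : Pairwise fun i j => Disjoint (cell i) (cell j)) (hP' : ∀ i, cell i ⊆ P) {δ : ℝ}
    (hδ0 : 0 ≤ δ) (hδ : ∀ i, δ ≤ volume.real (cell i)) (A : I → Set G)
    (hA : ∀ i, MeasurableSet (A i)) (Y : Finset G) (hY : ∀ y ∈ Y, ∃ q, y = M.ex (Λ q))
    (hcov : ∀ i, ∀ n ∈ A i, n ∈ R → ∀ q ∈ cell i, ∃ y ∈ Y, ∃ r ∈ K,
      M.ex (Λ q) * n = y * M.ex (Λ r)) :
    δ * ∑ i, ν.real (A i) ≤ Y.card * volume.real K * w := by
  classical
  haveI := hM.topGroup
  haveI := hM.secondCountable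
  haveI := hM.t2
  have hΛc : Continuous Λ := Λ.continuous_of_finiteDimensional
  have hQ : IsClosed (M.ex '' (Λ '' P)) := ((hP.image hΛc).image hM.continuous_ex).isClosed
  obtain ⟨S, hS⟩ : ∃ S : G → Set (G × (Fin D → ℝ)), S = fun y =>
      {p | p.2 ∈ K ∧ y * M.ex (Λ p.2) * p.1⁻¹ ∈ M.ex '' (Λ '' P)} := ⟨_, rfl⟩
  have hmem : ∀ y n r, (n, r) ∈ S y ↔ r ∈ K ∧ y * M.ex (Λ r) * n⁻¹ ∈ M.ex '' (Λ '' P) := by
    intro y n r
    rw [hS]
    rfl
  have hSm : ∀ y, MeasurableSet (S y) := by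
    intro y
    rw [hS]
    exact ((hK.isClosed.preimage continuous_snd).inter (hQ.preimage ((continuous_const.mul
      (hM.continuous_ex.comp (hΛc.comp continuous_snd))).mul continuous_fst.inv))).measurableSet
  have hex : ∀ p q, M.ex (Λ (bst M.bch b p q)) = M.ex (Λ p) * M.ex (Λ q) := fun p q => by
    rw [map_bst hb, M.ex_mul']
  choose! qy hqy using hY
  have hw0 : 0 ≤ w := le_trans measureReal_nonneg (hw 1)
  have h1 : ∀ n ∈ R, ENNReal.ofReal δ * ∑ i, (A i).indicator 1 n ≤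
      ∑ y ∈ Y, volume (Prod.mk n ⁻¹' S y) := by
    intro n hn
    obtain ⟨qn, hqn⟩ := hRE n hn
    have hU : MeasurableSet (⋃ i ∈ Finset.univ.filter fun i => n ∈ A i, cell i) :=
      Finset.measurableSet_biUnion _ fun i _ => hc i
    calc ENNReal.ofReal δ * ∑ i, (A i).indicator 1 n
        ≤ ∑ i ∈ Finset.univ.filter fun i => n ∈ A i, volume (cell i) := by
          rw [Finset.mul_sum, Finset.sum_filter]
          refine Finset.sum_le_sum fun i _ => ?_
          split_ifs with h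
          · rw [Set.indicator_of_mem h, Pi.one_apply, mul_one]
            exact (ENNReal.ofReal_le_ofReal (hδ i)).trans ENNReal.ofReal_toReal_le
          · rw [Set.indicator_of_notMem h, mul_zero]
      _ = volume (⋃ i ∈ Finset.univ.filter fun i => n ∈ A i, cell i) :=
          (measure_biUnion_finset (fun i _ j _ hij => hd hij) fun i _ => hc i).symm
      _ = volume ((fun q => bst M.bch b q qn) ''
            ⋃ i ∈ Finset.univ.filter fun i => n ∈ A i, cell i) :=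
          (vol_bst_right volume hΛ hb qn hU).symm
      _ ≤ volume (⋃ y ∈ Y, (fun r => bst M.bch b (qy y) r) '' (Prod.mk n ⁻¹' S y)) := by
          refine measure_mono ?_
          rintro _ ⟨q, hq, rfl⟩
          obtain ⟨i, hi, hqi⟩ := Set.mem_iUnion₂.1 hq
          obtain ⟨y, hy, r, hr, e⟩ := hcov i n (Finset.mem_filter.1 hi).2 hn q hqi
          refine Set.mem_iUnion₂.2 ⟨y, hy, r, (hmem y n r).2 ⟨hr, ?_⟩, hΛ (M.ex_inj ?_)⟩
          · rw [← e, mul_inv_cancel_right]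
            exact ⟨_, ⟨q, hP' i hqi, rfl⟩, rfl⟩
          · rw [hex, hex, ← hqn, ← hqy y hy, e]
      _ ≤ ∑ y ∈ Y, volume ((fun r => bst M.bch b (qy y) r) '' (Prod.mk n ⁻¹' S y)) :=
          measure_biUnion_finset_le _ _
      _ = ∑ y ∈ Y, volume (Prod.mk n ⁻¹' S y) :=
          Finset.sum_congr rfl fun y _ =>
            vol_bst_left volume hΛ hb _ (measurable_prodMk_left (hSm y))
  have h2 : ∀ y, ∫⁻ n, volume (Prod.mk n ⁻¹' S y) ∂ν ≤ ENNReal.ofReal w * volume K := by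
    intro y
    rw [← Measure.prod_apply (hSm y), Measure.prod_apply_symm (hSm y),
      ← lintegral_indicator_const hK.measurableSet]
    refine lintegral_mono fun r => ?_
    by_cases hr : r ∈ K
    · rw [Set.indicator_of_mem hr]
      refine le_trans (measure_mono fun n hn => ((hmem y n r).1 hn).2) ?_
      exact (ENNReal.ofReal_toReal (measure_ne_top ν _)).ge.trans
        (ENNReal.ofReal_le_ofReal (hw (y * M.ex (Λ r))))
    · have e : (fun n => (n, r)) ⁻¹' S y = ∅ :=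
        Set.eq_empty_of_forall_notMem fun n hn => hr ((hmem y n r).1 hn).1
      simp only [e, measure_empty, zero_le]
  have h3 : ENNReal.ofReal δ * ∑ i, ν (A i) ≤ Y.card * (ENNReal.ofReal w * volume K) := by
    calc ENNReal.ofReal δ * ∑ i, ν (A i)
        = ∫⁻ n, ENNReal.ofReal δ * ∑ i, (A i).indicator 1 n ∂ν := by
          rw [lintegral_const_mul' _ _ ENNReal.ofReal_ne_top,
            lintegral_finset_sum _ fun i _ => measurable_one.indicator (hA i)]
          simp only [lintegral_indicator_one (hA _)]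
      _ ≤ ∫⁻ n, ∑ y ∈ Y, volume (Prod.mk n ⁻¹' S y) ∂ν :=
          lintegral_mono_ae (hR.mono h1)
      _ = ∑ y ∈ Y, ∫⁻ n, volume (Prod.mk n ⁻¹' S y) ∂ν :=
          lintegral_finset_sum _ fun y _ => measurable_measure_prodMk_left (hSm y)
      _ ≤ ∑ _y ∈ Y, ENNReal.ofReal w * volume K := Finset.sum_le_sum fun y _ => h2 y
      _ = Y.card * (ENNReal.ofReal w * volume K) := by rw [Finset.sum_const, nsmul_eq_mul]
  have h4 := ENNReal.toReal_mono (ENNReal.mul_ne_top (ENNReal.natCast_ne_top _)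
    (ENNReal.mul_ne_top ENNReal.ofReal_ne_top hK.measure_lt_top.ne)) h3
  rw [ENNReal.toReal_mul, ENNReal.toReal_mul, ENNReal.toReal_mul, ENNReal.toReal_ofReal hδ0,
    ENNReal.toReal_ofReal hw0, ENNReal.toReal_sum fun i _ => measure_ne_top ν _,
    ENNReal.toReal_natCast] at h4
  simp only [measureReal_def]
  linarith

end LieModel

end Crest.Agent.R182
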