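import Crest.Agent.R182.LD2

/-! Row 182, block L2c: the lower count for zigzags in a gauge. -/

set_option autoImplicit false
set_option linter.dupNamespace false

namespace Crest.Agent.R182

open MeasureTheory

theorem gr_abs {J : ℕ} (y : Gr J) : |(y : ℤ)| ≤ J := abs_le.2 (Finset.mem_Icc.1 y.2)

theorem gr_div {J : ℕ} (hJ : 1 ≤ J) {n : ℤ} (h : |n| ≤ J) : |(n : ℝ) / J| ≤ 1 := by
  have h0 : (0 : ℝ) < J := by exact_mod_cast hJ
  rw [abs_div, abs_of_pos h0, div_le_one h0]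
  exact_mod_cast h

theorem gr_card (J : ℕ) : (Fintype.card (Gr J) : ℝ) = 2 * J + 1 := by
  rw [Fintype.card_coe, Int.card_Icc]
  have : ((J : ℤ) + 1 - -(J : ℤ)).toNat = 2 * J + 1 := by omega
  rw [this]; push_cast; ring

instance (J : ℕ) : Nonempty (Gr J) := ⟨⟨0, Finset.mem_Icc.2 ⟨by omega, by omega⟩⟩⟩

/-- the grid vectors -/
noncomputable def gp {D J : ℕ} (l : ℝ) (τ : Fin D → Gr J) (i : Fin D) : Fin D → ℝ :=
  Pi.single i (l * (((τ i : ℤ) : ℝ) / J))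

theorem cells (L : List (ℝ × LTree × LTree)) (D : ℕ) {A : ℝ} (hA : 0 ≤ A) : ∃ l₁ : ℝ, 0 < l₁ ∧
    ∀ b : (Fin D → ℝ) →ₗ[ℝ] (Fin D → ℝ) →ₗ[ℝ] (Fin D → ℝ), (∀ p q, ‖b p q‖ ≤ A * ‖p‖ * ‖q‖) →
      ∀ l : ℝ, 0 < l → l ≤ l₁ → ∀ J : ℕ, 1 ≤ J →
        (∀ τ : Fin D → Gr J, ‖bprod L b (List.ofFn (gp l τ))‖ ≤ 2 * l) ∧
        (∀ τ τ' : Fin D → Gr J, τ ≠ τ' → l / (2 * J) ≤
          ‖bprod L b (List.ofFn (gp l τ)) - bprod L b (List.ofFn (gp l τ'))‖) ∧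
        ∀ p q, ‖p‖ ≤ 3 * l → ‖q‖ ≤ 3 * l →
          ‖bst L b (-p) q - bst L b (-p) p‖ ≤ 2 * ‖q - p‖ := by
  have hD : (0 : ℝ) < 2 * D + 2 := by positivity
  obtain ⟨ρ, hρ, h1⟩ := bprod_lip (W := Fin D → ℝ) L D hA (ε := 1 / (2 * D + 2)) (by positivity)
  obtain ⟨ρ', hρ', h2⟩ := bst_lip (W := Fin D → ℝ) L hA one_pos
  refine ⟨min ρ (ρ' / 3), lt_min hρ (by positivity), fun b hb l hl hl1 J hJ => ?_⟩
  have hlρ : l ≤ ρ := hl1.trans (min_le_left _ _)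
  have hlρ' : 3 * l ≤ ρ' := by linarith [hl1.trans (min_le_right _ _)]
  have hJ0 : (0 : ℝ) < J := by exact_mod_cast hJ
  have hgp : ∀ (τ : Fin D → Gr J) i, ‖gp l τ i‖ ≤ l := fun τ i => by
    rw [gp, Pi.norm_single, norm_mul, Real.norm_eq_abs, Real.norm_eq_abs, abs_of_pos hl]
    exact mul_le_of_le_one_right hl.le (gr_div hJ (gr_abs _))
  -- the sum of singles has norm at least each term
  have hs : ∀ c : Fin D → ℝ, ∑ i, ‖(Pi.single i (c i) : Fin D → ℝ)‖ ≤ D * ‖c‖ := fun c => by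
    have := Finset.sum_le_card_nsmul Finset.univ (fun i => ‖(Pi.single i (c i) : Fin D → ℝ)‖) ‖c‖
      fun i _ => by rw [Pi.norm_single]; exact norm_le_pi_norm c i
    simpa using this
  have hε : ∀ x : ℝ, 0 ≤ x → 1 / (2 * D + 2) * (D * x) ≤ x / 2 := fun x hx => by
    rw [one_div, inv_mul_le_iff₀ hD]; nlinarith
  refine ⟨fun τ => ?_, fun τ τ' hne => ?_, fun p q hp hq => ?_⟩
  · have h := h1 b hb (gp l τ) (fun _ => 0) (fun i => (hgp τ i).trans hlρ) fun _ => by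
      simpa using hρ.le
    rw [bprod_zero] at h
    simp only [sub_zero] at h
    set c : Fin D → ℝ := fun i => l * (((τ i : ℤ) : ℝ) / J)
    have hc : ‖c‖ ≤ l := (pi_norm_le_iff_of_nonneg hl.le).2 fun i => by
      have := hgp τ i
      rwa [gp, Pi.norm_single] at this
    have e : ∑ i, gp l τ i = c := Finset.univ_sum_single c
    have h3 := (mul_le_mul_of_nonneg_left (hs c) (by positivity : (0 : ℝ) ≤ 1 / (2 * D + 2))).trans
      (hε _ (norm_nonneg c))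
    rw [e] at h
    have h4 := norm_sub_norm_le (bprod L b (List.ofFn (gp l τ))) c
    have h5 := h.trans h3
    linarith
  · have h := h1 b hb (gp l τ) (gp l τ') (fun i => (hgp τ i).trans hlρ)
      fun i => (hgp τ' i).trans hlρ
    set c : Fin D → ℝ := fun i => l * (((τ i : ℤ) : ℝ) / J) - l * (((τ' i : ℤ) : ℝ) / J)
    have e0 : ∀ i, gp l τ i - gp l τ' i = Pi.single i (c i) := fun i => by
      rw [gp, gp, ← Pi.single_sub]
    simp only [e0] at h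
    rw [Finset.univ_sum_single c] at h
    have h3 := (mul_le_mul_of_nonneg_left (hs c) (by positivity : (0 : ℝ) ≤ 1 / (2 * D + 2))).trans
      (hε _ (norm_nonneg c))
    obtain ⟨i, hi⟩ := Function.ne_iff.1 hne
    have hc : l / J ≤ ‖c‖ := by
      refine le_trans ?_ (norm_le_pi_norm c i)
      have h6 : (1 : ℝ) ≤ |((τ i : ℤ) : ℝ) - ((τ' i : ℤ) : ℝ)| := by
        have : (τ i : ℤ) - (τ' i : ℤ) ≠ 0 := sub_ne_zero.2 fun e => hi (Subtype.ext e)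
        exact_mod_cast Int.one_le_abs this
      have e : c i = l / J * (((τ i : ℤ) : ℝ) - ((τ' i : ℤ) : ℝ)) := by
        simp only [c]; ring
      rw [e, Real.norm_eq_abs, abs_mul, abs_of_pos (div_pos hl hJ0)]
      exact le_mul_of_one_le_right (div_pos hl hJ0).le h6
    have h4 := norm_sub_norm_le c
      (bprod L b (List.ofFn (gp l τ)) - bprod L b (List.ofFn (gp l τ')))
    rw [norm_sub_rev c] at h4
    have h5 := h.trans h3
    have e : l / (2 * J) = l / J / 2 := by ring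
    linarith
  · have h := h2 b hb (-p) q (-p) p (by rw [norm_neg]; linarith) (by linarith)
      (by rw [norm_neg]; linarith) (by linarith)
    simp only [sub_self, sub_zero, norm_zero, zero_add, one_mul] at h
    have h4 := norm_sub_norm_le (bst L b (-p) q - bst L b (-p) p) (q - p)
    linarith

namespace LieModel

variable {G : Type} [Group G] {k : ℕ} {M : LieModel G k}

theorem zig_chart [TopologicalSpace G] [MeasurableSpace G] [BorelSpace G] (hM : M.Cont) (D : ℕ)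
    {A : ℝ} (hA : 0 ≤ A) : ∃ l₁ : ℝ, 0 < l₁ ∧ ∀ l : ℝ, 0 < l → l ≤ l₁ →
    ∀ (Λ : (Fin D → ℝ) →ₗ[ℝ] (Fin M.d → ℝ))
      (b : (Fin D → ℝ) →ₗ[ℝ] (Fin D → ℝ) →ₗ[ℝ] (Fin D → ℝ)), Function.Injective Λ →
      (∀ p q, Λ (b p q) = M.br (Λ p) (Λ q)) → (∀ p q, ‖b p q‖ ≤ A * ‖p‖ * ‖q‖) →
    ∀ (σ : ℕ) (Rσ : ℝ), (∀ X, M.ex X ∈ Ball M.Sg (σ + 1) → ‖X‖ ≤ Rσ) →
      IsCompact {q | ‖Λ q‖ ≤ Rσ} →
    ∀ (ν : Measure G) [IsProbabilityMeasure ν] (R : Set G), (∀ᵐ n ∂ν, n ∈ R) →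
      (∀ n ∈ R, ∃ q, n = M.ex (Λ q)) → ∀ J : ℕ, 1 ≤ J →
      (∀ n ∈ R, ∀ q, ‖q‖ ≤ l / J → ‖M.Ad n⁻¹ (Λ q)‖ ≤ 1) → ∀ w : ℝ,
      (∀ g, ν.real {n | g * n⁻¹ ∈ M.ex '' (Λ '' Metric.closedBall 0 (3 * l))} ≤ w) →
    ∀ (B : (Fin D → Gr J) → Set G), (∀ τ, MeasurableSet (B τ)) → ∀ θ N : ℝ, 0 ≤ θ →
      θ * (2 * J + 1) ^ D ≤ ∑ τ, ν.real (B τ) → ∃ Y : Finset G, Sep M.Sg σ Y ∧
        (∀ y ∈ Y, ∃ τ, ∃ n ∈ B τ, n ∈ R ∧
          y = (List.ofFn fun i => M.ex (Λ (gp l τ i))).prod * n) ∧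
        (N ≤ Y.card ∨ θ * l ^ D ≤ Y.card * volume.real {q | ‖Λ q‖ ≤ Rσ} * w) := by
  obtain ⟨l₁, hl₁, hc⟩ := cells M.bch D hA
  refine ⟨l₁, hl₁, fun l hl hl1 Λ b hΛ hb hbA σ Rσ hRσ hK ν _ R hR hRE J hJ hsm w hw B hB θ N hθ0
    hθ => ?_⟩
  obtain ⟨c1, c2, c3⟩ := hc b hbA l hl hl1 J hJ
  have hJ0 : (0 : ℝ) < J := by exact_mod_cast hJ
  have hJ1 : (1 : ℝ) ≤ J := by exact_mod_cast hJ
  set p : (Fin D → Gr J) → Fin D → ℝ := fun τ => bprod M.bch b (List.ofFn (gp l τ)) with hp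
  have hpe : ∀ τ, (List.ofFn fun i => M.ex (Λ (gp l τ i))).prod = M.ex (Λ (p τ)) := fun τ => by
    rw [hp, ex_bprod hb, List.map_ofFn]; rfl
  have hmul : ∀ q q', M.ex (Λ q) * M.ex (Λ q') = M.ex (Λ (bst M.bch b q q')) := fun q q' => by
    rw [ex_mul', map_bst hb]
  obtain ⟨Y, hY1, hY2, hY3⟩ := exists_sep_max M.Sg
    {y | ∃ τ, ∃ n ∈ B τ, n ∈ R ∧ y = M.ex (Λ (p τ)) * n} σ N
  refine ⟨Y, hY1, fun y hy => by simp only [hpe]; exact hY2 hy, hY3.imp id fun hmax => ?_⟩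
  have hr : 0 < l / (4 * J) := by positivity
  have hr1 : l / (4 * J) ≤ l := div_le_self hl.le (by linarith)
  have hcell : ∀ τ, ∀ q ∈ Metric.ball (p τ) (l / (4 * J)), ‖q‖ ≤ 3 * l := fun τ q hq => by
    have h1 := norm_sub_norm_le q (p τ)
    rw [mem_ball_iff_norm] at hq
    linarith [c1 τ]
  have hYE : ∀ y ∈ Y, ∃ q, y = M.ex (Λ q) := fun y hy => by
    obtain ⟨τ, n, -, hn, rfl⟩ := hY2 hy
    obtain ⟨q, rfl⟩ := hRE n hn
    exact ⟨_, hmul _ _⟩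
  have key := zpack hM hΛ hb ν hR hRE (isCompact_closedBall 0 (3 * l)) hK hw
    (fun τ => Metric.ball (p τ) (l / (4 * J))) (fun _ => measurableSet_ball)
    (fun τ τ' hne => Metric.ball_disjoint_ball (by
      rw [dist_eq_norm]
      have e : l / (4 * J) + l / (4 * J) = l / (2 * J) := by ring
      rw [e]; exact c2 τ τ' hne))
    (fun τ q hq => mem_closedBall_zero_iff.2 (hcell τ q hq)) (δ := (l / (2 * J)) ^ D)
    (by positivity) (fun τ => by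
      rw [Measure.real, Real.volume_pi_ball _ hr, Fintype.card_fin,
        ENNReal.toReal_ofReal (by positivity)]
      exact le_of_eq (by congr 1; ring)) B hB Y hYE (fun τ n hn hnR q hq => by
      obtain ⟨y, hy, hyb⟩ := hmax _ ⟨τ, n, hn, hnR, rfl⟩
      obtain ⟨qy, rfl⟩ := hYE y hy
      obtain ⟨qn, hqn⟩ := hRE n hnR
      have h0 : bst M.bch b (-p τ) (p τ) = 0 := hΛ (M.ex_inj (by
        rw [← hmul, map_neg, ex_neg, inv_mul_cancel, map_zero, ex_zero]))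
      have h1 := c3 (p τ) q (by linarith [c1 τ]) (hcell τ q hq)
      rw [h0, sub_zero] at h1
      rw [mem_ball_iff_norm] at hq
      have h2 : ‖bst M.bch b (-p τ) q‖ ≤ l / J := by
        have e : l / (4 * J) = l / J / 4 := by ring
        have := div_pos hl hJ0
        linarith
      have h3 : M.ex (M.Ad n⁻¹ (Λ (bst M.bch b (-p τ) q))) ∈ Ball M.Sg 1 :=
        Ball.mem_of_mem (Or.inl ⟨_, mem_closedBall_zero_iff.2 (hsm n hnR _ h2), rfl⟩)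
      have h4 := Ball.mul_mem hyb h3
      have e : M.ex (Λ (bst M.bch b (-qy) (bst M.bch b q qn))) =
          (M.ex (Λ qy))⁻¹ * (M.ex (Λ q) * n) := by
        rw [← hmul, ← hmul, map_neg, ex_neg, hqn]
      refine ⟨_, hy, bst M.bch b (-qy) (bst M.bch b q qn), hRσ _ ?_, by rw [e]; group⟩
      rw [e]
      convert h4 using 1
      rw [← M.Ad_conj, ← hmul, map_neg, ex_neg]
      group)
  refine le_trans ?_ key
  refine le_trans ?_ (mul_le_mul_of_nonneg_left hθ (by positivity))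
  rw [mul_left_comm, ← mul_pow]
  refine mul_le_mul_of_nonneg_left (pow_le_pow_left₀ hl.le ?_ D) hθ0
  rw [div_mul_eq_mul_div, le_div_iff₀ (by positivity)]
  nlinarith

theorem zig_core [TopologicalSpace G] [MeasurableSpace G] [BorelSpace G] (hM : M.Cont) {D : ℕ}
    {E : Submodule ℝ (Fin M.d → ℝ)} {Λ₀ : (Fin D → ℝ) →ₗ[ℝ] (Fin M.d → ℝ)}
    {κ : (Fin M.d → ℝ) →ₗ[ℝ] (Fin D → ℝ)} (hκ : ∀ q, κ (Λ₀ q) = q) (hE : LinearMap.range Λ₀ = E)
    (s : ℕ) {C : ℝ} (hC : 1 ≤ C) {θ : ℝ} (hθ : 0 < θ) (σ : ℕ) : ∃ K : ℝ, 0 < K ∧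
    ∀ 𝒟, M.ZG E C 𝒟 → ∀ ρ : ℝ, (∀ t, ∀ X ∈ 𝒟 t, ‖X‖ ≤ ρ * t) → ∀ v : ℝ, 0 < v →
      (∀ u, (∀ i, u i ∈ 𝒟 1) → |cdet κ u| ≤ C * v) →
    ∀ (L : Fin D → List (Fin M.d → ℝ)) (y : Fin D → Fin M.d → ℝ), (∀ i, (L i).length ≤ s) →
    ∀ p : G → Prop, (∀ i, ∀ X ∈ y i :: L i, X ∈ 𝒟 1 ∧ ∀ t : ℝ, |t| ≤ 1 → p (M.ex (t • X))) →
      v ≤ C * |cdet κ fun i => (L i).foldr (fun X Y => M.br X Y) (y i)| →
    ∀ (ν : Measure G) [IsProbabilityMeasure ν] (R : Set G), (∀ᵐ n ∂ν, n ∈ R) →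
    ∀ ρ' : ℝ, (∀ n ∈ R, ∃ u ∈ E, ‖u‖ ≤ ρ' ∧ n = M.ex u) → ∀ w : ℝ, 0 < w →
      (∀ P ⊆ 𝒟 1, IsCompact P → ∀ g, ν.real {n | g * n⁻¹ ∈ M.ex '' P} ≤ w) →
    ∃ Z : Sch G, Z.size ≤ D * (2 * s + 3) + 1 ∧ Z.Let p ∧ ∀ A : List G → Set G,
      (∀ w, MeasurableSet (A w)) → θ ≤ Z.avg (fun w => ν.real (A w)) →
      ∃ Y : Finset G, Sep M.Sg σ Y ∧
        (∀ y ∈ Y, ∃ w, Z.Mem w ∧ ∃ n ∈ A w, n ∈ R ∧ y = w.prod * n) ∧ v / (K * w) ≤ Y.card := by
  classical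
  obtain ⟨C₁, hC₁, hcol⟩ := M.gauge_col s hC
  obtain ⟨C₂, hC₂, hbig⟩ := M.exists_big D s
  obtain ⟨C₃, hC₃, J₀, hrem⟩ := remez_grid (Fin D × Fin s) M.d (half_pos hθ)
  have hc : 0 < 1 / (C * C₂ * C₃) := by positivity
  obtain ⟨A₀, hA₀, hspec⟩ := M.chart_spec (D := D) hC hC₁ hc
  obtain ⟨Rσ, -, hRσ⟩ := M.ball_bdd (σ + 1)
  obtain ⟨B₀, hB₀, hvol⟩ := chart_vol κ Rσ
  obtain ⟨l₁, hl₁, hz⟩ := zig_chart hM D hA₀
  have hDC : 0 < 3 * (D * C₁) + 1 := by positivity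
  obtain ⟨l, hl, hl1, hl2⟩ : ∃ l : ℝ, 0 < l ∧ l ≤ l₁ ∧ l ≤ 1 / (3 * (D * C₁) + 1) :=
    ⟨min _ _, lt_min hl₁ (by positivity), min_le_left _ _, min_le_right _ _⟩
  rw [le_div_iff₀ hDC] at hl2
  have hDC0 : 0 ≤ l * (D * C₁) := by positivity
  have hl3 : l ≤ 1 := by nlinarith
  refine ⟨2 * B₀ * (C * C₂ * C₃) / (θ * l ^ D), by positivity, fun 𝒟 h𝒟 ρ hρ v hv hup L y hL p hp
    hlow ν _ R hR ρ' hRE w hw hsm => ?_⟩
  obtain ⟨B₁, hB₁, hAd⟩ := M.Ad_ex_bdd ρ'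
  obtain ⟨J, hJ⟩ := exists_nat_ge (max (max (J₀ : ℝ) 1) (B₁ * |ρ|))
  have hJ0 : J₀ ≤ J := by exact_mod_cast (le_max_left _ _).trans ((le_max_left _ _).trans hJ)
  have hJ1 : 1 ≤ J := by exact_mod_cast (le_max_right _ _).trans ((le_max_left _ _).trans hJ)
  have hJ2 : B₁ * |ρ| ≤ J := (le_max_right _ _).trans hJ
  have hJp : (0 : ℝ) < J := by exact_mod_cast hJ1
  set X : Fin D → Fin s → Fin M.d → ℝ := fun i j => (L i).getD j (y i) with hX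
  have hXm : ∀ i j, X i j ∈ y i :: L i := fun i j => by
    simp only [hX, List.getD_eq_getElem?_getD]
    rcases h : (L i)[(j : ℕ)]? with _ | x
    · exact List.mem_cons_self
    · exact List.mem_cons_of_mem _ (List.mem_of_getElem? h)
  have hpow : ∀ (V : Fin M.d → ℝ) (c : ℝ) (n : ℤ),
      M.ex ((c / J) • V) ^ n = M.ex ((c * ((n : ℝ) / J)) • V) := fun V c n => by
    rw [← ex_zsmul, smul_smul]; congr 2; ring
  refine ⟨Sch.zz (fun i j => M.ex (((1 : ℝ) / J) • X i j)) (fun i => M.ex ((l / J) • y i)) J,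
    (Sch.zz_size _ _ _).le, Sch.zz_let _ _ _ (fun i j n hn => ?_) fun i n hn => ?_,
    fun A hA hav => ?_⟩
  · rw [hpow, one_mul]
    exact (hp i _ (hXm i j)).2 _ (gr_div hJ1 hn)
  · rw [hpow]
    refine (hp i _ List.mem_cons_self).2 _ ?_
    rw [abs_mul, abs_of_pos hl]
    exact mul_le_one₀ hl3 (abs_nonneg _) (gr_div hJ1 hn)
  rw [Sch.zz_avg, le_div_iff₀ (by positivity)] at hav
  have hcard : ∀ (α : Type) [Fintype α] [DecidableEq α],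
      (Fintype.card (α → Gr J) : ℝ) = (2 * J + 1) ^ Fintype.card α := fun α _ _ => by
    rw [Fintype.card_fun, Nat.cast_pow, gr_card]
  obtain ⟨S, hS1, hS2⟩ := card_large (fun (x : Fin D × Fin s → Gr J) (τ : Fin D → Gr J) =>
    ν.real (A (Sch.zw (fun i j => M.ex (((1 : ℝ) / J) • X i j)) (fun i => M.ex ((l / J) • y i)) x τ)))
    (fun _ _ => measureReal_le_one) hθ (by
      rw [hcard, hcard]; simpa using hav)
  rw [hcard] at hS1 hS2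
  obtain ⟨x₀, hx₀, hx₀'⟩ := hbig (cdet κ) L y hL
  obtain ⟨x, hxS, hx⟩ := hrem J hJ0 _ (M.polyIn_det (cdet κ) X y) S hS1 x₀ hx₀
  set z : Fin D → Fin M.d → ℝ :=
    fun i => M.Ad (M.colW (X i) fun j => ((x (i, j) : ℤ) : ℝ) / J) (y i) with hzdef
  have hz1 : ∀ i, z i ∈ 𝒟 C₁ := fun i => hcol E 𝒟 h𝒟 _ _ (fun j => (hp i _ (hXm i j)).1)
    (fun j => gr_div hJ1 (gr_abs _)) _ (hp i _ List.mem_cons_self).1
  have hdet : 1 / (C * C₂ * C₃) * v ≤ |cdet κ z| := by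
    rw [one_div, inv_mul_le_iff₀ (by positivity)]
    refine hlow.trans ?_
    rw [mul_assoc, mul_assoc]
    exact mul_le_mul_of_nonneg_left (hx₀'.trans (mul_le_mul_of_nonneg_left hx (by linarith)))
      (by linarith)
  have hdet0 : 0 < |cdet κ z| := lt_of_lt_of_le (by positivity) hdet
  obtain ⟨hinj, hrange, hin, b, hb, hbA⟩ := hspec E Λ₀ κ hκ hE 𝒟 h𝒟 v hv hup z hz1 hdet
  obtain ⟨hK, hKv⟩ := hvol z (abs_pos.1 hdet0)
  have hPsub : chart z '' Metric.closedBall 0 (3 * l) ⊆ 𝒟 1 := by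
    rintro _ ⟨q, hq, rfl⟩
    refine h𝒟.mono _ _ ?_ (hin q)
    have := mul_le_mul_of_nonneg_left (mem_closedBall_zero_iff.1 hq)
      (by positivity : (0 : ℝ) ≤ D * C₁)
    nlinarith
  obtain ⟨Y, hY1, hY2, hY3⟩ := hz l hl hl1 (chart z) b hinj hb hbA σ Rσ hRσ hK ν R hR
    (fun n hn => by
      obtain ⟨u, hu, -, rfl⟩ := hRE n hn
      rw [← hrange] at hu
      obtain ⟨q, rfl⟩ := hu
      exact ⟨q, rfl⟩) J hJ1
    (fun n hn q hq => by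
      obtain ⟨u, -, hu, rfl⟩ := hRE n hn
      rw [← ex_neg]
      refine (hAd _ (by rwa [norm_neg]) _).trans ?_
      have h1 : ‖chart z q‖ ≤ |ρ| * (1 / J) := by
        refine (hρ _ _ (hin q)).trans ((mul_le_mul_of_nonneg_right (le_abs_self ρ)
          (by positivity)).trans (mul_le_mul_of_nonneg_left ?_ (abs_nonneg _)))
        refine (mul_le_mul_of_nonneg_left hq (by positivity)).trans ?_
        rw [← mul_div_assoc]
        exact div_le_div_of_nonneg_right (by nlinarith) hJp.le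
      refine (mul_le_mul_of_nonneg_left h1 hB₁.le).trans ?_
      rwa [← mul_assoc, mul_one_div, div_le_one hJp]) w
    (hsm _ hPsub ((isCompact_closedBall _ _).image (chart z).continuous_of_finiteDimensional))
    _ (fun _ => hA _) (θ / 2) (v / (2 * B₀ * (C * C₂ * C₃) / (θ * l ^ D) * w)) (half_pos hθ).le
    (by simpa only [Fintype.card_fin] using hS2 x hxS)
  refine ⟨Y, hY1, fun g hg => ?_, hY3.elim id fun h => ?_⟩
  · obtain ⟨τ, n, hn, hnR, rfl⟩ := hY2 g hg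
    refine ⟨_, Sch.zz_mem _ _ _ x τ, n, hn, hnR, ?_⟩
    rw [Sch.zw_prod]
    congr 3
    funext i
    simp only [hpow, one_mul]
    rw [M.Ad_conj, map_smul, gp, chart, Fintype.linearCombination_apply_single]
    rfl
  · have h1 : volume.real {q | ‖chart z q‖ ≤ Rσ} ≤ B₀ / (1 / (C * C₂ * C₃) * v) :=
      hKv.trans (div_le_div_of_nonneg_left hB₀.le (by positivity) hdet)
    have h2 := h.trans (mul_le_mul_of_nonneg_right
      (mul_le_mul_of_nonneg_left h1 (Nat.cast_nonneg _)) hw.le)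
    rw [div_le_iff₀ (by positivity)]
    have e : (Y.card : ℝ) * (2 * B₀ * (C * C₂ * C₃) / (θ * l ^ D) * w) =
        Y.card * (B₀ / (1 / (C * C₂ * C₃) * v)) * w * (2 * v / (θ * l ^ D)) := by
      field_simp
    have e2 : v = θ / 2 * l ^ D * (2 * v / (θ * l ^ D)) := by field_simp
    rw [e]
    exact e2.le.trans (mul_le_mul_of_nonneg_right h2 (by positivity))

end LieModel

end Crest.Agent.R182
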