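import Crest.Agent.R182.LMTop

/-! Row 182, block L2 (measures): the bi-invariant Haar measure of the real model. -/

set_option autoImplicit false
set_option linter.dupNamespace false

namespace Crest.Agent.R182

open Crest.GroupTheory MeasureTheory Pointwise

namespace LieModel

variable {G : Type} [Group G] {k : ℕ} (M : LieModel G k)

theorem mp_bc_right (Y : Fin M.d → ℝ) :
    MeasurePreserving (fun X => M.bc X Y) volume volume := by
  have hm : Measurable fun X => M.bc X Y :=
    (M.continuous_bc.comp (continuous_id.prodMk continuous_const)).measurable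
  refine ⟨hm, Measure.ext fun s hs => ?_⟩
  rw [Measure.map_apply hm hs, ← M.vol_bc_right (-Y) hs, Set.image_eq_preimage_of_inverse
    (g := fun X => M.bc X Y)]
  · intro X; simp [bc_assoc, neg_bc_cancel]
  · intro X; simp [bc_assoc, bc_neg_cancel]

theorem mp_bc_left (Y : Fin M.d → ℝ) :
    MeasurePreserving (fun X => M.bc Y X) volume volume := by
  have hm : Measurable fun X => M.bc Y X :=
    (M.continuous_bc.comp (continuous_const.prodMk continuous_id)).measurable
  refine ⟨hm, Measure.ext fun s hs => ?_⟩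
  rw [Measure.map_apply hm hs, ← M.vol_bc_left (-Y) hs, Set.image_eq_preimage_of_inverse
    (g := fun X => M.bc Y X)]
  · intro X; simp [← bc_assoc, bc_neg_cancel]
  · intro X; simp [← bc_assoc, neg_bc_cancel]

theorem mp_Ad (g : G) : MeasurePreserving (M.Ad g) volume volume := by
  have hm : Measurable (M.Ad g) := (LinearMap.continuous_of_finiteDimensional _).measurable
  refine ⟨hm, Measure.ext fun s hs => ?_⟩
  rw [Measure.map_apply hm hs, ← M.vol_Ad g⁻¹ hs, Set.image_eq_preimage_of_inverse
    (g := M.Ad g)]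
  · intro X
    simp only [← Module.End.mul_apply, ← map_mul, mul_inv_cancel, map_one, Module.End.one_apply]
  · intro X
    simp only [← Module.End.mul_apply, ← map_mul, inv_mul_cancel, map_one, Module.End.one_apply]

variable {M} [MeasurableSpace G]

theorem mu_sfinite : SFinite M.mu := by
  unfold mu; infer_instance

variable [TopologicalSpace G] [BorelSpace G] (hM : M.Cont)
include hM

theorem Cont.meas_slice {A : Set G} (hA : MeasurableSet A) (a : Fin k → ℤ) :
    MeasurableSet {X | M.pt (X, a) ∈ A} :=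
  (hM.measurable_pt.comp measurable_prodMk_right) hA

theorem Cont.mu_apply {A : Set G} (hA : MeasurableSet A) :
    M.mu A = ∑' a : Fin k → ℤ, volume {X | M.pt (X, a) ∈ A} := by
  rw [mu, Measure.map_apply hM.measurable_pt hA, Measure.prod_apply_symm (hM.measurable_pt hA),
    lintegral_count]
  rfl

theorem Cont.mu_left (g : G) (A : Set G) (hA : MeasurableSet A) :
    M.mu ((fun x => g * x) ⁻¹' A) = M.mu A := by
  have := hM.measurableMul₂
  obtain ⟨⟨Y, b⟩, rfl⟩ := M.pt_bijective.2 g
  rw [hM.mu_apply hA, hM.mu_apply (measurable_const_mul _ hA),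
    ← (Equiv.addLeft b).tsum_eq fun a => volume {X | M.pt (X, a) ∈ A}]
  refine tsum_congr fun a => ?_
  obtain ⟨Z, hZ⟩ := M.pt_mul b a
  rw [← (((M.mp_bc_right Z).comp (M.mp_bc_left Y)).comp (M.mp_Ad (M.sec b))).measure_preimage
    (hM.meas_slice hA _).nullMeasurableSet]
  congr 1
  ext X
  simp [hZ]

theorem Cont.mu_right (g : G) (A : Set G) (hA : MeasurableSet A) :
    M.mu ((fun x => x * g) ⁻¹' A) = M.mu A := by
  have := hM.measurableMul₂
  obtain ⟨⟨Y, b⟩, rfl⟩ := M.pt_bijective.2 g
  rw [hM.mu_apply hA, hM.mu_apply (measurable_mul_const _ hA),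
    ← (Equiv.addRight b).tsum_eq fun a => volume {X | M.pt (X, a) ∈ A}]
  refine tsum_congr fun a => ?_
  obtain ⟨Z, hZ⟩ := M.pt_mul a b
  rw [← ((M.mp_bc_right Z).comp (M.mp_bc_right (M.Ad (M.sec a) Y))).measure_preimage
    (hM.meas_slice hA _).nullMeasurableSet]
  congr 1
  ext X
  simp [hZ]

theorem Cont.mu_leftInv : M.mu.IsMulLeftInvariant :=
  have := hM.measurableMul₂
  ⟨fun g => Measure.ext fun A hA => by
    rw [Measure.map_apply (measurable_const_mul g) hA]; exact hM.mu_left g A hA⟩

theorem Cont.mu_rightInv : M.mu.IsMulRightInvariant :=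
  have := hM.measurableMul₂
  ⟨fun g => Measure.ext fun A hA => by
    rw [Measure.map_apply (measurable_mul_const g) hA]; exact hM.mu_right g A hA⟩

/-- translates of arbitrary sets -/
theorem Cont.mu_image_left (g : G) (A : Set G) : M.mu ((fun x => g * x) '' A) = M.mu A := by
  have := hM.measurableMul₂
  have := hM.mu_leftInv
  rw [Set.image_mul_left, measure_preimage_mul]

theorem Cont.mu_image_right (g : G) (A : Set G) : M.mu ((fun x => x * g) '' A) = M.mu A := by
  have := hM.measurableMul₂
  have := hM.mu_rightInv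
  rw [Set.image_mul_right, measure_preimage_mul_right]

theorem Cont.mu_ex {D : Set (Fin M.d → ℝ)} (hD : MeasurableSet D) :
    M.mu (M.ex '' D) = volume D := by
  rw [hM.mu_apply (hM.measurableSet_ex hD), tsum_eq_single 0 fun a ha => ?_]
  · congr 1
    ext X
    simp [pt_zero, M.ex_inj.mem_set_image]
  · have : {X | M.pt (X, a) ∈ M.ex '' D} = ∅ := by
      refine Set.eq_empty_of_forall_notMem fun X ⟨Y, _, h⟩ => ha ?_
      rw [← pt_zero] at h
      exact (congrArg Prod.snd (M.pt_bijective.1 h)).symm
    rw [this, measure_empty]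

/-- upper bound for arbitrary sets -/
theorem Cont.mu_ex_le (D : Set (Fin M.d → ℝ)) : M.mu (M.ex '' D) ≤ volume D := by
  rw [← measure_toMeasurable D, ← hM.mu_ex (measurableSet_toMeasurable _ _)]
  exact measure_mono (Set.image_mono (subset_toMeasurable _ _))

theorem Cont.mu_ex_mul {D : Set (Fin M.d → ℝ)} (hD : MeasurableSet D) (g h : G) :
    M.mu ((fun X => g * M.ex X * h) '' D) = volume D := by
  rw [← hM.mu_ex hD, ← hM.mu_image_left g (M.ex '' D),
    ← hM.mu_image_right h ((fun x => g * x) '' _), Set.image_image, Set.image_image]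

theorem Cont.mu_compacts : IsFiniteMeasureOnCompacts M.mu := by
  have h1 : IsFiniteMeasureOnCompacts (Measure.count : Measure (Fin k → ℤ)) :=
    ⟨fun _ hK => Measure.count_apply_lt_top.2 hK.finite_of_discrete⟩
  refine ⟨fun K hK => ?_⟩
  rw [mu, Measure.map_apply hM.measurable_pt (hM.meas_of_compact hK)]
  exact (hM.homeo.isCompact_preimage.2 hK).measure_lt_top

theorem Cont.mu_fin {A : Set G} (hA : IsCompact A) : M.mu A ≠ ⊤ :=
  have := hM.mu_compacts
  hA.measure_ne_top

theorem Cont.ball_fin (n : ℕ) : M.mu (Ball M.Sg n) ≠ ⊤ := hM.mu_fin (hM.ball_compact n)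

theorem Cont.mu_ex_ball {r : ℝ} (hr : 0 < r) : M.mu (M.ex '' Metric.closedBall 0 r) ≠ 0 := by
  rw [hM.mu_ex measurableSet_closedBall]
  exact (Metric.measure_closedBall_pos _ _ hr).ne'

theorem Cont.ball_pos : M.mu (Ball M.Sg 1) ≠ 0 := fun h =>
  hM.mu_ex_ball one_pos (measure_mono_null (fun _ hg => Ball.mem_of_mem (Or.inl hg)) h)

theorem Cont.mu_openPos : M.mu.IsOpenPosMeasure := by
  have := hM.mu_leftInv
  have := hM.topGroup
  exact isOpenPosMeasure_of_mulLeftInvariant_of_compact _
    ((isCompact_closedBall (0 : Fin M.d → ℝ) 1).image hM.continuous_ex) (hM.mu_ex_ball one_pos)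

theorem Cont.mu_haar : M.mu.IsHaarMeasure :=
  have := hM.mu_leftInv
  have := hM.mu_compacts
  have := hM.mu_openPos
  {}

end LieModel

end Crest.Agent.R182
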