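import Crest.Agent.R182.LFLie
import Crest.Agent.R182.LMHaar
import Crest.Agent.R182.LBBox
import Crest.Agent.R182.LBStmt

/-! Row 182, block L2: controlled Følner sets in the real model. -/

set_option autoImplicit false
set_option linter.dupNamespace false

namespace Crest.Agent.R182

namespace LieModel

open MeasureTheory

variable {G : Type} [Group G] {k : ℕ} (M : LieModel G k)

theorem folner [TopologicalSpace G] [MeasurableSpace G] [BorelSpace G] (hM : M.Cont) :
    M.SFolner := by
  have := hM.topGroup
  have := hM.t2
  refine M.lf_folner hM.continuous_ex hM.mu_right (fun _ => hM.mu_fin) hM.ball_pos (fun g ρ => ?_)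
    (E := M.E) (fun _ => M.e_mem_E) (fun _ hX Y => M.br_mem_E Y hX) (fun g _ => M.Ad_mem_E g)
    M.exists_dist
  simpa using hM.mu_ex_mul (D := Metric.closedBall 0 ρ) measurableSet_closedBall 1 g

end LieModel

end Crest.Agent.R182
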