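import Crest.Agent.R182.LDefs

/-! Row 182, block L2 (measures): coordinates, topology, Haar measure and uniform measures. -/

set_option autoImplicit false
set_option linter.dupNamespace false

namespace Crest.Agent.R182

open Crest.GroupTheory MeasureTheory Pointwise

namespace LieModel

variable {G : Type} [Group G] {k : ℕ} (M : LieModel G k)

/-- value of a bracket monomial -/
def ev (t : LTree) (X Y : Fin M.d → ℝ) : Fin M.d → ℝ := t.eval (fun A B => M.br A B) X Y

/-- the higher terms of the Baker-Campbell-Hausdorff series -/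
def hi (X Y : Fin M.d → ℝ) : Fin M.d → ℝ :=
  (M.bch.map fun p => p.1 • M.ev (LTree.node p.2.1 p.2.2) X Y).sum

/-- the group law in exponential coordinates -/
def bc (X Y : Fin M.d → ℝ) : Fin M.d → ℝ := X + Y + M.hi X Y

theorem ex_mul' (X Y : Fin M.d → ℝ) : M.ex X * M.ex Y = M.ex (M.bc X Y) := M.ex_mul X Y

@[simp] theorem ev_x (X Y : Fin M.d → ℝ) : M.ev .x X Y = X := rfl

@[simp] theorem ev_y (X Y : Fin M.d → ℝ) : M.ev .y X Y = Y := rfl

theorem ev_node (s t : LTree) (X Y : Fin M.d → ℝ) :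
    M.ev (.node s t) X Y = M.br (M.ev s X Y) (M.ev t X Y) := rfl

theorem ev_smul_self (t : LTree) (X : Fin M.d → ℝ) (a b : ℝ) :
    ∃ r : ℝ, M.ev t (a • X) (b • X) = r • X := by
  induction t with
  | x => exact ⟨a, rfl⟩
  | y => exact ⟨b, rfl⟩
  | node s t hs ht =>
    obtain ⟨r, hr⟩ := hs
    obtain ⟨r', hr'⟩ := ht
    exact ⟨0, by simp [ev_node, hr, hr', M.br_self]⟩

theorem hi_smul_self (X : Fin M.d → ℝ) (a b : ℝ) : M.hi (a • X) (b • X) = 0 := by
  refine List.sum_eq_zero fun v hv => ?_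
  obtain ⟨p, -, rfl⟩ := List.mem_map.1 hv
  obtain ⟨r, hr⟩ := M.ev_smul_self p.2.1 X a b
  obtain ⟨r', hr'⟩ := M.ev_smul_self p.2.2 X a b
  simp [ev_node, hr, hr', M.br_self]

theorem bc_smul_self (X : Fin M.d → ℝ) (a b : ℝ) : M.bc (a • X) (b • X) = (a + b) • X := by
  rw [bc, hi_smul_self, add_zero, add_smul]

@[simp] theorem bc_zero (X : Fin M.d → ℝ) : M.bc X 0 = X := by
  simpa using M.bc_smul_self X 1 0

@[simp] theorem zero_bc (X : Fin M.d → ℝ) : M.bc 0 X = X := by
  simpa using M.bc_smul_self X 0 1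

@[simp] theorem ex_zero : M.ex 0 = 1 := by
  have h := M.ex_mul' 0 0
  rw [bc_zero] at h
  exact mul_eq_left.1 h

theorem ex_smul_add (X : Fin M.d → ℝ) (a b : ℝ) :
    M.ex ((a + b) • X) = M.ex (a • X) * M.ex (b • X) := by
  rw [ex_mul', bc_smul_self]

theorem ex_neg (X : Fin M.d → ℝ) : M.ex (-X) = (M.ex X)⁻¹ := by
  have h := M.ex_smul_add X 1 (-1)
  rw [add_neg_cancel, zero_smul, ex_zero, one_smul, neg_smul, one_smul] at h
  exact eq_inv_of_mul_eq_one_right h.symm

theorem ex_zsmul (X : Fin M.d → ℝ) (n : ℤ) : M.ex ((n : ℝ) • X) = M.ex X ^ n := by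
  induction n with
  | zero => simp
  | succ n ih => rw [zpow_add_one, ← ih]; push_cast; rw [ex_smul_add, one_smul]
  | pred n ih =>
    rw [zpow_sub_one, ← ih, ← ex_neg]; push_cast
    rw [sub_eq_add_neg, ex_smul_add, neg_smul 1, one_smul]

theorem π_ex (X : Fin M.d → ℝ) : M.π (M.ex X) = 0 := (M.ex_range _).2 ⟨X, rfl⟩

theorem bc_assoc (X Y Z : Fin M.d → ℝ) : M.bc (M.bc X Y) Z = M.bc X (M.bc Y Z) :=
  M.ex_inj (by simp only [← ex_mul', mul_assoc])

theorem bc_neg_cancel (X : Fin M.d → ℝ) : M.bc X (-X) = 0 :=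
  M.ex_inj (by rw [← ex_mul', ex_neg, mul_inv_cancel, ex_zero])

theorem neg_bc_cancel (X : Fin M.d → ℝ) : M.bc (-X) X = 0 :=
  M.ex_inj (by rw [← ex_mul', ex_neg, inv_mul_cancel, ex_zero])

theorem bc_left_injective (Y : Fin M.d → ℝ) : Function.Injective fun X => M.bc X Y :=
  fun X X' h => M.ex_inj (mul_right_cancel (b := M.ex Y) (by
    rw [ex_mul', ex_mul']; exact congrArg M.ex h))

theorem bc_right_injective (Y : Fin M.d → ℝ) : Function.Injective fun X => M.bc Y X :=
  fun X X' h => M.ex_inj (mul_left_cancel (a := M.ex Y) (by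
    rw [ex_mul', ex_mul']; exact congrArg M.ex h))

/-- a subspace closed under the bracket -/
def Sub (E : Submodule ℝ (Fin M.d → ℝ)) : Prop := ∀ X ∈ E, ∀ Y ∈ E, M.br X Y ∈ E

theorem Sub.top : M.Sub ⊤ := fun _ _ _ _ => Submodule.mem_top

variable {M} in
theorem Sub.ev_mem {E : Submodule ℝ (Fin M.d → ℝ)} (hE : M.Sub E) (t : LTree) {X Y : Fin M.d → ℝ}
    (hX : X ∈ E) (hY : Y ∈ E) : M.ev t X Y ∈ E := by
  induction t with
  | x => exact hX
  | y => exact hY
  | node s t hs ht => exact hE _ hs _ ht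

variable {M} in
theorem Sub.hi_mem {E : Submodule ℝ (Fin M.d → ℝ)} (hE : M.Sub E) {X Y : Fin M.d → ℝ}
    (hX : X ∈ E) (hY : Y ∈ E) : M.hi X Y ∈ E := by
  refine list_sum_mem fun v hv => ?_
  obtain ⟨p, -, rfl⟩ := List.mem_map.1 hv
  exact E.smul_mem _ (hE.ev_mem _ hX hY)

variable {M} in
theorem Sub.bc_mem {E : Submodule ℝ (Fin M.d → ℝ)} (hE : M.Sub E) {X Y : Fin M.d → ℝ}
    (hX : X ∈ E) (hY : Y ∈ E) : M.bc X Y ∈ E :=
  E.add_mem (E.add_mem hX hY) (hE.hi_mem hX hY)

/-- the section `a ↦ ∏ c i ^ a i` -/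
def sec (a : Fin k → ℤ) : G := (List.ofFn fun i => M.c i ^ a i).prod

theorem π_sec (a : Fin k → ℤ) : M.π (M.sec a) = fun l => (a l : ℝ) := by
  have h : ∀ l : List G, M.π l.prod = (l.map M.π).sum := fun l => by
    induction l with
    | nil => simpa using M.π_hom.one
    | cons g l ih => rw [List.prod_cons, M.π_hom, ih]; simp
  rw [sec, h, List.map_ofFn, List.sum_ofFn]
  funext l
  simp [M.π_hom.zpow, M.π_c, Finset.sum_apply, Pi.single_apply]

@[simp] theorem sec_zero : M.sec 0 = 1 := by simp [sec]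

theorem prod_ofFn_single {n : ℕ} (f : Fin n → G) (i : Fin n) (h : ∀ j, j ≠ i → f j = 1) :
    (List.ofFn f).prod = f i := by
  induction n with
  | zero => exact i.elim0
  | succ n ih =>
    rw [List.ofFn_succ, List.prod_cons]
    cases i using Fin.cases with
    | zero =>
      rw [List.prod_eq_one fun x hx => ?_, mul_one]
      obtain ⟨j, rfl⟩ := List.mem_ofFn.1 hx
      exact h _ (Fin.succ_ne_zero j)
    | succ i =>
      rw [h 0 (Fin.succ_ne_zero i).symm, one_mul]
      exact ih (fun j => f j.succ) i fun j hj => h _ fun e => hj (Fin.succ_injective _ e)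

theorem sec_single (i : Fin k) : M.sec (Pi.single i 1) = M.c i := by
  rw [sec, prod_ofFn_single _ i fun j hj => by simp [hj]]
  simp

/-- global coordinates -/
def pt (p : (Fin M.d → ℝ) × (Fin k → ℤ)) : G := M.ex p.1 * M.sec p.2

theorem π_pt (p : (Fin M.d → ℝ) × (Fin k → ℤ)) : M.π (M.pt p) = fun l => (p.2 l : ℝ) := by
  rw [pt, M.π_hom, π_ex, π_sec, zero_add]

theorem pt_bijective : Function.Bijective M.pt := by
  refine ⟨fun p q h => ?_, fun g => ?_⟩
  · have h2 : p.2 = q.2 := by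
      have := congrArg M.π h
      rw [π_pt, π_pt] at this
      exact funext fun l => by exact_mod_cast congrFun this l
    rw [pt, pt, h2] at h
    exact Prod.ext (M.ex_inj (mul_right_cancel h)) h2
  · choose a ha using M.π_int g
    obtain ⟨X, hX⟩ := (M.ex_range (g * (M.sec a)⁻¹)).1 (by
      rw [M.π_hom, M.π_hom.inv, π_sec]
      funext l
      simp [ha])
    exact ⟨(X, a), by simp [pt, hX]⟩

/-- the topology of `G` is the one of the coordinates -/
def Cont [TopologicalSpace G] : Prop := IsHomeomorph M.pt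

theorem exists_top : ∃ _ : TopologicalSpace G, M.Cont := by
  let e := Equiv.ofBijective M.pt M.pt_bijective
  let : TopologicalSpace G := e.symm.topologicalSpace
  exact ⟨this, e.symm.homeomorph.symm.isHomeomorph⟩

/-- Haar measure -/
noncomputable def mu [MeasurableSpace G] : Measure G :=
  Measure.map M.pt ((volume : Measure (Fin M.d → ℝ)).prod Measure.count)

/-- Lebesgue measure on a subspace -/
noncomputable def vE {d : ℕ} (E : Submodule ℝ (Fin d → ℝ)) : Measure E := Measure.addHaar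

/-- the uniform measure on `ex '' D`, `D ⊆ E` -/
noncomputable def unif [MeasurableSpace G] (E : Submodule ℝ (Fin M.d → ℝ))
    (D : Set (Fin M.d → ℝ)) : Measure G :=
  Measure.map (fun X : E => M.ex X) (ProbabilityTheory.cond (vE E) (Subtype.val ⁻¹' D))

/-- a symmetric convex body in `E` -/
structure Body {d : ℕ} (E : Submodule ℝ (Fin d → ℝ)) (D : Set (Fin d → ℝ)) : Prop where
  convex : Convex ℝ D
  neg : ∀ X ∈ D, -X ∈ D
  zero : (0 : Fin d → ℝ) ∈ D
  compact : IsCompact D
  span : Submodule.span ℝ D = E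

end LieModel

end Crest.Agent.R182
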