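import Crest.Agent.R182.LMJac

/-! Row 182, block L2 (measures): the real model is a topological group. -/

set_option autoImplicit false
set_option linter.dupNamespace false

namespace Crest.Agent.R182

open Crest.GroupTheory MeasureTheory Pointwise

theorem Ball.succ_eq {G : Type*} [Group G] (T : Set G) (n : ℕ) :
    Ball T (n + 1) = insert 1 ((T ∪ T⁻¹) * Ball T n) := by
  refine Set.Subset.antisymm (fun g hg => ?_) ?_
  · rcases h31_ball_succ hg with rfl | ⟨x, hx, b, hb, rfl⟩
    · exact Set.mem_insert _ _
    · exact Set.mem_insert_of_mem _ (Set.mul_mem_mul hx hb)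
  · rintro g (rfl | ⟨x, hx, b, hb, rfl⟩)
    · exact Ball.one_mem _ _
    · have h1 : x ∈ Ball T 1 := by
        rcases hx with hx | hx
        · exact Ball.mem_of_mem hx
        · exact inv_inv x ▸ Ball.inv_mem (Ball.mem_of_mem hx)
      exact add_comm 1 n ▸ Ball.mul_mem h1 hb

theorem Ball.isCompact {G : Type*} [Group G] [TopologicalSpace G] [IsTopologicalGroup G]
    {T : Set G} (hT : IsCompact T) (n : ℕ) : IsCompact (Ball T n) := by
  induction n with
  | zero => rw [h31_ball_zero]; exact isCompact_singleton
  | succ n ih => rw [Ball.succ_eq]; exact ((hT.union hT.inv).mul ih).insert 1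

namespace LieModel

variable {G : Type} [Group G] {k : ℕ} (M : LieModel G k)

theorem pt_zero (X : Fin M.d → ℝ) : M.pt (X, 0) = M.ex X := by simp [pt]

theorem pt_mul (a b : Fin k → ℤ) : ∃ Z, ∀ X Y, M.pt (X, a) * M.pt (Y, b) =
    M.pt (M.bc (M.bc X (M.Ad (M.sec a) Y)) Z, a + b) := by
  obtain ⟨Z, hZ⟩ := (M.ex_range (M.sec a * M.sec b * (M.sec (a + b))⁻¹)).1 (by
    rw [M.π_hom, M.π_hom, M.π_hom.inv, π_sec, π_sec, π_sec]
    funext l
    simp)
  refine ⟨Z, fun X Y => ?_⟩
  simp only [pt, ← ex_mul', ← M.Ad_conj, hZ]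
  group

theorem pt_inv (a : Fin k → ℤ) : ∃ Z, ∀ X, (M.pt (X, a))⁻¹ =
    M.pt (M.bc Z (M.Ad (M.sec (-a)) (-X)), -a) := by
  obtain ⟨Z, hZ⟩ := (M.ex_range ((M.sec a)⁻¹ * (M.sec (-a))⁻¹)).1 (by
    rw [M.π_hom, M.π_hom.inv, M.π_hom.inv, π_sec, π_sec]
    funext l
    simp)
  refine ⟨Z, fun X => ?_⟩
  simp only [pt, ← ex_mul', ← M.Ad_conj, hZ, ex_neg]
  group

theorem continuous_Ad_sec :
    Continuous fun q : (Fin k → ℤ) × (Fin M.d → ℝ) => M.Ad (M.sec q.1) q.2 :=
  continuous_prod_of_discrete_left.2 fun a =>
    LinearMap.continuous_of_finiteDimensional (M.Ad (M.sec a))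

variable {M} [TopologicalSpace G] (hM : M.Cont)
include hM

/-- the coordinates as a homeomorphism -/
noncomputable def Cont.homeo : (Fin M.d → ℝ) × (Fin k → ℤ) ≃ₜ G := IsHomeomorph.homeomorph _ hM

theorem Cont.homeo_apply (p : (Fin M.d → ℝ) × (Fin k → ℤ)) : hM.homeo p = M.pt p := rfl

theorem Cont.continuous_pt : Continuous M.pt := IsHomeomorph.continuous hM

theorem Cont.continuous_ex : Continuous M.ex := by
  have : M.ex = fun X => M.pt (X, 0) := funext fun X => (M.pt_zero X).symm
  rw [this]
  exact hM.continuous_pt.comp (continuous_id.prodMk continuous_const)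

theorem Cont.t2 : T2Space G := hM.homeo.t2Space

theorem Cont.secondCountable : SecondCountableTopology G :=
  hM.homeo.symm.secondCountableTopology

theorem Cont.locallyCompact : LocallyCompactSpace G :=
  hM.homeo.locallyCompactSpace_iff.1 inferInstance

theorem Cont.polish : PolishSpace G := hM.homeo.symm.isClosedEmbedding.polishSpace

theorem Cont.topGroup : IsTopologicalGroup G := by
  have h1 : Continuous fun p : G × G => p.1 * p.2 := by
    choose Z hZ using M.pt_mul
    rw [← (hM.homeo.prodCongr hM.homeo).comp_continuous_iff']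
    have hc : Continuous fun q : (Fin k → ℤ) × (Fin k → ℤ) => Z q.1 q.2 :=
      continuous_of_discreteTopology
    refine (hM.continuous_pt.comp (((M.continuous_bc.comp ((M.continuous_bc.comp
      (continuous_fst.fst.prodMk (M.continuous_Ad_sec.comp
        (continuous_fst.snd.prodMk continuous_snd.fst)))).prodMk
      (hc.comp (continuous_fst.snd.prodMk continuous_snd.snd))))).prodMk
      (continuous_fst.snd.add continuous_snd.snd))).congr fun p => ?_
    exact (hZ p.1.2 p.2.2 p.1.1 p.2.1).symm
  have h2 : Continuous fun g : G => g⁻¹ := by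
    choose Z hZ using M.pt_inv
    rw [← hM.homeo.comp_continuous_iff']
    have hc : Continuous Z := continuous_of_discreteTopology
    refine (hM.continuous_pt.comp ((M.continuous_bc.comp ((hc.comp continuous_snd).prodMk
      (M.continuous_Ad_sec.comp (continuous_snd.neg.prodMk continuous_fst.neg)))).prodMk
      continuous_snd.neg)).congr fun p => ?_
    exact (hZ p.2 p.1).symm
  exact { continuous_mul := h1, continuous_inv := h2 }

theorem Cont.continuous_π : Continuous M.π := by
  rw [← hM.homeo.comp_continuous_iff']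
  have hc : Continuous fun (a : Fin k → ℤ) (l : Fin k) => (a l : ℝ) :=
    continuous_of_discreteTopology
  exact (hc.comp continuous_snd).congr fun p => (M.π_pt p).symm

theorem Cont.isOpen_ex {U : Set (Fin M.d → ℝ)} (hU : IsOpen U) : IsOpen (M.ex '' U) := by
  have : M.ex '' U = hM.homeo '' (U ×ˢ {0}) := by
    ext g
    simp [Cont.homeo_apply, pt_zero]
  rw [this]
  exact hM.homeo.isOpenMap _ (hU.prod (isOpen_discrete _))

theorem Cont.Sg_compact : IsCompact M.Sg :=
  ((isCompact_closedBall _ _).image hM.continuous_ex).union (Set.finite_range _).isCompact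

theorem Cont.ball_compact (n : ℕ) : IsCompact (Ball M.Sg n) :=
  have := hM.topGroup
  Ball.isCompact hM.Sg_compact n

variable [MeasurableSpace G] [BorelSpace G]

theorem Cont.measurableMul₂ : MeasurableMul₂ G :=
  have := hM.topGroup
  have := hM.secondCountable
  inferInstance

theorem Cont.measurableInv : MeasurableInv G :=
  have := hM.topGroup
  inferInstance

theorem Cont.measurable_pt : Measurable M.pt := hM.continuous_pt.measurable

theorem Cont.measurable_ex : Measurable M.ex := hM.continuous_ex.measurable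

theorem Cont.measurableSet_ex {D : Set (Fin M.d → ℝ)} (hD : MeasurableSet D) :
    MeasurableSet (M.ex '' D) :=
  have := hM.t2
  hD.image_of_continuousOn_injOn hM.continuous_ex.continuousOn M.ex_inj.injOn

theorem Cont.meas_of_compact {A : Set G} (hA : IsCompact A) : MeasurableSet A :=
  have := hM.t2
  hA.measurableSet

theorem Cont.ball_meas (n : ℕ) : MeasurableSet (Ball M.Sg n) :=
  hM.meas_of_compact (hM.ball_compact n)

end LieModel

end Crest.Agent.R182
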