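import Crest.Agent.R182.MBasic
import Crest.Agent.R182.NAll

/-! Row 182, block M3 (local purity): definitions, translated measures, counting lemmas. -/

set_option autoImplicit false
set_option linter.dupNamespace false
set_option linter.unusedSectionVars false

namespace Crest.Agent.R182

open Crest.GroupTheory MeasureTheory Filter

/-! ### counting events -/

section cnt

variable {α : Type*}

open Classical in
/-- the number of `l < L` with `x ∈ E l` -/
noncomputable def cnt (E : ℕ → Set α) (L : ℕ) (x : α) : ℕ :=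
  ((Finset.range L).filter fun l => x ∈ E l).card

theorem cnt_eq_sum (E : ℕ → Set α) (L : ℕ) (x : α) :
    (cnt E L x : ℝ) = ∑ l ∈ Finset.range L, (E l).indicator (fun _ => (1 : ℝ)) x := by
  classical
  unfold cnt
  rw [Finset.card_filter]
  push_cast
  refine Finset.sum_congr rfl fun l _ => ?_
  by_cases h : x ∈ E l <;> simp [h]

/-- good terms are at most `a`, bad terms at most `b` -/
theorem sum_le_cnt (E : ℕ → Set α) (L : ℕ) (x : α) {f : ℕ → ℝ} {a b : ℝ} (ha : 0 ≤ a) (hb : 0 ≤ b)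
    (h1 : ∀ l < L, x ∉ E l → f l ≤ a) (h2 : ∀ l < L, f l ≤ b) {l₀ : ℕ} (hl : l₀ ≤ L) :
    ∑ l ∈ Finset.range l₀, f l ≤ a * L + b * cnt E L x := by
  have h3 : ∀ l < L, f l ≤ a + b * (E l).indicator (fun _ => (1 : ℝ)) x := fun l hl' => by
    by_cases h : x ∈ E l
    · rw [Set.indicator_of_mem h]
      linarith [h2 l hl']
    · rw [Set.indicator_of_notMem h]
      linarith [h1 l hl' h]
  calc ∑ l ∈ Finset.range l₀, f l
      ≤ ∑ l ∈ Finset.range l₀, (a + b * (E l).indicator (fun _ => (1 : ℝ)) x) :=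
        Finset.sum_le_sum fun l hl' => h3 l ((Finset.mem_range.1 hl').trans_le hl)
    _ ≤ ∑ l ∈ Finset.range L, (a + b * (E l).indicator (fun _ => (1 : ℝ)) x) :=
        Finset.sum_le_sum_of_subset_of_nonneg (Finset.range_mono hl) fun l _ _ =>
          add_nonneg ha (mul_nonneg hb (Set.indicator_nonneg (fun _ _ => zero_le_one) _))
    _ = a * L + b * cnt E L x := by
        rw [Finset.sum_add_distrib, ← Finset.mul_sum, ← cnt_eq_sum, Finset.sum_const,
          Finset.card_range, nsmul_eq_mul, mul_comm]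

variable [MeasurableSpace α]

theorem meas_cnt {E : ℕ → Set α} (hE : ∀ l, MeasurableSet (E l)) (L : ℕ) (a : ℝ) :
    MeasurableSet {x | a < (cnt E L x : ℝ)} := by
  simp_rw [cnt_eq_sum]
  exact measurableSet_lt measurable_const
    (Finset.measurable_sum _ fun l _ => measurable_const.indicator (hE l))

theorem helper30_int_cnt (μ : Measure α) [IsFiniteMeasure μ] {E : ℕ → Set α}
    (hE : ∀ l, MeasurableSet (E l)) (L : ℕ) :
    Integrable (fun x => (cnt E L x : ℝ)) μ ∧
      ∫ x, (cnt E L x : ℝ) ∂μ = ∑ l ∈ Finset.range L, μ.real (E l) := by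
  simp_rw [cnt_eq_sum]
  have h : ∀ l ∈ Finset.range L, Integrable ((E l).indicator fun _ => (1 : ℝ)) μ :=
    fun l _ => (integrable_const _).indicator (hE l)
  refine ⟨integrable_finsetSum _ h, ?_⟩
  rw [integral_finsetSum _ h]
  refine Finset.sum_congr rfl fun l _ => ?_
  rw [integral_indicator_const _ (hE l), smul_eq_mul, mul_one]

/-- Markov (`cnt_eq_sum`, `mul_meas_ge_le_integral_of_nonneg`; `L = 0` gives the empty set) -/
theorem markov_cnt (μ : Measure α) [IsFiniteMeasure μ] {E : ℕ → Set α}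
    (hE : ∀ l, MeasurableSet (E l)) (L : ℕ) {p δ : ℝ} (hp : 0 ≤ p) (hδ : 0 < δ)
    (h : ∀ l < L, μ.real (E l) ≤ p) : μ.real {x | δ * L < (cnt E L x : ℝ)} ≤ p / δ := by
  rcases Nat.eq_zero_or_pos L with rfl | hL
  · have : {x | δ * ((0 : ℕ) : ℝ) < (cnt E 0 x : ℝ)} = ∅ := by
      ext x
      simp [cnt]
    rw [this, measureReal_empty]
    positivity
  have hL' : (0 : ℝ) < L := by exact_mod_cast hL
  obtain ⟨hi, he⟩ := helper30_int_cnt μ hE L
  have h1 := mul_meas_ge_le_integral_of_nonneg (μ := μ) (f := fun x => (cnt E L x : ℝ))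
    (Eventually.of_forall fun x => Nat.cast_nonneg _) hi (δ * L)
  have h2 : ∑ l ∈ Finset.range L, μ.real (E l) ≤ L * p := by
    refine (Finset.sum_le_card_nsmul _ _ p fun l hl => h l (Finset.mem_range.1 hl)).trans ?_
    rw [Finset.card_range, nsmul_eq_mul]
  have h3 : μ.real {x | δ * L < (cnt E L x : ℝ)} ≤ μ.real {x | δ * L ≤ (cnt E L x : ℝ)} :=
    measureReal_mono fun x (hx : δ * L < (cnt E L x : ℝ)) => hx.le
  rw [he] at h1
  rw [le_div_iff₀ hδ]
  refine le_of_mul_le_mul_left ?_ hL'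
  have h4 := mul_le_mul_of_nonneg_left h3 (mul_pos hδ hL').le
  nlinarith

/-- integrate `cnt E L x ≤ δ L + L * 1_B x` -/
theorem avg_cnt (μ : Measure α) [IsFiniteMeasure μ] {E : ℕ → Set α}
    (hE : ∀ l, MeasurableSet (E l)) (L : ℕ) {B : Set α} (hB : MeasurableSet B) {δ : ℝ} (hδ : 0 ≤ δ)
    (h : ∀ x ∉ B, (cnt E L x : ℝ) ≤ δ * L) :
    ∑ l ∈ Finset.range L, μ.real (E l) ≤ L * (δ * μ.real Set.univ + μ.real B) := by
  obtain ⟨hi, he⟩ := helper30_int_cnt μ hE L
  rw [← he]
  have hb : ∀ x, (cnt E L x : ℝ) ≤ δ * L + B.indicator (fun _ => (L : ℝ)) x := fun x => by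
    by_cases hx : x ∈ B
    · rw [Set.indicator_of_mem hx]
      have h1 : cnt E L x ≤ L := by
        classical
        unfold cnt
        exact (Finset.card_filter_le _ _).trans (Finset.card_range L).le
      have h2 : (cnt E L x : ℝ) ≤ L := by exact_mod_cast h1
      have h3 : 0 ≤ δ * L := by positivity
      linarith
    · rw [Set.indicator_of_notMem hx, add_zero]
      exact h x hx
  have hi2 : Integrable (B.indicator fun _ => (L : ℝ)) μ := (integrable_const _).indicator hB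
  refine (integral_mono hi ((integrable_const _).add hi2) hb).trans (le_of_eq ?_)
  simp only [Pi.add_apply]
  rw [integral_add (integrable_const _) hi2, integral_indicator_const _ hB, integral_const,
    smul_eq_mul, smul_eq_mul]
  ring

end cnt

/-! ### translated measures -/

section om

variable {G : Type} [Group G]

/-- the ball as a finset -/
noncomputable def FB (S : Finset G) (R : ℕ) : Finset G := (Ball.finite S.finite_toSet R).toFinset

theorem mem_FB {S : Finset G} {R : ℕ} {g : G} : g ∈ FB S R ↔ g ∈ Ball (S : Set G) R := by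
  simp [FB]

theorem FB_card_pos (S : Finset G) (R : ℕ) : 0 < (FB S R).card :=
  Finset.card_pos.2 ⟨1, mem_FB.2 (Ball.one_mem _ _)⟩

theorem FB_mono (S : Finset G) {R R' : ℕ} (h : R ≤ R') : FB S R ⊆ FB S R' := fun _ hg =>
  mem_FB.2 (Ball.mono subset_rfl h (mem_FB.1 hg))

/-- the points where `f` changes under right multiplication by `g` -/
def Chg {Y : Type*} (f : G → Y) (g : G) : Set G := {x | f (x * g) ≠ f x}

theorem chg_mul {Y : Type*} (f : G → Y) (g h : G) :
    Chg f (g * h) ⊆ Chg f g ∪ {x | x * g ∈ Chg f h} := by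
  intro x hx
  by_contra hc
  simp only [Chg, Set.mem_union, Set.mem_ofPred_eq, not_or, not_not] at hc hx
  exact hx (by rw [← mul_assoc, hc.2, hc.1])

theorem chg_inv {Y : Type*} (f : G → Y) (g : G) : Chg f g⁻¹ = {x | x * g⁻¹ ∈ Chg f g} := by
  ext x
  simp only [Chg, Set.mem_ofPred_eq, inv_mul_cancel_right]
  exact ne_comm

theorem chg_comp {Y Z : Type*} (f : G → Y) (φ : Y → Z) (g : G) :
    Chg (fun x => φ (f x)) g ⊆ Chg f g := fun _ hx h => hx (congrArg φ h)

/-- a line through the powers of `t` (`Reach.of_ball`, then `p s = t ^ (s / C) * q (s % C)`) -/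
theorem exists_line {S : Set G} {t : G} {C : ℕ} (hC : 1 ≤ C) (ht : t ∈ Ball S C) :
    ∃ p : ℕ → G, p 0 = 1 ∧ (∀ s, (p s)⁻¹ * p (s + 1) ∈ Ball S 1) ∧ ∀ a, p (C * a) = t ^ a := by
  obtain ⟨q, q0, q1, q2, -⟩ := Reach.of_ball (T := S) (x := 1) (y := t) (n := C)
    (by rwa [inv_one, one_mul])
  have hC0 : 0 < C := hC
  refine ⟨fun s => t ^ (s / C) * q (s % C), by simp [q0], fun s => ?_, fun a => ?_⟩
  · have hb : s % C < C := Nat.mod_lt s hC0
    have key : t ^ ((s + 1) / C) * q ((s + 1) % C) = t ^ (s / C) * q (s % C + 1) := by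
      have e := Nat.div_add_mod s C
      generalize s / C = a at *
      generalize s % C = b at *
      subst e
      rcases (Nat.succ_le_of_lt hb).eq_or_lt with h | h
      · have h' : b + 1 = C := h
        rw [show C * a + b + 1 = C * (a + 1) by rw [Nat.mul_succ]; omega,
          Nat.mul_div_cancel_left _ hC0, Nat.mul_mod_right, h', q0, q1, mul_one, pow_succ]
      · have h' : b + 1 < C := h
        rw [add_assoc, Nat.mul_add_div hC0, Nat.mul_add_mod, Nat.div_eq_of_lt h',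
          Nat.mod_eq_of_lt h', add_zero]
    have h1 := q2 (s % C) hb
    simp only [key]
    rwa [show (t ^ (s / C) * q (s % C))⁻¹ * (t ^ (s / C) * q (s % C + 1)) =
      (q (s % C))⁻¹ * q (s % C + 1) by group]
  · simp only [Nat.mul_div_cancel_left _ hC0, Nat.mul_mod_right, q0, mul_one]

theorem path_ball {S : Set G} {p : ℕ → G} (hp : ∀ s, (p s)⁻¹ * p (s + 1) ∈ Ball S 1) {a b : ℕ}
    (h : a ≤ b) : (p a)⁻¹ * p b ∈ Ball S (b - a) := by
  induction b, h using Nat.le_induction with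
  | base => rw [inv_mul_cancel]; exact Ball.one_mem _ _
  | succ b hb ih =>
    have := Ball.mul_mem ih (hp b)
    rwa [show (p a)⁻¹ * p b * ((p b)⁻¹ * p (b + 1)) = (p a)⁻¹ * p (b + 1) by group,
      show b - a + 1 = b + 1 - a by omega] at this

theorem zpow_ball {S : Set G} {t : G} {C : ℕ} (ht : t ∈ Ball S C) {e : ℤ} {N : ℕ} (he : |e| ≤ N) :
    t ^ e ∈ Ball S (N * C) := by
  have h1 : t ^ e.natAbs ∈ Ball S (N * C) :=
    Ball.mono subset_rfl (Nat.mul_le_mul_right C (by rw [abs_le] at he; omega))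
      (Ball.pow_mem ht e.natAbs)
  rcases Int.natAbs_eq e with h | h
  · rw [h, zpow_natCast]; exact h1
  · rw [h, zpow_neg, zpow_natCast]; exact Ball.inv_mem h1

variable [MeasurableSpace G]

/-- the sum of the right translates of `ζ` by the ball of radius `R`, divided by the size of the
ball of radius `j` -/
noncomputable def om (S : Finset G) (ζ : Measure G) (j R : ℕ) : Measure G :=
  ((FB S j).card : ENNReal)⁻¹ • ∑ c ∈ FB S R, ζ.map fun z => z * c

variable [MeasurableMul₂ G] [MeasurableInv G] {S : Finset G} {ζ : Measure G} {j R R' u : ℕ}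
  {E : Set G} {g : G}

theorem meas_shift (hE : MeasurableSet E) (g : G) : MeasurableSet {x | x * g ∈ E} :=
  (measurable_mul_const g) hE

theorem map_real (ζ : Measure G) (hE : MeasurableSet E) (c : G) :
    (ζ.map fun z => z * c).real E = ζ.real {z | z * c ∈ E} := by
  rw [Measure.real, Measure.map_apply (measurable_mul_const c) hE]
  rfl

theorem Chg.meas {Y : Type*} {f : G → Y} (hf : Step f) (g : G) : MeasurableSet (Chg f g) :=
  ((hf.mul_right g).prod hf).measurableSet fun p => p.1 ≠ p.2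

variable [IsProbabilityMeasure ζ]

instance om_finite : IsFiniteMeasure (om S ζ j R) := by
  have h0 : ((FB S j).card : ENNReal) ≠ 0 := by exact_mod_cast (FB_card_pos S j).ne'
  refine ⟨?_⟩
  rw [om, Measure.smul_apply, Measure.finsetSum_apply, smul_eq_mul]
  exact ENNReal.mul_lt_top (ENNReal.inv_lt_top.2 (pos_iff_ne_zero.2 h0))
    (ENNReal.sum_lt_top.2 fun c _ => measure_lt_top _ _)

theorem om_real (hE : MeasurableSet E) :
    (om S ζ j R).real E = (∑ c ∈ FB S R, ζ.real {z | z * c ∈ E}) / (FB S j).card := by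
  rw [om, Measure.real, Measure.smul_apply, Measure.finsetSum_apply, smul_eq_mul,
    ENNReal.toReal_mul, ENNReal.toReal_inv, ENNReal.toReal_natCast,
    ENNReal.toReal_sum fun c _ => measure_ne_top _ _, inv_mul_eq_div]
  congr 1
  exact Finset.sum_congr rfl fun c _ => map_real ζ hE c

theorem om_prob : IsProbabilityMeasure (om S ζ j j) := by
  have h0 : ((FB S j).card : ℝ) ≠ 0 := by exact_mod_cast (FB_card_pos S j).ne'
  refine ⟨?_⟩
  rw [← ENNReal.toReal_eq_one_iff, ← Measure.real, om_real MeasurableSet.univ]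
  simp [h0]

/-- `c ↦ c * g` injects the ball of radius `R` into the ball of radius `R'` -/
theorem om_shift (hE : MeasurableSet E) (hg : g ∈ Ball (S : Set G) u) (h : R + u ≤ R') :
    (om S ζ j R).real {x | x * g ∈ E} ≤ (om S ζ j R').real E := by
  classical
  rw [om_real (meas_shift hE g), om_real hE]
  refine div_le_div_of_nonneg_right ?_ (Nat.cast_nonneg _)
  calc ∑ c ∈ FB S R, ζ.real {z | z * c ∈ {x | x * g ∈ E}}
      = ∑ c ∈ (FB S R).image (· * g), ζ.real {z | z * c ∈ E} := by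
        rw [Finset.sum_image fun a _ b _ hab => mul_right_cancel hab]
        simp only [Set.mem_ofPred_eq, mul_assoc]
    _ ≤ _ := by
        refine Finset.sum_le_sum_of_subset_of_nonneg (fun c hc => ?_) fun _ _ _ => measureReal_nonneg
        obtain ⟨a, ha, rfl⟩ := Finset.mem_image.1 hc
        exact mem_FB.2 (Ball.mono subset_rfl h (Ball.mul_mem (mem_FB.1 ha) hg))

theorem om_mono (hE : MeasurableSet E) (h : R ≤ R') :
    (om S ζ j R).real E ≤ (om S ζ j R').real E := by
  rw [om_real hE, om_real hE]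
  exact div_le_div_of_nonneg_right
    (Finset.sum_le_sum_of_subset_of_nonneg (FB_mono S h) fun _ _ _ => measureReal_nonneg)
    (Nat.cast_nonneg _)

theorem om_each (hE : MeasurableSet E) (hR : R ≤ j) {p : ℝ} (hp : 0 ≤ p)
    (h : ∀ c ∈ Ball (S : Set G) R, ζ.real {z | z * c ∈ E} ≤ p) : (om S ζ j R).real E ≤ p := by
  have h0 : (0 : ℝ) < (FB S j).card := by exact_mod_cast FB_card_pos S j
  have h1 : ((FB S R).card : ℝ) ≤ (FB S j).card := by
    exact_mod_cast Finset.card_le_card (FB_mono S hR)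
  rw [om_real hE, div_le_iff₀ h0]
  refine (Finset.sum_le_card_nsmul _ _ p fun c hc => h c (mem_FB.1 hc)).trans ?_
  rw [nsmul_eq_mul, mul_comm]
  exact mul_le_mul_of_nonneg_left h1 hp

theorem om_univ (hR : R ≤ j) : (om S ζ j R).real Set.univ ≤ 1 := by
  exact om_each MeasurableSet.univ hR zero_le_one fun _ _ => measureReal_le_one

/-- pigeonhole -/
theorem om_exists (hE : MeasurableSet E) {M θ : ℝ} (hθ : 0 ≤ θ)
    (hM : ((FB S j).card : ℝ) ≤ M * (FB S R).card) (h : (om S ζ j R).real E ≤ θ) :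
    ∃ c ∈ Ball (S : Set G) R, ζ.real {z | z * c ∈ E} ≤ M * θ := by
  have h0 : (0 : ℝ) < (FB S j).card := by exact_mod_cast FB_card_pos S j
  rw [om_real hE, div_le_iff₀ h0] at h
  obtain ⟨c, hc, h1⟩ := Finset.exists_le_of_sum_le (s := FB S R)
    (f := fun c => ζ.real {z | z * c ∈ E}) (g := fun _ => M * θ)
    (Finset.card_pos.1 (FB_card_pos S R)) (by
      rw [Finset.sum_const, nsmul_eq_mul]
      nlinarith [mul_le_mul_of_nonneg_left hM hθ])
  exact ⟨c, mem_FB.1 hc, h1⟩

/-- an average of almost invariant measures (`om_real`, `map_real`) -/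
theorem om_tvr_conj {η : ℝ} (h : ∀ c ∈ Ball (S : Set G) j, TVr (ζ.map fun z => z * c) g η) :
    TVr (om S ζ j j) g η := by
  intro A hA
  have hc : (0 : ℝ) < (FB S j).card := by exact_mod_cast FB_card_pos S j
  have hA' : MeasurableSet ((fun x => x * g) ⁻¹' A) := measurable_mul_const g hA
  rw [om_real hA', om_real hA, ← sub_div, ← Finset.sum_sub_distrib, abs_div, abs_of_pos hc,
    div_le_iff₀ hc]
  refine (Finset.abs_sum_le_sum_abs _ _).trans ?_
  refine (Finset.sum_le_card_nsmul _ _ η fun c hc' => ?_).trans (by rw [nsmul_eq_mul, mul_comm])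
  have := h c (mem_FB.1 hc') A hA
  rwa [map_real ζ hA', map_real ζ hA] at this

theorem h50_om_succ {η : ℝ} (h : ((FB S (j + 1)).card : ℝ) ≤ (1 + η) * (FB S j).card)
    (hE : MeasurableSet E) : (om S ζ j (j + 1)).real E ≤ (om S ζ j j).real E + η := by
  classical
  have hc : (0 : ℝ) < (FB S j).card := by exact_mod_cast FB_card_pos S j
  have hs := FB_mono S (Nat.le_succ j)
  rw [om_real hE, om_real hE, ← Finset.sum_sdiff hs, div_add' _ _ _ hc.ne',
    div_le_div_iff_of_pos_right hc]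
  have h1 : ∑ c ∈ FB S (j + 1) \ FB S j, ζ.real {z | z * c ∈ E} ≤
      ((FB S (j + 1) \ FB S j).card : ℝ) := by
    have := Finset.sum_le_card_nsmul (FB S (j + 1) \ FB S j) (fun c => ζ.real {z | z * c ∈ E}) 1
      fun c _ => measureReal_le_one
    simpa using this
  have h2 : ((FB S (j + 1) \ FB S j).card : ℝ) + (FB S j).card = (FB S (j + 1)).card := by
    exact_mod_cast Finset.card_sdiff_add_card_eq_card hs
  linarith

/-- Følner: `om_shift` into radius `j + 1`, the extra terms contribute at most `η`; apply this to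
`A` and to `Aᶜ` (`om_prob`) -/
theorem om_tvr_gen {η : ℝ} (hg : g ∈ Ball (S : Set G) 1)
    (h : ((FB S (j + 1)).card : ℝ) ≤ (1 + η) * (FB S j).card) : TVr (om S ζ j j) g η := by
  intro A hA
  have := om_prob (S := S) (ζ := ζ) (j := j)
  have key : ∀ B : Set G, MeasurableSet B →
      (om S ζ j j).real ((fun x => x * g) ⁻¹' B) ≤ (om S ζ j j).real B + η := fun B hB =>
    (om_shift hB hg le_rfl).trans (h50_om_succ h hB)
  have h1 := key A hA
  have h2 := key Aᶜ hA.compl
  rw [Set.preimage_compl, probReal_compl_eq_one_sub (measurable_mul_const g hA),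
    probReal_compl_eq_one_sub hA] at h2
  rw [abs_le]
  constructor <;> linarith

/-- induction on the list (generalizing `R`), `chg_mul`, `om_shift`, `om_mono` -/
theorem om_chg_list {Y : Type*} {f : G → Y} (hf : Step f) (l : List G) {θ : ℝ}
    (hl : ∀ h ∈ l, h ∈ Ball (S : Set G) u) (hR : R + l.length * u ≤ R')
    (hθ : ∀ h ∈ l, (om S ζ j R').real (Chg f h) ≤ θ) :
    (om S ζ j R).real (Chg f l.prod) ≤ l.length * θ := by
  induction l generalizing R with
  | nil => simp [Chg]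
  | cons a l ih =>
    rw [List.length_cons] at hR
    have hR' : R + u + l.length * u ≤ R' := by nlinarith
    have h1 := ih (fun h hh => hl h (List.mem_cons_of_mem _ hh)) hR'
      fun h hh => hθ h (List.mem_cons_of_mem _ hh)
    have h2 := om_shift (ζ := ζ) (j := j) (Chg.meas hf l.prod) (hl a List.mem_cons_self)
      (le_refl (R + u))
    have h3 := om_mono (S := S) (ζ := ζ) (j := j) (Chg.meas hf a) (by omega : R ≤ R')
    have h4 := hθ a List.mem_cons_self
    have h5 := (measureReal_mono (μ := om S ζ j R) (chg_mul f a l.prod)).trans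
      (measureReal_union_le _ _)
    rw [List.prod_cons, List.length_cons]
    push_cast
    linarith

end om

namespace Geo

variable {G : Type} [Group G] [MeasurableSpace G] {k : ℕ} (X : Geo G k)

/-- the displacement along `g` deviates from the label -/
def Dev (ψ : G → G) (lab : G → Module.End ℝ (Fin k → ℝ)) (g : G) (ρ : ℝ) : Set G :=
  {x | ρ < ‖X.π (ψ (x * g)) - X.π (ψ x) - lab x (X.π g)‖}

/-- generic directions -/
def Gen (v : Fin k → ℝ) : Prop := ∀ w, X.IsW w → ∀ i, X.χ i (w v) ≠ 0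

/-- sign vectors -/
def sg (v : Fin k → ℝ) (w : Module.End ℝ (Fin k → ℝ)) : X.ι → Prop := fun i => 0 < X.χ i (w v)

/-- all heights of `T` lie in the chamber of `v` -/
def Cone (v : Fin k → ℝ) (T : Finset G) : Prop :=
  ∀ t ∈ T, X.Gen (X.π t) ∧ ∀ w, X.IsW w → X.sg (X.π t) w = X.sg v w

/-- bounded generation of the flat balls by powers of elements of `T` -/
def PowGen (T : Finset G) (C : ℕ) : Prop :=
  (∀ t ∈ T, t ∈ Ball (X.SC : Set G) C) ∧ ∀ n, ∀ g ∈ Ball (X.SC : Set G) n,
    ∃ l : List (G × ℤ), l.length ≤ C ∧ (∀ p ∈ l, p.1 ∈ T ∧ |p.2| ≤ (C * n : ℕ)) ∧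
      (l.map fun p => p.1 ^ p.2).prod = g

/-- the flat translates of `ζ` are almost invariant under ray boxes -/
def RInv (ζ : Measure G) (j : ℕ) (η : ℝ) : Prop :=
  ∀ c ∈ Ball (X.SC : Set G) j, ∀ (i : X.ι) (b : ℝ),
    (b ≤ j ∨ ∃ p ∈ Ball (X.SC : Set G) j, b ≤ X.χ i (X.π p)) →
      ∀ g ∈ X.RB i b, TVr (ζ.map fun z => z * c) g η

/-- partial sums of the slopes read along the line through `x` -/
noncomputable def slopeV (lab : G → Module.End ℝ (Fin k → ℝ)) (t : G) (r L : ℕ) (x : G) : ℝ :=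
  X.V (lev X.χ ((fun l => ∑ l' ∈ Finset.range l, lab (x * t ^ (l' * r)) (X.π t)) '' Set.Iic L))

/-- a sequence of labelled quasi-isometries with vanishing errors; `r` window, `n` scale,
`j` radius of the Følner ball -/
structure PS (c : ℕ) (𝒯 : Finset G) where
  /-- window -/
  r : ℕ → ℕ
  /-- scale -/
  n : ℕ → ℕ
  /-- radius -/
  j : ℕ → ℕ
  /-- maps -/
  ψ : ℕ → G → G
  /-- measures -/
  ζ : ℕ → Measure G
  /-- labels -/
  lab : ℕ → G → Module.End ℝ (Fin k → ℝ)
  qi : ∀ s, QI X.Sg X.Sg (ψ s) c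
  step : ∀ s, Step (ψ s)
  prob : ∀ s, IsProbabilityMeasure (ζ s)
  isW : ∀ s x, X.IsW (lab s x)
  lstep : ∀ s, Step (lab s)
  r_pos : ∀ s, 1 ≤ r s
  r_le : ∀ s, (s + 1) * r s ≤ n s
  rinv : ∀ s, X.RInv (ζ s) (j s) (1 / (s + 1))
  dev : ∀ s, ∀ t ∈ 𝒯, (om X.SC (ζ s) (j s) (j s)).real
    (X.Dev (ψ s) (lab s) (t ^ r s) (1 / (s + 1) * r s)) ≤ 1 / (s + 1)
  chg : ∀ s, ∀ t ∈ 𝒯, ∀ e < r s, (om X.SC (ζ s) (j s) (j s)).real (Chg (lab s) (t ^ e)) ≤ 1 / (s + 1)

attribute [instance] PS.prob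

/-- the measure at radius `R` -/
noncomputable abbrev PS.m {X : Geo G k} {c : ℕ} {𝒯 : Finset G} (D : X.PS c 𝒯) (s R : ℕ) :
    Measure G := om X.SC (D.ζ s) (D.j s) R

theorem ev_small {δ : ℝ} (hδ : 0 < δ) : ∀ᶠ s : ℕ in atTop, 1 / ((s : ℝ) + 1) ≤ δ :=
  tendsto_one_div_add_atTop_nhds_zero_nat.eventually (ge_mem_nhds hδ)

theorem Dev.anti (ψ : G → G) (lab : G → Module.End ℝ (Fin k → ℝ)) (g : G) {ρ ρ' : ℝ} (h : ρ ≤ ρ') :
    X.Dev ψ lab g ρ' ⊆ X.Dev ψ lab g ρ := fun _ hx => lt_of_le_of_lt h hx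

theorem dev_mul (ψ : G → G) (lab : G → Module.End ℝ (Fin k → ℝ)) (g h : G) (ρ ρ' : ℝ) :
    X.Dev ψ lab (g * h) (ρ + ρ') ⊆
      X.Dev ψ lab g ρ ∪ {x | x * g ∈ X.Dev ψ lab h ρ'} ∪ Chg lab g := by
  intro x hx
  by_contra hc
  simp only [Dev, Chg, Set.mem_union, Set.mem_ofPred_eq, not_or, not_not, not_lt] at hc hx
  obtain ⟨⟨h1, h2⟩, h3⟩ := hc
  rw [h3] at h2
  have e : X.π (ψ (x * (g * h))) - X.π (ψ x) - lab x (X.π (g * h)) =
      (X.π (ψ (x * g)) - X.π (ψ x) - lab x (X.π g)) +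
        (X.π (ψ (x * g * h)) - X.π (ψ (x * g)) - lab x (X.π h)) := by
    rw [X.π_hom g h, map_add, mul_assoc]; abel
  rw [e] at hx
  linarith [norm_add_le (X.π (ψ (x * g)) - X.π (ψ x) - lab x (X.π g))
    (X.π (ψ (x * g * h)) - X.π (ψ (x * g)) - lab x (X.π h))]

theorem dev_inv (ψ : G → G) (lab : G → Module.End ℝ (Fin k → ℝ)) (g : G) (ρ : ℝ) :
    X.Dev ψ lab g⁻¹ ρ ⊆ {x | x * g⁻¹ ∈ X.Dev ψ lab g ρ} ∪ Chg lab g⁻¹ := by
  intro x hx
  by_contra hc
  simp only [Dev, Chg, Set.mem_union, Set.mem_ofPred_eq, not_or, not_not, not_lt,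
    inv_mul_cancel_right] at hc hx
  obtain ⟨h1, h3⟩ := hc
  rw [h3] at h1
  have e : X.π (ψ (x * g⁻¹)) - X.π (ψ x) - lab x (X.π g⁻¹) =
      -(X.π (ψ x) - X.π (ψ (x * g⁻¹)) - lab x (X.π g)) := by
    rw [X.π_hom.inv, map_neg]; abel
  rw [e, norm_neg] at hx
  linarith

/-- `flat_ball`, `ht_lip`, `π_ball`, `isW_bound` -/
theorem dev_bound (c : ℕ) : ∃ B : ℝ, 1 ≤ B ∧ ∀ (u : ℕ), 1 ≤ u → ∀ g ∈ Ball (X.SC : Set G) u,
    (∀ ψ, QI X.Sg X.Sg ψ c → ∀ x, ‖X.π (ψ (x * g)) - X.π (ψ x)‖ ≤ B * u) ∧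
      ∀ w, X.IsW w → ‖w (X.π g)‖ ≤ B * u := by
  obtain ⟨B, hB1, hB⟩ := X.isW_bound
  have hK : (0 : ℝ) ≤ X.K := Nat.cast_nonneg _
  have hc : (0 : ℝ) ≤ c := Nat.cast_nonneg _
  have h1 : (0 : ℝ) ≤ X.K * (c * X.K + c) := by positivity
  have h2 : (0 : ℝ) ≤ B * (X.K * X.K) := by positivity
  refine ⟨1 + X.K * (c * X.K + c) + B * (X.K * X.K), by linarith, fun u hu g hg => ⟨?_, ?_⟩⟩
  · intro ψ hψ x
    have hu' : (1 : ℝ) ≤ u := by exact_mod_cast hu
    have h3 := X.ht_lip hψ (x := x) (y := x * g) (n := X.K * u)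
      (by rw [inv_mul_cancel_left]; exact X.flat_ball hg)
    refine h3.trans ?_
    push_cast
    have h4 : (X.K : ℝ) * c * 1 ≤ X.K * c * u := by gcongr
    have h5 : 0 ≤ B * (X.K * X.K) * u := by positivity
    nlinarith
  · intro w hw
    have hu' : (0 : ℝ) ≤ u := Nat.cast_nonneg _
    have h3 := X.π_ball (X.flat_ball hg)
    refine (hB w hw _).trans ((mul_le_mul_of_nonneg_left h3 (by linarith)).trans ?_)
    push_cast
    have h5 : 0 ≤ X.K * (c * X.K + c) * (u : ℝ) := by positivity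
    nlinarith

variable [MeasurableMul₂ G] [MeasurableInv G]

theorem Dev.meas {ψ : G → G} {lab : G → Module.End ℝ (Fin k → ℝ)} (h : Step ψ) (h' : Step lab)
    (g : G) (ρ : ℝ) : MeasurableSet (X.Dev ψ lab g ρ) :=
  (((h.mul_right g).prod h).prod h').measurableSet
    fun p => ρ < ‖X.π p.1.1 - X.π p.1.2 - p.2 (X.π g)‖

/-- induction on the list (generalizing `R`), `dev_mul`, `om_shift`, `om_mono` -/
theorem om_dev_list {ψ : G → G} {lab : G → Module.End ℝ (Fin k → ℝ)} (h : Step ψ) (h' : Step lab)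
    {ζ : Measure G} [IsProbabilityMeasure ζ] {j R R' u : ℕ} (l : List G) {ρ θ : ℝ}
    (hl : ∀ g ∈ l, g ∈ Ball (X.SC : Set G) u) (hR : R + l.length * u ≤ R')
    (h1 : ∀ g ∈ l, (om X.SC ζ j R').real (X.Dev ψ lab g ρ) ≤ θ)
    (h2 : ∀ g ∈ l, (om X.SC ζ j R').real (Chg lab g) ≤ θ) :
    (om X.SC ζ j R).real (X.Dev ψ lab l.prod (l.length * ρ)) ≤ l.length * (2 * θ) := by
  induction l generalizing R with
  | nil => simp [Dev, X.π_hom.one]
  | cons a l ih =>
    rw [List.length_cons] at hR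
    have hR' : R + u + l.length * u ≤ R' := by nlinarith
    have h3 := ih (fun h hh => hl h (List.mem_cons_of_mem _ hh)) hR'
      (fun h hh => h1 h (List.mem_cons_of_mem _ hh)) fun h hh => h2 h (List.mem_cons_of_mem _ hh)
    have h4 := om_shift (ζ := ζ) (j := j) (Dev.meas X h h' l.prod (l.length * ρ))
      (hl a List.mem_cons_self) (le_refl (R + u))
    have h5 := om_mono (S := X.SC) (ζ := ζ) (j := j) (Chg.meas h' a) (by omega : R ≤ R')
    have h6 := om_mono (S := X.SC) (ζ := ζ) (j := j) (Dev.meas X h h' a ρ) (by omega : R ≤ R')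
    have h7 := h1 a List.mem_cons_self
    have h8 := h2 a List.mem_cons_self
    have h9 := (measureReal_mono (μ := om X.SC ζ j R)
      (X.dev_mul ψ lab a l.prod ρ (l.length * ρ))).trans (measureReal_union_le _ _)
    have h10 := measureReal_union_le (μ := om X.SC ζ j R) (X.Dev ψ lab a ρ)
      {x | x * a ∈ X.Dev ψ lab l.prod (l.length * ρ)}
    have e : (((a :: l).length : ℕ) : ℝ) * ρ = ρ + l.length * ρ := by
      rw [List.length_cons]; push_cast; ring
    rw [List.prod_cons, e, List.length_cons]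
    push_cast
    linarith

end Geo

end Crest.Agent.R182
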