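import Crest.Agent.R182.MP0

/-! Row 182, block M3: sign vectors along broken lines, cones of generators. -/

set_option autoImplicit false
set_option linter.dupNamespace false
set_option linter.unusedSectionVars false

namespace Crest.Agent.R182

open Crest.GroupTheory MeasureTheory Filter

open Classical in
/-- `∑_{l < L} x⁺ - ∑_{l < l₀} x = ∑_{l < l₀} x⁻ + ∑_{l₀ ≤ l < L} x⁺` -/
theorem seq_bad {x : ℕ → ℝ} {κ : ℝ} (hκ : 0 ≤ κ) {L l₀ : ℕ} (hl : l₀ ≤ L) (hx : ∀ l < L, κ ≤ |x l|) :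
    κ * ((Finset.range L).filter fun l => (l < l₀ ∧ x l < 0) ∨ (l₀ ≤ l ∧ 0 < x l)).card ≤
      ∑ l ∈ Finset.range L, max (x l) 0 - ∑ l ∈ Finset.range l₀, x l := by
  have h1 : ∑ l ∈ Finset.range l₀, x l = ∑ l ∈ Finset.range L, if l < l₀ then x l else 0 := by
    rw [← Finset.sum_filter]
    refine Finset.sum_congr ?_ fun _ _ => rfl
    ext l
    simp only [Finset.mem_range, Finset.mem_filter]
    omega
  rw [h1, ← Finset.sum_sub_distrib, Finset.card_filter, Nat.cast_sum, Finset.mul_sum]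
  refine Finset.sum_le_sum fun l hl' => ?_
  have h2 := hx l (Finset.mem_range.1 hl')
  by_cases h3 : l < l₀
  · rw [if_pos h3]
    by_cases h4 : x l < 0
    · rw [if_pos (Or.inl ⟨h3, h4⟩), max_eq_right h4.le]
      rw [abs_of_neg h4] at h2
      push_cast
      linarith
    · rw [if_neg (by rintro (h | h); exacts [h4 h.2, absurd h.1 (by omega)])]
      have := le_max_left (x l) 0
      push_cast
      linarith
  · rw [if_neg h3]
    by_cases h4 : 0 < x l
    · rw [if_pos (Or.inr ⟨not_lt.1 h3, h4⟩), max_eq_left h4.le]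
      rw [abs_of_pos h4] at h2
      push_cast
      linarith
    · rw [if_neg (by rintro (h | h); exacts [h3 h.1, h4 h.2])]
      have := le_max_right (x l) 0
      push_cast
      linarith

namespace Geo

variable {G : Type} [Group G] [MeasurableSpace G] {k : ℕ} (X : Geo G k)

/-- the broken line `a, a'` loses no volume -/
def Turn (a a' : Fin k → ℝ) : Prop := X.V (lev X.χ {0, a, a + a'}) = X.nu a + X.nu a'

theorem lev_triple (a a' : Fin k → ℝ) :
    lev X.χ {0, a, a + a'} = fun i => max 0 (max (X.χ i a) (X.χ i a + X.χ i a')) := by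
  funext i
  unfold lev
  rw [Set.image_insert_eq, Set.image_pair, map_zero, map_add,
    csSup_insert (Set.toFinite _).bddAbove (Set.insert_nonempty _ _), csSup_pair]

theorem nu_ge (b : X.β) (a : Fin k → ℝ) : ∑ i, X.wt b i * max (X.χ i a) 0 ≤ X.nu a := by
  rw [nu, lev_pair]
  exact X.le_V b _

/-- `w '' {0, a, a + a'} = {0, w a, w a + w a'}`, `IsW.nu` -/
theorem Turn.map {X : Geo G k} {a a' : Fin k → ℝ} (h : X.Turn a a')
    {w : Module.End ℝ (Fin k → ℝ)} (hw : X.IsW w) : X.Turn (w a) (w a') := by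
  have h1 := hw {0, a, a + a'} (Set.toFinite _) (Set.insert_nonempty _ _)
  rw [Set.image_insert_eq, Set.image_pair, map_zero, map_add] at h1
  rw [Turn, h1, hw.nu, hw.nu]
  exact h

theorem h24_max_le (x y : ℝ) : max 0 (max x (x + y)) ≤ max x 0 + max y 0 := by
  have h1 := le_max_left x 0
  have h2 := le_max_right x 0
  have h3 := le_max_left y 0
  have h4 := le_max_right y 0
  exact max_le (by linarith) (max_le (by linarith) (by linarith))

/-- `exists_V`, `lev_triple`, `nu_ge`, `wt_pos`: every inequality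
`max 0 (max x (x + y)) ≤ x⁺ + y⁺` is an equality -/
theorem Turn.neg {X : Geo G k} {a a' : Fin k → ℝ} (h : X.Turn a a') (i : X.ι) :
    ¬ (X.χ i a < 0 ∧ 0 < X.χ i a') := by
  rintro ⟨h1, h2⟩
  rw [Turn, lev_triple] at h
  obtain ⟨b, hb⟩ := X.exists_V fun i => max 0 (max (X.χ i a) (X.χ i a + X.χ i a'))
  have h3 : ∑ j, X.wt b j * max 0 (max (X.χ j a) (X.χ j a + X.χ j a')) <
      ∑ j, (X.wt b j * max (X.χ j a) 0 + X.wt b j * max (X.χ j a') 0) := by
    refine Finset.sum_lt_sum (fun j _ => ?_) ⟨i, Finset.mem_univ _, ?_⟩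
    · rw [← mul_add]
      exact mul_le_mul_of_nonneg_left (h24_max_le _ _) (X.wt_pos b j).le
    · rw [← mul_add]
      refine mul_lt_mul_of_pos_left ?_ (X.wt_pos b i)
      rw [max_eq_right h1.le, max_eq_left h2.le]
      exact max_lt (by linarith) (max_lt (by linarith) (by linarith))
  rw [Finset.sum_add_distrib] at h3
  linarith [X.nu_ge b a, X.nu_ge b a']

/-- `≥` by `le_V b`, `≤` by `exists_V`, `nu_ge` -/
theorem turn_of_opt {a a' : Fin k → ℝ} (b : X.β) (ha : ∑ i, X.wt b i * max (X.χ i a) 0 = X.nu a)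
    (ha' : ∑ i, X.wt b i * max (X.χ i a') 0 = X.nu a') (h : ∀ i, ¬ (X.χ i a < 0 ∧ 0 < X.χ i a')) :
    X.Turn a a' := by
  rw [Turn, lev_triple]
  apply le_antisymm
  · obtain ⟨b', hb⟩ := X.exists_V fun i => max 0 (max (X.χ i a) (X.χ i a + X.χ i a'))
    rw [hb]
    refine le_trans ?_ (add_le_add (X.nu_ge b' a) (X.nu_ge b' a'))
    rw [← Finset.sum_add_distrib]
    refine Finset.sum_le_sum fun j _ => ?_
    rw [← mul_add]
    exact mul_le_mul_of_nonneg_left (h24_max_le _ _) (X.wt_pos b' j).le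
  · refine le_trans ?_ (X.le_V b _)
    rw [← ha, ← ha', ← Finset.sum_add_distrib]
    refine Finset.sum_le_sum fun j _ => ?_
    rw [← mul_add]
    refine mul_le_mul_of_nonneg_left ?_ (X.wt_pos b j).le
    have h1 := h j
    rcases le_or_gt 0 (X.χ j a) with h2 | h2
    · rw [max_eq_left h2]
      rcases le_total 0 (X.χ j a') with h3 | h3
      · rw [max_eq_left h3]
        exact le_max_of_le_right (le_max_right _ _)
      · rw [max_eq_right h3, add_zero]
        exact le_max_of_le_right (le_max_left _ _)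
    · rw [max_eq_right h2.le, max_eq_right (not_lt.1 fun h3 => h1 ⟨h2, h3⟩), add_zero]
      exact le_max_left _ _

/-- `u = w' * w⁻¹` (`IsW.inv`) has finite order `m` (`iso_order`, `IsW.nu`); `Turn.map` gives
`Turn (u ^ q a) (u ^ (q + 1) a)` for `a = w v`, so by `Turn.neg` and genericity the sets
`{i | χ i (u ^ q a) < 0}` increase with `q`; `u ^ m = 1` -/
theorem Turn.sg_eq {X : Geo G k} {v : Fin k → ℝ} (hv : X.Gen v) {w w' : Module.End ℝ (Fin k → ℝ)}
    (hw : X.IsW w) (hw' : X.IsW w') (h : X.Turn (w v) (w' v)) : X.sg v w = X.sg v w' := by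
  obtain ⟨wi, hwi, -, e2⟩ := hw.inv
  have hu : X.IsW (w' * wi) := hw'.mul hwi
  obtain ⟨m, hm, he⟩ := X.iso_order hu.nu
  have hw1 : (w' * wi) (w v) = w' v := by
    rw [← Module.End.mul_apply, mul_assoc, e2, mul_one]
  have hp : ∀ q : ℕ, X.IsW ((w' * wi) ^ q) := fun q => helper69_pow hu q
  have hne : ∀ (q : ℕ) i, X.χ i (((w' * wi) ^ q) (w v)) ≠ 0 := fun q i =>
    hv _ ((hp q).mul hw) i
  have hstep : ∀ (q : ℕ) i, X.χ i (((w' * wi) ^ q) (w v)) < 0 →
      X.χ i (((w' * wi) ^ (q + 1)) (w v)) < 0 := fun q i h1 => by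
    have h2 := (h.map (hp q)).neg i
    rw [← hw1, ← Module.End.mul_apply _ (w' * wi), ← pow_succ] at h2
    exact lt_of_le_of_ne (not_lt.1 fun h3 => h2 ⟨h1, h3⟩) (hne _ i)
  have hall : ∀ (q : ℕ) i, X.χ i (w' v) < 0 → X.χ i (((w' * wi) ^ (q + 1)) (w v)) < 0 := by
    intro q i h1
    induction q with
    | zero => rwa [zero_add, pow_one, hw1]
    | succ q ih => exact hstep _ i ih
  funext i
  refine propext ⟨fun h1 => ?_, fun h1 => ?_⟩
  · refine lt_of_le_of_ne (not_lt.1 fun h2 => ?_) (hv _ hw' i).symm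
    obtain ⟨q, rfl⟩ := Nat.exists_eq_succ_of_ne_zero hm.ne'
    have h3 := hall q i h2
    rw [he, Module.End.one_apply] at h3
    exact lt_asymm h1 h3
  · exact lt_of_le_of_ne (not_lt.1 fun h2 => h.neg i ⟨h2, h1⟩) (hv _ hw i).symm

theorem h74_gap {T : Set ℝ} (hT : T.Finite) : ∃ κ : ℝ, 0 < κ ∧ ∀ t ∈ T, 0 < t → κ ≤ t := by
  rcases (T ∩ Set.Ioi 0).eq_empty_or_nonempty with h | h
  · exact ⟨1, one_pos, fun t ht h0 => absurd (h ▸ (⟨ht, h0⟩ : t ∈ T ∩ Set.Ioi 0)) (Set.notMem_empty t)⟩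
  · obtain ⟨m, hm, hmin⟩ := Set.exists_min_image _ id (hT.inter_of_left _) h
    exact ⟨m, hm.2, fun t ht h0 => hmin t ⟨ht, h0⟩⟩

/-- finiteness of `IsW`, `β`, `ι` -/
theorem exists_gap {v : Fin k → ℝ} (hv : X.Gen v) : ∃ κ : ℝ, 0 < κ ∧ ∀ w, X.IsW w →
    (∀ b i, κ ≤ X.wt b i * |X.χ i (w v)|) ∧
      ∀ b, ∑ i, X.wt b i * max (X.χ i (w v)) 0 = X.nu (w v) ∨
        ∑ i, X.wt b i * max (X.χ i (w v)) 0 + κ ≤ X.nu (w v) := by
  obtain ⟨κ₁, h₁, H₁⟩ := h74_gap ((X.isW_finite.prod (Set.finite_univ (α := X.β × X.ι))).image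
    fun p => X.wt p.2.1 p.2.2 * |X.χ p.2.2 (p.1 v)|)
  obtain ⟨κ₂, h₂, H₂⟩ := h74_gap ((X.isW_finite.prod (Set.finite_univ (α := X.β))).image
    fun p => X.nu (p.1 v) - ∑ i, X.wt p.2 i * max (X.χ i (p.1 v)) 0)
  refine ⟨min κ₁ κ₂, lt_min h₁ h₂, fun w hw => ⟨fun b i => (min_le_left _ _).trans ?_, fun b => ?_⟩⟩
  · exact H₁ _ ⟨(w, b, i), ⟨hw, Set.mem_univ _⟩, rfl⟩
      (mul_pos (X.wt_pos b i) (abs_pos.2 (hv w hw i)))
  · rcases (X.nu_ge b (w v)).eq_or_lt with h | h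
    · exact Or.inl h
    · have := H₂ _ ⟨(w, b), ⟨hw, Set.mem_univ _⟩, rfl⟩ (sub_pos.2 h)
      have h3 := min_le_right κ₁ κ₂
      exact Or.inr (by dsimp only at this; linarith)

/-- `b` the maximiser (`exists_V`), `l₀ i ≤ L` the index where `χ i` of the partial sums is maximal
(`exists_lev`). `L ν(v) - V = ∑_l (ν(w l v) - ∑_i wt b i (χ i (w l v))⁺) + ∑_i wt b i (∑_l (..)⁺ - lev i)`,
all terms are nonnegative. `Bad` = indices that are not `b`-optimal (`exists_gap`) or counted in `seq_bad`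
(with `κ / wt b i`) for some `i`; `C₁ = 1 / κ`; for good `l < l'` use `turn_of_opt`, `Turn.sg_eq` -/
theorem sign_const {v : Fin k → ℝ} (hv : X.Gen v) : ∃ C₁ : ℝ, 0 ≤ C₁ ∧
    ∀ (L : ℕ) (w : ℕ → Module.End ℝ (Fin k → ℝ)), (∀ l, X.IsW (w l)) → ∃ Bad : Finset ℕ,
      (Bad.card : ℝ) ≤ C₁ * (L * X.nu v -
        X.V (lev X.χ ((fun l => ∑ l' ∈ Finset.range l, w l' v) '' Set.Iic L))) ∧
      ∀ l < L, ∀ l' < L, l ∉ Bad → l' ∉ Bad → X.sg v (w l) = X.sg v (w l') := by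
  classical
  obtain ⟨κ, hκ, H⟩ := X.exists_gap hv
  refine ⟨1 / κ, by positivity, fun L w hw => ?_⟩
  set S : Set (Fin k → ℝ) := (fun l => ∑ l' ∈ Finset.range l, w l' v) '' Set.Iic L with hS
  have hf : S.Finite := (Set.finite_Iic L).image _
  have hn : S.Nonempty := ⟨_, 0, Nat.zero_le L, rfl⟩
  obtain ⟨b, hb⟩ := X.exists_V (lev X.χ S)
  have hl : ∀ i, ∃ l₀ ≤ L, lev X.χ S i = ∑ l ∈ Finset.range l₀, X.χ i (w l v) := by
    intro i
    obtain ⟨s, ⟨l₀, h0, rfl⟩, hs⟩ := exists_lev (χ := X.χ) hf hn i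
    exact ⟨l₀, h0, by rw [hs, map_sum]⟩
  choose l₀ hl₀ hlev using hl
  set x : X.ι → ℕ → ℝ := fun i l => X.wt b i * X.χ i (w l v) with hx
  set B₀ : Finset ℕ := (Finset.range L).filter fun l =>
    ∑ i, X.wt b i * max (X.χ i (w l v)) 0 ≠ X.nu (w l v) with hB₀
  set B₁ : X.ι → Finset ℕ := fun i => (Finset.range L).filter fun l =>
    (l < l₀ i ∧ x i l < 0) ∨ (l₀ i ≤ l ∧ 0 < x i l) with hB₁
  have hmax : ∀ i l, max (x i l) 0 = X.wt b i * max (X.χ i (w l v)) 0 := by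
    intro i l
    rw [mul_max_of_nonneg _ _ (X.wt_pos b i).le, mul_zero]
  have c₁ : ∀ i, κ * (B₁ i).card ≤
      ∑ l ∈ Finset.range L, max (x i l) 0 - ∑ l ∈ Finset.range (l₀ i), x i l := by
    intro i
    have := seq_bad (x := x i) hκ.le (hl₀ i) fun l _ => by
      rw [hx]
      dsimp only
      rw [abs_mul, abs_of_pos (X.wt_pos b i)]
      exact (H _ (hw l)).1 b i
    convert this
  have c₀ : κ * B₀.card ≤
      ∑ l ∈ Finset.range L, (X.nu (w l v) - ∑ i, X.wt b i * max (X.χ i (w l v)) 0) := by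
    calc κ * B₀.card = ∑ l ∈ B₀, κ := by rw [Finset.sum_const, nsmul_eq_mul, mul_comm]
      _ ≤ ∑ l ∈ B₀, (X.nu (w l v) - ∑ i, X.wt b i * max (X.χ i (w l v)) 0) := by
        refine Finset.sum_le_sum fun l hl => ?_
        rcases (H _ (hw l)).2 b with h | h
        · exact absurd h (Finset.mem_filter.1 hl).2
        · linarith
      _ ≤ _ := Finset.sum_le_sum_of_subset_of_nonneg (Finset.filter_subset _ _)
        fun l _ _ => sub_nonneg.2 (X.nu_ge b _)
  refine ⟨B₀ ∪ Finset.univ.biUnion B₁, ?_, ?_⟩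
  · have d₁ : ((B₀ ∪ Finset.univ.biUnion B₁).card : ℝ) ≤ B₀.card + ∑ i, ((B₁ i).card : ℝ) := by
      exact_mod_cast (Finset.card_union_le _ _).trans
        (Nat.add_le_add_left Finset.card_biUnion_le _)
    have d₂ : κ * ∑ i, ((B₁ i).card : ℝ) ≤
        ∑ i, (∑ l ∈ Finset.range L, max (x i l) 0 - ∑ l ∈ Finset.range (l₀ i), x i l) := by
      rw [Finset.mul_sum]
      exact Finset.sum_le_sum fun i _ => c₁ i
    have d₃ : ∑ l ∈ Finset.range L, X.nu (w l v) = L * X.nu v := by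
      rw [Finset.sum_congr rfl fun l _ => (hw l).nu v, Finset.sum_const, Finset.card_range,
        nsmul_eq_mul]
    have d₄ : ∑ i, ∑ l ∈ Finset.range L, max (x i l) 0 =
        ∑ l ∈ Finset.range L, ∑ i, X.wt b i * max (X.χ i (w l v)) 0 := by
      rw [Finset.sum_comm]
      exact Finset.sum_congr rfl fun l _ => Finset.sum_congr rfl fun i _ => hmax i l
    have d₅ : ∑ i, ∑ l ∈ Finset.range (l₀ i), x i l = X.V (lev X.χ S) := by
      rw [hb]
      exact Finset.sum_congr rfl fun i _ => by rw [hlev, Finset.mul_sum]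
    rw [Finset.sum_sub_distrib, d₄, d₅] at d₂
    rw [Finset.sum_sub_distrib, d₃] at c₀
    rw [one_div, inv_mul_eq_div, le_div_iff₀ hκ]
    nlinarith [mul_le_mul_of_nonneg_left d₁ hκ.le]
  · have key : ∀ l < L, ∀ l' < L, l ∉ B₀ ∪ Finset.univ.biUnion B₁ →
        l' ∉ B₀ ∪ Finset.univ.biUnion B₁ → l ≤ l' → X.sg v (w l) = X.sg v (w l') := by
      intro l hl l' hl' h h' hle
      rw [Finset.mem_union, not_or] at h h'
      have o : ∀ l < L, l ∉ B₀ → ∑ i, X.wt b i * max (X.χ i (w l v)) 0 = X.nu (w l v) := by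
        intro l hl h
        by_contra hc
        exact h (Finset.mem_filter.2 ⟨Finset.mem_range.2 hl, hc⟩)
      refine Turn.sg_eq hv (hw l) (hw l') (X.turn_of_opt b (o l hl h.1) (o l' hl' h'.1) ?_)
      rintro i ⟨h1, h2⟩
      by_cases hc : l < l₀ i
      · exact h.2 (Finset.mem_biUnion.2 ⟨i, Finset.mem_univ _, Finset.mem_filter.2
          ⟨Finset.mem_range.2 hl, Or.inl ⟨hc, mul_neg_of_pos_of_neg (X.wt_pos b i) h1⟩⟩⟩)
      · exact h'.2 (Finset.mem_biUnion.2 ⟨i, Finset.mem_univ _, Finset.mem_filter.2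
          ⟨Finset.mem_range.2 hl', Or.inr ⟨by omega, mul_pos (X.wt_pos b i) h2⟩⟩⟩)
    intro l hl l' hl' h h'
    rcases le_total l l' with hle | hle
    · exact key l hl l' hl' h h' hle
    · exact (key l' hl' l hl h' h hle).symm

theorem h12_prop {φ ψ : (Fin k → ℝ) →ₗ[ℝ] ℝ} {e e' : Fin k → ℝ} (he : φ e = 1) (he' : ψ e' = 1)
    (h : ∀ v, 0 < φ v → 0 ≤ ψ v) : ∃ t : ℝ, 0 < t ∧ ∀ v, ψ v = t * φ v := by
  have h0 : ∀ v, φ v = 0 → ψ v = 0 := by
    intro v hv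
    by_contra hne
    have := h (e + (-(ψ e + 1) / ψ v) • v) (by simp [he, hv])
    rw [map_add, map_smul, smul_eq_mul, div_mul_cancel₀ _ hne] at this
    linarith
  have h1 : ∀ v, ψ v = ψ e * φ v := by
    intro v
    have := h0 (v - φ v • e) (by simp [he])
    rw [map_sub, map_smul, smul_eq_mul] at this
    linarith
  refine ⟨ψ e, lt_of_le_of_ne (h e (by rw [he]; exact one_pos)) fun h2 => ?_, h1⟩
  have := h1 e'
  rw [he', ← h2, zero_mul] at this
  exact one_ne_zero this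

theorem h12_ball_fin {S : Set G} (T : Finset G) (h : ∀ t ∈ T, t ∈ Subgroup.closure S) :
    ∃ a : ℕ, ∀ t ∈ T, t ∈ Ball S a := by
  choose! s hs using fun t (ht : t ∈ T) => Ball.exists_of_mem_closure (h t ht)
  exact ⟨T.sup s, fun t ht => Ball.mono subset_rfl (Finset.le_sup (f := s) ht) (hs t ht)⟩

/-- otherwise `χ i ∘ w' = t i • χ i ∘ w` with `0 < t i`; `u = w' * w⁻¹` has finite order, so `t i = 1`,
and `span` gives `w = w'` -/
theorem exists_sep_dir {w w' : Module.End ℝ (Fin k → ℝ)} (hw : X.IsW w) (hw' : X.IsW w')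
    (h : w ≠ w') : ∃ i v, 0 < X.χ i (w v) ∧ X.χ i (w' v) < 0 := by
  by_contra hc
  push Not at hc
  obtain ⟨a, ha, ha1, -⟩ := hw.inv
  obtain ⟨a', -, ha1', -⟩ := hw'.inv
  have e1 : ∀ x, w (a x) = x := fun x => LinearMap.congr_fun ha1 x
  have e2 : ∀ x, w' (a' x) = x := fun x => LinearMap.congr_fun ha1' x
  obtain ⟨m, hm, hu⟩ := X.iso_order (w := w' * a) (hw'.mul ha).nu
  refine h (LinearMap.ext fun v => (sub_eq_zero.1 (X.span _ fun i => ?_)).symm)
  obtain ⟨t, ht, H⟩ := h12_prop (φ := (X.χ i).comp w) (ψ := (X.χ i).comp w') (e := a (X.u i))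
    (e' := a' (X.u i)) (by simp [e1, X.u_self]) (by simp [e2, X.u_self]) (hc i)
  simp only [LinearMap.comp_apply] at H
  have h3 : ∀ (n : ℕ) x, X.χ i (((w' * a) ^ n) x) = t ^ n * X.χ i x := by
    intro n
    induction n with
    | zero => intro x; simp
    | succ n ih =>
      intro x
      rw [pow_succ', Module.End.mul_apply, Module.End.mul_apply, H, e1, ih]
      ring
  have h4 := h3 m (X.u i)
  rw [hu, Module.End.one_apply, X.u_self, mul_one] at h4
  have h5 : t = 1 := (pow_eq_one_iff_of_nonneg ht.le hm.ne').1 h4.symm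
  rw [map_sub, H, h5, one_mul, sub_self]

theorem h44_sign {Φ : Set ((Fin k → ℝ) →ₗ[ℝ] ℝ)} (hΦ : Φ.Finite) (v : Fin k → ℝ) :
    ∃ ε : ℝ, 0 < ε ∧ ∀ (x : Fin k → ℝ) (τ : ℝ), 0 < τ → ‖x - τ • v‖ ≤ ε * τ →
      ∀ φ ∈ Φ, (0 < φ v → 0 < φ x) ∧ (φ v < 0 → φ x < 0) := by
  have h : ∀ᶠ x in nhds v, ∀ φ ∈ Φ, (0 < φ v → 0 < φ x) ∧ (φ v < 0 → φ x < 0) := by
    refine (eventually_all_finite hΦ).2 fun φ _ => ?_
    have hc := φ.continuous_of_finiteDimensional.tendsto v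
    refine Eventually.and ?_ ?_
    · exact eventually_imp_distrib_left.2 fun h => hc.eventually (lt_mem_nhds h)
    · exact eventually_imp_distrib_left.2 fun h => hc.eventually (gt_mem_nhds h)
  obtain ⟨ε, hε, h⟩ := Metric.nhds_basis_closedBall.eventually_iff.1 h
  refine ⟨ε, hε, fun x τ hτ hx φ hφ => ?_⟩
  have h1 : τ⁻¹ • x ∈ Metric.closedBall v ε := by
    rw [mem_closedBall_iff_norm, show τ⁻¹ • x - v = τ⁻¹ • (x - τ • v) by
      rw [smul_sub, inv_smul_smul₀ hτ.ne'], norm_smul, norm_inv, Real.norm_of_nonneg hτ.le,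
      inv_mul_le_iff₀ hτ, mul_comm]
    exact hx
  obtain ⟨h2, h3⟩ := h h1 φ hφ
  rw [map_smul, smul_eq_mul] at h2 h3
  exact ⟨fun h => (mul_pos_iff_of_pos_left (inv_pos.2 hτ)).1 (h2 h),
    fun h => neg_of_mul_neg_right (h3 h) (inv_pos.2 hτ).le⟩

/-- `exists_generic` for the finitely many nonzero forms `χ i ∘ w` and small `ε` gives `t`;
`t₀ = t ^ N` with `N` large, `T = {t₀} ∪ t₀ * SC`, `v₀ = π t` -/
theorem exists_cone (v : Fin k → ℝ) : ∃ (v₀ : Fin k → ℝ) (T : Finset G), X.Cone v₀ T ∧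
    Subgroup.closure (T : Set G) = Subgroup.closure (X.SC : Set G) ∧
    ∀ w, X.IsW w → ∀ i, (0 < X.χ i (w v) → 0 < X.χ i (w v₀)) ∧
      (X.χ i (w v) < 0 → X.χ i (w v₀) < 0) := by
  classical
  let Φ : Set ((Fin k → ℝ) →ₗ[ℝ] ℝ) := Set.image2 (fun w i => X.χ i ∘ₗ w) {w | X.IsW w} Set.univ
  have hΦ : Φ.Finite := X.isW_finite.image2 _ Set.finite_univ
  have hm : ∀ w, X.IsW w → ∀ i, X.χ i ∘ₗ w ∈ Φ := fun w hw i => ⟨w, hw, i, trivial, rfl⟩
  have h0 : ∀ φ ∈ Φ, φ ≠ 0 := by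
    rintro _ ⟨w, hw, i, -, rfl⟩ h
    obtain ⟨w', -, h1, -⟩ := IsW.inv hw
    refine X.χ_ne_zero i (LinearMap.ext fun x => ?_)
    have h2 := LinearMap.congr_fun h (w' x)
    rwa [LinearMap.comp_apply, ← Module.End.mul_apply, h1] at h2
  obtain ⟨ε, hε, h1⟩ := h44_sign hΦ v
  obtain ⟨t, ht, τ, hτ, h2, h3⟩ := X.exists_generic Φ hΦ h0 v hε
  obtain ⟨ε₀, hε₀, h4⟩ := h44_sign hΦ (X.π t)
  obtain ⟨B, hB⟩ := ((insert 1 X.SC).finite_toSet.image fun c => ‖X.π c‖).bddAbove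
  obtain ⟨N, hN⟩ := exists_nat_gt (max (B / ε₀) 0)
  have hN0 : (0 : ℝ) < N := (le_max_right _ _).trans_lt hN
  have hN1 : B ≤ ε₀ * N := by
    rw [mul_comm, ← div_le_iff₀ hε₀]
    exact ((le_max_left _ _).trans_lt hN).le
  refine ⟨X.π t, (insert 1 X.SC).image fun c => t ^ N * c, fun s hs => ?_, le_antisymm ?_ ?_,
    fun w hw i => h1 _ τ (by linarith) h2 _ (hm w hw i)⟩
  · obtain ⟨c, hc, rfl⟩ := Finset.mem_image.1 hs
    have h5 := h4 (X.π (t ^ N * c)) N hN0 (by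
      rw [X.π_hom, X.π_hom.pow, add_sub_cancel_left]
      exact (hB (Set.mem_image_of_mem _ hc)).trans hN1)
    refine ⟨fun w hw i => ?_, fun w hw => funext fun i => propext ⟨fun h => ?_, (h5 _ (hm w hw i)).1⟩⟩
    · rcases (h3 _ (hm w hw i)).lt_or_gt with h | h
      · exact ((h5 _ (hm w hw i)).2 h).ne
      · exact ((h5 _ (hm w hw i)).1 h).ne'
    · rcases (h3 _ (hm w hw i)).lt_or_gt with h' | h'
      · exact absurd h ((h5 _ (hm w hw i)).2 h').not_gt
      · exact h'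
  · refine (Subgroup.closure_le _).2 fun s hs => ?_
    obtain ⟨c, hc, rfl⟩ := Finset.mem_image.1 hs
    refine mul_mem (pow_mem ht N) ?_
    rcases Finset.mem_insert.1 hc with rfl | hc
    · exact one_mem _
    · exact Subgroup.subset_closure hc
  · refine (Subgroup.closure_le _).2 fun c hc => ?_
    have hT : ∀ c ∈ insert 1 X.SC, t ^ N * c ∈ Subgroup.closure
        (((insert 1 X.SC).image fun c => t ^ N * c : Finset G) : Set G) := fun c hc =>
      Subgroup.subset_closure (Finset.mem_coe.2 (Finset.mem_image_of_mem _ hc))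
    have := mul_mem (inv_mem (hT 1 (Finset.mem_insert_self _ _))) (hT c (Finset.mem_insert_of_mem hc))
    rwa [mul_one, inv_mul_cancel_left] at this

theorem PowGen.mono {X : Geo G k} {T : Finset G} {C C' : ℕ} (h : X.PowGen T C) (hC : C ≤ C') :
    X.PowGen T C' := by
  refine ⟨fun t ht => Ball.mono subset_rfl hC (h.1 t ht), fun n g hg => ?_⟩
  obtain ⟨l, h1, h2, h3⟩ := h.2 n g hg
  refine ⟨l, h1.trans hC, fun p hp => ⟨(h2 p hp).1, (h2 p hp).2.trans ?_⟩, h3⟩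
  exact_mod_cast Nat.mul_le_mul_right n hC

/-- `nilPow`, `Ball.exists_of_mem_closure`, `Ball.subset_of` -/
theorem exists_powGen {T : Finset G}
    (h : Subgroup.closure (T : Set G) = Subgroup.closure (X.SC : Set G)) : ∃ C, X.PowGen T C := by
  obtain ⟨C, hC⟩ := nilPow T (h ▸ X.nil)
  obtain ⟨a, ha⟩ := h12_ball_fin (S := (X.SC : Set G)) T fun t ht =>
    h ▸ Subgroup.subset_closure ht
  obtain ⟨b, hb⟩ := h12_ball_fin (S := (T : Set G)) X.SC fun t ht =>
    h ▸ Subgroup.subset_closure ht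
  refine ⟨a + C + C * b, fun t ht => Ball.mono subset_rfl (by omega) (ha t ht), fun n g hg => ?_⟩
  obtain ⟨l, h1, h2, h3⟩ := hC (n * b) g (Ball.subset_of hb n hg)
  refine ⟨l, by omega, fun p hp => ⟨(h2 p hp).1, (h2 p hp).2.trans ?_⟩, h3⟩
  have : C * (n * b) ≤ (a + C + C * b) * n := by nlinarith [Nat.zero_le ((a + C) * n)]
  exact_mod_cast this

/-- one cone for every ordered pair `w ≠ w'` of `isW_finite.toFinset` and one more for `v = 0` -/
theorem exists_cones : ∃ (𝒞 : Finset ((Fin k → ℝ) × Finset G)) (C : ℕ), 1 ≤ C ∧ 𝒞.Nonempty ∧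
    (∀ p ∈ 𝒞, X.Cone p.1 p.2 ∧ X.PowGen p.2 C) ∧
    ∀ w w', X.IsW w → X.IsW w' → (∀ p ∈ 𝒞, X.sg p.1 w = X.sg p.1 w') → w = w' := by
  classical
  choose v₀ T hc hcl hs using X.exists_cone
  choose C hC using fun v => X.exists_powGen (hcl v)
  have hd : ∀ q : Module.End ℝ (Fin k → ℝ) × Module.End ℝ (Fin k → ℝ), ∃ v,
      X.IsW q.1 → X.IsW q.2 → q.1 ≠ q.2 → ∃ i, 0 < X.χ i (q.1 v) ∧ X.χ i (q.2 v) < 0 := by
    intro q
    by_cases hq : X.IsW q.1 ∧ X.IsW q.2 ∧ q.1 ≠ q.2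
    · obtain ⟨i, v, hv⟩ := X.exists_sep_dir hq.1 hq.2.1 hq.2.2
      exact ⟨v, fun _ _ _ => ⟨i, hv⟩⟩
    · exact ⟨0, fun h1 h2 h3 => absurd ⟨h1, h2, h3⟩ hq⟩
  choose d hd using hd
  set V : Finset (Fin k → ℝ) :=
    insert 0 ((X.isW_finite.toFinset ×ˢ X.isW_finite.toFinset).image d) with hV
  refine ⟨V.image fun v => (v₀ v, T v), V.sup C + 1, by omega,
    (Finset.insert_nonempty _ _).image _, fun p hp => ?_, fun w w' hw hw' H => ?_⟩
  · obtain ⟨v, hv, rfl⟩ := Finset.mem_image.1 hp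
    exact ⟨hc v, (hC v).mono ((Finset.le_sup (f := C) hv).trans (Nat.le_succ _))⟩
  · by_contra hne
    obtain ⟨i, h1, h2⟩ := hd (w, w') hw hw' hne
    have hm : d (w, w') ∈ V := Finset.mem_insert_of_mem (Finset.mem_image_of_mem _
      (Finset.mem_product.2 ⟨X.isW_finite.mem_toFinset.2 hw, X.isW_finite.mem_toFinset.2 hw'⟩))
    have h3 := congrFun (H _ (Finset.mem_image_of_mem _ hm)) i
    have h4 : 0 < X.χ i (w' (v₀ (d (w, w')))) := h3.mp ((hs _ w hw i).1 h1)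
    exact lt_asymm h4 ((hs _ w' hw' i).2 h2)

end Geo

end Crest.Agent.R182
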