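import Crest.Agent.R182.MP0

/-! Row 182, block M3: doubling scales, nets, invariance, extraction of a sequence. -/

set_option autoImplicit false
set_option linter.dupNamespace false
set_option linter.unusedSectionVars false

namespace Crest.Agent.R182

open Crest.GroupTheory MeasureTheory Filter

section grp

variable {G : Type} [Group G]

/-- `nilGrow`: if `M * f m < f (a * m)` for all `m ≥ m₀` then `f (a ^ q * m₀) ≥ M ^ q`; `M = a ^ (d + 1) + 1` -/
theorem exists_doubling {S : Finset G} (h : Group.IsNilpotent (Subgroup.closure (S : Set G)))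
    (a : ℕ) : ∃ M : ℕ, 1 ≤ M ∧ ∀ m₀, ∃ m ≥ m₀, (FB S (a * m)).card ≤ M * (FB S m).card := by
  rcases Nat.eq_zero_or_pos a with rfl | ha
  · refine ⟨1, le_rfl, fun m₀ => ⟨m₀, le_rfl, ?_⟩⟩
    rw [one_mul]
    exact Finset.card_le_card (FB_mono S (by omega))
  obtain ⟨C, d, hC⟩ := nilGrow S h
  have hp : 0 < a ^ d := pow_pos ha d
  refine ⟨2 * a ^ d, by omega, fun m₀ => ?_⟩
  by_contra hc
  push Not at hc
  have h1 : ∀ q : ℕ, (2 * a ^ d) ^ q ≤ (FB S (a ^ q * m₀)).card := by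
    intro q
    induction q with
    | zero => exact FB_card_pos S _
    | succ q ih =>
      have h2 := hc (a ^ q * m₀) (Nat.le_mul_of_pos_left _ (pow_pos ha q))
      rw [pow_succ', pow_succ', mul_assoc a]
      exact (Nat.mul_le_mul_left _ ih).trans h2.le
  have h2 : ∀ q : ℕ, 2 ^ q ≤ C * (m₀ + 1) ^ d := by
    intro q
    have h3 := hC (a ^ q * m₀)
    rw [Set.ncard_eq_toFinset_card _ (Ball.finite S.finite_toSet _)] at h3
    have h4 : a ^ q * m₀ + 1 ≤ a ^ q * (m₀ + 1) := by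
      have := pow_pos ha q
      rw [mul_add, mul_one]
      omega
    have h5 := (h1 q).trans (h3.trans (Nat.mul_le_mul_left C (Nat.pow_le_pow_left h4 d)))
    rw [mul_pow, mul_pow, ← pow_mul, ← pow_mul, mul_comm q d, mul_comm (a ^ (d * q)),
      ← mul_assoc] at h5
    exact Nat.le_of_mul_le_mul_right h5 (pow_pos ha _)
  exact absurd (h2 _) (not_le.2 Nat.lt_two_pow_self)

/-- otherwise `(1 + η) ^ N * |B N| ≤ |B (2 N)|` -/
theorem exists_folner (S : Finset G) {N : ℕ} {M η : ℝ} (hη : 0 < η) (hN : M < (1 + η) ^ N)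
    (h : ((FB S (2 * N)).card : ℝ) ≤ M * (FB S N).card) :
    ∃ j, N ≤ j ∧ j ≤ 2 * N ∧ ((FB S (j + 1)).card : ℝ) ≤ (1 + η) * (FB S j).card := by
  by_contra hc
  push Not at hc
  have h1 : ∀ i ≤ N, (1 + η) ^ i * (FB S N).card ≤ (FB S (N + i)).card := by
    intro i
    induction i with
    | zero => intro _; simp
    | succ i ih =>
      intro hi
      have h2 := hc (N + i) (by omega) (by omega)
      have h3 := mul_le_mul_of_nonneg_left (ih (by omega)) (by positivity : 0 ≤ 1 + η)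
      rw [pow_succ', mul_assoc, ← add_assoc]
      exact h3.trans h2.le
  have h2 := h1 N le_rfl
  have h3 : (0 : ℝ) < (FB S N).card := by exact_mod_cast FB_card_pos S N
  rw [← two_mul] at h2
  linarith [mul_lt_mul_of_pos_right hN h3]

/-- `exists_doubling` with `a = 2 * Λ`, `exists_folner` with `N = Λ * m`, `FB_mono` -/
theorem exists_scale {S : Finset G} (h : Group.IsNilpotent (Subgroup.closure (S : Set G)))
    {Λ : ℕ} (hΛ : 1 ≤ Λ) : ∃ M : ℕ, 1 ≤ M ∧ ∀ η : ℝ, 0 < η → ∀ m₀, ∃ m ≥ m₀, ∃ j, Λ * m ≤ j ∧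
      j ≤ 2 * (Λ * m) ∧ (FB S (2 * (Λ * m))).card ≤ M * (FB S m).card ∧
        ((FB S (j + 1)).card : ℝ) ≤ (1 + η) * (FB S j).card := by
  obtain ⟨M, hM, hd⟩ := exists_doubling h (2 * Λ)
  refine ⟨M, hM, fun η hη m₀ => ?_⟩
  obtain ⟨n, hn⟩ := pow_unbounded_of_one_lt (M : ℝ) (by linarith : 1 < 1 + η)
  obtain ⟨m, hm, h1⟩ := hd (max m₀ n)
  rw [mul_assoc] at h1
  have h2 : m ≤ Λ * m := Nat.le_mul_of_pos_left m hΛ
  have h3 : (FB S (2 * (Λ * m))).card ≤ M * (FB S (Λ * m)).card :=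
    h1.trans (Nat.mul_le_mul_left M (Finset.card_le_card (FB_mono S h2)))
  obtain ⟨j, hj1, hj2, hj3⟩ := exists_folner S (N := Λ * m) (M := M) hη
    (hn.trans_le (pow_le_pow_right₀ (by linarith) (((le_max_right _ _).trans hm).trans h2)))
    (by exact_mod_cast h3)
  exact ⟨m, (le_max_left _ _).trans hm, j, hj1, hj2, h1, hj3⟩

/-- a maximal `2 m`-separated subset `F` of the ball of radius `R`; the sets `f * B m` are disjoint -/
theorem exists_net (S : Finset G) {R m M : ℕ} (h : (FB S (R + m)).card ≤ M * (FB S m).card) :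
    ∃ F : Finset G, (∀ f ∈ F, f ∈ Ball (S : Set G) R) ∧ F.card ≤ M ∧
      ∀ g ∈ Ball (S : Set G) R, ∃ f ∈ F, f⁻¹ * g ∈ Ball (S : Set G) (2 * m) := by
  classical
  obtain ⟨F, hF, hmax⟩ := Finset.exists_max_image
    ((FB S R).powerset.filter fun F : Finset G => Sep (S : Set G) (2 * m) (F : Set G)) Finset.card
    ⟨∅, Finset.mem_filter.2 ⟨Finset.empty_mem_powerset _, fun x hx => absurd hx (by simp)⟩⟩
  obtain ⟨hF1, hF2⟩ := Finset.mem_filter.1 hF
  have hF3 : ∀ f ∈ F, f ∈ Ball (S : Set G) R := fun f hf => mem_FB.1 (Finset.mem_powerset.1 hF1 hf)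
  refine ⟨F, hF3, ?_, fun g hg => ?_⟩
  · have h1 : (F ×ˢ FB S m).card ≤ (FB S (R + m)).card := by
      refine Finset.card_le_card_of_injOn (fun p => p.1 * p.2) (fun p hp => ?_) ?_
      · obtain ⟨h2, h3⟩ := Finset.mem_product.1 hp
        exact mem_FB.2 (Ball.mul_mem (hF3 _ h2) (mem_FB.1 h3))
      · rintro ⟨f, b⟩ hp ⟨f', b'⟩ hp' e
        obtain ⟨h2, h3⟩ := Finset.mem_product.1 hp
        obtain ⟨h4, h5⟩ := Finset.mem_product.1 hp'
        have e1 : f * b = f' * b' := e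
        have h6 : f = f' := by
          by_contra hne
          refine hF2 f h2 f' h4 hne ?_
          have e2 : f⁻¹ * f' = b * b'⁻¹ := by
            rw [inv_mul_eq_iff_eq_mul, ← mul_assoc, e1, mul_inv_cancel_right]
          rw [e2, two_mul]
          exact Ball.mul_mem (mem_FB.1 h3) (Ball.inv_mem (mem_FB.1 h5))
        subst h6
        rw [mul_left_cancel e1]
    rw [Finset.card_product] at h1
    exact Nat.le_of_mul_le_mul_right (h1.trans h) (FB_card_pos S m)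
  · by_contra hc
    push Not at hc
    have hg' : g ∉ F := fun hgF => hc g hgF (by rw [inv_mul_cancel]; exact Ball.one_mem _ _)
    have h1 := hmax (insert g F) (Finset.mem_filter.2 ⟨Finset.mem_powerset.2
      (Finset.insert_subset (mem_FB.2 hg) (Finset.mem_powerset.1 hF1)), ?_⟩)
    · rw [Finset.card_insert_of_notMem hg'] at h1
      omega
    · intro x hx y hy hxy
      rw [Finset.coe_insert, Set.mem_insert_iff] at hx hy
      rcases hx with rfl | hx <;> rcases hy with rfl | hy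
      · exact absurd rfl hxy
      · intro h2
        have h3 := Ball.inv_mem h2
        rw [mul_inv_rev, inv_inv] at h3
        exact hc y hy h3
      · exact hc x hx
      · exact hF2 x hx y hy hxy

end grp

namespace Geo

variable {G : Type} [Group G] [MeasurableSpace G] {k : ℕ} (X : Geo G k)

/-- `z c' = (z c₀) (c₀⁻¹ c')`, `c₀⁻¹ c'` is near some `f ∈ F`; `dev_bound` -/
theorem lab_of_dev (c : ℕ) : ∃ B : ℝ, 0 ≤ B ∧ ∀ (ψ : G → G) (lab : G → Module.End ℝ (Fin k → ℝ))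
    (m n : ℕ) (F : Finset G) (c₀ z : G) (ρ : ℝ), QI X.Sg X.Sg ψ c → (∀ x, X.IsW (lab x)) → 1 ≤ m →
    m ≤ n → (∀ g ∈ Ball (X.SC : Set G) (2 * n), ∃ f ∈ F, f⁻¹ * g ∈ Ball (X.SC : Set G) (2 * m)) →
    c₀ ∈ Ball (X.SC : Set G) m → (∀ f ∈ F, z * c₀ ∉ X.Dev ψ lab f ρ) →
      ∀ c' ∈ Ball (X.SC : Set G) n,
        ‖X.π (ψ (z * c')) - X.π (ψ z) - lab (z * c₀) (X.π c')‖ ≤ ρ + B * m := by
  obtain ⟨B, hB, h⟩ := X.dev_bound c
  refine ⟨6 * B, by linarith, fun ψ lab m n F c₀ z ρ hψ hlab hm hmn hF hc₀ hz c' hc' => ?_⟩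
  obtain ⟨f, hf, he⟩ := hF (c₀⁻¹ * c')
    (Ball.mono subset_rfl (by omega) (Ball.mul_mem (Ball.inv_mem hc₀) hc'))
  obtain ⟨e, he', rfl⟩ : ∃ e, e ∈ Ball (X.SC : Set G) (2 * m) ∧ c' = c₀ * f * e :=
    ⟨_, he, by group⟩
  have h1 := (h _ (by omega) e he').1 ψ hψ (z * c₀ * f)
  have h2 := (h _ (by omega) e he').2 _ (hlab (z * c₀))
  have h3 := (h _ hm c₀ hc₀).1 ψ hψ z
  have h4 := (h _ hm c₀ hc₀).2 _ (hlab (z * c₀))
  have h5 : ‖X.π (ψ (z * c₀ * f)) - X.π (ψ (z * c₀)) - lab (z * c₀) (X.π f)‖ ≤ ρ :=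
    not_lt.1 (hz f hf)
  have e1 : X.π (ψ (z * (c₀ * f * e))) - X.π (ψ z) - lab (z * c₀) (X.π (c₀ * f * e)) =
      (X.π (ψ (z * c₀ * f * e)) - X.π (ψ (z * c₀ * f))) +
        (X.π (ψ (z * c₀ * f)) - X.π (ψ (z * c₀)) - lab (z * c₀) (X.π f)) +
        (X.π (ψ (z * c₀)) - X.π (ψ z)) - lab (z * c₀) (X.π c₀) - lab (z * c₀) (X.π e) := by
    rw [X.π_hom, X.π_hom c₀, map_add, map_add, ← mul_assoc, ← mul_assoc]
    abel
  rw [e1]
  refine (norm_sub_le _ _).trans ((add_le_add_left ((norm_sub_le _ _).trans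
    (add_le_add_left norm_add₃_le _)) _).trans ?_)
  push_cast at h1 h2
  linarith

variable [MeasurableMul₂ G] [MeasurableInv G]

/-- `Inv.flat`, `Inv.rb` with the constant level `B₀ j` (`adm_const`, `RB_mono`), where
`|χ i (π p)| ≤ B₀ j` on the flat ball (`χ_bound`, `flat_ball`, `π_ball`); `lg j ≤ 1 + j` -/
theorem inv_rinv : ∃ A₀ : ℕ, ∀ (ζ : Measure G) (j : ℕ) (η : ℝ), 1 ≤ j →
    X.Inv ζ (fun _ => A₀ * j) η → X.RInv ζ j η := by
  obtain ⟨B, hB, h⟩ := X.χ_bound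
  refine ⟨⌈2 * (B * X.K * X.K) + 1 + 3 * X.K⌉₊, fun ζ j η hj H c hc i b hb g hg => ?_⟩
  have hj1 : (1 : ℝ) ≤ j := by exact_mod_cast hj
  have hK : (0 : ℝ) ≤ X.K := Nat.cast_nonneg _
  have hD : 0 ≤ B * X.K * X.K := by positivity
  have key : ∀ p ∈ Ball (X.SC : Set G) j, ∀ i, X.χ i (X.π p) ≤ B * X.K * X.K * j := by
    intro p hp i
    have h1 := X.π_ball (X.flat_ball hp)
    push_cast at h1
    calc X.χ i (X.π p) ≤ B * ‖X.π p‖ := (le_abs_self _).trans (h i _)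
      _ ≤ B * (X.K * (X.K * j)) := by gcongr
      _ = _ := by ring
  have hb' : b ≤ (B * X.K * X.K + 1) * j := by
    rcases hb with hb | ⟨p, hp, hb⟩
    · nlinarith
    · nlinarith [key p hp i]
  have hlg : lg j ≤ 2 * j := by
    have := Real.log_le_sub_one_of_pos (x := 1 + (j : ℝ)) (by positivity)
    unfold lg
    linarith
  refine (H.flat hc).rb (a' := fun _ => (B * X.K * X.K + 1) * j) (X.adm_const (by positivity))
    (fun l => ?_) (i := i) (X.RB_mono i _ _ hb' hg)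
  have h1 := mul_le_mul_of_nonneg_right
    (Nat.le_ceil (2 * (B * X.K * X.K) + 1 + 3 * (X.K : ℝ))) (zero_le_one.trans hj1)
  have h2 := key c hc l
  have h3 := mul_le_mul_of_nonneg_left hlg hK
  have h4 := mul_le_mul_of_nonneg_left hj1 hK
  linarith

/-- closure induction (`TVr.one`, `TVr.mul`, `TVr.inv`, `TVr.mono`), `om_tvr_gen`, `om_tvr_conj`,
`ev_small` -/
theorem om_gamma (ζ : ℕ → Measure G) (hζ : ∀ i, IsProbabilityMeasure (ζ i)) (j : ℕ → ℕ)
    (hj : ∀ i, i ≤ j i) (h1 : ∀ i, X.RInv (ζ i) (j i) (1 / (i + 1)))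
    (h2 : ∀ i, ((FB X.SC (j i + 1)).card : ℝ) ≤ (1 + 1 / (i + 1)) * (FB X.SC (j i)).card) :
    ∀ γ ∈ X.Γ, ∀ η : ℝ, 0 < η → ∀ᶠ i in atTop, TVr (om X.SC (ζ i) (j i) (j i)) γ η := by
  intro γ hγ
  induction hγ using Subgroup.closure_induction with
  | mem x hx =>
    intro η hη
    rcases hx with hx | hx
    · filter_upwards [ev_small hη] with i hi
      exact (om_tvr_gen (Ball.mem_of_mem hx) (h2 i)).mono hi
    · obtain ⟨l, hl⟩ := Set.mem_iUnion.1 hx
      obtain ⟨b, hb⟩ := Set.mem_iUnion.1 hl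
      filter_upwards [ev_small hη, eventually_ge_atTop ⌈b⌉₊] with i hi hi'
      refine (om_tvr_conj fun c hc => h1 i c hc l b (Or.inl ?_) x hb).mono hi
      exact (Nat.le_ceil b).trans (Nat.cast_le.2 (hi'.trans (hj i)))
  | one => exact fun η hη => Eventually.of_forall fun i => TVr.one hη.le
  | mul x y _ _ hx hy =>
    intro η hη
    filter_upwards [hx _ (half_pos hη), hy _ (half_pos hη)] with i hi hi'
    exact (hi.mul hi').mono (add_halves η).le
  | inv x _ hx =>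
    intro η hη
    filter_upwards [hx _ hη] with i hi
    exact hi.inv

theorem h94_markov {c : ℕ} {ψ : G → G} {lab : G → Module.End ℝ (Fin k → ℝ)} (hq : QI X.Sg X.Sg ψ c)
    (h : Step ψ) (hW : ∀ x, X.IsW (lab x)) (h' : Step lab) (μ : Measure G) [IsFiniteMeasure μ]
    {g : G} (hg : g ∈ Subgroup.closure (X.SC : Set G)) {ρ p : ℝ} (hρ : 0 < ρ)
    (hI : ∫ x, ‖X.π (ψ (x * g)) - X.π (ψ x) - lab x (X.π g)‖ ∂μ ≤ ρ * p) :
    μ.real (X.Dev ψ lab g ρ) ≤ p := by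
  obtain ⟨B, -, hB⟩ := X.dev_bound c
  obtain ⟨u, hu⟩ := Ball.exists_of_mem_closure hg
  obtain ⟨b1, b2⟩ := hB (u + 1) (by omega) g (Ball.mono subset_rfl (Nat.le_succ u) hu)
  have hm : Measurable fun x => ‖X.π (ψ (x * g)) - X.π (ψ x) - lab x (X.π g)‖ :=
    (((h.mul_right g).prod h).prod h').measurable fun p => ‖X.π p.1.1 - X.π p.1.2 - p.2 (X.π g)‖
  have hi : Integrable (fun x => ‖X.π (ψ (x * g)) - X.π (ψ x) - lab x (X.π g)‖) μ :=
    Integrable.of_bound hm.aestronglyMeasurable (B * (u + 1 : ℕ) + B * (u + 1 : ℕ))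
      (Eventually.of_forall fun x => by
        rw [norm_norm]
        exact (norm_sub_le _ _).trans (add_le_add (b1 ψ hq x) (b2 _ (hW x))))
  have h1 := mul_meas_ge_le_integral_of_nonneg (Eventually.of_forall fun x => norm_nonneg _) hi ρ
  have h2 : μ.real (X.Dev ψ lab g ρ) ≤
      μ.real {x | ρ ≤ ‖X.π (ψ (x * g)) - X.π (ψ x) - lab x (X.π g)‖} :=
    measureReal_mono fun x hx => le_of_lt (show ρ < _ from hx)
  exact le_of_mul_le_mul_left ((mul_le_mul_of_nonneg_left h2 hρ.le).trans (h1.trans hI)) hρ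

/-- `Slopes` along `hyperfilter ℕ` (`Nat.hyperfilter_le_atTop`, `om_gamma`, `om_prob`) with
`ε = 1 / (s + 1) ^ 2`, `r₀ = 1`; choose `φ s ≥ s` with `(s + 1) * r ≤ φ s` in the finite intersection of the
events (`j = r` in the first, `γ = t ^ e`, `e < r`, in the second, `flat_le_Γ`); Markov
(`mul_meas_ge_le_integral_of_nonneg`; the integrand is measurable by `Step.measurable` and bounded by
`dev_bound`), `AHom.pow` -/
theorem exists_PS (hS : X.Slopes) (c : ℕ) (𝒯 : Finset G) (h𝒯 : ∀ t ∈ 𝒯, X.Reg t)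
    (ψ ψ' : ℕ → G → G) (ζ : ℕ → Measure G) (n j : ℕ → ℕ) (hψ : ∀ i, X.QP c (ψ i) (ψ' i))
    (hζ : ∀ i, IsProbabilityMeasure (ζ i)) (hn : ∀ i, i ≤ n i) (hj : ∀ i, i ≤ j i)
    (h1 : ∀ i, X.RInv (ζ i) (j i) (1 / (i + 1)))
    (h2 : ∀ i, ((FB X.SC (j i + 1)).card : ℝ) ≤ (1 + 1 / (i + 1)) * (FB X.SC (j i)).card) :
    ∃ (φ : ℕ → ℕ) (D : X.PS c 𝒯), ∀ s, D.n s = n (φ s) ∧ D.j s = j (φ s) ∧ D.ψ s = ψ (φ s) ∧
      D.ζ s = ζ (φ s) := by
  have hγ := X.om_gamma ζ hζ j hj h1 h2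
  have hprob : ∀ i, IsProbabilityMeasure (om X.SC (ζ i) (j i) (j i)) := fun i => by
    have := hζ i
    exact om_prob
  have H := hS c (hyperfilter ℕ) ψ ψ' (fun i => om X.SC (ζ i) (j i) (j i)) hψ hprob
    fun γ h η hη => (hγ γ h η hη).filter_mono Nat.hyperfilter_le_atTop
  have key : ∀ s : ℕ, ∃ (r i : ℕ) (lab : G → Module.End ℝ (Fin k → ℝ)), 1 ≤ r ∧ s ≤ i ∧
      (s + 1) * r ≤ i ∧ (∀ x, X.IsW (lab x)) ∧ Step lab ∧
      (∀ t ∈ 𝒯, (om X.SC (ζ i) (j i) (j i)).real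
        (X.Dev (ψ i) lab (t ^ r) (1 / (s + 1) * r)) ≤ 1 / (s + 1)) ∧
      ∀ t ∈ 𝒯, ∀ e < r, (om X.SC (ζ i) (j i) (j i)).real (Chg lab (t ^ e)) ≤ 1 / (s + 1) := by
    intro s
    have hs : (0 : ℝ) < 1 / ((s : ℝ) + 1) := by positivity
    have hs1 : 1 / ((s : ℝ) + 1) ≤ 1 := by
      rw [div_le_one (by positivity)]
      have := s.cast_nonneg (α := ℝ)
      linarith
    obtain ⟨r, hr, lab, hW, hst, hd, hc⟩ :=
      H (1 / ((s : ℝ) + 1) * (1 / ((s : ℝ) + 1))) (mul_pos hs hs) 𝒯 h𝒯 1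
    have e1 := (Filter.eventually_all_finset 𝒯).2 fun t ht => hd t ht r le_rfl
    have e2 := (Filter.eventually_all_finset 𝒯).2 fun t ht =>
      (Filter.eventually_all_finset (Finset.range r)).2 fun e _ =>
        hc (t ^ e) (X.flat_le_Γ (Subgroup.pow_mem _ (h𝒯 t ht).1 e))
    have e3 : ∀ᶠ i in (hyperfilter ℕ : Filter ℕ), max s ((s + 1) * r) ≤ i :=
      (eventually_ge_atTop _).filter_mono Nat.hyperfilter_le_atTop
    obtain ⟨i, hi1, hi2, hi3⟩ := (e1.and (e2.and e3)).exists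
    refine ⟨r, i, lab i, hr, (le_max_left _ _).trans hi3, (le_max_right _ _).trans hi3, hW i, hst i,
      fun t ht => ?_, fun t ht e he => (hi2 t ht e (Finset.mem_range.2 he)).trans ?_⟩
    · have := hprob i
      have hr' : (0 : ℝ) < r := by exact_mod_cast hr
      refine X.h94_markov (hψ i).qi (hψ i).step (hW i) (hst i) _
        (Subgroup.pow_mem _ (h𝒯 t ht).1 r) (mul_pos hs hr') ?_
      have h3 := hi1 t ht
      simp only [X.π_hom.pow, map_smul]
      calc _ ≤ _ := h3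
        _ = _ := by ring
    · exact mul_le_of_le_one_right hs.le hs1
  choose r φ lab k1 k2 k3 k4 k5 k6 k7 using key
  refine ⟨φ, ⟨r, fun s => n (φ s), fun s => j (φ s), fun s => ψ (φ s), fun s => ζ (φ s), lab,
    fun s => (hψ _).qi, fun s => (hψ _).step, fun s => hζ _, k4, k5, k1,
    fun s => (k3 s).trans (hn _), fun s c' hc' i b hb g hg => (h1 (φ s) c' hc' i b hb g hg).mono ?_,
    k6, k7⟩, fun s => ⟨rfl, rfl, rfl, rfl⟩⟩
  have : (s : ℝ) ≤ φ s := by exact_mod_cast k2 s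
  exact one_div_le_one_div_of_le (by positivity) (by linarith)

end Geo

end Crest.Agent.R182
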