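import Crest.Agent.R182.MP1

/-! Row 182, block M3: lines. -/

set_option autoImplicit false
set_option linter.dupNamespace false
set_option linter.unusedSectionVars false

namespace Crest.Agent.R182

open Crest.GroupTheory MeasureTheory Filter

namespace Geo

variable {G : Type} [Group G] [MeasurableSpace G] {k : ℕ} (X : Geo G k)

/-- `H l = π ψ (x t^(l r))`, `S l` the partial sums of `slopeV`. Telescoping, `sum_le_cnt`, `dev_bound`:
`‖H l - H 0 - r S l‖ ≤ δ r L + 2 B C r δ L`; every `π ψ (x p s)`, `s ≤ C L r`, is within `B C r` of `H (s / (C r))`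
(`path_ball`); `lev_le`, `le_lev`, `χ_bound`, `V_lip`, `V_add_pt`, `V_smul`; lower bound: `0` and `L r π t` lie on the source
profile (`V_mono`, `lev_pair`, `nu_smul`); divide by `r` -/
theorem line_det (c C : ℕ) (hC : 1 ≤ C) : ∃ K₁ : ℝ, 0 ≤ K₁ ∧ ∀ (ψ : G → G)
    (lab : G → Module.End ℝ (Fin k → ℝ)) (t x : G) (p : ℕ → G) (r L : ℕ) (δ : ℝ),
    QI X.Sg X.Sg ψ c → (∀ y, X.IsW (lab y)) → t ∈ Ball (X.SC : Set G) C → p 0 = 1 →
    (∀ s, (p s)⁻¹ * p (s + 1) ∈ Ball (X.SC : Set G) 1) → (∀ a, p (C * a) = t ^ a) → 1 ≤ r → 0 ≤ δ →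
    X.V (lev X.χ ((fun s => X.π (p s)) '' Set.Iic (C * (L * r)))) - δ * (C * (L * r) : ℕ) ≤
      X.V (lev X.χ ((fun s => X.π (ψ (x * p s))) '' Set.Iic (C * (L * r)))) →
    (cnt (fun l => {y | y * t ^ (l * r) ∈ X.Dev ψ lab (t ^ r) (δ * r)}) L x : ℝ) ≤ δ * L →
      L * X.nu (X.π t) - X.slopeV lab t r L x ≤ K₁ * (δ * L + 1) := by
  obtain ⟨B, hB, hdev⟩ := X.dev_bound c
  obtain ⟨Bχ, hBχ, hχ⟩ := X.χ_bound
  obtain ⟨BV, hBV, hV⟩ := X.V_lip
  have hC0 : (0 : ℝ) ≤ C := C.cast_nonneg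
  refine ⟨C + BV * Bχ * (1 + 2 * B * C), by positivity, ?_⟩
  intro ψ lab t x p r L δ hψ hlab ht hp0 hp hpt hr hδ hvol hcnt
  have hrC : 1 ≤ r * C := Nat.mul_pos hr hC
  have hr0 : (0 : ℝ) < r := by exact_mod_cast hr
  have hL0 : (0 : ℝ) ≤ L := L.cast_nonneg
  have htr : t ^ r ∈ Ball (X.SC : Set G) (r * C) := Ball.pow_mem ht r
  obtain ⟨H, hH⟩ : ∃ H : ℕ → Fin k → ℝ, H = fun l => X.π (ψ (x * t ^ (l * r))) := ⟨_, rfl⟩
  obtain ⟨S, hS⟩ : ∃ S : ℕ → Fin k → ℝ,
    S = fun l => ∑ l' ∈ Finset.range l, lab (x * t ^ (l' * r)) (X.π t) := ⟨_, rfl⟩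
  have hstep : ∀ l, H (l + 1) - H l - (r : ℝ) • lab (x * t ^ (l * r)) (X.π t) =
      X.π (ψ (x * t ^ (l * r) * t ^ r)) - X.π (ψ (x * t ^ (l * r))) -
        lab (x * t ^ (l * r)) (X.π (t ^ r)) := fun l => by
    rw [hH, X.π_hom.pow, map_smul, mul_assoc, ← pow_add, ← add_one_mul]
  have htel : ∀ l, ‖H l - H 0 - (r : ℝ) • S l‖ ≤
      ∑ l' ∈ Finset.range l, ‖H (l' + 1) - H l' - (r : ℝ) • lab (x * t ^ (l' * r)) (X.π t)‖ := by
    intro l
    refine le_trans (le_of_eq ?_) (norm_sum_le _ _)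
    rw [Finset.sum_sub_distrib, Finset.sum_range_sub, ← Finset.smul_sum, hS]
  have h1 : ∀ l ≤ L, ‖H l - H 0 - (r : ℝ) • S l‖ ≤ δ * r * L + 2 * (B * (r * C)) * (δ * L) := by
    intro l hl
    refine (htel l).trans ((sum_le_cnt
      (fun l => {y | y * t ^ (l * r) ∈ X.Dev ψ lab (t ^ r) (δ * r)}) L x (a := δ * r)
      (b := 2 * (B * (r * C))) (by positivity) (by positivity) (fun l' _ h => ?_)
      (fun l' _ => ?_) hl).trans ?_)
    · rw [hstep]
      exact not_lt.1 h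
    · rw [hstep]
      obtain ⟨h2, h3⟩ := hdev _ hrC _ htr
      have h4 := h2 ψ hψ (x * t ^ (l' * r))
      have h5 := h3 _ (hlab (x * t ^ (l' * r)))
      push_cast at h4 h5
      linarith [norm_sub_le (X.π (ψ (x * t ^ (l' * r) * t ^ r)) - X.π (ψ (x * t ^ (l' * r))))
        (lab (x * t ^ (l' * r)) (X.π (t ^ r)))]
    · gcongr
  obtain ⟨e, he⟩ : ∃ e : ℝ, e = δ * r * L + 2 * (B * (r * C)) * (δ * L) + B * (r * C) := ⟨_, rfl⟩
  have he0 : 0 ≤ e := by rw [he]; positivity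
  have h2 : ∀ i, lev X.χ ((fun s => X.π (ψ (x * p s))) '' Set.Iic (C * (L * r))) i ≤
      (r * lev X.χ (S '' Set.Iic L) i + X.χ i (H 0)) + Bχ * e := by
    intro i
    refine lev_le (Set.nonempty_Iic.image _) ?_
    rintro _ ⟨s, hs, rfl⟩
    have hs' : s ≤ C * (L * r) := hs
    obtain ⟨l, hl⟩ : ∃ l, l = s / (r * C) := ⟨_, rfl⟩
    have hl1 : l * (r * C) ≤ s := hl ▸ Nat.div_mul_le_self s (r * C)
    have hl2 : s < l * (r * C) + r * C := hl ▸ Nat.lt_div_mul_add hrC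
    have hl3 : l ≤ L := by
      rw [hl]
      refine Nat.div_le_of_le_mul (hs'.trans (le_of_eq (by ring)))
    have e1 : C * (l * r) = l * (r * C) := by ring
    have h3 := path_ball hp (a := C * (l * r)) (b := s) (by omega)
    rw [hpt] at h3
    have h4 := (hdev _ hrC _ (Ball.mono subset_rfl (by omega) h3)).1 ψ hψ (x * t ^ (l * r))
    rw [show x * t ^ (l * r) * ((t ^ (l * r))⁻¹ * p s) = x * p s by group] at h4
    push_cast at h4
    have h5 : ‖X.π (ψ (x * p s)) - H 0 - (r : ℝ) • S l‖ ≤ e := by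
      have e2 : X.π (ψ (x * p s)) - H 0 - (r : ℝ) • S l =
          (X.π (ψ (x * p s)) - H l) + (H l - H 0 - (r : ℝ) • S l) := by abel
      have h6 : ‖X.π (ψ (x * p s)) - H l‖ ≤ B * (r * C) := by rw [hH]; exact h4
      rw [e2, he]
      linarith [norm_add_le (X.π (ψ (x * p s)) - H l) (H l - H 0 - (r : ℝ) • S l), h1 l hl3]
    have h6 := (le_abs_self _).trans ((hχ i _).trans (mul_le_mul_of_nonneg_left h5 (by linarith)))
    rw [map_sub, map_sub, map_smul, smul_eq_mul] at h6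
    have h7 : X.χ i (S l) ≤ lev X.χ (S '' Set.Iic L) i :=
      le_lev ((Set.finite_Iic L).image _) (Set.mem_image_of_mem S hl3) i
    have h8 := mul_le_mul_of_nonneg_left h7 hr0.le
    dsimp only
    linarith
  have h3 := hV _ _ _ (by positivity) h2
  rw [X.V_add_pt (fun i => r * lev X.χ (S '' Set.Iic L) i), X.V_smul _ hr0.le] at h3
  have h4 : X.V (lev X.χ (S '' Set.Iic L)) = X.slopeV lab t r L x := by rw [hS]; rfl
  have h5 : ((L * r : ℕ) : ℝ) * X.nu (X.π t) ≤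
      X.V (lev X.χ ((fun s => X.π (p s)) '' Set.Iic (C * (L * r)))) := by
    rw [← X.nu_smul _ (Nat.cast_nonneg _), ← X.π_hom.pow]
    refine X.V_mono fun i => lev_le (Set.insert_nonempty _ _) fun v hv =>
      le_lev ((Set.finite_Iic _).image _) ?_ i
    rcases hv with rfl | rfl
    · exact ⟨0, Nat.zero_le _, by simp only [hp0, X.π_hom.one]⟩
    · exact ⟨C * (L * r), le_refl (C * (L * r)), by simp only [hpt]⟩
  rw [h4] at h3
  push_cast at h5 hvol
  have h6 : r * (L * X.nu (X.π t) - X.slopeV lab t r L x) ≤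
      r * (δ * L * C + BV * Bχ * (δ * L * (1 + 2 * B * C) + B * C)) := by
    rw [he] at h3
    linarith
  refine (le_of_mul_le_mul_left h6 hr0).trans ?_
  have h7 : 0 ≤ δ * L := by positivity
  have h8 : 0 ≤ BV * Bχ := by positivity
  have h9 : 0 ≤ BV * Bχ * (1 + B * C) := by positivity
  linarith

/-- `e = q r + e'`; telescoping over the `q = e / r` windows, `sum_le_cnt`, `dev_bound` -/
theorem dev_det (c C : ℕ) (hC : 1 ≤ C) : ∃ K₂ : ℝ, 0 ≤ K₂ ∧ ∀ (ψ : G → G)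
    (lab : G → Module.End ℝ (Fin k → ℝ)) (t x : G) (r e : ℕ) (δ : ℝ),
    QI X.Sg X.Sg ψ c → (∀ y, X.IsW (lab y)) → t ∈ Ball (X.SC : Set G) C → 1 ≤ r → 0 ≤ δ →
    (cnt (fun l => {y | y * t ^ (l * r) ∈ X.Dev ψ lab (t ^ r) (δ * r)} ∪ Chg lab (t ^ (l * r)))
      (e / r) x : ℝ) ≤ δ * (e / r : ℕ) →
      ‖X.π (ψ (x * t ^ e)) - X.π (ψ x) - lab x (X.π (t ^ e))‖ ≤ K₂ * (δ * e + r) := by
  obtain ⟨B, hB1, hB⟩ := X.dev_bound c
  have hB0 : 0 ≤ B := by linarith
  have hC0 : (0 : ℝ) ≤ C := Nat.cast_nonneg C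
  refine ⟨1 + 2 * B * C, by positivity, ?_⟩
  intro ψ lab t x r e δ hψ hlab ht hr hδ hcnt
  have hu : 1 ≤ r * C := Nat.mul_pos hr hC
  have hr0 : (0 : ℝ) ≤ r := Nat.cast_nonneg r
  have hball : ∀ a ≤ r, t ^ a ∈ Ball (X.SC : Set G) (r * C) := fun a ha =>
    Ball.mono subset_rfl (Nat.mul_le_mul_right C ha) (Ball.pow_mem ht a)
  have hcrude : ∀ a ≤ r, ∀ y, ‖X.π (ψ (y * t ^ a)) - X.π (ψ y) - lab x (X.π (t ^ a))‖ ≤
      2 * B * C * r := by
    intro a ha y
    obtain ⟨h1, h2⟩ := hB (r * C) hu _ (hball a ha)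
    have h3 := norm_sub_le (X.π (ψ (y * t ^ a)) - X.π (ψ y)) (lab x (X.π (t ^ a)))
    have h4 := h1 ψ hψ y
    have h5 := h2 _ (hlab x)
    push_cast at h4 h5
    nlinarith
  set q := e / r with hq
  let H : ℕ → Fin k → ℝ := fun l => X.π (ψ (x * t ^ (l * r)))
  let f : ℕ → ℝ := fun l => ‖H (l + 1) - H l - lab x (X.π (t ^ r))‖
  have hH : ∀ l, H (l + 1) = X.π (ψ (x * t ^ (l * r) * t ^ r)) := by
    intro l
    simp only [H]
    rw [mul_assoc, ← pow_add, add_mul, one_mul]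
  have hsum := sum_le_cnt
    (fun l => {y | y * t ^ (l * r) ∈ X.Dev ψ lab (t ^ r) (δ * r)} ∪ Chg lab (t ^ (l * r))) q x
    (f := f) (a := δ * r) (b := 2 * B * C * r) (by positivity) (by positivity)
    (by
      intro l _ hx
      simp only [Set.mem_union, Set.mem_ofPred_eq, not_or, Dev, Chg, not_lt, not_not] at hx
      simp only [f]
      rw [hH, ← hx.2]
      exact hx.1)
    (by
      intro l _
      simp only [f]
      rw [hH]
      exact hcrude r le_rfl _) (le_refl q)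
  have htel : H q - H 0 - (q : ℝ) • lab x (X.π (t ^ r)) =
      ∑ l ∈ Finset.range q, (H (l + 1) - H l - lab x (X.π (t ^ r))) := by
    rw [Finset.sum_sub_distrib, Finset.sum_range_sub, Finset.sum_const, Finset.card_range,
      Nat.cast_smul_eq_nsmul]
  have h1 : ‖H q - H 0 - (q : ℝ) • lab x (X.π (t ^ r))‖ ≤ ∑ l ∈ Finset.range q, f l := by
    rw [htel]
    exact norm_sum_le _ _
  have he : e = q * r + e % r := by rw [hq, mul_comm]; exact (Nat.div_add_mod e r).symm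
  have hmod : e % r ≤ r := (Nat.mod_lt e hr).le
  have h2 := hcrude (e % r) hmod (x * t ^ (q * r))
  have hte : t ^ e = t ^ (q * r) * t ^ (e % r) := by rw [← pow_add, ← he]
  have hπ : X.π (t ^ e) = (q : ℝ) • X.π (t ^ r) + X.π (t ^ (e % r)) := by
    rw [hte, X.π_hom, mul_comm q r, pow_mul, X.π_hom.pow]
  have hsplit : X.π (ψ (x * t ^ e)) - X.π (ψ x) - lab x (X.π (t ^ e)) =
      (H q - H 0 - (q : ℝ) • lab x (X.π (t ^ r))) +
      (X.π (ψ (x * t ^ (q * r) * t ^ (e % r))) - X.π (ψ (x * t ^ (q * r))) -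
        lab x (X.π (t ^ (e % r)))) := by
    rw [hπ, map_add, map_smul, mul_assoc, ← hte]
    simp only [H, zero_mul, pow_zero, mul_one]
    abel
  have hqr : (q : ℝ) * r ≤ e := by
    have : q * r ≤ e := by rw [hq]; exact Nat.div_mul_le_self e r
    exact_mod_cast this
  have hK : 0 ≤ 2 * B * C * r := by positivity
  have h3 := mul_le_mul_of_nonneg_left hcnt hK
  have h4 : δ * (q * r) ≤ δ * e := mul_le_mul_of_nonneg_left hqr hδ
  have h5 : 2 * B * C * (δ * (q * r)) ≤ 2 * B * C * (δ * e) :=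
    mul_le_mul_of_nonneg_left h4 (by positivity)
  rw [hsplit]
  refine (norm_add_le _ _).trans ?_
  nlinarith

/-- from `sign_const`: an index `l < L'` with a change between `l` and `l + q` has `l ∈ Bad` or
`l + q ∈ Bad` -/
theorem cnt_sign {t : G} (ht : X.Gen (X.π t)) : ∃ C₂ : ℝ, 0 ≤ C₂ ∧
    ∀ (lab : G → Module.End ℝ (Fin k → ℝ)) (x : G) (r L' q : ℕ), (∀ y, X.IsW (lab y)) → q ≤ L' →
      (cnt (fun l => {y | y * t ^ (l * r) ∈ Chg (fun y => X.sg (X.π t) (lab y)) (t ^ (q * r))})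
        L' x : ℝ) ≤ C₂ * ((2 * L' : ℕ) * X.nu (X.π t) - X.slopeV lab t r (2 * L') x) := by
  classical
  obtain ⟨C₁, hC₁, h⟩ := X.sign_const ht
  refine ⟨2 * C₁, by positivity, ?_⟩
  intro lab x r L' q hlab hq
  obtain ⟨Bad, hcard, hgood⟩ := h (2 * L') (fun l => lab (x * t ^ (l * r))) (fun l => hlab _)
  have hle : cnt (fun l => {y | y * t ^ (l * r) ∈
      Chg (fun y => X.sg (X.π t) (lab y)) (t ^ (q * r))}) L' x ≤ Bad.card + Bad.card := by
    unfold cnt
    refine le_trans (Finset.card_le_card (t := Bad ∪ Bad.image fun l => l - q) ?_) ?_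
    · intro l hl
      simp only [Finset.mem_filter, Finset.mem_range, Set.mem_ofPred_eq, Chg] at hl
      obtain ⟨hl1, hl2⟩ := hl
      by_contra hcon
      simp only [Finset.mem_union, Finset.mem_image, not_or, not_exists, not_and] at hcon
      have h1 : l + q ∉ Bad := fun hb => hcon.2 _ hb (by omega)
      apply hl2
      rw [mul_assoc, ← pow_add, ← add_mul]
      exact hgood (l + q) (by omega) l (by omega) h1 hcon.1
    · exact (Finset.card_union_le _ _).trans (Nat.add_le_add_left Finset.card_image_le _)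
  have hle' : (cnt (fun l => {y | y * t ^ (l * r) ∈
      Chg (fun y => X.sg (X.π t) (lab y)) (t ^ (q * r))}) L' x : ℝ) ≤ Bad.card + Bad.card := by
    exact_mod_cast hle
  unfold slopeV
  linarith

variable [MeasurableMul₂ G] [MeasurableInv G]

/-- `exists_line`, `line_det` with `δ' = δ / (2 (K₁ + 1))` (`s + 1 ≤ L` by `r_le`, so `K₁ ≤ δ L / 2` eventually).
`B = B₁ ∪ B₂`; `B₁` the event of `hVP c δ' (θ / 2)` for `n = C * (L * r)` (measurable by `Step.meas_fin` or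
`Step.pi`), bounded by `om_each`, `map_real`, `hVP` for the measures `ζ.map (· * c')` (invariance: `exists_lev`,
`path_ball`, `D.rinv`, `TVr.mono`, `ev_small`); `B₂ = {x | δ' L < cnt ..}` (`meas_cnt`, `markov_cnt`, `om_shift`,
`Dev.anti`, `D.dev`) -/
theorem line_bad (hVP : X.VP) {c C : ℕ} (hC : 1 ≤ C) {𝒯 : Finset G} (D : X.PS c 𝒯) {t : G}
    (ht : t ∈ 𝒯) (htC : t ∈ Ball (X.SC : Set G) C) {δ θ : ℝ} (hδ : 0 < δ) (hθ : 0 < θ) :
    ∀ᶠ s in atTop, ∀ R L : ℕ, D.n s ≤ L * D.r s → R + C * (L * D.r s) ≤ D.j s →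
      ∃ B, MeasurableSet B ∧ (D.m s R).real B ≤ θ ∧
        ∀ x ∉ B, L * X.nu (X.π t) - X.slopeV (D.lab s) t (D.r s) L x ≤ δ * L := by
  obtain ⟨p, hp0, hp1, hpa⟩ := exists_line hC htC
  obtain ⟨K₁, hK₁, hdet⟩ := X.line_det c C hC
  obtain ⟨δ', hδ'⟩ : ∃ δ' : ℝ, δ' = δ / (2 * (K₁ + 1)) := ⟨_, rfl⟩
  have hδ'0 : 0 < δ' := by rw [hδ']; positivity
  obtain ⟨η, hη, n₀, hV⟩ := hVP c δ' (θ / 2) hδ'0 (by positivity)
  have hN : ∀ᶠ s : ℕ in atTop, 2 * K₁ / δ ≤ (s : ℝ) :=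
    tendsto_natCast_atTop_atTop.eventually_ge_atTop _
  filter_upwards [ev_small hη, ev_small hδ'0, ev_small (show 0 < δ' * (θ / 2) by positivity), hN,
    eventually_ge_atTop n₀] with s h1 h2 h3 h4 h5 R L hL hR
  have hr := D.r_pos s
  have hsL : s + 1 ≤ L := Nat.le_of_mul_le_mul_right ((D.r_le s).trans hL) hr
  have hnn : n₀ ≤ C * (L * D.r s) := by
    have h6 : L ≤ L * D.r s := Nat.le_mul_of_pos_right _ hr
    have h7 : L * D.r s ≤ C * (L * D.r s) := Nat.le_mul_of_pos_left _ hC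
    omega
  have hE : ∀ l : ℕ, MeasurableSet
      {y | y * t ^ (l * D.r s) ∈ X.Dev (D.ψ s) (D.lab s) (t ^ D.r s) (δ' * D.r s)} :=
    fun l => meas_shift (Dev.meas X (D.step s) (D.lstep s) _ _) _
  have hB₁ : MeasurableSet {x | X.V (lev X.χ ((fun j => X.π (D.ψ s (x * p j))) ''
      Set.Iic (C * (L * D.r s)))) <
      X.V (lev X.χ ((fun j => X.π (p j)) '' Set.Iic (C * (L * D.r s)))) -
        δ' * (C * (L * D.r s) : ℕ)} := by
    refine (D.step s).meas_fin (F := p '' Set.Iic (C * (L * D.r s))) ((Set.finite_Iic _).image p)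
      (fun f => X.V (lev X.χ ((fun j => X.π (f (p j))) '' Set.Iic (C * (L * D.r s)))) <
        X.V (lev X.χ ((fun j => X.π (p j)) '' Set.Iic (C * (L * D.r s)))) -
          δ' * (C * (L * D.r s) : ℕ)) ?_
    intro f f' h hf
    have h6 : (fun j => X.π (f' (p j))) '' Set.Iic (C * (L * D.r s)) =
        (fun j => X.π (f (p j))) '' Set.Iic (C * (L * D.r s)) :=
      Set.image_congr fun j hj => by rw [h _ ⟨j, hj, rfl⟩]
    rwa [h6]
  have hB₂ := meas_cnt hE L (δ' * L)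
  refine ⟨_, hB₁.union hB₂, ?_, ?_⟩
  · refine (measureReal_union_le _ _).trans ?_
    have hm₁ := om_each (S := X.SC) (ζ := D.ζ s) (j := D.j s) (R := R) hB₁ (by omega)
      (p := θ / 2) (by positivity) (by
        intro c' hc'
        rw [← map_real _ hB₁]
        have := D.prob s
        refine hV _ hnn p hp0 (fun j _ => hp1 j) _ (D.qi s) (D.step s) _
          (Measure.isProbabilityMeasure_map (measurable_mul_const c').aemeasurable) ?_
        intro i g hg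
        obtain ⟨v, ⟨j, hj, rfl⟩, hv⟩ := exists_lev (χ := X.χ)
          ((Set.finite_Iic (C * (L * D.r s))).image fun j => X.π (p j))
          ⟨_, 0, Nat.zero_le _, rfl⟩ i
        have hpj : p j ∈ Ball (X.SC : Set G) (D.j s) := by
          have h6 := path_ball hp1 (Nat.zero_le j)
          rw [hp0, inv_one, one_mul] at h6
          have h7 : j ≤ C * (L * D.r s) := hj
          exact Ball.mono subset_rfl (by omega) h6
        exact (D.rinv s c' (Ball.mono subset_rfl (by omega) hc') i _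
          (Or.inr ⟨p j, hpj, hv.le⟩) g hg).mono h1)
    have hm₂ := markov_cnt (D.m s R) hE L (p := 1 / ((s : ℝ) + 1)) (by positivity) hδ'0 (by
      intro l hl
      have hg : t ^ (l * D.r s) ∈ Ball (X.SC : Set G) (l * D.r s * C) := Ball.pow_mem htC _
      have h6 : l * D.r s * C ≤ C * (L * D.r s) := by
        rw [mul_comm]
        exact Nat.mul_le_mul_left _ (Nat.mul_le_mul_right _ hl.le)
      refine (om_shift (R' := D.j s) (Dev.meas X (D.step s) (D.lstep s) _ _) hg (by omega)).trans ?_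
      refine le_trans (measureReal_mono (Dev.anti X _ _ _ ?_)) (D.dev s t ht)
      exact mul_le_mul_of_nonneg_right h2 (Nat.cast_nonneg _))
    have h6 : 1 / ((s : ℝ) + 1) / δ' ≤ θ / 2 := by
      rw [div_le_iff₀ hδ'0]
      linarith
    linarith
  · intro x hx
    simp only [Set.mem_union, Set.mem_ofPred_eq, not_or, not_lt] at hx
    refine (hdet (D.ψ s) (D.lab s) t x p (D.r s) L δ' (D.qi s) (D.isW s) htC hp0 hp1 hpa hr
      hδ'0.le hx.1 hx.2).trans ?_
    have h6 : (s : ℝ) + 1 ≤ L := by exact_mod_cast hsL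
    have h7 : 2 * K₁ ≤ δ * L := by
      rw [div_le_iff₀ hδ] at h4
      nlinarith
    have h8 : K₁ * δ' ≤ δ / 2 := by
      rw [hδ', ← mul_div_assoc, div_le_div_iff₀ (by positivity) (by positivity)]
      nlinarith
    have h9 : (0 : ℝ) ≤ L := Nat.cast_nonneg _
    nlinarith

/-- `e = q r + e'`, `L' = Q n / r + 1` (so `q ≤ L'`, `n ≤ L' r ≤ (Q + 1) n`), `R₁ = R + C L' r`; `line_bad` at
`R₁`, `L = 2 L'` and `cnt_sign` bound the count by `θ / 4 * L'` off `B`; `avg_cnt`, `om_univ`; each event of the count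
has `m R₁`-measure at least `m R (Chg σ (t ^ (q r)))` (`om_shift` with `(t ^ (l r))⁻¹`); finally `chg_mul`, `chg_comp`,
`om_shift`, `D.chg` for `t ^ e'` -/
theorem line_sign (hVP : X.VP) {c C Q : ℕ} (hC : 1 ≤ C) (hQ : 1 ≤ Q) {𝒯 : Finset G}
    (D : X.PS c 𝒯) {t : G} (ht : t ∈ 𝒯) (htC : t ∈ Ball (X.SC : Set G) C) (hg : X.Gen (X.π t))
    {θ : ℝ} (hθ : 0 < θ) :
    ∀ᶠ s in atTop, ∀ R e : ℕ, e ≤ Q * D.n s → R + 3 * C * (Q + 1) * D.n s ≤ D.j s →
      (D.m s R).real (Chg (fun y => X.sg (X.π t) (D.lab s y)) (t ^ e)) ≤ θ := by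
  obtain ⟨C₂, hC₂, h₂⟩ := X.cnt_sign hg
  have hδ : 0 < θ / (8 * (C₂ + 1)) := by positivity
  filter_upwards [X.line_bad hVP hC D ht htC hδ (show 0 < θ / 4 by positivity),
    ev_small (show 0 < θ / 2 by positivity)] with s hb hs R e he hR
  have hr := D.r_pos s
  have hrn : D.r s ≤ D.n s := (Nat.le_mul_of_pos_left _ s.succ_pos).trans (D.r_le s)
  obtain ⟨L', hL'⟩ : ∃ L', L' = Q * D.n s / D.r s + 1 := ⟨_, rfl⟩
  have hq : e / D.r s ≤ L' := by
    rw [hL']
    exact (Nat.div_le_div_right he).trans (Nat.le_succ _)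
  have hL1 : D.n s ≤ L' * D.r s := by
    have h1 := Nat.lt_div_mul_add (a := Q * D.n s) hr
    have h2 : D.n s ≤ Q * D.n s := Nat.le_mul_of_pos_left _ hQ
    rw [hL', add_mul, one_mul]
    omega
  have hL2 : L' * D.r s ≤ (Q + 1) * D.n s := by
    have h1 := Nat.div_mul_le_self (Q * D.n s) (D.r s)
    rw [hL', add_mul, one_mul, add_mul, one_mul]
    omega
  have hL3 : C * (L' * D.r s) ≤ C * ((Q + 1) * D.n s) := Nat.mul_le_mul_left _ hL2
  have hR' : R + 3 * (C * ((Q + 1) * D.n s)) ≤ D.j s := by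
    rw [← mul_assoc, ← mul_assoc]; exact hR
  have e2 : 2 * L' * D.r s = 2 * (L' * D.r s) := mul_assoc _ _ _
  have e3 : C * (2 * (L' * D.r s)) = 2 * (C * (L' * D.r s)) := mul_left_comm _ _ _
  obtain ⟨B, hBm, hB, hgood⟩ := hb (R + C * (L' * D.r s)) (2 * L') (by omega) (by rw [e2, e3]; omega)
  have hσ : Step fun y => X.sg (X.π t) (D.lab s y) := (D.lstep s).comp _
  have hA := Chg.meas hσ (t ^ (e / D.r s * D.r s))
  have hball : ∀ l ≤ L', t ^ (l * D.r s) ∈ Ball (X.SC : Set G) (C * (L' * D.r s)) := fun l hl =>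
    Ball.mono subset_rfl (by rw [mul_comm C]; gcongr) (Ball.pow_mem htC _)
  have h3 := avg_cnt (D.m s (R + C * (L' * D.r s)))
    (E := fun l => {y | y * t ^ (l * D.r s) ∈
      Chg (fun y => X.sg (X.π t) (D.lab s y)) (t ^ (e / D.r s * D.r s))})
    (fun l => meas_shift hA _) L' hBm (show 0 ≤ θ / 4 by positivity) fun x hx => by
      refine (h₂ _ x _ L' _ (D.isW s) hq).trans
        ((mul_le_mul_of_nonneg_left (hgood x hx) hC₂).trans ?_)
      have h0 : (0 : ℝ) ≤ L' := Nat.cast_nonneg _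
      have h1 : C₂ * (θ / (8 * (C₂ + 1))) ≤ θ / 8 := by
        rw [← mul_div_assoc, div_le_div_iff₀ (by positivity) (by norm_num)]
        nlinarith
      push_cast
      nlinarith
  have h4 : ∀ l ∈ Finset.range L', (D.m s R).real
      (Chg (fun y => X.sg (X.π t) (D.lab s y)) (t ^ (e / D.r s * D.r s))) ≤
      (D.m s (R + C * (L' * D.r s))).real {y | y * t ^ (l * D.r s) ∈
        Chg (fun y => X.sg (X.π t) (D.lab s y)) (t ^ (e / D.r s * D.r s))} := fun l hl => by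
    have := om_shift (ζ := D.ζ s) (j := D.j s) (R := R) (meas_shift hA (t ^ (l * D.r s)))
      (Ball.inv_mem (hball l (Finset.mem_range.1 hl).le)) le_rfl
    simpa only [Set.mem_ofPred_eq, inv_mul_cancel_right, Set.setOf_mem_eq] using this
  have h5 := (Finset.card_nsmul_le_sum _ _ _ h4).trans h3
  rw [Finset.card_range, nsmul_eq_mul] at h5
  have hL0 : (0 : ℝ) < L' := by rw [hL']; positivity
  have h6 := le_of_mul_le_mul_left h5 hL0
  have h7 : (D.m s (R + C * (L' * D.r s))).real Set.univ ≤ 1 := om_univ (by omega)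
  have h8 : (D.m s R).real {x | x * t ^ (e / D.r s * D.r s) ∈
      Chg (fun y => X.sg (X.π t) (D.lab s y)) (t ^ (e % D.r s))} ≤ θ / 2 :=
    (om_shift (Chg.meas hσ _) (hball _ hq) (show _ ≤ D.j s by omega)).trans
      ((measureReal_mono (chg_comp _ _ _)).trans
        ((D.chg s t ht _ (Nat.mod_lt _ hr)).trans hs))
  have h9 := chg_mul (fun y => X.sg (X.π t) (D.lab s y)) (t ^ (e / D.r s * D.r s)) (t ^ (e % D.r s))
  rw [← pow_add, Nat.div_add_mod'] at h9
  have h10 := (measureReal_mono (μ := D.m s R) h9).trans (measureReal_union_le _ _)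
  nlinarith

end Geo

end Crest.Agent.R182
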