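import Crest.Agent.R182.MPLine
import Crest.Agent.R182.MBasic

/-! Row 182, block M3: generating sets deep in a cone which separates two labels. -/

set_option autoImplicit false
set_option linter.dupNamespace false

namespace Crest.Agent.R182

theorem prop_of_no_sign {E : Type*} [AddCommGroup E] [Module ℝ E] {φ₁ φ₂ : E →ₗ[ℝ] ℝ}
    (h1 : φ₁ ≠ 0) (h2 : φ₂ ≠ 0) (h : ∀ v, φ₁ v < 0 → φ₂ v ≤ 0) :
    ∃ s : ℝ, 0 < s ∧ ∀ v, φ₁ v = s * φ₂ v := by
  obtain ⟨u₀, hu₀⟩ : ∃ u, φ₂ u ≠ 0 := by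
    by_contra hc
    push Not at hc
    exact h2 (LinearMap.ext hc)
  obtain ⟨u, e⟩ : ∃ u, φ₂ u = 1 :=
    ⟨(φ₂ u₀)⁻¹ • u₀, by rw [map_smul, smul_eq_mul, inv_mul_cancel₀ hu₀]⟩
  have hker : ∀ z, φ₂ z = 0 → φ₁ z = 0 := by
    intro z hz
    by_contra hc
    have := h (u + (-(φ₁ u + 1) / φ₁ z) • z) (by
      rw [map_add, map_smul, smul_eq_mul, div_mul_cancel₀ _ hc]; linarith)
    rw [map_add, map_smul, hz, smul_zero, add_zero, e] at this
    linarith
  have key : ∀ v, φ₁ v = φ₁ u * φ₂ v := fun v => by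
    have := hker (v - φ₂ v • u) (by rw [map_sub, map_smul, e, smul_eq_mul, mul_one, sub_self])
    rw [map_sub, map_smul, smul_eq_mul] at this
    linarith
  refine ⟨φ₁ u, lt_of_le_of_ne (not_lt.1 fun hc => ?_) fun hc => h1 (LinearMap.ext fun v => ?_), key⟩
  · have := h u hc
    linarith
  · rw [key v, ← hc, zero_mul]; rfl

namespace Geo

variable {G : Type} [Group G] [MeasurableSpace G] {k : ℕ} (X : Geo G k)

theorem χ_comp_ne {w : Module.End ℝ (Fin k → ℝ)} (hw : X.IsW w) (i : X.ι) : X.χ i ∘ₗ w ≠ 0 := by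
  obtain ⟨w', -, h, -⟩ := hw.inv
  intro hc
  have h1 := LinearMap.congr_fun hc (w' (X.u i))
  rw [LinearMap.comp_apply, ← Module.End.mul_apply, h, Module.End.one_apply, X.u_self] at h1
  exact one_ne_zero h1

theorem exists_sign_diff {w₁ w₂ : Module.End ℝ (Fin k → ℝ)} (h1 : X.IsW w₁) (h2 : X.IsW w₂)
    (hne : w₁ ≠ w₂) : ∃ i v, X.χ i (w₁ v) < 0 ∧ 0 < X.χ i (w₂ v) := by
  by_contra hc
  push Not at hc
  obtain ⟨w', h3, -, h4⟩ := h2.inv
  obtain ⟨m, hm, hm1⟩ := X.iso_order (h1.mul h3).nu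
  refine hne (LinearMap.ext fun v => sub_eq_zero.1 (X.span _ fun i => ?_))
  obtain ⟨s, hs, h⟩ := prop_of_no_sign (X.χ_comp_ne h1 i) (X.χ_comp_ne h2 i) (hc i)
  obtain ⟨w'', -, h5, h6⟩ := h2.inv
  have e' : w₂ * w' = 1 := by
    rw [show w' = w'' by rw [← mul_one w', ← h5, ← mul_assoc, h4, one_mul], h5]
  have h7 : ∀ n : ℕ, ∀ x, X.χ i (((w₁ * w') ^ n) x) = s ^ n * X.χ i x := by
    intro n
    induction n with
    | zero => intro x; simp
    | succ n ih =>
      intro x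
      have := h (w' (((w₁ * w') ^ n) x))
      rw [LinearMap.comp_apply, LinearMap.comp_apply, ← Module.End.mul_apply w₂, e',
        Module.End.one_apply, ih] at this
      rw [pow_succ', Module.End.mul_apply, Module.End.mul_apply, this]
      ring
  have h8 := h7 m (X.u i)
  rw [hm1, Module.End.one_apply, X.u_self, mul_one] at h8
  have h9 : s = 1 := (pow_eq_one_iff_of_nonneg hs.le hm.ne').1 h8.symm
  have := h v
  rw [h9, one_mul, LinearMap.comp_apply, LinearMap.comp_apply] at this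
  rw [map_sub, this, sub_self]

theorem Gen.reg {X : Geo G k} {t : G} (ht : t ∈ Subgroup.closure (X.SC : Set G))
    (h : X.Gen (X.π t)) : X.Reg t :=
  ⟨ht, fun i => h 1 X.isW_one i⟩

/-- signs are stable near a generic direction -/
theorem Gen.stable {X : Geo G k} {v : Fin k → ℝ} (hv : X.Gen v) : ∃ δ : ℝ, 0 < δ ∧
    ∀ (τ : ℝ) (x : Fin k → ℝ), 0 < τ → ‖x‖ ≤ δ * τ → X.Gen (τ • v + x) ∧
      ∀ w, X.IsW w → X.neg (w (τ • v + x)) = X.neg (w v) := by
  obtain ⟨g, hg, hgap⟩ := X.exists_gap hv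
  obtain ⟨B, hB1, hB⟩ := X.χ_bound
  obtain ⟨B', hB1', hB'⟩ := X.isW_bound
  obtain ⟨b⟩ := X.nβ
  set Wt : ℝ := ∑ i, X.wt b i + 1 with hWt
  have hW0 : 0 ≤ ∑ i, X.wt b i := Finset.sum_nonneg fun i _ => (X.wt_pos b i).le
  refine ⟨g / (2 * Wt * B * B'), by positivity, fun τ x hτ hx => ?_⟩
  have key : ∀ w, X.IsW w → ∀ i, |X.χ i (w x)| < τ * |X.χ i (w v)| := by
    intro w hw i
    have h1 := (hgap w hw b).1 i
    have h2 : X.wt b i ≤ Wt := (Finset.single_le_sum (f := X.wt b)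
      (fun j _ => (X.wt_pos b j).le) (Finset.mem_univ i)).trans (by linarith)
    have h3 : g ≤ Wt * |X.χ i (w v)| := h1.trans (mul_le_mul_of_nonneg_right h2 (abs_nonneg _))
    have h4 : |X.χ i (w x)| ≤ B * (B' * (g / (2 * Wt * B * B') * τ)) :=
      (hB i _).trans (mul_le_mul_of_nonneg_left ((hB' w hw x).trans
        (mul_le_mul_of_nonneg_left hx (by linarith))) (by linarith))
    have h5 : B * (B' * (g / (2 * Wt * B * B') * τ)) = τ * (g / (2 * Wt)) := by field_simp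
    have h6 : g / (2 * Wt) < |X.χ i (w v)| := by
      rw [div_lt_iff₀ (by positivity)]
      nlinarith
    rw [h5] at h4
    exact h4.trans_lt (mul_lt_mul_of_pos_left h6 hτ)
  have sgn : ∀ w, X.IsW w → ∀ i, (X.χ i (w v) < 0 → X.χ i (w (τ • v + x)) < 0) ∧
      (0 < X.χ i (w v) → 0 < X.χ i (w (τ • v + x))) := by
    intro w hw i
    have h1 := abs_lt.1 (key w hw i)
    rw [map_add, map_add, map_smul, map_smul, smul_eq_mul]
    exact ⟨fun h => by rw [abs_of_neg h] at h1; linarith [h1.2],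
      fun h => by rw [abs_of_pos h] at h1; linarith [h1.1]⟩
  refine ⟨fun w hw i => ?_, fun w hw => Set.ext fun i => ⟨fun h => ?_, (sgn w hw i).1⟩⟩
  · rcases (hv w hw i).lt_or_gt with h | h
    · exact ((sgn w hw i).1 h).ne
    · exact ((sgn w hw i).2 h).ne'
  · rcases (hv w hw i).lt_or_gt with h1 | h1
    · exact h1
    · exact absurd ((sgn w hw i).2 h1) (not_lt.2 (le_of_lt h))

/-- a generating set of the flat subgroup deep in a cone which separates two labels -/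
theorem cone_gens {w₁ w₂ : Module.End ℝ (Fin k → ℝ)} (h1 : X.IsW w₁) (h2 : X.IsW w₂)
    (hne : w₁ ≠ w₂) : ∃ (𝒯 : Finset G) (σ : Module.End ℝ (Fin k → ℝ) → Set X.ι),
      Subgroup.closure (𝒯 : Set G) = Subgroup.closure (X.SC : Set G) ∧ σ w₁ ≠ σ w₂ ∧
      ∀ t ∈ 𝒯, X.Reg t ∧ X.Gen (X.π t) ∧ ∀ w, X.IsW w → X.neg (w (X.π t)) = σ w := by
  classical
  obtain ⟨i, v, hv1, hv2⟩ := X.exists_sign_diff h1 h2 hne
  obtain ⟨B, hB1, hB⟩ := X.χ_bound
  obtain ⟨B', hB1', hB'⟩ := X.isW_bound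
  set g := min (-X.χ i (w₁ v)) (X.χ i (w₂ v)) with hg
  have hg0 : 0 < g := lt_min (by linarith) hv2
  obtain ⟨t, ht, τ, hτ, ht1, ht2⟩ := X.exists_generic
    {φ | ∃ w, X.IsW w ∧ ∃ j, φ = X.χ j ∘ₗ w}
    (((X.isW_finite.prod Set.finite_univ).image fun p : _ × X.ι => X.χ p.2 ∘ₗ p.1).subset
      fun _ ⟨w, hw, j, e⟩ => ⟨(w, j), ⟨hw, trivial⟩, e.symm⟩)
    (fun _ ⟨w, hw, j, e⟩ => e ▸ X.χ_comp_ne hw j) v (ε := g / (2 * B * B')) (by positivity)
  have hgen : X.Gen (X.π t) := fun w hw j => ht2 _ ⟨w, hw, j, rfl⟩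
  have hclose : ∀ w, X.IsW w → |X.χ i (w (X.π t)) - τ * X.χ i (w v)| ≤ g / 2 * τ := by
    intro w hw
    have e : X.χ i (w (X.π t)) - τ * X.χ i (w v) = X.χ i (w (X.π t - τ • v)) := by
      rw [map_sub, map_sub, map_smul, map_smul, smul_eq_mul]
    rw [e]
    refine (hB i _).trans ((mul_le_mul_of_nonneg_left ((hB' w hw _).trans
      (mul_le_mul_of_nonneg_left ht1 (by linarith))) (by linarith)).trans (le_of_eq ?_))
    field_simp
  have hσ : X.neg (w₁ (X.π t)) ≠ X.neg (w₂ (X.π t)) := by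
    intro hc
    have a1 := (abs_le.1 (hclose w₁ h1)).2
    have a2 := (abs_le.1 (hclose w₂ h2)).1
    have b1 := mul_le_mul_of_nonneg_left (min_le_left (-X.χ i (w₁ v)) (X.χ i (w₂ v)))
      (by linarith : 0 ≤ τ)
    have b2 := mul_le_mul_of_nonneg_left (min_le_right (-X.χ i (w₁ v)) (X.χ i (w₂ v)))
      (by linarith : 0 ≤ τ)
    rw [← hg] at b1 b2
    have hi : i ∈ X.neg (w₁ (X.π t)) := by
      change X.χ i _ < 0
      nlinarith
    rw [hc] at hi
    change X.χ i _ < 0 at hi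
    nlinarith
  obtain ⟨δ, hδ, hst⟩ := hgen.stable
  obtain ⟨L, hL0, hL⟩ := X.π_hom.lip X.SC.finite_toSet
  obtain ⟨N, hN⟩ := exists_nat_gt (L / δ)
  have hN0 : (0 : ℝ) < N := lt_of_le_of_lt (by positivity) hN
  have hmem : ∀ s, s = 1 ∨ s ∈ X.SC → s ∈ Ball (X.SC : Set G) 1 := by
    rintro s (rfl | hs)
    · exact Ball.one_mem _ _
    · exact Ball.mem_of_mem hs
  refine ⟨(insert 1 X.SC).image fun s => t ^ N * s, fun w => X.neg (w (X.π t)), ?_, hσ, ?_⟩
  · refine le_antisymm ((Subgroup.closure_le _).2 fun x hx => ?_)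
      ((Subgroup.closure_le _).2 fun s hs => ?_)
    · obtain ⟨s, hs, rfl⟩ := Finset.mem_image.1 hx
      exact mul_mem (pow_mem ht N) (Ball.mem_closure (hmem s (Finset.mem_insert.1 hs)))
    · have a1 : t ^ N * 1 ∈ Subgroup.closure
          (((insert 1 X.SC).image fun s => t ^ N * s : Finset G) : Set G) :=
        Subgroup.subset_closure (Finset.mem_image_of_mem _ (Finset.mem_insert_self _ _))
      have a2 : t ^ N * s ∈ Subgroup.closure
          (((insert 1 X.SC).image fun s => t ^ N * s : Finset G) : Set G) :=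
        Subgroup.subset_closure (Finset.mem_image_of_mem _ (Finset.mem_insert_of_mem hs))
      have := mul_mem (inv_mem a1) a2
      rwa [mul_one, inv_mul_cancel_left] at this
  · intro x hx
    obtain ⟨s, hs, rfl⟩ := Finset.mem_image.1 hx
    have hs1 := hmem s (Finset.mem_insert.1 hs)
    have a1 : ‖X.π s‖ ≤ δ * N := by
      have := hL 1 s hs1
      rw [one_mul, X.π_hom.one, sub_zero] at this
      rw [div_lt_iff₀ hδ] at hN
      linarith
    have a2 := hst N (X.π s) hN0 a1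
    rw [← X.π_hom.pow, ← X.π_hom] at a2
    exact ⟨a2.1.reg (mul_mem (pow_mem ht N) (Ball.mem_closure hs1)), a2.1, a2.2⟩

end Geo

end Crest.Agent.R182
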