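import Crest.Agent.R182.MB1

/-! Row 182, block M3: broken lines without loss of volume have one sign vector. -/

set_option autoImplicit false
set_option linter.dupNamespace false

namespace Crest.Agent.R182

open Finset

/-- going down before `s` and up after `s` loses height -/
theorem down_up (x : ℕ → ℝ) {L s l : ℕ} (hs : s ≤ L) (hl : l ≤ L) :
    ∑ m ∈ range l, x m ≤ ∑ m ∈ range L, max (x m) 0 -
      min (∑ m ∈ range s, max (-x m) 0) (∑ m ∈ Ico s L, max (x m) 0) := by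
  have hpos : ∀ (t : Finset ℕ), ∀ m ∈ t, 0 ≤ max (x m) 0 := fun _ _ _ => le_max_right _ _
  rcases le_total l s with h | h
  · have h1 : ∑ m ∈ range l, x m ≤ ∑ m ∈ range s, max (x m) 0 :=
      (sum_le_sum fun m _ => le_max_left _ _).trans (sum_le_sum_of_subset_of_nonneg
        (range_mono h) fun m _ _ => le_max_right _ _)
    have h2 := sum_range_add_sum_Ico (fun m => max (x m) 0) hs
    have := min_le_right (∑ m ∈ range s, max (-x m) 0) (∑ m ∈ Ico s L, max (x m) 0)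
    linarith
  · have h1 : ∑ m ∈ range l, x m = ∑ m ∈ range l, max (x m) 0 - ∑ m ∈ range l, max (-x m) 0 := by
      rw [← sum_sub_distrib]
      refine sum_congr rfl fun m _ => ?_
      rcases le_total (x m) 0 with h | h
      · rw [max_eq_right h, max_eq_left (neg_nonneg.2 h)]; ring
      · rw [max_eq_left h, max_eq_right (neg_nonpos.2 h)]; ring
    have h2 : ∑ m ∈ range l, max (x m) 0 ≤ ∑ m ∈ range L, max (x m) 0 :=
      sum_le_sum_of_subset_of_nonneg (range_mono hl) fun m _ _ => le_max_right _ _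
    have h3 : ∑ m ∈ range s, max (-x m) 0 ≤ ∑ m ∈ range l, max (-x m) 0 :=
      sum_le_sum_of_subset_of_nonneg (range_mono h) fun m _ _ => le_max_right _ _
    have := min_le_left (∑ m ∈ range s, max (-x m) 0) (∑ m ∈ Ico s L, max (x m) 0)
    linarith

/-- of two frequent disjoint events one comes before the other -/
theorem before_or (p q : ℕ → Prop) [DecidablePred p] [DecidablePred q] (hpq : ∀ m, p m → ¬ q m)
    {L : ℕ} {θ : ℝ} (hθ : 0 < θ) (hp : 2 * θ ≤ #{m ∈ range L | p m})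
    (hq : 2 * θ ≤ #{m ∈ range L | q m}) :
    ∃ s ≤ L, ((θ ≤ #{m ∈ range s | p m} ∧ θ ≤ #{m ∈ Ico s L | q m}) ∨
      (θ ≤ #{m ∈ range s | q m} ∧ θ ≤ #{m ∈ Ico s L | p m})) := by
  classical
  have split : ∀ (r : ℕ → Prop) [DecidablePred r], ∀ s ≤ L, (#{m ∈ range L | r m} : ℝ) =
      #{m ∈ range s | r m} + #{m ∈ Ico s L | r m} := by
    intro r _ s hs
    simp only [card_filter]
    push_cast
    exact (sum_range_add_sum_Ico _ hs).symm
  have hex : ∃ s, θ ≤ #{m ∈ range s | p m} := ⟨L, by linarith⟩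
  have h1 := Nat.find_spec hex
  have h2 : Nat.find hex ≤ L := Nat.find_min' hex (by linarith)
  obtain ⟨s, hs⟩ : ∃ s, Nat.find hex = s + 1 := by
    refine Nat.exists_eq_succ_of_ne_zero fun h0 => ?_
    rw [h0] at h1
    simp at h1
    linarith
  have h3 : ¬ θ ≤ #{m ∈ range s | p m} := Nat.find_min hex (by omega)
  rw [hs] at h1 h2
  have h4 : p s := by
    by_contra h
    rw [range_add_one, filter_insert, if_neg h] at h1
    exact h3 h1
  have h5 : #{m ∈ range (s + 1) | q m} = #{m ∈ range s | q m} := by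
    rw [range_add_one, filter_insert, if_neg (hpq s h4)]
  have h6 := split q (s + 1) h2
  have h7 := split p s (by omega)
  rw [h5] at h6
  by_cases h : θ ≤ #{m ∈ Ico (s + 1) L | q m}
  · exact ⟨s + 1, h2, Or.inl ⟨h1, h⟩⟩
  · exact ⟨s, by omega, Or.inr ⟨by linarith, by linarith⟩⟩

theorem ncard_lt (L : ℕ) (p : ℕ → Prop) [DecidablePred p] :
    Set.ncard {m | m < L ∧ p m} = #{m ∈ range L | p m} := by
  rw [← Set.ncard_coe_finset]
  congr 1
  ext m
  simp

namespace Geo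

variable {G : Type} [Group G] [MeasurableSpace G] {k : ℕ} (X : Geo G k)

/-- the sign vector -/
def neg (v : Fin k → ℝ) : Set X.ι := {i | X.χ i v < 0}

/-- generic directions -/
def Gen (v : Fin k → ℝ) : Prop := ∀ w, X.IsW w → ∀ i, X.χ i (w v) ≠ 0

/-- the lossless relation -/
def Ent (a a' : Fin k → ℝ) : Prop := X.nu a + X.nu a' ≤ X.V (lev X.χ {0, a, a + a'})

theorem pos_le_nu (b : X.β) (a : Fin k → ℝ) :
    ∑ i, X.wt b i * max (X.χ i a) 0 ≤ X.nu a := by
  have := X.le_V b (lev X.χ {0, a})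
  rw [nu]
  rwa [X.lev_pair] at this ⊢

theorem Ent.map {X : Geo G k} {a a' : Fin k → ℝ} (h : X.Ent a a')
    {w : Module.End ℝ (Fin k → ℝ)} (hw : X.IsW w) : X.Ent (w a) (w a') := by
  have := hw {0, a, a + a'} (Set.toFinite _) ⟨0, by simp⟩
  simp only [Set.image_insert_eq, Set.image_singleton, map_zero, map_add] at this
  rw [Ent, hw.nu, hw.nu, this]
  exact h

theorem Ent.le {X : Geo G k} {a a' : Fin k → ℝ} (h : X.Ent a a') {i : X.ι} (hi : X.χ i a < 0) :
    X.χ i a' ≤ 0 := by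
  by_contra hc
  rw [not_le] at hc
  obtain ⟨b, hb⟩ := X.exists_V (lev X.χ {0, a, a + a'})
  have key : ∀ j (t : ℝ), 0 ≤ max (X.χ j a) 0 + max (X.χ j a') 0 - t →
      X.χ j a ≤ max (X.χ j a) 0 + max (X.χ j a') 0 - t →
      X.χ j a + X.χ j a' ≤ max (X.χ j a) 0 + max (X.χ j a') 0 - t →
      lev X.χ {0, a, a + a'} j ≤ max (X.χ j a) 0 + max (X.χ j a') 0 - t := by
    intro j t h1 h2 h3
    refine lev_le ⟨0, by simp⟩ ?_
    rintro s (rfl | rfl | rfl)
    · rwa [map_zero]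
    · exact h2
    · rwa [map_add]
  have h1 : ∑ j, X.wt b j * lev X.χ {0, a, a + a'} j <
      ∑ j, X.wt b j * (max (X.χ j a) 0 + max (X.χ j a') 0) := by
    refine sum_lt_sum (fun j _ => mul_le_mul_of_nonneg_left ?_ (X.wt_pos b j).le)
      ⟨i, mem_univ _, mul_lt_mul_of_pos_left ?_ (X.wt_pos b i)⟩
    · have h2 := le_max_left (X.χ j a) 0
      have h3 := le_max_right (X.χ j a) 0
      have h4 := le_max_left (X.χ j a') 0
      have h5 := le_max_right (X.χ j a') 0
      have := key j 0 (by linarith) (by linarith) (by linarith)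
      linarith
    · have h2 := min_le_left (-X.χ i a) (X.χ i a')
      have h3 := min_le_right (-X.χ i a) (X.χ i a')
      have h4 : 0 < min (-X.χ i a) (X.χ i a') := lt_min (by linarith) hc
      have := key i (min (-X.χ i a) (X.χ i a')) (by rw [max_eq_right hi.le, max_eq_left hc.le]; linarith)
        (by rw [max_eq_right hi.le, max_eq_left hc.le]; linarith)
        (by rw [max_eq_right hi.le, max_eq_left hc.le]; linarith)
      linarith
  simp only [mul_add, sum_add_distrib] at h1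
  have h2 := X.pos_le_nu b a
  have h3 := X.pos_le_nu b a'
  have h4 : X.nu a + X.nu a' ≤ _ := h
  linarith

theorem isW_pow {w : Module.End ℝ (Fin k → ℝ)} (hw : X.IsW w) (m : ℕ) : X.IsW (w ^ m) := by
  induction m with
  | zero => rw [pow_zero]; exact X.isW_one
  | succ m ih => rw [pow_succ]; exact ih.mul hw

theorem Ent.neg_eq {X : Geo G k} {v : Fin k → ℝ} (hv : X.Gen v)
    {w₁ w₂ : Module.End ℝ (Fin k → ℝ)} (h1 : X.IsW w₁) (h2 : X.IsW w₂)
    (h : X.Ent (w₁ v) (w₂ v)) : X.neg (w₁ v) = X.neg (w₂ v) := by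
  obtain ⟨w', h3, -, h4⟩ := h1.inv
  set w := w₂ * w' with hw
  have hW : X.IsW w := h2.mul h3
  have e : w * w₁ = w₂ := by rw [hw, mul_assoc, h4, mul_one]
  have step : ∀ m : ℕ, X.neg ((w ^ m * w₁) v) ⊆ X.neg ((w ^ (m + 1) * w₁) v) := by
    intro m i hi
    have h5 := h.map (X.isW_pow hW m)
    rw [← Module.End.mul_apply, ← Module.End.mul_apply, ← e, ← mul_assoc, ← pow_succ] at h5
    exact lt_of_le_of_ne (h5.le hi) (hv _ ((X.isW_pow hW _).mul h1) i)
  have mono : ∀ m : ℕ, X.neg ((w ^ 1 * w₁) v) ⊆ X.neg ((w ^ (m + 1) * w₁) v) := by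
    intro m
    induction m with
    | zero => exact subset_rfl
    | succ m ih => exact ih.trans (step _)
  obtain ⟨m, hm, hm1⟩ := X.iso_order hW.nu
  refine Set.Subset.antisymm ?_ ?_
  · have := step 0
    rwa [pow_zero, one_mul, zero_add, pow_one, e] at this
  · have := mono (m - 1)
    rwa [pow_one, e, Nat.sub_add_cancel hm, hm1, one_mul] at this

theorem ent_of_opt {a a' : Fin k → ℝ} (b : X.β) (h1 : X.nu a ≤ ∑ i, X.wt b i * max (X.χ i a) 0)
    (h2 : X.nu a' ≤ ∑ i, X.wt b i * max (X.χ i a') 0) (h : ∀ i, X.χ i a < 0 → X.χ i a' ≤ 0) :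
    X.Ent a a' := by
  refine le_trans ?_ (X.le_V b _)
  refine (add_le_add h1 h2).trans ?_
  rw [← sum_add_distrib]
  refine sum_le_sum fun i _ => ?_
  rw [← mul_add]
  refine mul_le_mul_of_nonneg_left ?_ (X.wt_pos b i).le
  have hf : ({0, a, a + a'} : Set (Fin k → ℝ)).Finite := Set.toFinite _
  have e0 := le_lev (χ := X.χ) hf (s := 0) (by simp) i
  have e1 := le_lev (χ := X.χ) hf (s := a) (by simp) i
  have e2 := le_lev (χ := X.χ) hf (s := a + a') (by simp) i
  rw [map_zero] at e0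
  rw [map_add] at e2
  rcases lt_or_ge (X.χ i a) 0 with h3 | h3
  · rw [max_eq_right h3.le, max_eq_right (h i h3)]; linarith
  · rw [max_eq_left h3]
    rcases le_total (X.χ i a') 0 with h4 | h4
    · rw [max_eq_right h4]; linarith
    · rw [max_eq_left h4]; linarith

/-- a uniform gap for the finitely many slopes -/
theorem exists_gap {v : Fin k → ℝ} (hv : X.Gen v) : ∃ g : ℝ, 0 < g ∧ ∀ w, X.IsW w → ∀ b,
    (∀ i, g ≤ X.wt b i * |X.χ i (w v)|) ∧ (∑ i, X.wt b i * max (X.χ i (w v)) 0 < X.nu v →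
      ∑ i, X.wt b i * max (X.χ i (w v)) 0 ≤ X.nu v - g) := by
  classical
  haveI := X.isW_finite.to_subtype
  have fin : ∀ {α : Type} [Finite α] (f : α → ℝ), ∃ g : ℝ, 0 < g ∧ ∀ x, 0 < f x → g ≤ f x := by
    intro α _ f
    by_cases h : Nonempty {x // 0 < f x}
    · obtain ⟨x, hx⟩ := Finite.exists_min fun x : {x // 0 < f x} => f x
      exact ⟨f x, x.2, fun y hy => hx ⟨y, hy⟩⟩
    · exact ⟨1, one_pos, fun x hx => absurd ⟨⟨x, hx⟩⟩ h⟩
  obtain ⟨g₁, h1, h1'⟩ := fin fun p : {w | X.IsW w} × X.β × X.ι =>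
    X.wt p.2.1 p.2.2 * |X.χ p.2.2 (p.1.1 v)|
  obtain ⟨g₂, h2, h2'⟩ := fin fun p : {w | X.IsW w} × X.β =>
    X.nu v - ∑ i, X.wt p.2 i * max (X.χ i (p.1.1 v)) 0
  refine ⟨min g₁ g₂, lt_min h1 h2, fun w hw b => ⟨fun i => (min_le_left _ _).trans
    (h1' (⟨w, hw⟩, b, i) (mul_pos (X.wt_pos b i) (abs_pos.2 (hv w hw i)))), fun h => ?_⟩⟩
  have := h2' (⟨w, hw⟩, b) (sub_pos.2 h)
  have h3 := min_le_right g₁ g₂
  dsimp only at this
  linarith

/-- the core: a basis `b` with small total loss -/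
theorem line_core {v : Fin k → ℝ} (hv : X.Gen v) {θ : ℝ} (hθ : 0 < θ) : ∃ ε : ℝ, 0 < ε ∧
    ∀ (L : ℕ) (w : ℕ → Module.End ℝ (Fin k → ℝ)) (b : X.β) (M : X.ι → ℝ), (∀ m, X.IsW (w m)) →
      (∀ i, ∃ l ≤ L, M i ≤ ∑ m ∈ range l, X.χ i (w m v)) →
      L * X.nu v - ε * L ≤ ∑ i, X.wt b i * M i → ∀ m₁ m₂, 0 < L →
        2 * (θ * L) ≤ Set.ncard {m | m < L ∧ w m v = w m₁ v} →
        2 * (θ * L) ≤ Set.ncard {m | m < L ∧ w m v = w m₂ v} →
        X.neg (w m₁ v) = X.neg (w m₂ v) := by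
  classical
  obtain ⟨g, hg, hgap⟩ := X.exists_gap hv
  refine ⟨g * θ / 2, by positivity, fun L w b M hw hM hV m₁ m₂ hL c1 c2 => ?_⟩
  have hL' : (0 : ℝ) < L := by exact_mod_cast hL
  have hθL : 0 < θ * L := by positivity
  rw [ncard_lt] at c1 c2
  set T : X.ι → ℝ := fun i => ∑ m ∈ range L, max (X.χ i (w m v)) 0 with hT
  set Pb : ℕ → ℝ := fun m => ∑ i, X.wt b i * max (X.χ i (w m v)) 0 with hPb
  have hPle : ∀ m, Pb m ≤ X.nu v := fun m => (X.pos_le_nu b _).trans ((hw m).nu v).le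
  have hsum : ∑ i, X.wt b i * T i = ∑ m ∈ range L, Pb m := by
    simp only [hT, hPb, mul_sum]; exact sum_comm
  have hMT : ∀ i, ∀ s ≤ L, M i ≤ T i - min (∑ m ∈ range s, max (-X.χ i (w m v)) 0)
      (∑ m ∈ Ico s L, max (X.χ i (w m v)) 0) := fun i s hs => by
    obtain ⟨l, hl, h⟩ := hM i
    exact h.trans (down_up (fun m => X.χ i (w m v)) hs hl)
  have hMT0 : ∀ i, X.wt b i * M i ≤ X.wt b i * T i := fun i => by
    have := hMT i 0 (Nat.zero_le _)
    rw [range_zero, sum_empty, min_eq_left (sum_nonneg fun _ _ => le_max_right _ _), sub_zero] at this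
    exact mul_le_mul_of_nonneg_left this (X.wt_pos b i).le
  have hPL : ∑ m ∈ range L, Pb m ≤ L * X.nu v := by
    have := sum_le_card_nsmul (range L) Pb _ fun m _ => hPle m
    rwa [card_range, nsmul_eq_mul] at this
  -- frequent slopes are optimal
  have opt : ∀ m₀, 2 * (θ * L) ≤ #{m ∈ range L | w m v = w m₀ v} →
      X.nu (w m₀ v) ≤ ∑ i, X.wt b i * max (X.χ i (w m₀ v)) 0 := by
    intro m₀ h0
    rw [(hw m₀).nu]
    by_contra hc
    have h1 := (hgap _ (hw m₀) b).2 (not_le.1 hc)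
    have h2 : ∑ m ∈ range L, Pb m ≤
        ∑ m ∈ range L, (X.nu v - if w m v = w m₀ v then g else 0) := by
      refine sum_le_sum fun m _ => ?_
      split_ifs with h
      · simp only [hPb, h]; exact h1
      · rw [sub_zero]; exact hPle m
    rw [sum_sub_distrib, sum_const, card_range, nsmul_eq_mul, ← sum_filter, sum_const,
      nsmul_eq_mul] at h2
    have h3 := sum_le_sum fun i (_ : i ∈ univ) => hMT0 i
    nlinarith
  -- no class goes down and then up
  have noup : ∀ m₁ m₂, ∀ s ≤ L, θ * L ≤ #{m ∈ range s | w m v = w m₁ v} →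
      θ * L ≤ #{m ∈ Ico s L | w m v = w m₂ v} → ∀ i, X.χ i (w m₁ v) < 0 → X.χ i (w m₂ v) ≤ 0 := by
    intro m₁ m₂ s hs d1 d2 i hi
    by_contra hc
    rw [not_le] at hc
    have g1 := (hgap _ (hw m₁) b).1 i
    have g2 := (hgap _ (hw m₂) b).1 i
    rw [abs_of_neg hi] at g1
    rw [abs_of_pos hc] at g2
    have hwt := X.wt_pos b i
    have s1 : (#{m ∈ range s | w m v = w m₁ v} : ℝ) * -X.χ i (w m₁ v) ≤
        ∑ m ∈ range s, max (-X.χ i (w m v)) 0 := by
      rw [← nsmul_eq_mul, ← sum_const]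
      refine (sum_le_sum fun m hm => ?_).trans (sum_le_sum_of_subset_of_nonneg (filter_subset _ _)
        fun _ _ _ => le_max_right _ _)
      rw [(mem_filter.1 hm).2]; exact le_max_left _ _
    have s2 : (#{m ∈ Ico s L | w m v = w m₂ v} : ℝ) * X.χ i (w m₂ v) ≤
        ∑ m ∈ Ico s L, max (X.χ i (w m v)) 0 := by
      rw [← nsmul_eq_mul, ← sum_const]
      refine (sum_le_sum fun m hm => ?_).trans (sum_le_sum_of_subset_of_nonneg (filter_subset _ _)
        fun _ _ _ => le_max_right _ _)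
      rw [(mem_filter.1 hm).2]; exact le_max_left _ _
    have s3 : g * (θ * L) ≤ X.wt b i * min (∑ m ∈ range s, max (-X.χ i (w m v)) 0)
        (∑ m ∈ Ico s L, max (X.χ i (w m v)) 0) := by
      rw [mul_min_of_nonneg _ _ hwt.le]
      refine le_min ?_ ?_
      · have := mul_le_mul_of_nonneg_left s1 hwt.le
        have := mul_le_mul g1 d1 hθL.le (hg.le.trans g1)
        nlinarith
      · have := mul_le_mul_of_nonneg_left s2 hwt.le
        have := mul_le_mul g2 d2 hθL.le (hg.le.trans g2)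
        nlinarith
    have s4 := mul_le_mul_of_nonneg_left (hMT i s hs) hwt.le
    have s5 : ∑ j, X.wt b j * M j ≤
        ∑ j, (X.wt b j * T j - if j = i then g * (θ * L) else 0) := by
      refine sum_le_sum fun j _ => ?_
      split_ifs with h
      · subst h; rw [mul_sub] at s4; linarith
      · rw [sub_zero]; exact hMT0 j
    rw [sum_sub_distrib, sum_ite_eq' univ i, if_pos (mem_univ _)] at s5
    have : 0 < g * (θ * L) := by positivity
    nlinarith
  by_cases he : w m₁ v = w m₂ v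
  · rw [he]
  obtain ⟨s, hs, h | h⟩ := before_or (fun m => w m v = w m₁ v) (fun m => w m v = w m₂ v)
    (fun m h1 h2 => he (h1.symm.trans h2)) hθL c1 c2
  · exact (X.ent_of_opt b (opt _ c1) (opt _ c2) (noup _ _ s hs h.1 h.2)).neg_eq hv (hw _) (hw _)
  · exact ((X.ent_of_opt b (opt _ c2) (opt _ c1) (noup _ _ s hs h.1 h.2)).neg_eq hv (hw _)
      (hw _)).symm

/-- THE LINE LEMMA: if a profile follows a broken line with slopes `w m v` and does not lose volume, then
all but a fraction `ξ` of the slopes have the same sign vector -/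
theorem line_pure {v : Fin k → ℝ} (hv : X.Gen v) {ξ : ℝ} (hξ : 0 < ξ) : ∃ ε : ℝ, 0 < ε ∧
    ∀ (L : ℕ) (r : ℝ) (w : ℕ → Module.End ℝ (Fin k → ℝ)) (S : Set (Fin k → ℝ)) (s₀ : Fin k → ℝ),
      0 < r → (∀ m, X.IsW (w m)) → S.Nonempty →
      (∀ s ∈ S, ∃ l ≤ L, ‖s - s₀ - r • ∑ m ∈ range l, w m v‖ ≤ ε * r * L) →
      L * r * X.nu v - ε * r * L ≤ X.V (lev X.χ S) →
      ∃ σ : Set X.ι, (Set.ncard {l | l < L ∧ X.neg (w l v) ≠ σ} : ℝ) ≤ ξ * L := by
  classical
  set A : Finset (Fin k → ℝ) := X.isW_finite.toFinset.image fun w => w v with hA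
  have hA0 : (0 : ℝ) ≤ #A := Nat.cast_nonneg _
  obtain ⟨ε₁, hε₁, hcore⟩ := X.line_core hv (θ := ξ / (2 * (#A + 1))) (by positivity)
  obtain ⟨B, hB1, hB⟩ := X.χ_bound
  obtain ⟨B', hB1', hB'⟩ := X.V_lip
  refine ⟨ε₁ / (1 + B' * B), by positivity, fun L r w S s₀ hr hw hS h1 h2 => ?_⟩
  set ε := ε₁ / (1 + B' * B) with hε
  have hε0 : 0 < ε := by positivity
  have hεe : ε * (1 + B' * B) = ε₁ := div_mul_cancel₀ _ (by positivity)
  rcases Nat.eq_zero_or_pos L with rfl | hL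
  · exact ⟨∅, by simp⟩
  have hL' : (0 : ℝ) < L := by exact_mod_cast hL
  have hex : ∀ i, ∃ l ≤ L, ∀ l' ≤ L,
      ∑ m ∈ range l', X.χ i (w m v) ≤ ∑ m ∈ range l, X.χ i (w m v) := fun i => by
    obtain ⟨l, hl, h⟩ := exists_max_image (range (L + 1))
      (fun l => ∑ m ∈ range l, X.χ i (w m v)) ⟨0, by simp⟩
    exact ⟨l, Nat.lt_succ_iff.1 (mem_range.1 hl), fun l' hl' => h l' (mem_range.2 (by omega))⟩
  choose l hl hl' using hex
  set M : X.ι → ℝ := fun i => ∑ m ∈ range (l i), X.χ i (w m v) with hM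
  have h3 : X.V (lev X.χ S) ≤ X.V (fun i => r * M i + X.χ i s₀) + B' * (B * (ε * r * L)) := by
    refine hB' _ _ _ (by positivity) fun i => lev_le hS fun s hs => ?_
    obtain ⟨l', hl1, hl2⟩ := h1 s hs
    have e1 := (le_abs_self _).trans ((hB i _).trans (mul_le_mul_of_nonneg_left hl2 (by linarith)))
    rw [map_sub, map_sub, map_smul, map_sum, smul_eq_mul] at e1
    have := mul_le_mul_of_nonneg_left (hl' i l' hl1) hr.le
    linarith
  rw [X.V_add_pt, X.V_smul _ hr.le] at h3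
  obtain ⟨b, hb⟩ := X.exists_V M
  have h4 : L * X.nu v - ε₁ * L ≤ ∑ i, X.wt b i * M i := by
    rw [← hb, ← hεe]
    refine le_of_mul_le_mul_left ?_ hr
    nlinarith
  have h5 := hcore L w b M hw (fun i => ⟨l i, hl i, le_rfl⟩) h4
  set θ := ξ / (2 * (#A + 1)) with hθ
  have key : ∀ σ : Set X.ι, (∀ m, 2 * (θ * L) ≤ Set.ncard {m' | m' < L ∧ w m' v = w m v} →
      X.neg (w m v) = σ) → (Set.ncard {l | l < L ∧ X.neg (w l v) ≠ σ} : ℝ) ≤ ξ * L := by
    intro σ hσ
    rw [ncard_lt]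
    have e1 := card_eq_sum_card_fiberwise (f := fun m => w m v)
      (s := {m ∈ range L | X.neg (w m v) ≠ σ}) (t := A)
      fun m _ => mem_coe.2 (mem_image.2 ⟨w m, X.isW_finite.mem_toFinset.2 (hw m), rfl⟩)
    have e2 : ∀ a ∈ A, (#{m ∈ {m ∈ range L | X.neg (w m v) ≠ σ} | w m v = a} : ℝ) ≤
        2 * (θ * L) := by
      intro a _
      rcases eq_empty_or_nonempty {m ∈ {m ∈ range L | X.neg (w m v) ≠ σ} | w m v = a} with h | ⟨m, h⟩
      · rw [h, card_empty, Nat.cast_zero]; positivity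
      · obtain ⟨h6, rfl⟩ := mem_filter.1 h
        have h7 := not_le.1 fun h8 => (mem_filter.1 h6).2 (hσ m h8)
        rw [ncard_lt] at h7
        refine le_trans ?_ h7.le
        exact_mod_cast card_le_card (filter_subset_filter _ (filter_subset _ _))
    rw [e1, Nat.cast_sum]
    refine (sum_le_card_nsmul A _ _ e2).trans ?_
    rw [nsmul_eq_mul, hθ]
    have : (#A : ℝ) * (2 * (ξ / (2 * (#A + 1)) * L)) = ξ * L * (#A / (#A + 1)) := by
      field_simp
    rw [this]
    exact mul_le_of_le_one_right (by positivity) (div_le_one_of_le₀ (by linarith) (by positivity))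
  by_cases hfr : ∃ m, 2 * (θ * L) ≤ Set.ncard {m' | m' < L ∧ w m' v = w m v}
  · obtain ⟨m₀, hm₀⟩ := hfr
    exact ⟨_, key _ fun m hm => h5 m m₀ hL hm hm₀⟩
  · exact ⟨∅, key _ fun m hm => absurd ⟨m, hm⟩ hfr⟩

end Geo

end Crest.Agent.R182
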