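import Crest.Agent.R182.MSDefs

/-! Row 182, block M1: labels. -/

set_option autoImplicit false
set_option linter.dupNamespace false

namespace Crest.Agent.R182

open Crest.GroupTheory MeasureTheory

namespace Geo

variable {G : Type} [Group G] [MeasurableSpace G] {k : ℕ} (X : Geo G k)

open Classical in
/-- the label of a linear map -/
noncomputable def lb (δ : ℝ) (M : Module.End ℝ (Fin k → ℝ)) : Module.End ℝ (Fin k → ℝ) :=
  if h : X.Near δ M then h.choose else 1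

theorem lb_isW (δ : ℝ) (M : Module.End ℝ (Fin k → ℝ)) : X.IsW (X.lb δ M) := by
  unfold lb
  split_ifs with h
  · exact h.choose_spec.1
  · exact X.isW_one

theorem lb_near {δ : ℝ} {M : Module.End ℝ (Fin k → ℝ)} (h : X.Near δ M) (v : Fin k → ℝ) :
    ‖M v - X.lb δ M v‖ ≤ δ * ‖v‖ := by
  unfold lb
  rw [dif_pos h]
  exact h.choose_spec.2 v

variable [MeasurableMul₂ G] [MeasurableInv G]

variable {X} {c n₀ : ℕ} {𝒰 : Ultrafilter ℕ} {ψ ψ' : ℕ → G → G} {ω : ℕ → Measure G}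
  {Φ : ℕ → G → Module.End ℝ (Fin k → ℝ)}

variable (X) in
/-- `ε₀` from `isW_sep`, `δ ≤ ε₀ / 4`: the set is covered by `{¬ Near (Φ x)}`, its translate
(`TVr.le`, `Step.measurableSet`) and the `k` sets `{ε₀ / 2 ≤ ‖Φ (x γ) e_l - Φ x e_l‖}` (Markov,
`mul_meas_ge_le_integral_of_nonneg`, `Apx.inv`) -/
theorem lb_inv (C₀ : ℝ) {ε : ℝ} (hε : 0 < ε) : ∃ δ₀ : ℝ, 0 < δ₀ ∧ ∀ δ, 0 < δ → δ ≤ δ₀ →
    ∀ c 𝒰 ψ ψ' ω n₀ Φ, X.Hyp c 𝒰 ψ ψ' ω → X.Apx C₀ 𝒰 ψ ω δ n₀ Φ →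
      (∀ᶠ i in (𝒰 : Filter ℕ), (ω i).real {x | ¬ X.Near δ (Φ i x)} ≤ δ) → ∀ γ ∈ X.Γ,
        ∀ᶠ i in (𝒰 : Filter ℕ),
          (ω i).real {x | X.lb δ (Φ i (x * γ)) ≠ X.lb δ (Φ i x)} ≤ ε := by
  obtain ⟨ε₀, hε₀, hsep⟩ := X.isW_sep
  have hk : (0 : ℝ) ≤ k := k.cast_nonneg
  have hA : 0 < 3 + k * (2 / ε₀) := by positivity
  refine ⟨min (ε₀ / 4) (ε / (3 + k * (2 / ε₀))), lt_min (by positivity) (by positivity),
    fun δ hδ hδ₀ c 𝒰 ψ ψ' ω n₀ Φ hyp apx hnear γ hγ => ?_⟩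
  have hδ1 : δ ≤ ε₀ / 4 := hδ₀.trans (min_le_left _ _)
  have hδ2 : δ * (3 + k * (2 / ε₀)) ≤ ε := (le_div_iff₀ hA).1 (hδ₀.trans (min_le_right _ _))
  have hn : ∀ l : Fin k, ‖(Pi.single l 1 : Fin k → ℝ)‖ = 1 := fun l => by
    rw [Pi.norm_single, norm_one]
  filter_upwards [hnear, hyp.inv γ hγ δ hδ,
    Filter.eventually_all.2 fun l : Fin k => apx.inv γ hγ (Pi.single l 1)] with i h1 h2 h3
  have := hyp.prob i
  have hsub : {x | X.lb δ (Φ i (x * γ)) ≠ X.lb δ (Φ i x)} ⊆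
      ({x | ¬ X.Near δ (Φ i x)} ∪ {x | x * γ ∈ {y | ¬ X.Near δ (Φ i y)}}) ∪
        ⋃ l : Fin k, {x | ε₀ / 2 ≤ ‖Φ i (x * γ) (Pi.single l 1) - Φ i x (Pi.single l 1)‖} := by
    intro x hx
    by_contra hc
    simp only [Set.mem_union, Set.mem_setOf_eq, Set.mem_iUnion, not_or, not_not, not_exists,
      not_le] at hc
    refine hx (hsep _ _ (X.lb_isW _ _) (X.lb_isW _ _) fun l => ?_)
    have e1 := X.lb_near hc.1.1 (Pi.single l 1)
    have e2 := X.lb_near hc.1.2 (Pi.single l 1)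
    have e3 := hc.2 l
    rw [hn, mul_one] at e1 e2
    rw [norm_sub_rev] at e2
    have e4 := norm_sub_le_norm_sub_add_norm_sub (X.lb δ (Φ i (x * γ)) (Pi.single l 1))
      (Φ i (x * γ) (Pi.single l 1)) (X.lb δ (Φ i x) (Pi.single l 1))
    have e5 := norm_sub_le_norm_sub_add_norm_sub (Φ i (x * γ) (Pi.single l 1))
      (Φ i x (Pi.single l 1)) (X.lb δ (Φ i x) (Pi.single l 1))
    linarith
  have h4 := h2.le ((apx.step i).measurableSet fun M => ¬ X.Near δ M)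
  have h5 : ∀ l : Fin k, (ω i).real
      {x | ε₀ / 2 ≤ ‖Φ i (x * γ) (Pi.single l 1) - Φ i x (Pi.single l 1)‖} ≤ δ * (2 / ε₀) := by
    intro l
    have hm : Measurable fun x => ‖Φ i (x * γ) (Pi.single l 1) - Φ i x (Pi.single l 1)‖ :=
      (((apx.step i).mul_right γ).prod (apx.step i)).measurable
        fun p => ‖p.1 (Pi.single l 1) - p.2 (Pi.single l 1)‖
    have hi : Integrable (fun x => ‖Φ i (x * γ) (Pi.single l 1) - Φ i x (Pi.single l 1)‖) (ω i) := by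
      refine Integrable.of_bound hm.aestronglyMeasurable (C₀ + C₀) (ae_of_all _ fun x => ?_)
      have e1 := apx.bd i (x * γ) (Pi.single l 1)
      have e2 := apx.bd i x (Pi.single l 1)
      rw [hn, mul_one] at e1 e2
      rw [norm_norm]
      exact (norm_sub_le _ _).trans (add_le_add e1 e2)
    have e1 := (mul_meas_ge_le_integral_of_nonneg (ae_of_all _ fun x => norm_nonneg _) hi
      (ε₀ / 2)).trans (h3 l)
    rw [hn, mul_one, mul_comm, ← le_div_iff₀ (by positivity)] at e1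
    refine e1.trans_eq ?_
    field_simp
  refine (measureReal_mono hsub).trans ((measureReal_union_le _ _).trans ?_)
  have h6 := measureReal_union_le (μ := ω i) {x | ¬ X.Near δ (Φ i x)}
    {x | x * γ ∈ {y | ¬ X.Near δ (Φ i y)}}
  have h7 := (measureReal_iUnion_fintype_le (μ := ω i) _).trans
    (Finset.sum_le_sum fun l (_ : l ∈ Finset.univ) => h5 l)
  rw [Finset.sum_const, Finset.card_univ, Fintype.card_fin, nsmul_eq_mul] at h7
  nlinarith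

variable (X) in
/-- pointwise `‖Φ x v - lb (Φ x) v‖ ≤ (δ + (C₀ + B) 1_{¬ Near}) ‖v‖` (`isW_bound`), `v = π g`,
`‖π g‖ ≤ K * K * n` (`flat_ball`, `π_ball`); `Apx.flat` -/
theorem lb_flat (C₀ : ℝ) {ε : ℝ} (hε : 0 < ε) : ∃ δ₀ : ℝ, 0 < δ₀ ∧ ∀ δ, 0 < δ → δ ≤ δ₀ →
    ∀ c 𝒰 ψ ψ' ω n₀ Φ, X.Hyp c 𝒰 ψ ψ' ω → X.Apx C₀ 𝒰 ψ ω δ n₀ Φ →
      (∀ᶠ i in (𝒰 : Filter ℕ), (ω i).real {x | ¬ X.Near δ (Φ i x)} ≤ δ) → ∀ n ≥ n₀,
        ∀ g ∈ Ball (X.SC : Set G) n, ∀ᶠ i in (𝒰 : Filter ℕ),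
          ∫ x, X.err (ψ i) (fun x => X.lb δ (Φ i x)) g x ∂(ω i) ≤ ε * n := by
  obtain ⟨B, hB1, hB⟩ := X.isW_bound
  obtain ⟨Q, hQ⟩ : ∃ Q : ℝ, Q = (X.K : ℝ) * X.K := ⟨_, rfl⟩
  have hQ0 : 0 ≤ Q := by rw [hQ]; positivity
  have hC : 0 ≤ |C₀| + B := by have := abs_nonneg C₀; linarith
  have hD : 0 < 1 + Q + (|C₀| + B) * Q := by positivity
  refine ⟨ε / (1 + Q + (|C₀| + B) * Q), by positivity,
    fun δ hδ hδ₀ c 𝒰 ψ ψ' ω n₀ Φ hH hA hN n hn g hg => ?_⟩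
  filter_upwards [hN, hA.flat n hn g hg] with i hi1 hi2
  have := hH.prob i
  have hv : ‖X.π g‖ ≤ Q * n := by
    have := X.π_ball (X.flat_ball hg)
    push_cast at this
    rw [hQ, mul_assoc]
    exact this
  have hv0 := norm_nonneg (X.π g)
  have hS := (hH.qp i).step
  have hm : Measurable (X.err (ψ i) (Φ i) g) :=
    (((hS.mul_right g).prod hS).prod (hA.step i)).measurable
      fun p => ‖X.π p.1.1 - X.π p.1.2 - p.2 (X.π g)‖
  have hbd : ∀ x, ‖X.err (ψ i) (Φ i) g x‖ ≤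
      X.K * ((c * (X.K * n) + c : ℕ) : ℝ) + C₀ * ‖X.π g‖ := fun x => by
    unfold err
    rw [norm_norm]
    exact norm_sub_le_of_le (X.π_lip.ball ((hH.qp i).qi.up x (x * g) _
      (by rw [inv_mul_cancel_left]; exact X.flat_ball hg))) (hA.bd i x _)
  have hint : Integrable (X.err (ψ i) (Φ i) g) (ω i) :=
    Integrable.of_bound hm.aestronglyMeasurable _ (ae_of_all _ hbd)
  have hmA : MeasurableSet {x | ¬ X.Near δ (Φ i x)} :=
    (hA.step i).measurableSet fun M => ¬ X.Near δ M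
  have hind : Integrable (Set.indicator {x | ¬ X.Near δ (Φ i x)}
      fun _ => (|C₀| + B) * ‖X.π g‖) (ω i) := (integrable_const _).indicator hmA
  have hpt : ∀ x, X.err (ψ i) (fun x => X.lb δ (Φ i x)) g x ≤
      X.err (ψ i) (Φ i) g x + δ * ‖X.π g‖ + Set.indicator {x | ¬ X.Near δ (Φ i x)}
        (fun _ => (|C₀| + B) * ‖X.π g‖) x := fun x => by
    have h1 : X.err (ψ i) (fun x => X.lb δ (Φ i x)) g x ≤
        X.err (ψ i) (Φ i) g x + ‖Φ i x (X.π g) - X.lb δ (Φ i x) (X.π g)‖ := by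
      unfold err
      refine le_trans (le_of_eq ?_) (norm_add_le _ _)
      congr 1
      abel
    by_cases hx : X.Near δ (Φ i x)
    · rw [Set.indicator_of_notMem (by simpa using hx)]
      linarith [X.lb_near hx (X.π g)]
    · rw [Set.indicator_of_mem (by simpa using hx)]
      have h2 := norm_sub_le_of_le (hA.bd i x (X.π g)) (hB _ (X.lb_isW δ (Φ i x)) (X.π g))
      have h3 := mul_le_mul_of_nonneg_right (le_abs_self C₀) hv0
      have h4 := mul_nonneg hδ.le hv0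
      linarith
  have hint2 : Integrable (fun x => X.err (ψ i) (Φ i) g x + δ * ‖X.π g‖) (ω i) :=
    hint.add (integrable_const _)
  have hle := integral_mono_of_nonneg (μ := ω i) (ae_of_all _ fun x => norm_nonneg _)
    (hint2.add hind) (ae_of_all _ hpt)
  refine hle.trans ?_
  simp only [Pi.add_apply]
  rw [integral_add hint2 hind, integral_add hint (integrable_const _),
    integral_indicator_const _ hmA, integral_const, probReal_univ, one_smul, smul_eq_mul]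
  have hn0 : (0 : ℝ) ≤ n := n.cast_nonneg
  have h1 : δ * ‖X.π g‖ ≤ δ * (Q * n) := mul_le_mul_of_nonneg_left hv hδ.le
  have h2 : (ω i).real {x | ¬ X.Near δ (Φ i x)} * ((|C₀| + B) * ‖X.π g‖) ≤
      δ * ((|C₀| + B) * (Q * n)) :=
    mul_le_mul hi1 (mul_le_mul_of_nonneg_left hv hC) (by positivity) hδ.le
  have h3 : δ * (1 + Q + (|C₀| + B) * Q) ≤ ε := (le_div_iff₀ hD).1 hδ₀
  have h4 := mul_le_mul_of_nonneg_right h3 hn0
  linarith

variable (X) in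
/-- `L ≥ 1` with `𝒯 ⊆ Ball SC L`, `r = max r₀ n₀`, `t ^ j ∈ Ball SC (r * L)` (`Ball.pow_mem`),
`lb_flat` with `ε / L`, `lb_inv`, `AHom.pow`, `Step.comp` -/
theorem slopes_of_h4 (h : X.H4) : X.Slopes := by
  intro c 𝒰 ψ ψ' ω hqp hprob hinv ε hε 𝒯 h𝒯 r₀
  have hH : X.Hyp c 𝒰 ψ ψ' ω := ⟨hqp, hprob, hinv⟩
  obtain ⟨C₀, -, h4⟩ := h c
  choose! ρ hρ using fun t (ht : t ∈ 𝒯) => Ball.exists_of_mem_closure (h𝒯 t ht).1
  obtain ⟨L, hL⟩ : ∃ L : ℕ, L = 𝒯.sup ρ + 1 := ⟨_, rfl⟩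
  have hL1 : 1 ≤ L := by omega
  have hLp : (0 : ℝ) < L := by exact_mod_cast hL1
  have hTL : ∀ t ∈ 𝒯, t ∈ Ball (X.SC : Set G) L := fun t ht =>
    Ball.mono subset_rfl ((Finset.le_sup ht).trans (by omega)) (hρ t ht)
  obtain ⟨δ₁, hδ₁, h1⟩ := X.lb_flat C₀ (div_pos hε hLp)
  obtain ⟨δ₂, hδ₂, h2⟩ := X.lb_inv C₀ hε
  have hδ : 0 < min δ₁ δ₂ := lt_min hδ₁ hδ₂
  obtain ⟨n₀, Φ, hA, hN⟩ := h4 𝒰 ψ ψ' ω hH _ hδ
  refine ⟨max r₀ n₀, le_max_left _ _, fun i x => X.lb (min δ₁ δ₂) (Φ i x),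
    fun i x => X.lb_isW _ _, fun i => (hA.step i).comp _, fun t ht j hj => ?_,
    h2 _ hδ (min_le_right _ _) c 𝒰 ψ ψ' ω n₀ Φ hH hA hN⟩
  have hb : t ^ j ∈ Ball (X.SC : Set G) (max r₀ n₀ * L) :=
    Ball.mono subset_rfl (Nat.mul_le_mul_right L hj) (Ball.pow_mem (hTL t ht) j)
  have hn : max r₀ n₀ * L ≥ n₀ := (le_max_right r₀ n₀).trans (Nat.le_mul_of_pos_right _ hL1)
  filter_upwards [h1 _ hδ (min_le_left _ _) c 𝒰 ψ ψ' ω n₀ Φ hH hA hN _ hn _ hb] with i hi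
  simp only [err, X.π_hom.pow, map_smul] at hi
  refine hi.trans (le_of_eq ?_)
  push_cast
  field_simp

end Geo

end Crest.Agent.R182
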