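import Crest.Agent.R182.MSRev3
import Crest.Agent.R182.MSLab

/-! Row 182, block M1: the second half. -/

set_option autoImplicit false
set_option linter.dupNamespace false

namespace Crest.Agent.R182

open Crest.GroupTheory MeasureTheory

theorem Geo.slopes_of_h1 {G : Type} [Group G] [MeasurableSpace G] [MeasurableMul₂ G]
    [MeasurableInv G] {k : ℕ} (X : Geo G k) (hV : X.VP) (h : X.H1) : X.Slopes :=
  X.slopes_of_h4 (X.h4 hV h)

end Crest.Agent.R182
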