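import Crest.Agent.R182.MSA
import Crest.Agent.R182.MSAll0

/-! Row 182, block M1. -/

set_option autoImplicit false
set_option linter.dupNamespace false

namespace Crest.Agent.R182

theorem Geo.slopes {G : Type} [Group G] [MeasurableSpace G] [MeasurableMul₂ G] [MeasurableInv G]
    {k : ℕ} (X : Geo G k) : X.Slopes :=
  X.slopes_of_h1 X.vp X.h1

end Crest.Agent.R182
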