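import Crest.Agent.R182.MSDefs

/-! Row 182, block M1, first half: definitions. -/

set_option autoImplicit false
set_option linter.dupNamespace false
set_option linter.unusedSectionVars false

namespace Crest.Agent.R182

open Crest.GroupTheory MeasureTheory Filter Topology

/-- sublinear sequences -/
def SubL (f : ℕ → ℝ) : Prop := ∀ ε : ℝ, 0 < ε → ∃ C : ℝ, ∀ n : ℕ, f n ≤ ε * n + C

theorem SubL.mono {f g : ℕ → ℝ} (h : SubL g) (hfg : ∀ n, f n ≤ g n) : SubL f := fun ε hε =>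
  let ⟨C, hC⟩ := h ε hε
  ⟨C, fun n => (hfg n).trans (hC n)⟩

/-- uniformly bounded sequences of measurable functions -/
def BF (G : Type) [MeasurableSpace G] (k : ℕ) : Submodule ℝ (ℕ → G → Fin k → ℝ) where
  carrier := {F | (∀ i, Measurable (F i)) ∧ ∃ B : ℝ, ∀ i x, ‖F i x‖ ≤ B}
  zero_mem' := ⟨fun _ => measurable_const, 0, fun _ _ => by simp⟩
  add_mem' := by
    rintro F F' ⟨h1, B, h2⟩ ⟨h1', B', h2'⟩
    exact ⟨fun i => (h1 i).add (h1' i), B + B', fun i x =>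
      (norm_add_le _ _).trans (add_le_add (h2 i x) (h2' i x))⟩
  smul_mem' := by
    rintro t F ⟨h1, B, h2⟩
    refine ⟨fun i => (h1 i).const_smul t, ‖t‖ * B, fun i x => ?_⟩
    change ‖t • F i x‖ ≤ _
    rw [norm_smul]
    exact mul_le_mul_of_nonneg_left (h2 i x) (norm_nonneg _)

variable {G : Type} [MeasurableSpace G] {k : ℕ}

theorem BF.meas (F : BF G k) (i : ℕ) : Measurable (F.1 i) := F.2.1 i

theorem BF.bdd (F : BF G k) : ∃ B : ℝ, ∀ i x, ‖F.1 i x‖ ≤ B := F.2.2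

theorem BF.integrable (F : BF G k) (i : ℕ) (μ : Measure G) [IsFiniteMeasure μ] :
    Integrable (F.1 i) μ :=
  let ⟨B, hB⟩ := BF.bdd F
  Integrable.of_bound (BF.meas F i).aestronglyMeasurable B (Eventually.of_forall (hB i))

/-- `B` is the ultralimit of the `L²` inner products -/
def IsIP (𝒰 : Ultrafilter ℕ) (ω : ℕ → Measure G) (B : BF G k →ₗ[ℝ] BF G k →ₗ[ℝ] ℝ) : Prop :=
  ∀ F F' : BF G k, Tendsto (fun i => ∫ x, ∑ l, F.1 i x l * F'.1 i x l ∂(ω i)) (𝒰 : Filter ℕ)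
    (𝓝 (B F F'))

variable [Group G] [MeasurableMul₂ G]

/-- right translation -/
def BF.tr (g : G) : BF G k →ₗ[ℝ] BF G k where
  toFun F := ⟨fun i x => F.1 i (x * g), fun i => (BF.meas F i).comp (measurable_mul_const g),
    let ⟨B, hB⟩ := BF.bdd F
    ⟨B, fun i _ => hB i _⟩⟩
  map_add' _ _ := rfl
  map_smul' _ _ := rfl

@[simp] theorem BF.tr_apply (g : G) (F : BF G k) (i : ℕ) (x : G) :
    (BF.tr g F).1 i x = F.1 i (x * g) := rfl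

theorem BF.tr_mul (g h : G) (F : BF G k) : BF.tr (g * h) F = BF.tr g (BF.tr h F) :=
  Subtype.ext (funext fun i => funext fun x => by simp only [BF.tr_apply, mul_assoc])

theorem BF.tr_one (F : BF G k) : BF.tr 1 F = F :=
  Subtype.ext (funext fun i => funext fun x => by simp only [BF.tr_apply, mul_one])

namespace Geo

variable [MeasurableInv G] {X : Geo G k} {c : ℕ} {𝒰 : Ultrafilter ℕ} {ψ ψ' : ℕ → G → G}
  {ω : ℕ → Measure G}

theorem Hyp.step_D (h : X.Hyp c 𝒰 ψ ψ' ω) (g : G) (i : ℕ) :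
    Step fun x => X.π (ψ i (x * g)) - X.π (ψ i x) :=
  (((h.qp i).step.mul_right g).prod (h.qp i).step).comp fun p => X.π p.1 - X.π p.2

theorem Hyp.norm_D (h : X.Hyp c 𝒰 ψ ψ' ω) {g : G} {n : ℕ} (hg : g ∈ Ball X.Sg n) (i : ℕ) (x : G) :
    ‖X.π (ψ i (x * g)) - X.π (ψ i x)‖ ≤ X.K * (c * n + c) :=
  X.ht_lip (h.qp i).qi (by rwa [inv_mul_cancel_left])

/-- the height cocycle -/
def Hyp.D (h : X.Hyp c 𝒰 ψ ψ' ω) (g : G) : BF G k :=
  ⟨fun i x => X.π (ψ i (x * g)) - X.π (ψ i x),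
    fun i => measurable_pi_lambda _ fun l => (h.step_D g i).measurable fun v => v l,
    let ⟨_, hn⟩ := Ball.exists_of_mem_closure (T := X.Sg) (a := g) (X.gen ▸ Subgroup.mem_top g)
    ⟨_, h.norm_D hn⟩⟩

@[simp] theorem Hyp.D_apply (h : X.Hyp c 𝒰 ψ ψ' ω) (g : G) (i : ℕ) (x : G) :
    (h.D g).1 i x = X.π (ψ i (x * g)) - X.π (ψ i x) := rfl

theorem Hyp.D_mul (h : X.Hyp c 𝒰 ψ ψ' ω) (g g' : G) :
    h.D (g * g') = h.D g + BF.tr g (h.D g') :=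
  Subtype.ext (funext fun i => funext fun x => by
    change _ = (h.D g).1 i x + (BF.tr g (h.D g')).1 i x
    simp only [Hyp.D_apply, BF.tr_apply, mul_assoc]
    abel)

/-- the ultralimit of the `L²` spaces and the invariant part `ℓ` of the height cocycle -/
structure HD (h : X.Hyp c 𝒰 ψ ψ' ω) where
  /-- the limit space -/
  W : Type
  [nW : NormedAddCommGroup W]
  [sW : NormedSpace ℝ W]
  /-- the class of a bounded sequence -/
  j : BF G k →ₗ[ℝ] W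
  /-- the slope homomorphism -/
  ℓ : G → W
  up : ∀ (F : BF G k) (A a : ℝ), (∀ i x, ‖F.1 i x‖ ≤ A) →
    (∀ᶠ i in (𝒰 : Filter ℕ), ∫ x, ‖F.1 i x‖ ∂(ω i) ≤ a) → ‖j F‖ ^ 2 ≤ k * A * a
  down : ∀ (F : BF G k) (a : ℝ), ‖j F‖ < a → ∀ᶠ i in (𝒰 : Filter ℕ), ∫ x, ‖F.1 i x‖ ∂(ω i) ≤ a
  hom : ∀ g ∈ X.Γ, ∀ g' ∈ X.Γ, ℓ (g * g') = ℓ g + ℓ g'
  inv : ∀ γ ∈ X.Γ, ∀ g ∈ X.Γ, ∀ F, ‖j (BF.tr γ F) - ℓ g‖ = ‖j F - ℓ g‖
  flat : ∀ ε : ℝ, 0 < ε → ∃ C : ℝ, ∀ n : ℕ, ∀ g ∈ Ball (X.SC : Set G) n,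
    ‖j (h.D g) - ℓ g‖ ≤ ε * n + C

attribute [instance] HD.nW HD.sW

variable (X)

/-- `VP` with finitely many letters -/
def VP' : Prop :=
  ∀ (c : ℕ) (ε η' : ℝ), 0 < ε → 0 < η' → ∃ η : ℝ, 0 < η ∧ ∃ n₀ : ℕ, ∀ n ≥ n₀, ∀ p : ℕ → G,
    p 0 = 1 → (∀ j < n, (p j)⁻¹ * p (j + 1) ∈ Ball (X.SC : Set G) 1) →
    ∃ F : Set G, F.Finite ∧ F ⊆ X.Γ ∧
    ∀ ψ : G → G, QI X.Sg X.Sg ψ c → Step ψ → ∀ ζ : Measure G, IsProbabilityMeasure ζ →
      (∀ g ∈ F, TVr ζ g η) →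
      ζ.real {x | X.V (lev X.χ ((fun j => X.π (ψ (x * p j))) '' Set.Iic n)) <
        X.V (lev X.χ ((fun j => X.π (p j)) '' Set.Iic n)) - ε * n} ≤ η'

/-- the log-volume of a star with tips `y u`, `u ∈ U` -/
noncomputable def VS {I : Type*} (U : Finset I) (y : I → Fin k → ℝ) : ℝ :=
  X.V (lev X.χ (insert 0 (y '' U)))

end Geo

end Crest.Agent.R182
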