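import Crest.Agent.R182.MSA0

/-! Row 182, block M1: slopes of a cocycle in a Hilbert space. -/

set_option autoImplicit false
set_option linter.dupNamespace false

namespace Crest.Agent.R182

open Crest.GroupTheory MeasureTheory Filter Topology

theorem h83_subL_add {f g : ℕ → ℝ} (hf : SubL f) (hg : SubL g) : SubL fun n => f n + g n :=
  fun ε hε => by
    obtain ⟨C, hC⟩ := hf (ε / 2) (by positivity)
    obtain ⟨C', hC'⟩ := hg (ε / 2) (by positivity)
    exact ⟨C + C', fun n => by linarith [hC n, hC' n]⟩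

theorem h83_subL_const (c : ℝ) : SubL fun _ => c := fun ε hε =>
  ⟨c, fun n => by have : 0 ≤ ε * n := by positivity
                  linarith⟩

theorem h83_subL_zero {H : Type*} [NormedAddCommGroup H] [NormedSpace ℝ H] {x : H}
    (h : SubL fun n => ‖(n : ℝ) • x‖) : x = 0 := by
  by_contra h0
  have hx : 0 < ‖x‖ := norm_pos_iff.2 h0
  obtain ⟨C, hC⟩ := h (‖x‖ / 2) (by positivity)
  obtain ⟨n, hn⟩ := exists_nat_gt (C / (‖x‖ / 2))
  have h1 : ‖(n : ℝ) • x‖ ≤ _ := hC n
  rw [norm_smul, Real.norm_natCast] at h1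
  rw [div_lt_iff₀ (by positivity)] at hn
  linarith

theorem h83_subL_of_tendsto {H : Type*} [NormedAddCommGroup H] [NormedSpace ℝ H] {u : ℕ → H} {L : H}
    (h : Tendsto (fun n : ℕ => (n : ℝ)⁻¹ • u n) atTop (𝓝 L)) :
    SubL fun n => ‖u n - (n : ℝ) • L‖ := fun ε hε => by
  obtain ⟨N, hN⟩ := eventually_atTop.1 (Metric.tendsto_nhds.1 h ε hε)
  have h0 : 0 ≤ ∑ n ∈ Finset.range (N + 1), ‖u n - (n : ℝ) • L‖ :=
    Finset.sum_nonneg fun _ _ => norm_nonneg _
  refine ⟨∑ n ∈ Finset.range (N + 1), ‖u n - (n : ℝ) • L‖, fun n => ?_⟩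
  by_cases hn : n < N + 1
  · have h1 := Finset.single_le_sum (f := fun n : ℕ => ‖u n - (n : ℝ) • L‖)
      (fun _ _ => norm_nonneg _) (Finset.mem_range.2 hn)
    have : 0 ≤ ε * n := by positivity
    linarith
  · have h1 := hN n (by omega)
    have h2 : (0 : ℝ) < n := by exact_mod_cast (by omega : 0 < n)
    have h3 : u n - (n : ℝ) • L = (n : ℝ) • ((n : ℝ)⁻¹ • u n - L) := by
      rw [smul_sub, smul_smul, mul_inv_cancel₀ h2.ne', one_smul]
    rw [dist_eq_norm] at h1
    have h4 := mul_le_mul_of_nonneg_left h1.le h2.le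
    change ‖u n - (n : ℝ) • L‖ ≤ _
    rw [h3, norm_smul, Real.norm_natCast]
    linarith

/-- `ℓ g = P (b g)`, `P` the orthogonal projection onto the `Γ`-invariant vectors (`P ∘ U g = P`).
`b (t ^ n) = ∑_{j<n} (U t) ^ j (b t)`, so `b (t ^ n) / n → L` by the mean ergodic theorem
(`ContinuousLinearMap.tendsto_birkhoffAverage_orthogonalProjection`), `U t L = L`, and
`b (t ^ n)⁻¹ = - U (t ^ n)⁻¹ (b (t ^ n))`, so `b (t ^ n)⁻¹ / n → -L`.
From `b γ + U γ (b (t ^ n)) = b (t ^ n) + U (t ^ n) (b ((t ^ n)⁻¹ * γ * t ^ n))` get `U γ L = L` (same with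
`(t ^ n)⁻¹`); the stabiliser of `L` is a subgroup; `P (b (t ^ n)) = n • P (b t)` gives `L = P L = ℓ t`. -/
theorem abs_slope {Γ H : Type*} [Group Γ] [NormedAddCommGroup H] [InnerProductSpace ℝ H]
    [CompleteSpace H] (U : Γ → H →L[ℝ] H) (hU : ∀ g h x, U (g * h) x = U g (U h x))
    (h1 : ∀ x, U 1 x = x) (hiso : ∀ g x, ‖U g x‖ = ‖x‖) (b : Γ → H)
    (hb : ∀ g h, b (g * h) = b g + U g (b h)) :
    ∃ ℓ : Γ → H, (∀ g h, ℓ (g * h) = ℓ g + ℓ h) ∧ (∀ γ g, U γ (ℓ g) = ℓ g) ∧
      ∀ (t : Γ) (A : Set Γ), Subgroup.closure A = ⊤ →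
        (∀ γ ∈ A, SubL (fun n => ‖b ((t ^ n)⁻¹ * γ * t ^ n)‖) ∨
          SubL fun n => ‖b (t ^ n * γ * (t ^ n)⁻¹)‖) →
        SubL fun n => ‖b (t ^ n) - (n : ℝ) • ℓ t‖ := by
  let K : Submodule ℝ H := ⨅ g, (U g).eqLocus (1 : H →L[ℝ] H)
  have hK : ∀ x, x ∈ K ↔ ∀ g, U g x = x := fun x => by
    simp only [K, Submodule.mem_iInf]
    rfl
  have hcl : IsClosed (K : Set H) := by
    have : (K : Set H) = ⋂ g, {x | U g x = x} := by
      ext x
      simp only [SetLike.mem_coe, hK, Set.mem_iInter, Set.mem_ofPred_eq]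
    rw [this]
    exact isClosed_iInter fun g => isClosed_eq (U g).continuous continuous_id
  have : CompleteSpace K := hcl.completeSpace_coe
  have hPU : ∀ g x, K.starProjection (U g x) = K.starProjection x := fun g x => by
    rw [← sub_eq_zero, ← map_sub, Submodule.starProjection_apply_eq_zero_iff,
      Submodule.mem_orthogonal]
    intro y hy
    have h2 := (⟨(U g : H →ₗ[ℝ] H), hiso g⟩ : H →ₗᵢ[ℝ] H).inner_map_map y x
    change inner ℝ (U g y) (U g x) = _ at h2
    rw [(hK y).1 hy g] at h2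
    rw [inner_sub_right, h2, sub_self]
  have hℓ : ∀ g h, K.starProjection (b (g * h)) = K.starProjection (b g) + K.starProjection (b h) :=
    fun g h => by rw [hb, map_add, hPU]
  refine ⟨fun g => K.starProjection (b g), hℓ,
    fun γ g => (hK _).1 (K.starProjection_apply_mem _) γ, fun t A hA hc => ?_⟩
  have hb1 : b 1 = 0 := by
    have := hb 1 1
    rw [mul_one, h1] at this
    exact left_eq_add.1 this
  have hit : ∀ (n : ℕ) x, U (t ^ n) x = (U t)^[n] x := fun n => by
    induction n with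
    | zero => intro x; rw [pow_zero, h1]; rfl
    | succ n ih => intro x; rw [pow_succ, hU, ih]; rfl
  have hsum : ∀ n : ℕ, b (t ^ n) = birkhoffSum (U t) _root_.id n (b t) := fun n => by
    induction n with
    | zero => rw [pow_zero, hb1, birkhoffSum_zero]
    | succ n ih => rw [pow_succ, hb, birkhoffSum_succ, ih, hit]; rfl
  obtain ⟨L, hLt, hL⟩ : ∃ L, U t L = L ∧ SubL fun n => ‖b (t ^ n) - (n : ℝ) • L‖ := by
    have h2 := (U t).tendsto_birkhoffAverage_orthogonalProjection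
      ((U t).opNorm_le_bound zero_le_one fun x => by rw [hiso, one_mul]) (b t)
    refine ⟨_, (((U t).eqLocus (1 : H →L[ℝ] H)).orthogonalProjectionOnto (b t)).2,
      h83_subL_of_tendsto ?_⟩
    simpa only [birkhoffAverage, ← hsum] using h2
  let S : Subgroup Γ :=
    { carrier := {g | U g L = L}
      one_mem' := h1 L
      mul_mem' := fun {g h} hg hh => by
        change U (g * h) L = L
        rw [hU, show U h L = L from hh, show U g L = L from hg]
      inv_mem' := fun {g} hg => by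
        change U g⁻¹ L = L
        conv_lhs => rw [← show U g L = L from hg]
        rw [← hU, inv_mul_cancel, h1] }
  have htn : ∀ n : ℕ, U (t ^ n) L = L := fun n => S.pow_mem (x := t) hLt n
  have htn' : ∀ n : ℕ, U (t ^ n)⁻¹ L = L := fun n => S.inv_mem (x := t ^ n) (htn n)
  have hAS : A ⊆ S := fun γ hγ => by
    change U γ L = L
    rw [← sub_eq_zero]
    refine h83_subL_zero ?_
    rcases hc γ hγ with h2 | h2
    · refine (h83_subL_add (h83_subL_add (h83_subL_add hL h2) (h83_subL_const ‖b γ‖)) hL).mono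
        fun n => ?_
      have e1 : b γ + U γ (b (t ^ n)) = b (t ^ n) + U (t ^ n) (b ((t ^ n)⁻¹ * γ * t ^ n)) := by
        rw [← hb, ← hb]; congr 1; group
      have e2 : (n : ℝ) • (U γ L - L) = (b (t ^ n) - (n : ℝ) • L) +
          U (t ^ n) (b ((t ^ n)⁻¹ * γ * t ^ n)) - b γ - U γ (b (t ^ n) - (n : ℝ) • L) := by
        rw [map_sub, map_smul, smul_sub, eq_sub_of_add_eq' e1]; abel
      rw [e2, ← hiso (t ^ n) (b ((t ^ n)⁻¹ * γ * t ^ n))]
      refine (norm_sub_le _ _).trans (add_le_add ((norm_sub_le _ _).trans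
        (add_le_add (norm_add_le _ _) le_rfl)) (hiso _ _).le)
    · refine (h83_subL_add (h83_subL_add (h83_subL_add hL (h83_subL_const ‖b γ‖)) h2) hL).mono
        fun n => ?_
      have e1 : b (t ^ n * γ * (t ^ n)⁻¹) + U (t ^ n * γ * (t ^ n)⁻¹) (b (t ^ n)) =
          b (t ^ n) + U (t ^ n) (b γ) := by
        rw [← hb, ← hb]; congr 1; group
      have e3 : U (t ^ n * γ * (t ^ n)⁻¹) L = U (t ^ n) (U γ L) := by rw [hU, hU, htn']
      have e2 : U (t ^ n) ((n : ℝ) • (U γ L - L)) = (b (t ^ n) - (n : ℝ) • L) +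
          U (t ^ n) (b γ) - b (t ^ n * γ * (t ^ n)⁻¹) -
            U (t ^ n * γ * (t ^ n)⁻¹) (b (t ^ n) - (n : ℝ) • L) := by
        rw [map_sub (U (t ^ n * γ * (t ^ n)⁻¹)), map_smul, map_smul, map_sub, htn, e3, smul_sub,
          eq_sub_of_add_eq' e1]
        abel
      rw [← hiso (t ^ n) ((n : ℝ) • (U γ L - L)), e2, ← hiso (t ^ n) (b γ)]
      refine (norm_sub_le _ _).trans (add_le_add ((norm_sub_le _ _).trans
        (add_le_add (norm_add_le _ _) le_rfl)) (hiso _ _).le)
  have hLK : L ∈ K := (hK L).2 fun g =>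
    (show (⊤ : Subgroup Γ) ≤ S from hA ▸ (Subgroup.closure_le S).2 hAS) (Subgroup.mem_top g)
  have hpow : ∀ n : ℕ, K.starProjection (b (t ^ n)) = (n : ℝ) • K.starProjection (b t) := fun n => by
    induction n with
    | zero => rw [pow_zero, hb1, map_zero, Nat.cast_zero, zero_smul]
    | succ n ih => rw [pow_succ, hℓ, ih, Nat.cast_succ, add_smul, one_smul]
  have hfin : K.starProjection (b t) = L := by
    rw [← sub_eq_zero]
    refine h83_subL_zero (hL.mono fun n => ?_)
    have := K.norm_starProjection_apply_le (b (t ^ n) - (n : ℝ) • L)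
    rwa [map_sub, map_smul, hpow, Submodule.starProjection_eq_self_iff.2 hLK, ← smul_sub] at this
  simpa only [hfin] using hL

end Crest.Agent.R182
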