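import Crest.Agent.R182.MSAabs

/-! Row 182, block M1: completion of a semi-definite form. -/

set_option autoImplicit false
set_option linter.dupNamespace false

namespace Crest.Agent.R182

open Crest.GroupTheory MeasureTheory Filter Topology

/-- `PreInnerProductSpace.Core`, `InnerProductSpace.Core.toSeminormedAddCommGroup`,
`InnerProductSpace.ofCore`, `UniformSpace.Completion.innerProductSpace` -/
theorem pre_compl {V : Type} [AddCommGroup V] [Module ℝ V] (B : V →ₗ[ℝ] V →ₗ[ℝ] ℝ)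
    (hs : ∀ x y, B x y = B y x) (hp : ∀ x, 0 ≤ B x x) :
    ∃ (H : Type) (_ : NormedAddCommGroup H) (_ : InnerProductSpace ℝ H) (_ : CompleteSpace H)
      (j : V →ₗ[ℝ] H), (∀ x, ‖j x‖ ^ 2 = B x x) ∧ DenseRange j := by
  let cd : PreInnerProductSpace.Core ℝ V :=
    { inner := fun x y => B x y
      conj_inner_symm := fun x y => hs y x
      re_inner_nonneg := hp
      add_left := fun x y z => by simp
      smul_left := fun x y r => by simp }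
  let : SeminormedAddCommGroup V := InnerProductSpace.Core.toSeminormedAddCommGroup (𝕜 := ℝ)
  let : InnerProductSpace ℝ V := InnerProductSpace.ofCore cd
  refine ⟨UniformSpace.Completion V, inferInstance, inferInstance, inferInstance,
    (UniformSpace.Completion.toComplₗᵢ (𝕜 := ℝ) (E := V)).toLinearMap, fun x => ?_,
    UniformSpace.Completion.denseRange_coe⟩
  have h : ‖x‖ ^ 2 = B x x := (real_inner_self_eq_norm_sq x).symm
  rw [← h]
  exact congrArg (· ^ 2) (UniformSpace.Completion.norm_coe x)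

/-- `LinearMap.extendOfNorm` -/
theorem ext_iso {V H : Type*} [AddCommGroup V] [Module ℝ V] [NormedAddCommGroup H]
    [NormedSpace ℝ H] [CompleteSpace H] (j : V →ₗ[ℝ] H) (hj : DenseRange j) (T : V →ₗ[ℝ] V)
    (hT : ∀ x, ‖j (T x)‖ = ‖j x‖) :
    ∃ T' : H →L[ℝ] H, (∀ x, T' (j x) = j (T x)) ∧ ∀ y, ‖T' y‖ = ‖y‖ := by
  have h : ∀ x, (j ∘ₗ T).extendOfNorm j (j x) = j (T x) :=
    LinearMap.extendOfNorm_eq hj ⟨1, fun x => by rw [one_mul]; exact (hT x).le⟩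
  refine ⟨(j ∘ₗ T).extendOfNorm j, h, fun y => ?_⟩
  refine hj.induction_on (p := fun y => ‖(j ∘ₗ T).extendOfNorm j y‖ = ‖y‖) y
    (isClosed_eq (by fun_prop) (by fun_prop)) fun x => ?_
  rw [h, hT]

/-- `pre_compl`, `ext_iso` for `γ : Γ` (multiplicativity by density), `abs_slope` for the group `Γ`
(`Subgroup.closure_preimage_eq_top`); extend `ℓ` by `0` -/
theorem pre_slope {G V : Type} [Group G] [AddCommGroup V] [Module ℝ V] (Γ : Subgroup G)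
    (B : V →ₗ[ℝ] V →ₗ[ℝ] ℝ) (hs : ∀ x y, B x y = B y x) (hp : ∀ x, 0 ≤ B x x)
    (U : G → V →ₗ[ℝ] V) (hU : ∀ g h x, U (g * h) x = U g (U h x)) (h1 : ∀ x, U 1 x = x)
    (hiso : ∀ γ ∈ Γ, ∀ x, B (U γ x) (U γ x) = B x x) (b : G → V)
    (hb : ∀ g h, b (g * h) = b g + U g (b h)) :
    ∃ (W : Type) (_ : NormedAddCommGroup W) (_ : NormedSpace ℝ W) (j : V →ₗ[ℝ] W) (ℓ : G → W),
      (∀ x, ‖j x‖ ^ 2 = B x x) ∧ (∀ g ∈ Γ, ∀ h ∈ Γ, ℓ (g * h) = ℓ g + ℓ h) ∧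
      (∀ γ ∈ Γ, ∀ g ∈ Γ, ∀ x, ‖j (U γ x) - ℓ g‖ = ‖j x - ℓ g‖) ∧
      ∀ t ∈ Γ, ∀ A : Set G, Subgroup.closure A = Γ →
        (∀ γ ∈ A, SubL (fun n => ‖j (b ((t ^ n)⁻¹ * γ * t ^ n))‖) ∨
          SubL fun n => ‖j (b (t ^ n * γ * (t ^ n)⁻¹))‖) →
        SubL fun n => ‖j (b (t ^ n)) - (n : ℝ) • ℓ t‖ := by
  classical
  obtain ⟨H, _, _, _, j, hn, hj⟩ := pre_compl B hs hp
  have hT : ∀ γ : Γ, ∀ x, ‖j (U γ x)‖ = ‖j x‖ := fun γ x =>
    (sq_eq_sq₀ (norm_nonneg _) (norm_nonneg _)).1 (by rw [hn, hn, hiso γ γ.2])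
  choose T hT1 hT2 using fun γ : Γ => ext_iso j hj (U γ) (hT γ)
  obtain ⟨ℓ, l1, l2, l3⟩ := abs_slope T
    (fun g h y => hj.induction_on (p := fun y => T (g * h) y = T g (T h y)) y
      (isClosed_eq (by fun_prop) (by fun_prop)) fun x => by
        rw [hT1, hT1, hT1, Subgroup.coe_mul, hU])
    (fun y => hj.induction_on (p := fun y => T 1 y = y) y
      (isClosed_eq (by fun_prop) (by fun_prop)) fun x => by rw [hT1, Subgroup.coe_one, h1])
    hT2 (fun γ : Γ => j (b γ)) (fun g h => by rw [Subgroup.coe_mul, hb, map_add, hT1])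
  obtain ⟨ℓ', e⟩ : ∃ ℓ' : G → H, ∀ g (hg : g ∈ Γ), ℓ' g = ℓ ⟨g, hg⟩ :=
    ⟨fun g => if h : g ∈ Γ then ℓ ⟨g, h⟩ else 0, fun g hg => dif_pos hg⟩
  refine ⟨H, inferInstance, inferInstance, j, ℓ', hn,
    fun g hg h hh => ?_, fun γ hγ g hg x => ?_, fun t ht A hA H' => ?_⟩
  · rw [e g hg, e h hh, e _ (mul_mem hg hh)]
    exact l1 ⟨g, hg⟩ ⟨h, hh⟩
  · rw [e g hg, ← hT2 ⟨γ, hγ⟩ (j x - ℓ ⟨g, hg⟩), map_sub, l2, hT1]
  · rw [e t ht]
    subst hA
    simpa using l3 ⟨t, ht⟩ _ (Subgroup.closure_preimage_eq_top A) fun γ hγ => by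
      simpa using H' γ hγ

end Crest.Agent.R182
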