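import Crest.Agent.R182.MSA0

/-! Row 182, block M1: profiles along star paths. -/

set_option autoImplicit false
set_option linter.dupNamespace false

namespace Crest.Agent.R182

open Crest.GroupTheory MeasureTheory Filter Topology

namespace Geo

variable {G : Type} [Group G] [MeasurableSpace G] {k : ℕ} (X : Geo G k)

/-- the source profile contains `0` and the tips `n • π u` (`V_mono`, `lev_smul`, `V_smul`) -/
theorem star_src (U : Finset G) (n N : ℕ) (p : ℕ → G) (h0 : p 0 = 1)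
    (h : ∀ u ∈ U, ∃ j ≤ N, p j = u ^ n) :
    n * X.VS U X.π ≤ X.V (lev X.χ ((fun j => X.π (p j)) '' Set.Iic N)) := by
  have hS : (insert 0 (X.π '' (U : Set G))).Finite := (U.finite_toSet.image _).insert _
  have hT : ((fun j => X.π (p j)) '' Set.Iic N).Finite := (Set.finite_Iic N).image _
  rw [VS, ← X.V_smul _ (Nat.cast_nonneg n)]
  refine X.V_mono fun i => ?_
  obtain ⟨s, hs, e⟩ := exists_lev (χ := X.χ) hS (Set.insert_nonempty _ _) i
  beta_reduce
  rw [e, ← smul_eq_mul, ← map_smul]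
  refine le_lev hT ?_ i
  rcases hs with rfl | ⟨u, hu, rfl⟩
  · exact ⟨0, Nat.zero_le N, by simp only [h0, X.π_hom.one, smul_zero]⟩
  · obtain ⟨j, hj, e'⟩ := h u hu
    exact ⟨j, hj, by simp only [e', X.π_hom.pow]⟩

/-- the image profile, translated by `-π (ψ x)` (`lev_add`, `V_add_pt`), is within `ρ + C h + C` of the
segments `[0, n • y u]`: for `j' ≤ n = Q h` use `q = j' / h`; `ht_lip`, `flat_ball`, `χ_bound`, `V_lip` -/
theorem star_img (c m : ℕ) : ∃ C : ℝ, 0 ≤ C ∧ ∀ (U : Finset G) (Q h N : ℕ) (p : ℕ → G) (ψ : G → G)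
    (x : G) (y : G → Fin k → ℝ) (ρ : ℝ), 0 < h → 0 ≤ ρ → QI X.Sg X.Sg ψ c →
    (∀ u ∈ U, u ∈ Ball (X.SC : Set G) m) →
    (∀ j, p j = 1 ∨ ∃ u ∈ U, ∃ j' ≤ Q * h, (u ^ j')⁻¹ * p j ∈ Ball (X.SC : Set G) m) →
    (∀ u ∈ U, ∀ q ≤ Q, ‖X.π (ψ (x * u ^ (q * h))) - X.π (ψ x) - ((q * h : ℕ) : ℝ) • y u‖ ≤ ρ) →
    X.V (lev X.χ ((fun j => X.π (ψ (x * p j))) '' Set.Iic N)) ≤
      (Q * h : ℕ) * X.VS U y + C * (ρ + h) := by
  obtain ⟨B, hB1, hB⟩ := X.χ_bound
  obtain ⟨B', hB1', hB'⟩ := X.V_lip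
  have hB0 : 0 ≤ B := by linarith
  have hB0' : 0 ≤ B' := by linarith
  set A : ℝ := X.K * (c * (X.K * (2 * m)) + c) with hA
  have hA0 : 0 ≤ A := by positivity
  refine ⟨B' * B * (1 + A), by positivity, fun U Q h N p ψ x y ρ hh hρ hψ hU hp hy => ?_⟩
  have hS : (insert 0 (y '' (U : Set G))).Finite := (U.finite_toSet.image _).insert _
  have hh1 : (1 : ℝ) ≤ h := by exact_mod_cast hh
  have hl0 : ∀ i, 0 ≤ lev X.χ (insert 0 (y '' (U : Set G))) i := fun i => by
    simpa using le_lev (χ := X.χ) hS (Set.mem_insert _ _) i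
  have hr : 0 ≤ B * (ρ + A * h) := by positivity
  have key := hB' (fun i => ((Q * h : ℕ) : ℝ) * lev X.χ (insert 0 (y '' (U : Set G))) i +
    X.χ i (X.π (ψ x))) (lev X.χ ((fun j => X.π (ψ (x * p j))) '' Set.Iic N))
    (B * (ρ + A * h)) hr fun i => by
      refine lev_le ((Set.nonempty_Iic (a := N)).image _) ?_
      rintro _ ⟨j, -, rfl⟩
      have h0 : 0 ≤ ((Q * h : ℕ) : ℝ) * lev X.χ (insert 0 (y '' (U : Set G))) i :=
        mul_nonneg (Nat.cast_nonneg _) (hl0 i)
      rcases hp j with e | ⟨u, hu, j', hj', hb⟩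
      · simp only [e, mul_one]
        linarith
      · have hq : j' / h ≤ Q := Nat.div_le_of_le_mul (by rwa [mul_comm])
        have h1 := hy u hu _ hq
        have h2 : (x * u ^ (j' / h * h))⁻¹ * (x * p j) ∈ Ball (X.SC : Set G) (h * m + m) := by
          have e : (x * u ^ (j' / h * h))⁻¹ * (x * p j) = u ^ (j' % h) * ((u ^ j')⁻¹ * p j) := by
            have e1 : u ^ j' = u ^ (j' % h) * u ^ (j' / h * h) := by
              rw [← pow_add, Nat.mod_add_div']
            have e2 : u ^ (j' % h) * u ^ (j' / h * h) = u ^ (j' / h * h) * u ^ (j' % h) :=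
              (Commute.pow_pow_self u _ _).eq
            generalize u ^ (j' % h) = a at e1 e2
            generalize u ^ (j' / h * h) = b at e1 e2
            rw [e1, mul_inv_rev a b, ← mul_assoc a, ← mul_assoc a,
              show a * b⁻¹ = b⁻¹ * a from (Commute.inv_right e2).eq]
            group
          rw [e]
          refine Ball.mono subset_rfl ?_ (Ball.mul_mem (Ball.pow_mem (hU u hu) _) hb)
          exact Nat.add_le_add_right (Nat.mul_le_mul_right _ (Nat.mod_lt _ hh).le) _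
        have h3 := X.ht_lip hψ (X.flat_ball h2)
        have h4 : (X.K : ℝ) * (c * (X.K * (h * m + m) : ℕ) + c) ≤ A * h := by
          rw [hA]
          push_cast
          have hK : (0 : ℝ) ≤ X.K := Nat.cast_nonneg _
          have hc : (0 : ℝ) ≤ c := Nat.cast_nonneg _
          have hm : (0 : ℝ) ≤ m := Nat.cast_nonneg _
          have a1 : (X.K : ℝ) * c * X.K * m * 1 ≤ X.K * c * X.K * m * h :=
            mul_le_mul_of_nonneg_left hh1 (by positivity)
          have a2 : (X.K : ℝ) * c * 1 ≤ X.K * c * h :=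
            mul_le_mul_of_nonneg_left hh1 (by positivity)
          nlinarith
        have h5 : ‖X.π (ψ (x * p j)) - X.π (ψ x) - ((j' / h * h : ℕ) : ℝ) • y u‖ ≤ ρ + A * h := by
          have := norm_add_le (X.π (ψ (x * p j)) - X.π (ψ (x * u ^ (j' / h * h))))
            (X.π (ψ (x * u ^ (j' / h * h))) - X.π (ψ x) - ((j' / h * h : ℕ) : ℝ) • y u)
          rw [← add_sub_assoc, sub_add_sub_cancel] at this
          linarith
        have h6 := ((le_abs_self _).trans (hB i _)).trans (mul_le_mul_of_nonneg_left h5 hB0)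
        rw [map_sub, map_sub, map_smul, smul_eq_mul] at h6
        have h7 : ((j' / h * h : ℕ) : ℝ) * X.χ i (y u) ≤
            ((Q * h : ℕ) : ℝ) * lev X.χ (insert 0 (y '' (U : Set G))) i :=
          (mul_le_mul_of_nonneg_left (le_lev hS (Set.mem_insert_of_mem _ ⟨u, hu, rfl⟩) i)
            (Nat.cast_nonneg _)).trans (mul_le_mul_of_nonneg_right
              (Nat.cast_le.2 (Nat.mul_le_mul_right _ hq)) (hl0 i))
        linarith
  rw [X.V_add_pt, X.V_smul _ (Nat.cast_nonneg _)] at key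
  have h8 : B' * (B * (ρ + A * h)) ≤ B' * B * (1 + A) * (ρ + h) := by
    have : ρ + A * h ≤ (1 + A) * (ρ + h) := by nlinarith
    calc B' * (B * (ρ + A * h)) = B' * B * (ρ + A * h) := by ring
      _ ≤ B' * B * ((1 + A) * (ρ + h)) := mul_le_mul_of_nonneg_left this (by positivity)
      _ = _ := by ring
  rw [VS]
  linarith

end Geo

end Crest.Agent.R182
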