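import Crest.Agent.R182.MSA0
import Crest.Agent.R182.NAll

/-! Row 182, block M1: sublinear conjugates, sublinearity on flat balls, star paths. -/

set_option autoImplicit false
set_option linter.dupNamespace false

namespace Crest.Agent.R182

open Crest.GroupTheory MeasureTheory Filter Topology

/-- `nilPow`: `g` is a product of at most `C` powers `t ^ z`, `|z| ≤ C n` -/
theorem sub_flat {G : Type*} [Group G] (T : Finset G)
    (hT : Group.IsNilpotent (Subgroup.closure (T : Set G))) (N : G → ℝ) (h1 : N 1 ≤ 0)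
    (hm : ∀ g ∈ Subgroup.closure (T : Set G), ∀ h ∈ Subgroup.closure (T : Set G),
      N (g * h) ≤ N g + N h)
    (hi : ∀ g ∈ Subgroup.closure (T : Set G), N g⁻¹ = N g)
    (hp : ∀ t ∈ T, SubL fun n => N (t ^ n)) :
    ∀ ε : ℝ, 0 < ε → ∃ C : ℝ, ∀ n : ℕ, ∀ g ∈ Ball (T : Set G) n, N g ≤ ε * n + C := by
  intro ε hε
  obtain ⟨C, hC⟩ := nilPow T hT
  have hC0 : (0 : ℝ) ≤ C := Nat.cast_nonneg _
  set δ : ℝ := ε / (C * C + 1) with hδ
  have hδ0 : 0 < δ := by positivity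
  have h2 : ∀ t : G, ∃ B : ℝ, t ∈ T → ∀ n : ℕ, N (t ^ n) ≤ δ * n + B := fun t => by
    by_cases ht : t ∈ T
    · obtain ⟨B, hB⟩ := hp t ht δ hδ0
      exact ⟨B, fun _ => hB⟩
    · exact ⟨0, fun h => absurd h ht⟩
  choose B hB using h2
  have hB0 : 0 ≤ ∑ t ∈ T, |B t| := Finset.sum_nonneg fun _ _ => abs_nonneg _
  refine ⟨C * ∑ t ∈ T, |B t|, fun n g hg => ?_⟩
  obtain ⟨l, hl, hl', rfl⟩ := hC n g hg
  have hn0 : (0 : ℝ) ≤ n := Nat.cast_nonneg _
  set A : ℝ := δ * (C * n) + ∑ t ∈ T, |B t| with hA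
  have hA0 : 0 ≤ A := by positivity
  have h3 : ∀ p : G × ℤ, p.1 ∈ T → |p.2| ≤ C * n → N (p.1 ^ p.2) ≤ A := by
    rintro ⟨t, z⟩ ht hz
    have e : N (t ^ z) = N (t ^ z.natAbs) := by
      rcases Int.natAbs_eq z with h | h
      · conv_lhs => rw [h, zpow_natCast]
      · conv_lhs => rw [h, zpow_neg, zpow_natCast]
        exact hi _ (Subgroup.pow_mem _ (Subgroup.subset_closure ht) _)
    have h4 : (z.natAbs : ℝ) ≤ C * n := by
      have : (z.natAbs : ℤ) ≤ C * n := by rw [Int.natCast_natAbs]; exact hz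
      exact_mod_cast this
    have h5 : B t ≤ ∑ t ∈ T, |B t| := (le_abs_self _).trans
      (Finset.single_le_sum (f := fun t => |B t|) (fun _ _ => abs_nonneg _) ht)
    have h6 := hB t ht z.natAbs
    have h7 := mul_le_mul_of_nonneg_left h4 hδ0.le
    change N (t ^ z) ≤ A
    rw [e]
    linarith
  have h8 : ∀ l : List (G × ℤ), (∀ p ∈ l, p.1 ∈ T ∧ |p.2| ≤ C * n) →
      (l.map fun p => p.1 ^ p.2).prod ∈ Subgroup.closure (T : Set G) ∧
        N (l.map fun p => p.1 ^ p.2).prod ≤ l.length * A := by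
    intro l
    induction l with
    | nil => exact fun _ => ⟨by simp, by simpa using h1⟩
    | cons p l ih =>
      intro h
      obtain ⟨i1, i2⟩ := ih fun q hq => h q (List.mem_cons_of_mem _ hq)
      obtain ⟨j1, j2⟩ := h p List.mem_cons_self
      have j3 : p.1 ^ p.2 ∈ Subgroup.closure (T : Set G) :=
        Subgroup.zpow_mem _ (Subgroup.subset_closure j1) _
      rw [List.map_cons, List.prod_cons, List.length_cons]
      refine ⟨Subgroup.mul_mem _ j3 i1, (hm _ j3 _ i1).trans ?_⟩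
      have := h3 p j1 j2
      push_cast
      linarith
  have h9 : (l.length : ℝ) * A ≤ C * A :=
    mul_le_mul_of_nonneg_right (by exact_mod_cast hl) hA0
  have h10 : δ * (C * C + 1) = ε := by rw [hδ]; field_simp
  have h11 : C * (δ * (C * n)) ≤ ε * n := by
    rw [← h10]
    nlinarith [mul_nonneg hδ0.le hn0]
  have h12 := (h8 l hl').2
  rw [hA, mul_add] at h9
  linarith

theorem h11_prepend {G : Type*} [Group G] {T A : Set G} {x : G} {a : ℕ} {p : ℕ → G}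
    (h : Reach T A x a (p 0)) (hp : ∀ j, (p j)⁻¹ * p (j + 1) ∈ Ball T 1) :
    ∃ r : ℕ → G, r 0 = x ∧ (∀ j, (r j)⁻¹ * r (j + 1) ∈ Ball T 1) ∧ (∀ j, r (a + j) = p j) ∧
      ∀ j, r j ∈ A ∨ ∃ j', r j = p j' := by
  obtain ⟨q, q0, q1, q2, q3⟩ := h
  have e : ∀ i, a ≤ i → (if i ≤ a then q i else p (i - a)) = p (i - a) := fun i hi => by
    split_ifs with h2
    · obtain rfl : i = a := by omega
      rw [q1, Nat.sub_self]
    · rfl
  refine ⟨fun i => if i ≤ a then q i else p (i - a), by simpa using q0, fun i => ?_, fun i => ?_,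
    fun i => ?_⟩
  · by_cases h1 : i + 1 ≤ a
    · simp only [h1, show i ≤ a by omega, if_true]; exact q2 i (by omega)
    · beta_reduce
      rw [e i (by omega), e (i + 1) (by omega), show i + 1 - a = i - a + 1 by omega]
      exact hp _
  · beta_reduce
    rw [e (a + i) (by omega), Nat.add_sub_cancel_left]
  · by_cases h1 : i ≤ a
    · simp only [h1, if_true]; exact Or.inl (q3 i h1)
    · simp only [h1, if_false]; exact Or.inr ⟨_, rfl⟩

/-- go out along `u, u ^ 2, …, u ^ n` and come back, for each `u ∈ U` (`Reach.of_ball`; induction on `U`) -/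
theorem star_path {G : Type*} [Group G] (T : Set G) (m n : ℕ) (U : Finset G)
    (hU : ∀ u ∈ U, u ∈ Ball T m) : ∃ p : ℕ → G, p 0 = 1 ∧ (∀ j, (p j)⁻¹ * p (j + 1) ∈ Ball T 1) ∧
      (∀ u ∈ U, ∃ j ≤ 2 * U.card * m * n, p j = u ^ n) ∧
      ∀ j, p j = 1 ∨ ∃ u ∈ U, ∃ j' ≤ n, (u ^ j')⁻¹ * p j ∈ Ball T m := by
  classical
  induction U using Finset.induction_on with
  | empty =>
    exact ⟨fun _ => 1, rfl, fun _ => by simpa using Ball.one_mem T 1, by simp, fun _ => Or.inl rfl⟩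
  | insert u U hu ih =>
    obtain ⟨p, p0, p1, p2, p3⟩ := ih fun v hv => hU v (Finset.mem_insert_of_mem hv)
    have hm := hU u (Finset.mem_insert_self _ _)
    have hR : Reach T {z | ∃ j' ≤ n, (u ^ j')⁻¹ * z ∈ Ball T m} (u ^ 0) (m * n) (u ^ n) := by
      refine Reach.chain (fun i => u ^ i) m n
        ⟨0, Nat.zero_le _, by rw [inv_mul_cancel]; exact Ball.one_mem _ _⟩ fun i hi => ?_
      refine (Reach.of_ball ?_).mono fun z hz => ⟨i, hi.le, hz⟩
      rwa [pow_succ, inv_mul_cancel_left]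
    rw [pow_zero] at hR
    obtain ⟨q, q0, q1, q2, q3⟩ := h11_prepend (p := p) (p0.symm ▸ hR.symm) p1
    obtain ⟨r, r0, r1, r2, r3⟩ := h11_prepend (p := q) (q0.symm ▸ hR) q1
    have hc : 2 * (insert u U).card * m * n = m * n + (m * n + 2 * U.card * m * n) := by
      rw [Finset.card_insert_of_notMem hu]; ring
    refine ⟨r, r0, r1, fun v hv => ?_, fun j => ?_⟩
    · rcases Finset.mem_insert.1 hv with rfl | hv
      · exact ⟨m * n + 0, by omega, by rw [r2, q0]⟩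
      · obtain ⟨j, hj, e⟩ := p2 v hv
        exact ⟨m * n + (m * n + j), by omega, by rw [r2, q2, e]⟩
    · rcases r3 j with h | ⟨j', h⟩
      · exact Or.inr ⟨u, Finset.mem_insert_self _ _, h⟩
      · rw [h]
        rcases q3 j' with h' | ⟨j'', h'⟩
        · exact Or.inr ⟨u, Finset.mem_insert_self _ _, h'⟩
        · rw [h']
          exact (p3 j'').imp id fun ⟨v, hv, h''⟩ => ⟨v, Finset.mem_insert_of_mem hv, h''⟩

namespace Geo

variable {G : Type} [Group G] [MeasurableSpace G] {k : ℕ} (X : Geo G k)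

private theorem h65_subl {G : Type*} [Group G] (T : Set G) (f : ℕ → G)
    (h : ∀ ε : ℝ, 0 < ε → ∃ C : ℝ, ∀ n : ℕ, ∃ r : ℕ, (r : ℝ) ≤ ε * n + C ∧ f n ∈ Ball T r) :
    ∃ m : ℕ → ℕ, SubL (fun n => (m n : ℝ)) ∧ ∀ n, f n ∈ Ball T (m n) := by
  refine ⟨fun n => sInf {r | f n ∈ Ball T r}, fun ε hε => ?_, fun n => ?_⟩
  · obtain ⟨C, hC⟩ := h ε hε
    refine ⟨C, fun n => ?_⟩
    obtain ⟨r, h1, h2⟩ := hC n
    exact le_trans (Nat.cast_le.2 (Nat.sInf_le h2)) h1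
  · obtain ⟨C, hC⟩ := h 1 one_pos
    obtain ⟨r, -, h2⟩ := hC n
    exact Nat.sInf_mem (s := {r | f n ∈ Ball T r}) ⟨r, h2⟩

private theorem h65_ray {s : G} (hs : s ∈ Subgroup.closure (X.SC : Set G)) {i : X.ι} {b : ℝ} {γ : G}
    (hγ : γ ∈ X.RB i b) (h0 : X.χ i (X.π s) ≤ 0) :
    ∃ m : ℕ → ℕ, SubL (fun n => (m n : ℝ)) ∧ ∀ n, s ^ n * γ * (s ^ n)⁻¹ ∈ Ball X.Sg (m n) := by
  obtain ⟨a, ha⟩ := Ball.exists_of_mem_closure hs
  have hK : (1 : ℝ) ≤ X.K := by exact_mod_cast X.one_le_K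
  have hl := one_le_lg a
  refine h65_subl _ _ fun ε hε => ?_
  obtain ⟨B, -, hB⟩ := lg_le_lin (δ := ε / (X.K * X.K * lg a)) (by positivity)
  refine ⟨X.K * (|b| + X.K * lg a * B + 1) + X.K, fun n => ?_⟩
  have h1 := X.RB_conj i b (n * a) _ (Ball.pow_mem ha n) γ hγ
  have h2 : X.χ i (X.π (s ^ n)) ≤ 0 := by
    rw [X.π_hom.pow, map_smul, smul_eq_mul]
    exact mul_nonpos_of_nonneg_of_nonpos n.cast_nonneg h0
  have h3 : lg (n * a) ≤ lg a * lg n := (lg_mono (by rw [mul_comm]; omega)).trans (lg_mul_le a n)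
  have h4 : 0 ≤ |b| + X.K * (lg a * lg n) := by
    have := one_le_lg n
    positivity
  refine ⟨X.K * ⌈|b| + X.K * (lg a * lg n)⌉₊ + X.K, ?_, X.RB_ball i _ (X.RB_mono i _ _ ?_ h1)⟩
  · have h5 := (Nat.ceil_lt_add_one h4).le
    have h6 : X.K * (X.K * (lg a * lg n)) ≤ ε * n + X.K * (X.K * lg a * B) := by
      have h7 := mul_le_mul_of_nonneg_left (hB n) (by positivity : 0 ≤ X.K * X.K * lg a)
      have h8 : X.K * X.K * lg a * (ε / (X.K * X.K * lg a) * n) = ε * n := by field_simp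
      nlinarith
    push_cast
    nlinarith [mul_le_mul_of_nonneg_left h5 (by positivity : (0 : ℝ) ≤ X.K)]
  · refine le_trans ?_ (Nat.le_ceil _)
    nlinarith [le_abs_self b, mul_le_mul_of_nonneg_left h3 (by positivity : (0 : ℝ) ≤ X.K)]

/-- for `γ ∈ SC`: `nilConj`, `flat_ball`; for `γ ∈ RB i b`: conjugate by the one of `t ^ n`, `(t ^ n)⁻¹` on
which `χ i ∘ π ≤ 0`; `RB_conj`, `RB_mono`, `RB_ball`, `lg_mul_le`, `lg_le_lin` -/
theorem conj_subl {t : G} (ht : t ∈ Subgroup.closure (X.SC : Set G)) {γ : G}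
    (hγ : γ ∈ (X.SC : Set G) ∪ ⋃ i, ⋃ b, X.RB i b) :
    (∃ m : ℕ → ℕ, SubL (fun n => (m n : ℝ)) ∧ ∀ n, (t ^ n)⁻¹ * γ * t ^ n ∈ Ball X.Sg (m n)) ∨
      ∃ m : ℕ → ℕ, SubL (fun n => (m n : ℝ)) ∧ ∀ n, t ^ n * γ * (t ^ n)⁻¹ ∈ Ball X.Sg (m n) := by
  rcases hγ with hγ | hγ
  · refine Or.inl (h65_subl _ _ fun ε hε => ?_)
    obtain ⟨q, hq⟩ := exists_nat_ge (X.K / ε)
    obtain ⟨C, hC⟩ := nilConj X.SC X.nil γ (Subgroup.subset_closure hγ) t ht q
    refine ⟨X.K * C, fun n => ⟨_, ?_, X.flat_ball (hC n)⟩⟩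
    have h1 : ((n / (q + 1) : ℕ) : ℝ) ≤ n / (q + 1 : ℕ) := Nat.cast_div_le
    have h2 : (X.K : ℝ) * (n / (q + 1 : ℕ)) ≤ ε * n := by
      rw [div_le_iff₀ hε] at hq
      rw [← mul_div_assoc, div_le_iff₀ (by positivity)]
      push_cast
      nlinarith [mul_le_mul_of_nonneg_right hq (n.cast_nonneg (α := ℝ)),
        mul_nonneg hε.le (n.cast_nonneg (α := ℝ))]
    rw [Nat.cast_mul, Nat.cast_add]
    nlinarith [mul_le_mul_of_nonneg_left h1 (X.K.cast_nonneg (α := ℝ))]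
  · obtain ⟨i, hγ⟩ := Set.mem_iUnion.1 hγ
    obtain ⟨b, hγ⟩ := Set.mem_iUnion.1 hγ
    rcases le_total (X.χ i (X.π t)) 0 with h | h
    · exact Or.inr (h65_ray X ht hγ h)
    · have := h65_ray X (inv_mem ht) hγ (by rw [X.π_hom.inv, map_neg]; linarith)
      simp only [inv_pow, inv_inv] at this
      exact Or.inl this

end Geo

end Crest.Agent.R182
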