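import Crest.Agent.R182.MSAdet
import Crest.Agent.R182.MSAgeo

/-! Row 182, block M1: the slopes do not lose volume. -/

set_option autoImplicit false
set_option linter.dupNamespace false

namespace Crest.Agent.R182

open Crest.GroupTheory MeasureTheory Filter Topology

namespace Geo

variable {G : Type} [Group G] [MeasurableSpace G] [MeasurableMul₂ G] [MeasurableInv G] {k : ℕ}
  {X : Geo G k}

/-- `u ∈ Ball SC m`, `n = Q h`, `star_path`, path length `N = (2 |U| m + 1) n`, `VP'` with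
`ε / (2 (2 |U| m + 1))` and `η' / 2`, `star_src`, `star_img` with `ρ = ε₁ n`; Markov
(`mul_meas_ge_le_integral_of_nonneg` for `‖(h.D (u ^ (q h)) - (q h) • y u).1 i ·‖`) and a union bound over
`U × [0, Q]` -/
theorem forward (hvp : X.VP') (c : ℕ) (U : Finset G)
    (hU : ∀ u ∈ U, u ∈ Subgroup.closure (X.SC : Set G)) {ε η' : ℝ} (hε : 0 < ε) (hη : 0 < η') :
    ∃ δ : ℝ, 0 < δ ∧ ∀ 𝒰 ψ ψ' ω (h : X.Hyp c 𝒰 ψ ψ' ω) (y : G → BF G k) (C : ℝ),
      (∀ u ∈ U, ∀ n : ℕ, ∀ᶠ i in (𝒰 : Filter ℕ),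
        ∫ x, ‖(h.D (u ^ n) - (n : ℝ) • y u).1 i x‖ ∂(ω i) ≤ δ * n + C) →
      ∀ᶠ i in (𝒰 : Filter ℕ),
        (ω i).real {x | X.VS U (fun u => (y u).1 i x) < X.VS U X.π - ε} ≤ η' := by
  classical
  obtain ⟨m, hm⟩ : ∃ m : ℕ, ∀ u ∈ U, u ∈ Ball (X.SC : Set G) m := by
    choose! r hr using fun u hu => Ball.exists_of_mem_closure (hU u hu)
    exact ⟨U.sup r, fun u hu => Ball.mono subset_rfl (Finset.le_sup hu) (hr u hu)⟩
  obtain ⟨Cs, hCs, himg⟩ := X.star_img c m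
  obtain ⟨A, hA⟩ : ∃ A : ℕ, A = 2 * U.card * m + 1 := ⟨_, rfl⟩
  have hA0 : (0 : ℝ) < A := by rw [hA]; positivity
  obtain ⟨η, hη0, n₀, hv⟩ := hvp c (ε / (2 * A)) (η' / 2) (by positivity) (by positivity)
  obtain ⟨ε₁, hε₁, hε₁'⟩ : ∃ ε₁ : ℝ, 0 < ε₁ ∧ Cs * ε₁ ≤ ε / 4 := by
    refine ⟨ε / (4 * (Cs + 1)), by positivity, ?_⟩
    rw [← mul_div_assoc, div_le_div_iff₀ (by positivity) (by positivity)]
    nlinarith
  obtain ⟨Q, hQ1, hQ⟩ : ∃ Q : ℕ, 1 ≤ Q ∧ Cs ≤ ε / 4 * Q := by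
    refine ⟨⌈4 * Cs / ε⌉₊ + 1, by omega, ?_⟩
    have h1 := Nat.le_ceil (4 * Cs / ε)
    rw [div_le_iff₀ hε] at h1
    push_cast
    nlinarith
  obtain ⟨T, hT⟩ : ∃ T : Finset (G × ℕ), T = U ×ˢ Finset.range (Q + 1) := ⟨_, rfl⟩
  obtain ⟨δ, hδ, hδ'⟩ : ∃ δ : ℝ, 0 < δ ∧ T.card * (2 * δ / ε₁) ≤ η' / 2 := by
    refine ⟨ε₁ * η' / (4 * (T.card + 1)), by positivity, ?_⟩
    have : 2 * (ε₁ * η' / (4 * (T.card + 1))) / ε₁ = η' / (2 * (T.card + 1)) := by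
      field_simp
      ring
    rw [this, ← mul_div_assoc, div_le_div_iff₀ (by positivity) (by positivity)]
    nlinarith
  refine ⟨δ, hδ, fun 𝒰 ψ ψ' ω H y C hy => ?_⟩
  obtain ⟨h, hh1, hh0, hhC⟩ : ∃ h : ℕ, 0 < h ∧ n₀ ≤ h ∧ C ≤ δ * h := by
    refine ⟨⌈C / δ⌉₊ + n₀ + 1, by omega, by omega, ?_⟩
    have h1 := Nat.le_ceil (C / δ)
    rw [div_le_iff₀ hδ] at h1
    have h2 : (0 : ℝ) ≤ n₀ := n₀.cast_nonneg
    push_cast
    nlinarith
  have hn : h ≤ Q * h := Nat.le_mul_of_pos_left h hQ1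
  have hn' : (h : ℝ) ≤ (Q * h : ℕ) := by exact_mod_cast hn
  have hh' : (0 : ℝ) < h := by exact_mod_cast hh1
  have hn0 : (0 : ℝ) < (Q * h : ℕ) := hh'.trans_le hn'
  obtain ⟨p, hp0, hp, htip, hnear⟩ := star_path (X.SC : Set G) m (Q * h) U hm
  have hN : 2 * U.card * m * (Q * h) ≤ A * (Q * h) := Nat.mul_le_mul_right _ (by omega)
  obtain ⟨F, hF, hFΓ, hvF⟩ := hv (A * (Q * h))
    (hh0.trans (hn.trans (Nat.le_mul_of_pos_left _ (by omega)))) p hp0 fun j _ => hp j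
  have e1 : ∀ᶠ i in (𝒰 : Filter ℕ), ∀ g ∈ F, TVr (ω i) g η :=
    (eventually_all_finite hF).2 fun g hg => H.inv g (hFΓ hg) η hη0
  have e2 : ∀ᶠ i in (𝒰 : Filter ℕ), ∀ t ∈ T,
      ∫ x, ‖(H.D (t.1 ^ (t.2 * h)) - ((t.2 * h : ℕ) : ℝ) • y t.1).1 i x‖ ∂(ω i) ≤
        δ * (t.2 * h : ℕ) + C :=
    (eventually_all_finset T).2 fun t ht => hy t.1 (by
      rw [hT] at ht; exact (Finset.mem_product.1 ht).1) _
  filter_upwards [e1, e2] with i h1 h2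
  have := H.prob i
  have h3 := hvF (ψ i) (H.qp i).qi (H.qp i).step (ω i) this h1
  have hsrc := X.star_src U (Q * h) (A * (Q * h)) p hp0 fun u hu =>
    let ⟨j, hj, e⟩ := htip u hu
    ⟨j, hj.trans hN, e⟩
  have hsub : {x | X.VS U (fun u => (y u).1 i x) < X.VS U X.π - ε} ⊆
      {x | X.V (lev X.χ ((fun j => X.π (ψ i (x * p j))) '' Set.Iic (A * (Q * h)))) <
        X.V (lev X.χ ((fun j => X.π (p j)) '' Set.Iic (A * (Q * h)))) -
          ε / (2 * A) * (A * (Q * h) : ℕ)} ∪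
      ⋃ t ∈ T, {x | ε₁ * (Q * h : ℕ) ≤
        ‖(H.D (t.1 ^ (t.2 * h)) - ((t.2 * h : ℕ) : ℝ) • y t.1).1 i x‖} := by
    intro x hx
    by_contra hc
    simp only [Set.mem_union, Set.mem_iUnion, Set.mem_ofPred_eq, not_or, not_lt, not_exists,
      not_le] at hc hx
    obtain ⟨hc1, hc2⟩ := hc
    have h4 := himg U Q h (A * (Q * h)) p (ψ i) x (fun u => (y u).1 i x) (ε₁ * (Q * h : ℕ)) hh1
      (by positivity) (H.qp i).qi hm hnear fun u hu q hq =>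
        (hc2 (u, q) (by
          rw [hT]; exact Finset.mem_product.2 ⟨hu, Finset.mem_range.2 (by omega)⟩)).le
    have h5 : ε / (2 * A) * (A * (Q * h) : ℕ) = ε / 2 * (Q * h : ℕ) := by
      rw [Nat.cast_mul A]
      field_simp
    have h6 : Cs * (ε₁ * (Q * h : ℕ) + h) ≤ ε / 2 * (Q * h : ℕ) := by
      have a1 := mul_le_mul_of_nonneg_right hε₁' hn0.le
      have a2 := mul_le_mul_of_nonneg_right hQ hh'.le
      rw [Nat.cast_mul] at a1 ⊢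
      nlinarith
    have h7 := mul_lt_mul_of_pos_left hx hn0
    rw [h5] at hc1
    nlinarith
  have h4 : ∀ t ∈ T, (ω i).real {x | ε₁ * (Q * h : ℕ) ≤
      ‖(H.D (t.1 ^ (t.2 * h)) - ((t.2 * h : ℕ) : ℝ) • y t.1).1 i x‖} ≤ 2 * δ / ε₁ := by
    intro t ht
    have a1 := mul_meas_ge_le_integral_of_nonneg (μ := ω i)
      (f := fun x => ‖(H.D (t.1 ^ (t.2 * h)) - ((t.2 * h : ℕ) : ℝ) • y t.1).1 i x‖)
      (Eventually.of_forall fun _ => norm_nonneg _) (BF.integrable _ i (ω i)).norm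
      (ε₁ * (Q * h : ℕ))
    have a2 : ((t.2 * h : ℕ) : ℝ) ≤ (Q * h : ℕ) := by
      rw [hT] at ht
      have := Finset.mem_range.1 (Finset.mem_product.1 ht).2
      exact_mod_cast Nat.mul_le_mul_right h (by omega)
    have a3 := a1.trans (h2 t ht)
    have a4 : δ * (t.2 * h : ℕ) + C ≤ 2 * δ * (Q * h : ℕ) := by
      have b1 := mul_le_mul_of_nonneg_left a2 hδ.le
      have b2 := mul_le_mul_of_nonneg_left hn' hδ.le
      linarith
    rw [le_div_iff₀ hε₁]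
    refine le_of_mul_le_mul_right ?_ hn0
    linarith
  refine (measureReal_mono hsub).trans ((measureReal_union_le _ _).trans ?_)
  have h5 := (measureReal_biUnion_finset_le (μ := ω i) T _).trans (Finset.sum_le_sum h4)
  rw [Finset.sum_const, nsmul_eq_mul] at h5
  linarith

end Geo

end Crest.Agent.R182
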