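import Crest.Agent.R182.MSA0

/-! Row 182, block M1: the ultralimit inner product. -/

set_option autoImplicit false
set_option linter.dupNamespace false

namespace Crest.Agent.R182

open Crest.GroupTheory MeasureTheory Filter Topology

variable {G : Type} [MeasurableSpace G] {k : ℕ} {𝒰 : Ultrafilter ℕ} {ω : ℕ → Measure G}
  {B : BF G k →ₗ[ℝ] BF G k →ₗ[ℝ] ℝ}

theorem h58_meas (F F' : BF G k) (i : ℕ) : Measurable fun x => ∑ l, F.1 i x l * F'.1 i x l :=
  Finset.measurable_sum _ fun l _ =>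
    ((measurable_pi_apply l).comp (BF.meas F i)).mul ((measurable_pi_apply l).comp (BF.meas F' i))

theorem h58_bdd (F F' : BF G k) : ∃ A : ℝ, 0 ≤ A ∧ ∀ i x, |∑ l, F.1 i x l * F'.1 i x l| ≤ A := by
  obtain ⟨A, hA⟩ := BF.bdd F
  obtain ⟨A', hA'⟩ := BF.bdd F'
  refine ⟨k * (|A| * |A'|), by positivity, fun i x => ?_⟩
  calc |∑ l, F.1 i x l * F'.1 i x l| ≤ ∑ l, |F.1 i x l * F'.1 i x l| := Finset.abs_sum_le_sum_abs _ _
    _ ≤ ∑ _l : Fin k, |A| * |A'| := by
        refine Finset.sum_le_sum fun l _ => ?_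
        rw [abs_mul]
        exact mul_le_mul ((norm_le_pi_norm (F.1 i x) l).trans ((hA i x).trans (le_abs_self _)))
          ((norm_le_pi_norm (F'.1 i x) l).trans ((hA' i x).trans (le_abs_self _))) (abs_nonneg _)
          (abs_nonneg _)
    _ = k * (|A| * |A'|) := by simp

theorem h58_int (F F' : BF G k) (i : ℕ) (μ : Measure G) [IsFiniteMeasure μ] :
    Integrable (fun x => ∑ l, F.1 i x l * F'.1 i x l) μ :=
  let ⟨A, _, hA⟩ := h58_bdd F F'
  Integrable.of_bound (h58_meas F F' i).aestronglyMeasurable A (Eventually.of_forall (hA i))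

/-- a bounded real sequence converges along an ultrafilter (`IsCompact.ultrafilter_le_nhds`);
`LinearMap.mk₂`, uniqueness of limits -/
theorem exists_ip (𝒰 : Ultrafilter ℕ) (ω : ℕ → Measure G) (hω : ∀ i, IsProbabilityMeasure (ω i)) :
    ∃ B : BF G k →ₗ[ℝ] BF G k →ₗ[ℝ] ℝ, IsIP 𝒰 ω B := by
  have h : ∀ F F' : BF G k, ∃ r : ℝ, Tendsto (fun i => ∫ x, ∑ l, F.1 i x l * F'.1 i x l ∂(ω i))
      (𝒰 : Filter ℕ) (𝓝 r) := by
    intro F F'
    obtain ⟨A, -, hA⟩ := h58_bdd F F'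
    obtain ⟨r, -, hr⟩ := (isCompact_Icc (a := -A) (b := A)).ultrafilter_le_nhds
      (𝒰.map fun i => ∫ x, ∑ l, F.1 i x l * F'.1 i x l ∂(ω i)) (by
        rw [le_principal_iff, Ultrafilter.mem_coe, Ultrafilter.mem_map]
        refine Filter.univ_mem' (f := (𝒰 : Filter ℕ)) fun i => abs_le.1 ?_
        have := hω i
        simpa using norm_integral_le_of_norm_le_const (μ := ω i)
          (f := fun x => ∑ l, F.1 i x l * F'.1 i x l) (C := A) (Eventually.of_forall (hA i)))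
    exact ⟨r, hr⟩
  choose b hb using h
  refine ⟨LinearMap.mk₂ ℝ b (fun F₁ F₂ F' => ?_) (fun c F F' => ?_) (fun F F₁ F₂ => ?_)
    (fun c F F' => ?_), hb⟩
  · refine tendsto_nhds_unique (hb _ _) (((hb F₁ F').add (hb F₂ F')).congr fun i => ?_)
    have := hω i
    rw [← integral_add (h58_int F₁ F' i _) (h58_int F₂ F' i _)]
    simp [add_mul, Finset.sum_add_distrib]
  · refine tendsto_nhds_unique (hb _ _) (((hb F F').const_mul c).congr fun i => ?_)
    rw [← integral_const_mul]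
    simp [Finset.mul_sum, mul_assoc]
  · refine tendsto_nhds_unique (hb _ _) (((hb F F₁).add (hb F F₂)).congr fun i => ?_)
    have := hω i
    rw [← integral_add (h58_int F F₁ i _) (h58_int F F₂ i _)]
    simp [mul_add, Finset.sum_add_distrib]
  · refine tendsto_nhds_unique (hb _ _) (((hb F F').const_mul c).congr fun i => ?_)
    rw [← integral_const_mul]
    simp [Finset.mul_sum, mul_left_comm]

theorem IsIP.symm (h : IsIP 𝒰 ω B) (F F' : BF G k) : B F F' = B F' F := by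
  refine tendsto_nhds_unique (h F F') ((h F' F).congr fun i => ?_)
  simp only [mul_comm]

theorem IsIP.nonneg (h : IsIP 𝒰 ω B) (F : BF G k) : 0 ≤ B F F := by
  exact ge_of_tendsto' (h F F) fun i =>
    integral_nonneg fun x => Finset.sum_nonneg fun l _ => mul_self_nonneg _

/-- `∑ l, F l * F l ≤ k * A * ‖F‖` -/
theorem IsIP.up (h : IsIP 𝒰 ω B) (hω : ∀ i, IsProbabilityMeasure (ω i)) (F : BF G k) {A a : ℝ}
    (hA : ∀ i x, ‖F.1 i x‖ ≤ A) (ha : ∀ᶠ i in (𝒰 : Filter ℕ), ∫ x, ‖F.1 i x‖ ∂(ω i) ≤ a) :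
    B F F ≤ k * A * a := by
  obtain ⟨x₀⟩ := have := hω 0; nonempty_of_isProbabilityMeasure (ω 0)
  have hA0 : 0 ≤ A := (norm_nonneg _).trans (hA 0 x₀)
  refine le_of_tendsto (h F F) (ha.mono fun i hi => ?_)
  have := hω i
  refine le_trans (integral_mono_of_nonneg (g := fun x => k * A * ‖F.1 i x‖)
    (ae_of_all _ fun x => Finset.sum_nonneg fun l _ => mul_self_nonneg _)
    ((BF.integrable F i _).norm.const_mul _) (ae_of_all _ fun x => ?_)) ?_
  · have h1 : ∀ l, F.1 i x l * F.1 i x l ≤ A * ‖F.1 i x‖ := fun l => by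
      have h2 : |F.1 i x l| ≤ ‖F.1 i x‖ := norm_le_pi_norm (F.1 i x) l
      rw [← abs_mul_abs_self]
      exact mul_le_mul (h2.trans (hA i x)) h2 (abs_nonneg _) hA0
    refine (Finset.sum_le_sum fun l _ => h1 l).trans_eq ?_
    rw [Finset.sum_const, Finset.card_univ, Fintype.card_fin, nsmul_eq_mul, ← mul_assoc]
  · rw [integral_const_mul]
    exact mul_le_mul_of_nonneg_left hi (by positivity)

/-- `2 a ‖F‖ ≤ ‖F‖ ^ 2 + a ^ 2 ≤ ∑ l, F l * F l + a ^ 2` -/
theorem IsIP.down (h : IsIP 𝒰 ω B) (hω : ∀ i, IsProbabilityMeasure (ω i)) (F : BF G k) {a : ℝ}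
    (ha : 0 < a) (hF : B F F < a ^ 2) : ∀ᶠ i in (𝒰 : Filter ℕ), ∫ x, ‖F.1 i x‖ ∂(ω i) ≤ a := by
  have hsq : ∀ v : Fin k → ℝ, ‖v‖ ^ 2 ≤ ∑ l, v l * v l := by
    intro v
    have h0 : 0 ≤ ∑ l, v l * v l := Finset.sum_nonneg fun l _ => mul_self_nonneg _
    have h1 : ‖v‖ ≤ √(∑ l, v l * v l) :=
      (pi_norm_le_iff_of_nonneg (Real.sqrt_nonneg _)).2 fun l => Real.abs_le_sqrt (by
        rw [sq]
        exact Finset.single_le_sum (f := fun l => v l * v l) (fun l _ => mul_self_nonneg _)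
          (Finset.mem_univ l))
    exact (pow_le_pow_left₀ (norm_nonneg _) h1 2).trans_eq (Real.sq_sqrt h0)
  obtain ⟨A, hA⟩ := BF.bdd F
  refine ((h F F).eventually (gt_mem_nhds hF)).mono fun i hi => ?_
  have := hω i
  have hm : ∀ l, Measurable fun x => F.1 i x l := fun l =>
    (measurable_pi_apply l).comp (BF.meas F i)
  have hI : Integrable (fun x => ∑ l, F.1 i x l * F.1 i x l) (ω i) := by
    refine integrable_finsetSum _ fun l _ =>
      Integrable.of_bound ((hm l).mul (hm l)).aestronglyMeasurable (A * A) (ae_of_all _ fun x => ?_)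
    have h2 : ‖F.1 i x l‖ ≤ A := (norm_le_pi_norm (F.1 i x) l).trans (hA i x)
    rw [norm_mul]
    exact mul_self_le_mul_self (norm_nonneg _) h2
  have h1 : ∫ x, 2 * a * ‖F.1 i x‖ ∂(ω i) ≤ ∫ x, (∑ l, F.1 i x l * F.1 i x l) + a ^ 2 ∂(ω i) :=
    integral_mono ((BF.integrable F i _).norm.const_mul _) (hI.add (integrable_const _))
      fun x => by
        have h2 := hsq (F.1 i x)
        show 2 * a * ‖F.1 i x‖ ≤ (∑ l, F.1 i x l * F.1 i x l) + a ^ 2
        nlinarith [sq_nonneg (‖F.1 i x‖ - a)]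
  rw [integral_const_mul, integral_add hI (integrable_const _), integral_const] at h1
  simp only [probReal_univ, smul_eq_mul, one_mul] at h1
  by_contra hc
  have h2 := mul_lt_mul_of_pos_left (not_le.1 hc) ha
  nlinarith

/-- `TVr.integral` -/
theorem IsIP.inv [Group G] [MeasurableMul₂ G] [MeasurableInv G] (h : IsIP 𝒰 ω B)
    (hω : ∀ i, IsProbabilityMeasure (ω i)) {γ : G}
    (hγ : ∀ η : ℝ, 0 < η → ∀ᶠ i in (𝒰 : Filter ℕ), TVr (ω i) γ η) (F : BF G k) :
    B (BF.tr γ F) (BF.tr γ F) = B F F := by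
  obtain ⟨A, hA0, hA⟩ := h58_bdd F F
  have h1 := ((h (BF.tr γ F) (BF.tr γ F)).sub (h F F)).abs
  refine eq_of_sub_eq_zero (abs_nonpos_iff.1 (le_of_forall_pos_le_add fun ε hε => ?_))
  refine le_of_tendsto h1 ((hγ (ε / (A + 1)) (by positivity)).mono fun i hi => ?_)
  have := hω i
  refine (hi.integral (f := fun x => ∑ l, F.1 i x l * F.1 i x l) (h58_meas F F i) (B := A + 1)
    (fun x => Finset.sum_nonneg fun l _ => mul_self_nonneg _)
    fun x => ((le_abs_self _).trans (hA i x)).trans (by linarith)).trans (le_of_eq ?_)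
  field_simp
  ring

end Crest.Agent.R182
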