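import Crest.Agent.R182.MSAcmp
import Crest.Agent.R182.MSAip
import Crest.Agent.R182.MSAgeo

/-! Row 182, block M1: existence of the limit space. -/

set_option autoImplicit false
set_option linter.dupNamespace false
set_option linter.unusedSectionVars false

namespace Crest.Agent.R182

open Crest.GroupTheory MeasureTheory Filter Topology

theorem hom_one {G W : Type*} [Group G] [AddCommGroup W] {Γ : Subgroup G} {ℓ : G → W}
    (h : ∀ g ∈ Γ, ∀ g' ∈ Γ, ℓ (g * g') = ℓ g + ℓ g') : ℓ 1 = 0 := by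
  have := h 1 Γ.one_mem 1 Γ.one_mem
  rw [mul_one] at this
  exact left_eq_add.1 this

theorem hom_inv {G W : Type*} [Group G] [AddCommGroup W] {Γ : Subgroup G} {ℓ : G → W}
    (h : ∀ g ∈ Γ, ∀ g' ∈ Γ, ℓ (g * g') = ℓ g + ℓ g') {g : G} (hg : g ∈ Γ) : ℓ g⁻¹ = -ℓ g := by
  have := h g hg g⁻¹ (Γ.inv_mem hg)
  rw [mul_inv_cancel, hom_one h] at this
  exact eq_neg_of_add_eq_zero_right this.symm

theorem hom_pow {G W : Type*} [Group G] [AddCommGroup W] [Module ℝ W] {Γ : Subgroup G} {ℓ : G → W}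
    (h : ∀ g ∈ Γ, ∀ g' ∈ Γ, ℓ (g * g') = ℓ g + ℓ g') {g : G} (hg : g ∈ Γ) (n : ℕ) :
    ℓ (g ^ n) = (n : ℝ) • ℓ g := by
  induction n with
  | zero => simp [hom_one h]
  | succ n ih => rw [pow_succ, h _ (Γ.pow_mem hg n) _ hg, ih]; push_cast; rw [add_smul, one_smul]

theorem hom_zpow {G W : Type*} [Group G] [AddCommGroup W] [Module ℝ W] {Γ : Subgroup G} {ℓ : G → W}
    (h : ∀ g ∈ Γ, ∀ g' ∈ Γ, ℓ (g * g') = ℓ g + ℓ g') {g : G} (hg : g ∈ Γ) (n : ℤ) :
    ℓ (g ^ n) = (n : ℝ) • ℓ g := by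
  cases n with
  | ofNat n => simpa using hom_pow h hg n
  | negSucc n => rw [zpow_negSucc, hom_inv h (Γ.pow_mem hg _), hom_pow h hg, Int.cast_negSucc, neg_smul]

theorem BF.integral_norm_le {G : Type} [MeasurableSpace G] {k : ℕ} (F : BF G k) {A : ℝ}
    (hA : ∀ i x, ‖F.1 i x‖ ≤ A) (i : ℕ) (μ : Measure G) [IsProbabilityMeasure μ] :
    ∫ x, ‖F.1 i x‖ ∂μ ≤ A := by
  have := integral_mono (BF.integrable F i μ).norm (integrable_const A) (hA i)
  simpa using this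

namespace Geo

variable {G : Type} [Group G] [MeasurableSpace G] [MeasurableMul₂ G] [MeasurableInv G] {k : ℕ}
  {X : Geo G k} {c : ℕ} {𝒰 : Ultrafilter ℕ} {ψ ψ' : ℕ → G → G} {ω : ℕ → Measure G}

theorem Hyp.D_one (h : X.Hyp c 𝒰 ψ ψ' ω) : h.D 1 = 0 :=
  Subtype.ext (funext fun i => funext fun x => by
    rw [Hyp.D_apply, mul_one, sub_self]; rfl)

theorem Hyp.exists_HD (h : X.Hyp c 𝒰 ψ ψ' ω) : Nonempty (HD h) := by
  obtain ⟨B, hB⟩ := exists_ip (k := k) 𝒰 ω h.prob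
  obtain ⟨W, _, _, j, ℓ, hj, hom, inv, hsl⟩ := pre_slope X.Γ B hB.symm hB.nonneg BF.tr BF.tr_mul
    BF.tr_one (fun γ hγ F => hB.inv h.prob (h.inv γ hγ) F) h.D h.D_mul
  have hn : ∀ (m : ℕ → ℕ) (g : ℕ → G), SubL (fun n => (m n : ℝ)) → (∀ n, g n ∈ Ball X.Sg (m n)) →
      SubL fun n => ‖j (h.D (g n))‖ := by
    intro m g hm hg ε hε
    have hK : (0 : ℝ) ≤ X.K := X.K.cast_nonneg
    have hc : (0 : ℝ) ≤ c := c.cast_nonneg
    have hk : (0 : ℝ) ≤ k := k.cast_nonneg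
    obtain ⟨C, hC⟩ := hm (ε / ((k + 1) * X.K * c + 1)) (by positivity)
    refine ⟨(k + 1) * X.K * c * (C + 1), fun n => ?_⟩
    have hmn : (0 : ℝ) ≤ m n := (m n).cast_nonneg
    have h1 : ‖j (h.D (g n))‖ ≤ (k + 1) * (X.K * (c * m n + c)) := by
      have h2 := hB.up h.prob (h.D (g n)) (h.norm_D (hg n)) (Eventually.of_forall fun i =>
        haveI := h.prob i
        BF.integral_norm_le _ (h.norm_D (hg n)) i _)
      rw [← hj] at h2
      refine abs_le_of_sq_le_sq' (h2.trans ?_) (by positivity) |>.2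
      have : (0 : ℝ) ≤ X.K * (c * m n + c) := by positivity
      nlinarith [mul_nonneg hk (mul_self_nonneg (X.K * (c * m n + c) : ℝ)),
        mul_nonneg (mul_self_nonneg (k : ℝ)) (mul_self_nonneg (X.K * (c * m n + c) : ℝ)),
        mul_self_nonneg (X.K * (c * m n + c) : ℝ)]
    have h3 : (k + 1) * X.K * c * (ε / ((k + 1) * X.K * c + 1)) ≤ ε := by
      rw [← mul_div_assoc, div_le_iff₀ (by positivity)]
      nlinarith
    have h4 := mul_le_mul_of_nonneg_left (hC n) (show (0 : ℝ) ≤ (k + 1) * X.K * c by positivity)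
    have h5 := mul_le_mul_of_nonneg_right h3 (n.cast_nonneg (α := ℝ))
    change ‖j (h.D (g n))‖ ≤ _
    nlinarith
  refine ⟨⟨W, j, ℓ, fun F A a hA ha => (hj F).le.trans (hB.up h.prob F hA ha), fun F a ha => ?_,
    hom, inv, ?_⟩⟩
  · have h0 := (norm_nonneg _).trans_lt ha
    refine hB.down h.prob F h0 ?_
    rw [← hj]
    exact pow_lt_pow_left₀ ha (norm_nonneg _) two_ne_zero
  · refine sub_flat X.SC X.nil (fun g => ‖j (h.D g) - ℓ g‖) ?_ (fun g hg g' hg' => ?_)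
      (fun g hg => ?_) fun t ht => ?_
    · simp [h.D_one, hom_one hom]
    · have hg1 := X.flat_le_Γ hg
      have hg2 := X.flat_le_Γ hg'
      rw [h.D_mul, map_add, hom _ hg1 _ hg2, ← inv g hg1 g' hg2, add_sub_add_comm]
      exact norm_add_le _ _
    · have hg1 := X.flat_le_Γ hg
      have h1 := h.D_mul g⁻¹ g
      rw [inv_mul_cancel, h.D_one] at h1
      rw [eq_neg_of_add_eq_zero_left h1.symm, hom_inv hom hg1, map_neg,
        ← inv g⁻¹ (X.Γ.inv_mem hg1) g hg1, ← norm_neg]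
      congr 1
      abel
    · have ht1 : t ∈ Subgroup.closure (X.SC : Set G) := Subgroup.subset_closure ht
      have ht2 := X.flat_le_Γ ht1
      have := hsl t ht2 _ rfl fun γ hγ => (X.conj_subl ht1 hγ).imp
        (fun ⟨m, h1, h2⟩ => hn m _ h1 h2) fun ⟨m, h1, h2⟩ => hn m _ h1 h2
      exact this.mono fun n => by rw [hom_pow hom ht2]

end Geo

end Crest.Agent.R182
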