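import Crest.Agent.R182.MSA0

/-! Row 182, block M1: two deterministic lemmas on finite test sets. -/

set_option autoImplicit false
set_option linter.dupNamespace false

namespace Crest.Agent.R182

open Crest.GroupTheory MeasureTheory Filter Topology

namespace Geo

variable {G : Type} [Group G] [MeasurableSpace G] {k : ℕ} (X : Geo G k)

theorem h31_ker (M : Module.End ℝ (Fin k → ℝ)) (y : Fin k → ℝ) :
    ∃ (v : Fin k → ℝ) (τ : ℝ), max ‖v‖ |τ| = 1 ∧ M v + τ • y = 0 := by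
  have h := LinearMap.ker_ne_bot_of_finrank_lt
    (f := LinearMap.coprod M (LinearMap.toSpanSingleton ℝ (Fin k → ℝ) y))
    (by rw [Module.finrank_prod, Module.finrank_self]; exact Nat.lt_succ_self _)
  obtain ⟨p, hp, hp0⟩ := Submodule.exists_mem_ne_zero_of_ne_bot h
  have h1 := Submodule.smul_mem _ ‖p‖⁻¹ hp
  refine ⟨(‖p‖⁻¹ • p).1, (‖p‖⁻¹ • p).2, norm_smul_inv_norm (𝕜 := ℝ) hp0, ?_⟩
  exact LinearMap.mem_ker.1 h1

theorem h31_floor_mem {m : ℕ} {t : ℝ} (ht : |t| ≤ 1) :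
    ⌊(m : ℝ) * t⌋ ∈ Finset.Icc (-(m : ℤ)) m := by
  obtain ⟨h1, h2⟩ := abs_le.1 ht
  have hm : (0 : ℝ) ≤ m := m.cast_nonneg
  refine Finset.mem_Icc.2 ⟨Int.le_floor.2 ?_, ?_⟩
  · push_cast
    nlinarith
  · have h3 : ((⌊(m : ℝ) * t⌋ : ℤ) : ℝ) ≤ ((m : ℤ) : ℝ) := by
      push_cast
      nlinarith [Int.floor_le ((m : ℝ) * t)]
    exact_mod_cast h3

/-- dimension count: there is `(v, τ) ≠ 0` with `M v + τ • y = 0` (`M` surjective or not injective);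
normalise `max ‖v‖ |τ| = 1`, test on `z = ⌊m v⌋`, `z₀ = ⌊m τ⌋`; `nu_bound` gives `m ‖v‖ ≤ A₁`, so `|τ| = 1` and
`‖y‖ = ‖M v‖ ≤ A A₁ / m` -/
theorem rank_test (A ε : ℝ) (hA : 0 ≤ A) (hε : 0 < ε) : ∃ Z : Finset ((Fin k → ℤ) × ℤ),
    ∀ (M : Module.End ℝ (Fin k → ℝ)) (y : Fin k → ℝ), (∀ v, ‖M v‖ ≤ A * ‖v‖) → ‖y‖ ≤ A →
      (∀ z ∈ Z, X.nu (fun l => (z.1 l : ℝ)) - 1 ≤
        X.nu (M (fun l => (z.1 l : ℝ)) + (z.2 : ℝ) • y)) → ‖y‖ ≤ ε := by
  obtain ⟨B, hB1, hB⟩ := X.nu_bound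
  obtain ⟨A₁, hA₁⟩ : ∃ A₁ : ℝ, A₁ = B * (1 + B * (A + A)) + 1 := ⟨_, rfl⟩
  have hA₁0 : 0 < A₁ := by rw [hA₁]; positivity
  obtain ⟨m, hm⟩ := exists_nat_gt (A₁ + A * A₁ / ε)
  have h0 : 0 ≤ A * A₁ / ε := by positivity
  have hm1 : A₁ < m := by linarith
  have hm2 : A * A₁ ≤ m * ε := (div_le_iff₀ hε).1 (by linarith)
  have hm0 : (0 : ℝ) < m := hA₁0.trans hm1
  refine ⟨(Fintype.piFinset fun _ => Finset.Icc (-(m : ℤ)) m) ×ˢ Finset.Icc (-(m : ℤ)) m,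
    fun M y hM hy hZ => ?_⟩
  obtain ⟨v, τ, hn, he⟩ := h31_ker M y
  have hv1 : ‖v‖ ≤ 1 := hn ▸ le_max_left _ _
  have hτ1 : |τ| ≤ 1 := hn ▸ le_max_right _ _
  have h1 := hZ (fun l => ⌊((m : ℝ) • v) l⌋, ⌊(m : ℝ) * τ⌋) (Finset.mem_product.2
    ⟨Fintype.mem_piFinset.2 fun l => h31_floor_mem ((norm_le_pi_norm v l).trans hv1),
      h31_floor_mem hτ1⟩)
  have h2 := h32_floor ((m : ℝ) • v)
  obtain ⟨z, hz⟩ : ∃ z : Fin k → ℝ, z = fun l => ((⌊((m : ℝ) • v) l⌋ : ℤ) : ℝ) := ⟨_, rfl⟩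
  simp only at h1
  rw [← hz] at h1 h2
  have h3 : |((⌊(m : ℝ) * τ⌋ : ℤ) : ℝ) - m * τ| ≤ 1 :=
    abs_le.2 ⟨by linarith [Int.lt_floor_add_one ((m : ℝ) * τ)],
      by linarith [Int.floor_le ((m : ℝ) * τ)]⟩
  have h4 : M z + ((⌊(m : ℝ) * τ⌋ : ℤ) : ℝ) • y =
      M (z - (m : ℝ) • v) + (((⌊(m : ℝ) * τ⌋ : ℤ) : ℝ) - m * τ) • y := by
    rw [map_sub, map_smul, sub_smul, mul_smul, eq_neg_of_add_eq_zero_left he, smul_neg]
    abel
  have h5 : ‖M z + ((⌊(m : ℝ) * τ⌋ : ℤ) : ℝ) • y‖ ≤ A + A := by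
    rw [h4]
    refine (norm_add_le _ _).trans (add_le_add ((hM _).trans (mul_le_of_le_one_right hA h2)) ?_)
    rw [norm_smul, Real.norm_eq_abs]
    exact (mul_le_of_le_one_left (norm_nonneg _) h3).trans hy
  have hB0 : 0 ≤ B := by linarith
  have h6 : X.nu z ≤ 1 + B * (A + A) := by
    linarith [(hB (M z + ((⌊(m : ℝ) * τ⌋ : ℤ) : ℝ) • y)).2, mul_le_mul_of_nonneg_left h5 hB0]
  have h7 : m * ‖v‖ ≤ A₁ := by
    have h8 : ‖(m : ℝ) • v‖ ≤ ‖z‖ + ‖z - (m : ℝ) • v‖ := by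
      simpa using norm_sub_le z (z - (m : ℝ) • v)
    rw [norm_smul, Real.norm_of_nonneg hm0.le] at h8
    linarith [(hB z).1, mul_le_mul_of_nonneg_left h6 hB0]
  have h8 : ‖v‖ < 1 := by
    by_contra h
    nlinarith [not_lt.1 h]
  have h9 : |τ| = 1 := by
    rcases max_choice ‖v‖ |τ| with h | h
    · exact absurd (h.symm.trans hn) h8.ne
    · exact h.symm.trans hn
  have h10 : ‖y‖ = ‖M v‖ := by
    rw [eq_neg_of_add_eq_zero_left he, norm_neg, norm_smul, Real.norm_eq_abs, h9, one_mul]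
  refine le_of_mul_le_mul_left ?_ hm0
  rw [h10]
  nlinarith [mul_le_mul_of_nonneg_left (hM v) hm0.le, mul_le_mul_of_nonneg_left h7 hA]

/-- `Z` = integer points of norm `≤ 2 m + 1`; translate `S` by `-s₀` (`lev_add`, `V_add_pt`), scale by `m`
(`lev_smul`, `V_smul`), round (`h32_floor`, `χ_bound`, `V_lip`) -/
theorem exp_test (A ε : ℝ) (hA : 0 ≤ A) (hε : 0 < ε) : ∃ Z : Finset (Fin k → ℤ),
    ∀ M : Module.End ℝ (Fin k → ℝ), (∀ v, ‖M v‖ ≤ A * ‖v‖) →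
      (∀ S ⊆ Z, X.VS S (fun z l => (z l : ℝ)) - 1 ≤ X.VS S fun z => M fun l => (z l : ℝ)) →
      X.Exp ε M := by
  classical
  obtain ⟨B, hB, hχ⟩ := X.χ_bound
  obtain ⟨L, hL, hV⟩ := X.V_lip
  obtain ⟨m, hm⟩ := exists_nat_ge ((L * B + L * (B * A) + 1) / ε)
  have hm0 : (0 : ℝ) ≤ m := m.cast_nonneg
  rw [div_le_iff₀ hε] at hm
  have hB0 : 0 ≤ B := zero_le_one.trans hB
  refine ⟨Fintype.piFinset fun _ => Finset.Icc (-(2 * (m : ℤ))) (2 * m), fun M hM hZ S hS hne hS1 => ?_⟩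
  obtain ⟨s₀, hs₀⟩ := hne
  let f : (Fin k → ℝ) → Fin k → ℤ := fun s l => ⌊((m : ℝ) • (s - s₀)) l⌋
  have hf : ∀ s, ‖(fun l => (f s l : ℝ)) - (m : ℝ) • (s - s₀)‖ ≤ 1 := fun s => h32_floor _
  have hU : hS.toFinset.image f ⊆ Fintype.piFinset fun _ => Finset.Icc (-(2 * (m : ℤ))) (2 * m) := by
    intro z hz
    obtain ⟨s, hs, rfl⟩ := Finset.mem_image.1 hz
    rw [Set.Finite.mem_toFinset] at hs
    refine Fintype.mem_piFinset.2 fun l => Finset.mem_Icc.2 ?_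
    have h1 := abs_le.1 ((norm_le_pi_norm s l).trans (hS1 s hs))
    have h2 := abs_le.1 ((norm_le_pi_norm s₀ l).trans (hS1 s₀ hs₀))
    have h3 : ((m : ℝ) • (s - s₀)) l = m * (s l - s₀ l) := rfl
    constructor
    · refine Int.le_floor.2 ?_
      rw [h3]; push_cast; nlinarith
    · refine Int.floor_le_iff.2 ?_
      rw [h3]; push_cast; nlinarith
  have key := hZ _ hU
  have hVm : ∀ (a : X.ι → ℝ) (v : Fin k → ℝ),
      X.V (fun i => m * (a i + X.χ i v)) = m * X.V a := fun a v => by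
    rw [X.V_smul (fun i => a i + X.χ i v) hm0, X.V_add_pt]
  have h1 : (m : ℝ) * X.V (lev X.χ S) ≤
      X.VS (hS.toFinset.image f) (fun z l => (z l : ℝ)) + L * B := by
    rw [← hVm _ (-s₀)]
    refine hV _ _ _ hB0 fun i => ?_
    obtain ⟨s, hs, he⟩ := exists_lev (χ := X.χ) hS ⟨s₀, hs₀⟩ i
    have h2 : X.χ i (fun l => (f s l : ℝ)) ≤ lev X.χ (insert 0
        ((fun (z : Fin k → ℤ) l => (z l : ℝ)) '' (hS.toFinset.image f : Finset (Fin k → ℤ)))) i := by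
      refine le_lev (((Finset.finite_toSet _).image _).insert _) (Set.mem_insert_of_mem _ ?_) i
      exact ⟨f s, Finset.mem_coe.2 (Finset.mem_image_of_mem f (hS.mem_toFinset.2 hs)), rfl⟩
    have h3 := (abs_le.1 ((hχ i _).trans (mul_le_mul_of_nonneg_left (hf s) hB0))).1
    rw [map_sub, map_smul, map_sub, smul_eq_mul] at h3
    rw [he, map_neg]
    linarith
  have h2 : X.VS (hS.toFinset.image f) (fun z => M fun l => (z l : ℝ)) ≤
      (m : ℝ) * X.V (lev X.χ (M '' S)) + L * (B * A) := by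
    rw [← hVm _ (-M s₀)]
    refine hV _ _ _ (mul_nonneg hB0 hA) fun i => lev_le (Set.insert_nonempty _ _) ?_
    rintro _ (rfl | ⟨z, hz, rfl⟩)
    · have h3 := le_lev (χ := X.χ) (hS.image M) (Set.mem_image_of_mem M hs₀) i
      have h4 := mul_nonneg hm0 (sub_nonneg.2 h3)
      have h5 := mul_nonneg hB0 hA
      rw [map_zero, map_neg]
      linarith
    · obtain ⟨s, hs, rfl⟩ := Finset.mem_image.1 (Finset.mem_coe.1 hz)
      rw [Set.Finite.mem_toFinset] at hs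
      have h3 := le_lev (χ := X.χ) (hS.image M) (Set.mem_image_of_mem M hs) i
      have h4 := mul_le_mul_of_nonneg_left h3 hm0
      have h5 : ‖M ((fun l => (f s l : ℝ)) - (m : ℝ) • (s - s₀))‖ ≤ A :=
        (hM _).trans (mul_le_of_le_one_right hA (hf s))
      have h6 := (abs_le.1 ((hχ i _).trans (mul_le_mul_of_nonneg_left h5 hB0))).2
      simp only [map_sub, map_smul, smul_eq_mul] at h6
      rw [map_neg]
      change X.χ i (M fun l => (f s l : ℝ)) ≤ _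
      linarith
  have hmpos : (0 : ℝ) < m := by
    have : 0 ≤ L * B + L * (B * A) := by positivity
    by_contra h
    have h0 : (m : ℝ) = 0 := le_antisymm (not_lt.1 h) hm0
    rw [h0] at hm
    linarith
  refine le_of_mul_le_mul_left ?_ hmpos
  nlinarith

end Geo

end Crest.Agent.R182
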