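import Crest.Agent.R182.MSAhd
import Crest.Agent.R182.MSAfw
import Crest.Agent.R182.MSAlin

/-! Row 182, block M1: the slope homomorphism factors through the heights. -/

set_option autoImplicit false
set_option linter.dupNamespace false
set_option linter.unusedSectionVars false

namespace Crest.Agent.R182

open Crest.GroupTheory MeasureTheory Filter Topology

theorem exists_ball_finset {G : Type*} [Group G] {T : Set G} (U : Finset G)
    (hU : ∀ u ∈ U, u ∈ Subgroup.closure T) : ∃ m : ℕ, ∀ u ∈ U, u ∈ Ball T m := by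
  choose! m hm using fun u hu => Ball.exists_of_mem_closure (hU u hu)
  exact ⟨U.sup m, fun u hu => Ball.mono subset_rfl (Finset.le_sup hu) (hm u hu)⟩

theorem exists_pos_finset {I : Type*} (Z : Finset I) (P : I → ℝ → Prop)
    (hm : ∀ z δ δ', δ' ≤ δ → P z δ → P z δ') (h : ∀ z ∈ Z, ∃ δ, 0 < δ ∧ P z δ) :
    ∃ δ, 0 < δ ∧ ∀ z ∈ Z, P z δ := by
  classical
  induction Z using Finset.induction_on with
  | empty => exact ⟨1, one_pos, fun _ h => absurd h (Finset.notMem_empty _)⟩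
  | insert a s _ ih =>
    obtain ⟨δ, h1, h2⟩ := ih fun z hz => h z (Finset.mem_insert_of_mem hz)
    obtain ⟨δ', h1', h2'⟩ := h a (Finset.mem_insert_self _ _)
    refine ⟨min δ δ', lt_min h1 h1', fun z hz => ?_⟩
    rcases Finset.mem_insert.1 hz with rfl | hz
    · exact hm _ _ _ (min_le_right _ _) h2'
    · exact hm _ _ _ (min_le_left _ _) (h2 z hz)

theorem real_biUnion_le {α I : Type*} [MeasurableSpace α] (μ : Measure α) [IsFiniteMeasure μ]
    (Z : Finset I) (A : I → Set α) {S : Set α} {ε : ℝ} (hε : 0 ≤ ε)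
    (h : ∀ z ∈ Z, μ.real (A z) ≤ ε / (Z.card + 1)) (hS : ∀ x ∈ S, ∃ z ∈ Z, x ∈ A z) :
    μ.real S ≤ ε := by
  have h1 : μ.real S ≤ μ.real (⋃ z ∈ Z, A z) :=
    measureReal_mono (fun x hx => by simpa using hS x hx) (measure_ne_top _ _)
  have h2 := Finset.sum_le_card_nsmul Z _ _ h
  refine h1.trans ((measureReal_biUnion_finset_le Z A).trans (h2.trans ?_))
  rw [nsmul_eq_mul, ← mul_div_assoc, div_le_iff₀ (by positivity)]
  nlinarith

namespace Geo

variable {G : Type} [Group G] [MeasurableSpace G] [MeasurableMul₂ G] [MeasurableInv G] {k : ℕ}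
  {X : Geo G k} {c : ℕ} {𝒰 : Ultrafilter ℕ} {ψ ψ' : ℕ → G → G} {ω : ℕ → Measure G}

/-- flat generators of the height lattice -/
noncomputable def cl (X : Geo G k) (l : Fin k) : G := (X.SC_surj l).choose

theorem cl_mem (X : Geo G k) (l : Fin k) : X.cl l ∈ X.SC := (X.SC_surj l).choose_spec.1

theorem cl_flat (X : Geo G k) (l : Fin k) : X.cl l ∈ Subgroup.closure (X.SC : Set G) :=
  Subgroup.subset_closure (X.cl_mem l)

theorem π_cl (X : Geo G k) (l : Fin k) : X.π (X.cl l) = Pi.single l 1 :=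
  (X.SC_surj l).choose_spec.2

/-- the slope at scale `r` -/
noncomputable def Hyp.ph (h : X.Hyp c 𝒰 ψ ψ' ω) (r : ℕ) (s : G) : BF G k :=
  (r : ℝ)⁻¹ • h.D (s ^ r)

theorem Hyp.ph_apply (h : X.Hyp c 𝒰 ψ ψ' ω) (r : ℕ) (s : G) (i : ℕ) (x : G) :
    (h.ph r s).1 i x = (r : ℝ)⁻¹ • (X.π (ψ i (x * s ^ r)) - X.π (ψ i x)) := rfl

theorem Hyp.norm_ph (h : X.Hyp c 𝒰 ψ ψ' ω) {r m : ℕ} (hr : 0 < r) {s : G}
    (hs : s ∈ Ball (X.SC : Set G) m) (i : ℕ) (x : G) :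
    ‖(h.ph r s).1 i x‖ ≤ X.K * (c * (X.K * m) + c) := by
  have h1 := h.norm_D (X.flat_ball (Ball.pow_mem hs r)) i x
  have hr1 : (1 : ℝ) ≤ r := by exact_mod_cast hr
  rw [h.ph_apply, norm_smul, norm_inv, Real.norm_natCast, inv_mul_le_iff₀ (by positivity)]
  refine h1.trans ?_
  push_cast
  have : (0 : ℝ) ≤ X.K * c := by positivity
  nlinarith

/-- the linear map with the slopes of the `cl l` as columns -/
noncomputable def Hyp.Ph (h : X.Hyp c 𝒰 ψ ψ' ω) (r i : ℕ) (x : G) : Module.End ℝ (Fin k → ℝ) :=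
  Fintype.linearCombination ℝ fun l => (h.ph r (X.cl l)).1 i x

/-- its value at `v` -/
noncomputable def Hyp.PB (h : X.Hyp c 𝒰 ψ ψ' ω) (r : ℕ) (v : Fin k → ℝ) : BF G k :=
  ∑ l, v l • h.ph r (X.cl l)

theorem Hyp.PB_apply (h : X.Hyp c 𝒰 ψ ψ' ω) (r : ℕ) (v : Fin k → ℝ) (i : ℕ) (x : G) :
    (h.PB r v).1 i x = h.Ph r i x v := by
  simp [Hyp.PB, Hyp.Ph, Fintype.linearCombination_apply, Finset.sum_apply]

theorem Hyp.step_Ph (h : X.Hyp c 𝒰 ψ ψ' ω) (r i : ℕ) : Step (h.Ph r i) :=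
  (Step.pi fun l => h.step_D (X.cl l ^ r) i).comp fun f =>
    (Fintype.linearCombination ℝ fun l => (r : ℝ)⁻¹ • f l : Module.End ℝ (Fin k → ℝ))

theorem Hyp.norm_Ph (h : X.Hyp c 𝒰 ψ ψ' ω) {r : ℕ} (hr : 0 < r) (i : ℕ) (x : G)
    (v : Fin k → ℝ) : ‖h.Ph r i x v‖ ≤ (k * (X.K * (c * X.K + c))) * ‖v‖ := by
  rw [Hyp.Ph, Fintype.linearCombination_apply]
  refine (norm_sum_le _ _).trans ((Finset.sum_le_card_nsmul _ _ (‖v‖ * (X.K * (c * X.K + c)))
    fun l _ => ?_).trans (le_of_eq ?_))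
  · rw [norm_smul]
    refine mul_le_mul (norm_le_pi_norm v l) ?_ (norm_nonneg _) (norm_nonneg _)
    simpa using h.norm_ph hr (Ball.mem_of_mem (X.cl_mem l)) i x
  · simp; ring

variable {h : X.Hyp c 𝒰 ψ ψ' ω}

theorem HD.ph (d : HD h) {s : G} (hs : s ∈ Subgroup.closure (X.SC : Set G)) {δ : ℝ} (hδ : 0 < δ) :
    ∀ᶠ r in atTop, ‖d.j (h.ph r s) - d.ℓ s‖ ≤ δ := by
  obtain ⟨m, hm⟩ := Ball.exists_of_mem_closure hs
  obtain ⟨C, hC⟩ := d.flat (δ / (2 * (m + 1))) (by positivity)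
  obtain ⟨r₀, hr₀⟩ := exists_nat_ge (C / (δ / 2))
  filter_upwards [eventually_ge_atTop r₀, eventually_gt_atTop 0] with r h1 h2
  have hr : (0 : ℝ) < r := by exact_mod_cast h2
  have h3 := hC _ _ (Ball.pow_mem hm r)
  rw [hom_pow d.hom (X.flat_le_Γ hs)] at h3
  have e : d.j (h.ph r s) - d.ℓ s = (r : ℝ)⁻¹ • (d.j (h.D (s ^ r)) - (r : ℝ) • d.ℓ s) := by
    rw [Hyp.ph, map_smul, smul_sub, smul_smul, inv_mul_cancel₀ hr.ne', one_smul]
  rw [e, norm_smul, norm_inv, Real.norm_natCast, inv_mul_le_iff₀ hr]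
  refine h3.trans ?_
  have h4 : δ / (2 * (m + 1)) * m ≤ δ / 2 := by
    rw [div_mul_eq_mul_div, div_le_div_iff₀ (by positivity) (by positivity)]
    nlinarith
  have h5 : (r₀ : ℝ) ≤ r := by exact_mod_cast h1
  rw [div_le_iff₀ (by positivity)] at hr₀
  push_cast
  nlinarith

/-- the limit linear map -/
noncomputable def HD.L (d : HD h) (v : Fin k → ℝ) : d.W := ∑ l, v l • d.ℓ (X.cl l)

theorem HD.PB (d : HD h) {δ : ℝ} (hδ : 0 < δ) :
    ∀ᶠ r in atTop, ∀ v, ‖d.j (h.PB r v) - d.L v‖ ≤ δ * ‖v‖ := by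
  have h1 := eventually_all.2 fun l => d.ph (X.cl_flat l) (δ := δ / (k + 1)) (by positivity)
  filter_upwards [h1] with r hr v
  rw [Hyp.PB, HD.L, map_sum, ← Finset.sum_sub_distrib]
  refine (norm_sum_le _ _).trans ((Finset.sum_le_card_nsmul _ _ (‖v‖ * (δ / (k + 1)))
    fun l _ => ?_).trans ?_)
  · rw [map_smul, ← smul_sub, norm_smul]
    exact mul_le_mul (norm_le_pi_norm v l) (hr l) (norm_nonneg _) (norm_nonneg _)
  · rw [Finset.card_univ, Fintype.card_fin, nsmul_eq_mul, ← mul_div_assoc, ← mul_div_assoc,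
      div_le_iff₀ (by positivity)]
    nlinarith [mul_nonneg hδ.le (norm_nonneg v)]

theorem HD.lift (d : HD h) (z : Fin k → ℤ) : ∃ u ∈ Subgroup.closure (X.SC : Set G),
    X.π u = (fun l => (z l : ℝ)) ∧ d.ℓ u = d.L fun l => (z l : ℝ) := by
  have key : ∀ s : Finset (Fin k), ∃ u ∈ Subgroup.closure (X.SC : Set G),
      X.π u = ∑ l ∈ s, (z l : ℝ) • (Pi.single l 1 : Fin k → ℝ) ∧
        d.ℓ u = ∑ l ∈ s, (z l : ℝ) • d.ℓ (X.cl l) := by
    intro s
    induction s using Finset.induction_on with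
    | empty => exact ⟨1, Subgroup.one_mem _, by simp [X.π_hom.one], by simp [hom_one d.hom]⟩
    | insert a s ha ih =>
      obtain ⟨u, h1, h2, h3⟩ := ih
      have h4 := Subgroup.zpow_mem _ (X.cl_flat a) (z a)
      refine ⟨X.cl a ^ z a * u, Subgroup.mul_mem _ h4 h1, ?_, ?_⟩
      · rw [X.π_hom, X.π_hom.zpow, Finset.sum_insert ha, h2, X.π_cl]
      · rw [d.hom _ (X.flat_le_Γ h4) _ (X.flat_le_Γ h1), Finset.sum_insert ha, h3,
          hom_zpow d.hom (X.flat_le_Γ (X.cl_flat a))]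
  obtain ⟨u, h1, h2, h3⟩ := key Finset.univ
  refine ⟨u, h1, h2.trans (funext fun l => ?_), h3⟩
  simp [Finset.sum_apply, Pi.single_apply]

theorem HD.fw (d : HD h) (hvp : X.VP') (U : Finset G)
    (hU : ∀ u ∈ U, u ∈ Subgroup.closure (X.SC : Set G)) {ε η' : ℝ} (hε : 0 < ε) (hη : 0 < η') :
    ∃ δ : ℝ, 0 < δ ∧ ∀ y : G → BF G k, (∀ u ∈ U, ‖d.j (y u) - d.ℓ u‖ ≤ δ) →
      ∀ᶠ i in (𝒰 : Filter ℕ),
        (ω i).real {x | X.VS U (fun u => (y u).1 i x) < X.VS U X.π - ε} ≤ η' := by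
  obtain ⟨δ, hδ, H⟩ := forward hvp c U hU hε hη
  obtain ⟨m, hm⟩ := exists_ball_finset U hU
  obtain ⟨C, hC⟩ := d.flat (δ / (2 * (m + 1))) (by positivity)
  refine ⟨δ / 2, by positivity, fun y hy => H 𝒰 ψ ψ' ω h y (C + 1) fun u hu n => d.down _ _ ?_⟩
  have h3 := hC _ _ (Ball.pow_mem (hm u hu) n)
  rw [hom_pow d.hom (X.flat_le_Γ (hU u hu))] at h3
  have e : d.j (h.D (u ^ n) - (n : ℝ) • y u) =
      (d.j (h.D (u ^ n)) - (n : ℝ) • d.ℓ u) - (n : ℝ) • (d.j (y u) - d.ℓ u) := by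
    rw [map_sub, map_smul, smul_sub]; abel
  have h4 : δ / (2 * (m + 1)) * m ≤ δ / 2 := by
    rw [div_mul_eq_mul_div, div_le_div_iff₀ (by positivity) (by positivity)]
    nlinarith
  have hn : (0 : ℝ) ≤ n := n.cast_nonneg
  have h5 := mul_le_mul_of_nonneg_left (hy u hu) hn
  have h6 := mul_le_mul_of_nonneg_left h4 hn
  rw [e]
  refine (norm_sub_le _ _).trans_lt ?_
  rw [norm_smul, Real.norm_natCast]
  push_cast at h3
  nlinarith

theorem VS_single (X : Geo G k) (u : G) (y : G → Fin k → ℝ) : X.VS {u} y = X.nu (y u) := by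
  simp [VS, nu]

end Geo

end Crest.Agent.R182
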