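import Crest.Agent.R182.MBasic

/-! Row 182, block M1 (local slopes): definitions. -/

set_option autoImplicit false
set_option linter.dupNamespace false

namespace Crest.Agent.R182

open Crest.GroupTheory MeasureTheory

namespace Geo

variable {G : Type} [Group G] [MeasurableSpace G] {k : ℕ} (X : Geo G k)

/-- `M` almost does not decrease box volumes -/
def Exp (ε : ℝ) (M : Module.End ℝ (Fin k → ℝ)) : Prop :=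
  ∀ S : Set (Fin k → ℝ), S.Finite → S.Nonempty → (∀ s ∈ S, ‖s‖ ≤ 1) →
    X.V (lev X.χ S) - ε ≤ X.V (lev X.χ (M '' S))

/-- `M` almost does not increase `nu` -/
def Rev (ε : ℝ) (M : Module.End ℝ (Fin k → ℝ)) : Prop :=
  ∀ a, X.nu (M a) ≤ X.nu a + ε * ‖a‖

/-- `M` is close to the finite group -/
def Near (δ : ℝ) (M : Module.End ℝ (Fin k → ℝ)) : Prop :=
  ∃ w, X.IsW w ∧ ∀ v, ‖M v - w v‖ ≤ δ * ‖v‖

/-- the hypotheses of `Slopes` -/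
structure Hyp (c : ℕ) (𝒰 : Ultrafilter ℕ) (ψ ψ' : ℕ → G → G) (ω : ℕ → Measure G) : Prop where
  qp : ∀ i, X.QP c (ψ i) (ψ' i)
  prob : ∀ i, IsProbabilityMeasure (ω i)
  inv : ∀ γ ∈ X.Γ, ∀ η : ℝ, 0 < η → ∀ᶠ i in (𝒰 : Filter ℕ), TVr (ω i) γ η

/-- the error of the linear approximation `Φ` of the height cocycle -/
noncomputable def err (ψ : G → G) (Φ : G → Module.End ℝ (Fin k → ℝ)) (g x : G) : ℝ :=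
  ‖X.π (ψ (x * g)) - X.π (ψ x) - Φ x (X.π g)‖

/-- almost invariant linear approximations of the height cocycle on the flat subgroup -/
structure Apx (C₀ : ℝ) (𝒰 : Ultrafilter ℕ) (ψ : ℕ → G → G) (ω : ℕ → Measure G) (ε : ℝ) (n₀ : ℕ)
    (Φ : ℕ → G → Module.End ℝ (Fin k → ℝ)) : Prop where
  step : ∀ i, Step (Φ i)
  bd : ∀ i x v, ‖Φ i x v‖ ≤ C₀ * ‖v‖
  flat : ∀ n ≥ n₀, ∀ g ∈ Ball (X.SC : Set G) n, ∀ᶠ i in (𝒰 : Filter ℕ),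
    ∫ x, X.err (ψ i) (Φ i) g x ∂(ω i) ≤ ε * n
  inv : ∀ γ ∈ X.Γ, ∀ v, ∀ᶠ i in (𝒰 : Filter ℕ),
    ∫ x, ‖Φ i (x * γ) v - Φ i x v‖ ∂(ω i) ≤ ε * ‖v‖

/-- the first half of M1 -/
def H1 : Prop :=
  ∀ c : ℕ, ∃ C₀ : ℝ, 1 ≤ C₀ ∧ ∀ 𝒰 ψ ψ' ω, X.Hyp c 𝒰 ψ ψ' ω → ∀ ε : ℝ, 0 < ε → ∃ n₀ Φ,
    X.Apx C₀ 𝒰 ψ ω ε n₀ Φ ∧ ∀ᶠ i in (𝒰 : Filter ℕ), (ω i).real {x | ¬ X.Exp ε (Φ i x)} ≤ ε

/-- the first half together with the reverse inequality and the limit -/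
def H4 : Prop :=
  ∀ c : ℕ, ∃ C₀ : ℝ, 1 ≤ C₀ ∧ ∀ 𝒰 ψ ψ' ω, X.Hyp c 𝒰 ψ ψ' ω → ∀ ε : ℝ, 0 < ε → ∃ n₀ Φ,
    X.Apx C₀ 𝒰 ψ ω ε n₀ Φ ∧ ∀ᶠ i in (𝒰 : Filter ℕ), (ω i).real {x | ¬ X.Near ε (Φ i x)} ≤ ε

/-- controlled Følner sets -/
structure Fol (R : ℕ) (KR : ℝ) (n : ℕ) (D : Set G) : Prop where
  meas : MeasurableSet D
  sub : D ⊆ Ball X.Sg n
  pos : X.μ D ≠ 0
  bdry : X.μ.real {y | (∃ b ∈ Ball X.Sg R, y * b ∈ D) ∧ ∃ b ∈ Ball X.Sg R, y * b ∉ D} ≤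
    KR / n * X.μ.real D

theorem exists_fol (R : ℕ) : ∃ KR : ℝ, ∀ n₀ : ℕ, ∃ n ≥ n₀, ∃ D, X.Fol R KR n D := by
  obtain ⟨KR, h⟩ := X.folner R
  refine ⟨KR, fun n₀ => ?_⟩
  obtain ⟨n, hn, D, h1, h2, h3, h4⟩ := h n₀
  exact ⟨n, hn, D, h1, h2, h3, h4⟩

variable {X}

theorem Exp.mono {ε ε' : ℝ} {M : Module.End ℝ (Fin k → ℝ)} (h : X.Exp ε M) (hε : ε ≤ ε') :
    X.Exp ε' M := fun S h1 h2 h3 => by linarith [h S h1 h2 h3]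

theorem Rev.mono {ε ε' : ℝ} {M : Module.End ℝ (Fin k → ℝ)} (h : X.Rev ε M) (hε : ε ≤ ε') :
    X.Rev ε' M := fun a => by
  have := mul_le_mul_of_nonneg_right hε (norm_nonneg a)
  linarith [h a]

theorem Near.mono {ε ε' : ℝ} {M : Module.End ℝ (Fin k → ℝ)} (h : X.Near ε M) (hε : ε ≤ ε') :
    X.Near ε' M := by
  obtain ⟨w, hw, h⟩ := h
  exact ⟨w, hw, fun v => (h v).trans (mul_le_mul_of_nonneg_right hε (norm_nonneg v))⟩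

theorem Apx.mono {C₀ : ℝ} {𝒰 : Ultrafilter ℕ} {ψ : ℕ → G → G} {ω : ℕ → Measure G} {ε ε' : ℝ}
    {n₀ : ℕ} {Φ : ℕ → G → Module.End ℝ (Fin k → ℝ)} (h : X.Apx C₀ 𝒰 ψ ω ε n₀ Φ) (hε : ε ≤ ε') :
    X.Apx C₀ 𝒰 ψ ω ε' n₀ Φ :=
  ⟨h.step, h.bd, fun n hn g hg => (h.flat n hn g hg).mono fun _ hi =>
    hi.trans (mul_le_mul_of_nonneg_right hε n.cast_nonneg),
   fun γ hγ v => (h.inv γ hγ v).mono fun _ hi =>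
    hi.trans (mul_le_mul_of_nonneg_right hε (norm_nonneg v))⟩

end Geo

end Crest.Agent.R182
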