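import Crest.Agent.R182.MSDefs

/-! Row 182, block M1: profiles and the limit of almost isometries. -/

set_option autoImplicit false
set_option linter.dupNamespace false

namespace Crest.Agent.R182

open Crest.GroupTheory MeasureTheory

namespace Geo

variable {G : Type} [Group G] [MeasurableSpace G] {k : ℕ} (X : Geo G k)

/-- `lev_le`; for `s' ∈ convexHull S'` one has `χ i s' ≤ lev χ S' i` (`convexHull_min`, `le_lev`, a
half space is convex); `χ_bound`, `V_lip` -/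
theorem V_lev_le : ∃ B : ℝ, 1 ≤ B ∧ ∀ (S S' : Set (Fin k → ℝ)) (r : ℝ), S.Nonempty → S'.Finite →
    0 ≤ r → (∀ s ∈ S, ∃ s' ∈ convexHull ℝ S', ‖s - s'‖ ≤ r) →
      X.V (lev X.χ S) ≤ X.V (lev X.χ S') + B * r := by
  obtain ⟨B₁, h1, hχ⟩ := X.χ_bound
  obtain ⟨B₂, h2, hV⟩ := X.V_lip
  refine ⟨B₂ * B₁, one_le_mul_of_one_le_of_one_le h2 h1, fun S S' r hS hS' hr h => ?_⟩
  rw [mul_assoc]
  refine hV _ _ _ (by positivity) fun i => lev_le hS fun s hs => ?_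
  obtain ⟨s', hs', hd⟩ := h s hs
  have h3 : X.χ i s' ≤ lev X.χ S' i :=
    convexHull_min (t := {x | X.χ i x ≤ lev X.χ S' i}) (fun x hx => le_lev hS' hx i)
      (convex_halfSpace_le (X.χ i).isLinear _) hs'
  have h4 := (le_abs_self _).trans (hχ i (s - s'))
  have h5 := mul_le_mul_of_nonneg_left hd (zero_le_one.trans h1)
  rw [map_sub] at h4
  linarith

/-- `lev_add`, `V_add_pt` -/
theorem V_lev_add {S : Set (Fin k → ℝ)} (hS : S.Finite) (hn : S.Nonempty) (v : Fin k → ℝ) :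
    X.V (lev X.χ ((fun s => s + v) '' S)) = X.V (lev X.χ S) := by
  rw [lev_add hS hn, V_add_pt]

/-- `lev_smul`, `V_smul` -/
theorem V_lev_smul {S : Set (Fin k → ℝ)} (hS : S.Finite) (hn : S.Nonempty) {t : ℝ} (ht : 0 ≤ t) :
    X.V (lev X.χ ((fun s => t • s) '' S)) = t * X.V (lev X.χ S) := by
  rw [lev_smul hS hn ht, X.V_smul _ ht]

/-- Lipschitz interpolation: `j = s * (j / s) + j % s`, so `‖h j - h (s * (j / s))‖ ≤ L * s`;
translate by `-h 0` (`V_lev_add`) and use `V_lev_le` -/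
theorem prof : ∃ B : ℝ, 1 ≤ B ∧ ∀ (h : ℕ → Fin k → ℝ) (N s : ℕ) (L e : ℝ)
    (S' : Set (Fin k → ℝ)), 0 < s → S'.Finite → 0 ≤ L → 0 ≤ e → (∀ j, ‖h (j + 1) - h j‖ ≤ L) →
    (∀ l, s * l ≤ N → ∃ s' ∈ convexHull ℝ S', ‖h (s * l) - h 0 - s'‖ ≤ e) →
      X.V (lev X.χ (h '' Set.Iic N)) ≤ X.V (lev X.χ S') + B * (e + L * s) := by
  obtain ⟨B, hB, hV⟩ := X.V_lev_le
  refine ⟨B, hB, fun h N s L e S' hs hS' hL he hh hl => ?_⟩
  have h1 : ∀ a r : ℕ, ‖h (a + r) - h a‖ ≤ L * r := by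
    intro a r
    induction r with
    | zero => simp
    | succ r ih =>
      have := norm_add_le (h (a + r + 1) - h (a + r)) (h (a + r) - h a)
      rw [sub_add_sub_cancel] at this
      rw [← add_assoc]
      push_cast
      linarith [hh (a + r)]
  have hn : (h '' Set.Iic N).Nonempty := ⟨_, 0, Nat.zero_le N, rfl⟩
  rw [← X.V_lev_add ((Set.finite_Iic N).image h) hn (-h 0)]
  refine hV _ _ _ (hn.image _) hS' (by positivity) ?_
  rintro _ ⟨_, ⟨j, hj, rfl⟩, rfl⟩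
  obtain ⟨s', hs', hd⟩ := hl (j / s) ((Nat.mul_div_le j s).trans hj)
  refine ⟨s', hs', ?_⟩
  have h2 := h1 (s * (j / s)) (j % s)
  rw [Nat.div_add_mod] at h2
  have h3 : ((j % s : ℕ) : ℝ) ≤ s := by exact_mod_cast (Nat.mod_lt j hs).le
  have h4 := mul_le_mul_of_nonneg_left h3 hL
  have e1 : h j + -h 0 - s' = (h j - h (s * (j / s))) + (h (s * (j / s)) - h 0 - s') := by abel
  dsimp only
  rw [e1]
  linarith [norm_add_le (h j - h (s * (j / s))) (h (s * (j / s)) - h 0 - s')]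

/-- `S = {0, v}` with `‖v‖ = 1`, `nu_bound` (`M '' {0, v} = {0, M v}`), `ε₀ = 1 / (2 B)` -/
theorem exp_lower : ∃ ε₀ : ℝ, 0 < ε₀ ∧ ∃ C : ℝ, 1 ≤ C ∧ ∀ M, X.Exp ε₀ M → ∀ v, ‖v‖ ≤ C * ‖M v‖ := by
  obtain ⟨B, hB, h⟩ := X.nu_bound
  have hB0 : 0 < B := by linarith
  refine ⟨1 / (2 * B), by positivity, 2 * B ^ 2, by nlinarith, fun M hM v => ?_⟩
  rcases eq_or_ne v 0 with rfl | hv
  · simp
  have hn : 0 < ‖v‖ := norm_pos_iff.2 hv
  obtain ⟨u, hu⟩ : ∃ u, u = ‖v‖⁻¹ • v := ⟨_, rfl⟩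
  have hu1 : ‖u‖ = 1 := by rw [hu, norm_smul, norm_inv, norm_norm, inv_mul_cancel₀ hn.ne']
  have h1 := hM {0, u} (Set.toFinite _) (Set.insert_nonempty _ _) (by
    rintro s (rfl | rfl)
    · simp
    · exact hu1.le)
  rw [Set.image_pair, map_zero] at h1
  change X.nu u - _ ≤ X.nu (M u) at h1
  have h2 := (h u).1
  have h3 := (h (M u)).2
  have h4 : ‖M u‖ * ‖v‖ = ‖M v‖ := by
    rw [hu, map_smul, norm_smul, norm_inv, norm_norm, mul_right_comm, inv_mul_cancel₀ hn.ne',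
      one_mul]
  have h5 : B * (1 / (2 * B)) = 1 / 2 := by field_simp
  have h6 : 1 ≤ 2 * B ^ 2 * ‖M u‖ := by
    have := mul_le_mul_of_nonneg_left (h1.trans h3) hB0.le
    rw [mul_sub, h5] at this
    nlinarith
  rw [← h4, ← mul_assoc]
  exact le_mul_of_one_le_left hn.le h6

/-- exact version: scale `S` into the unit ball (`V_lev_smul`), `isW_of_le` -/
theorem isW_of_exp_rev {M : Module.End ℝ (Fin k → ℝ)} (h : ∀ ε, 0 < ε → X.Exp ε M)
    (h' : ∀ ε, 0 < ε → X.Rev ε M) : X.IsW M := by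
  have key : ∀ S : Set (Fin k → ℝ), S.Finite → S.Nonempty →
      X.V (lev X.χ S) ≤ X.V (lev X.χ (M '' S)) := by
    intro S hS hn
    obtain ⟨R₀, hR₀⟩ := (hS.image fun s => ‖s‖).bddAbove
    obtain ⟨R, hR, hRS⟩ : ∃ R : ℝ, 0 < R ∧ ∀ s ∈ S, ‖s‖ ≤ R :=
      ⟨max 1 R₀, lt_max_of_lt_left one_pos, fun s hs =>
        (hR₀ (Set.mem_image_of_mem _ hs)).trans (le_max_right _ _)⟩
    have hi : 0 ≤ R⁻¹ := by positivity
    have e : M '' ((fun s => R⁻¹ • s) '' S) = (fun s => R⁻¹ • s) '' (M '' S) := by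
      simp only [Set.image_image, map_smul]
    refine le_of_mul_le_mul_left (a := R⁻¹) (le_of_forall_pos_le_add fun ε hε => ?_)
      (by positivity)
    have h1 := h ε hε _ (hS.image fun s => R⁻¹ • s) (hn.image _) (by
      rintro _ ⟨s, hs, rfl⟩
      rw [norm_smul, Real.norm_of_nonneg hi, inv_mul_le_iff₀ hR, mul_one]
      exact hRS s hs)
    rw [e, X.V_lev_smul hS hn hi, X.V_lev_smul (hS.image _) (hn.image _) hi] at h1
    linarith
  refine X.isW_of_le (fun v => le_antisymm (le_of_forall_pos_le_add fun ε hε => ?_) ?_) key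
  · have hv := norm_nonneg v
    refine (h' (ε / (‖v‖ + 1)) (by positivity) v).trans (add_le_add_right ?_ _)
    rw [div_mul_eq_mul_div, div_le_iff₀ (by positivity)]
    nlinarith
  · have h1 := key {0, v} (Set.toFinite _) (Set.insert_nonempty _ _)
    rwa [Set.image_pair, map_zero] at h1

/-- `Exp` and `Rev` are stable under small perturbations (`V_lev_le`, `nu_add_le`, `nu_bound`) -/
theorem exp_rev_pert : ∃ B : ℝ, 1 ≤ B ∧ ∀ (M M' : Module.End ℝ (Fin k → ℝ)) (ε δ : ℝ), 0 ≤ δ →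
    (∀ v, ‖M v - M' v‖ ≤ δ * ‖v‖) →
      (X.Exp ε M → X.Exp (ε + B * δ) M') ∧ (X.Rev ε M → X.Rev (ε + B * δ) M') := by
  obtain ⟨B₁, hB₁, h₁⟩ := X.V_lev_le
  obtain ⟨B₂, hB₂, h₂⟩ := X.nu_bound
  refine ⟨B₁ + B₂, by linarith, fun M M' ε δ hδ hM => ⟨fun h S hS hn hb => ?_, fun h a => ?_⟩⟩
  · have h3 := h₁ (M '' S) (M' '' S) δ (hn.image _) (hS.image _) hδ (by
      rintro _ ⟨s, hs, rfl⟩
      exact ⟨M' s, subset_convexHull _ _ (Set.mem_image_of_mem _ hs),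
        (hM s).trans (mul_le_of_le_one_right hδ (hb s hs))⟩)
    have h4 := h S hS hn hb
    nlinarith
  · have h3 := X.nu_add_le (M a) (M' a - M a)
    rw [add_sub_cancel] at h3
    have h4 := (h₂ (M' a - M a)).2
    rw [norm_sub_rev] at h4
    have h5 := mul_le_mul_of_nonneg_left (hM a) (by linarith : 0 ≤ B₂)
    have h6 := h a
    have h7 := mul_nonneg hδ (norm_nonneg a)
    nlinarith

/-- (H3) compactness: otherwise there are `M n` with `ε = 1 / (n + 1)`; view them in the proper space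
`(Fin k → ℝ) →L[ℝ] (Fin k → ℝ)` (`LinearMap.toContinuousLinearMap`, `tendsto_subseq_of_bounded`);
the limit is in `IsW` by `exp_rev_pert` and `isW_of_exp_rev` -/
theorem near_of (C₀ : ℝ) {δ : ℝ} (hδ : 0 < δ) : ∃ ε : ℝ, 0 < ε ∧ ∀ M : Module.End ℝ (Fin k → ℝ),
    (∀ v, ‖M v‖ ≤ C₀ * ‖v‖) → X.Exp ε M → X.Rev ε M → X.Near δ M := by
  by_contra hcon
  have hex : ∀ n : ℕ, ∃ M : Module.End ℝ (Fin k → ℝ), (∀ v, ‖M v‖ ≤ C₀ * ‖v‖) ∧
      X.Exp (1 / ((n : ℝ) + 1)) M ∧ X.Rev (1 / ((n : ℝ) + 1)) M ∧ ¬ X.Near δ M := fun n => by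
    by_contra h
    exact hcon ⟨1 / ((n : ℝ) + 1), by positivity, fun M h1 h2 h3 => by
      by_contra h4
      exact h ⟨M, h1, h2, h3, h4⟩⟩
  choose M hb he hr hn using hex
  obtain ⟨B, hB, hp⟩ := X.exp_rev_pert
  obtain ⟨L, -, φ, hφ, hL⟩ := tendsto_subseq_of_bounded
    (Metric.isBounded_closedBall (x := (0 : (Fin k → ℝ) →L[ℝ] (Fin k → ℝ))) (r := max C₀ 0))
    (x := fun n => LinearMap.toContinuousLinearMap (M n)) fun n => by
      rw [mem_closedBall_zero_iff]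
      exact ContinuousLinearMap.opNorm_le_bound _ (le_max_right _ _) fun v =>
        (hb n v).trans (mul_le_mul_of_nonneg_right (le_max_left _ _) (norm_nonneg v))
  have hcl : ∀ η : ℝ, 0 < η → ∃ n, 1 / ((φ n : ℝ) + 1) ≤ η ∧
      ∀ v, ‖M (φ n) v - (L : Module.End ℝ (Fin k → ℝ)) v‖ ≤ η * ‖v‖ := fun η hη => by
    have h1 := (Metric.tendsto_nhds.1 hL η hη)
    have h2 := (tendsto_one_div_add_atTop_nhds_zero_nat (𝕜 := ℝ)).comp hφ.tendsto_atTop
    obtain ⟨n, h3, h4⟩ := (h1.and (h2.eventually (ge_mem_nhds hη))).exists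
    refine ⟨n, h4, fun v => ?_⟩
    rw [dist_eq_norm] at h3
    have h5 := (LinearMap.toContinuousLinearMap (M (φ n)) - L).le_opNorm v
    exact h5.trans (mul_le_mul_of_nonneg_right h3.le (norm_nonneg v))
  have hW : ∀ ε, 0 < ε → X.Exp ε (L : Module.End ℝ (Fin k → ℝ)) ∧
      X.Rev ε (L : Module.End ℝ (Fin k → ℝ)) := fun ε hε => by
    have hη : 0 < ε / (1 + B) := by positivity
    obtain ⟨n, h1, h2⟩ := hcl _ hη
    have h3 : 1 / ((φ n : ℝ) + 1) + B * (ε / (1 + B)) ≤ ε := by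
      have : ε / (1 + B) + B * (ε / (1 + B)) = ε := by field_simp
      linarith
    obtain ⟨h4, h5⟩ := hp _ _ (1 / ((φ n : ℝ) + 1)) _ hη.le h2
    exact ⟨(h4 (he _)).mono h3, (h5 (hr _)).mono h3⟩
  obtain ⟨n, -, h2⟩ := hcl δ hδ
  exact hn (φ n) ⟨L, X.isW_of_exp_rev (fun ε hε => (hW ε hε).1) fun ε hε => (hW ε hε).2, h2⟩

end Geo

end Crest.Agent.R182
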