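import Crest.Agent.R182.MSDefs

/-! Row 182, block M1: transport of Følner sets by quasi-isometries. -/

set_option autoImplicit false
set_option linter.dupNamespace false

namespace Crest.Agent.R182

open Crest.GroupTheory MeasureTheory

variable {G : Type} [Group G] [MeasurableSpace G] [MeasurableMul₂ G] [MeasurableInv G] {k : ℕ}

/-- `TVr.prod`, `TVr.mono` -/
theorem TVr.ball {ζ : Measure G} {T : Set G} {η : ℝ} (hη : 0 ≤ η)
    (h : ∀ s ∈ Ball T 1, TVr ζ s η) {m : ℕ} {g : G} (hg : g ∈ Ball T m) : TVr ζ g (m * η) := by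
  obtain ⟨l, hl, hT, rfl⟩ := hg
  refine (TVr.prod hη l fun x hx => h x ?_).mono
    (mul_le_mul_of_nonneg_right (by exact_mod_cast hl) hη)
  exact ⟨[x], le_rfl, fun y hy => by rw [List.mem_singleton.1 hy]; exact hT x hx, by simp⟩

/-- union bound (`TVr.ball`, `TVr.le`, `measureReal_biUnion_finset_le`) -/
theorem exists_good {ζ : Measure G} [IsProbabilityMeasure ζ] {T : Set G} {η β : ℝ} (hη : 0 ≤ η)
    (hT : ∀ s ∈ Ball T 1, TVr ζ s η) {A E : Set G} (hA : MeasurableSet A) (hβ : ζ.real A ≤ β)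
    (hE : ζ.real E ≤ 1 / 4) (q : ℕ → G) (J m : ℕ) (hq : ∀ l ≤ J, q l ∈ Ball T m)
    (h : (J + 1) * (β + m * η) ≤ 1 / 2) : ∃ y, y ∉ E ∧ ∀ l ≤ J, y * q l ∉ A := by
  by_contra hc
  push Not at hc
  have hsub : (Set.univ : Set G) ⊆ E ∪ ⋃ l ∈ Finset.range (J + 1), (fun x => x * q l) ⁻¹' A := by
    intro y _
    by_cases hy : y ∈ E
    · exact Or.inl hy
    · obtain ⟨l, hl, hA'⟩ := hc y hy
      exact Or.inr (Set.mem_biUnion (Finset.mem_coe.2 (Finset.mem_range.2 (Nat.lt_succ_of_le hl))) hA')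
  have h1 : ζ.real (⋃ l ∈ Finset.range (J + 1), (fun x => x * q l) ⁻¹' A) ≤
      (J + 1) * (β + m * η) := by
    refine (measureReal_biUnion_finset_le _ _).trans ?_
    refine (Finset.sum_le_card_nsmul _ _ (β + m * η) fun l hl => ?_).trans
      (by rw [Finset.card_range, nsmul_eq_mul]; push_cast; exact le_rfl)
    exact ((TVr.ball hη hT (hq l (Nat.lt_succ_iff.1 (Finset.mem_range.1 hl)))).le hA).trans
      (add_le_add hβ le_rfl)
  have h2 := (measureReal_mono hsub).trans (measureReal_union_le (μ := ζ) _ _)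
  rw [probReal_univ] at h2
  linarith

/-- Markov's inequality for `x ↦ ∑ f ∈ F, w f * e f x`: on the set, `s * W * t` is at most this sum,
whose integral is at most `W * δ` (`mul_meas_ge_le_integral_of_nonneg`) -/
theorem markov_cells {ω : Measure G} [IsProbabilityMeasure ω] (F : Finset G) (w : G → ℝ)
    (e : G → G → ℝ) {W δ s t B : ℝ} (hW : 0 < W) (hs : 0 < s) (ht : 0 < t) (hδ : 0 ≤ δ)
    (hw : ∀ f, 0 ≤ w f) (hsum : ∑ f ∈ F, w f ≤ W) (hm : ∀ f, Measurable (e f))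
    (h0 : ∀ f x, 0 ≤ e f x) (hB : ∀ f ∈ F, ∀ x, e f x ≤ B) (hi : ∀ f ∈ F, ∫ x, e f x ∂ω ≤ δ) :
    ω.real {x | s * W < ∑ f ∈ F with t < e f x, w f} ≤ δ / (s * t) := by
  have hint : ∀ f ∈ F, Integrable (fun x => w f * e f x) ω := fun f hf =>
    (Integrable.of_bound (hm f).aestronglyMeasurable B (Filter.Eventually.of_forall fun x => by
      rw [Real.norm_of_nonneg (h0 f x)]; exact hB f hf x)).const_mul _
  have hI : Integrable (fun x => ∑ f ∈ F, w f * e f x) ω := integrable_finsetSum _ hint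
  have h1 := mul_meas_ge_le_integral_of_nonneg (μ := ω) (f := fun x => ∑ f ∈ F, w f * e f x)
    (Filter.Eventually.of_forall fun x => Finset.sum_nonneg fun f _ => mul_nonneg (hw f) (h0 f x))
    hI (s * W * t)
  have h2 : ∫ x, ∑ f ∈ F, w f * e f x ∂ω ≤ W * δ := by
    rw [integral_finsetSum _ hint]
    calc ∑ f ∈ F, ∫ x, w f * e f x ∂ω ≤ ∑ f ∈ F, w f * δ := Finset.sum_le_sum fun f hf => by
          rw [integral_const_mul]
          exact mul_le_mul_of_nonneg_left (hi f hf) (hw f)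
      _ ≤ W * δ := by
          rw [← Finset.sum_mul]
          exact mul_le_mul_of_nonneg_right hsum hδ
  have h3 : ω.real {x | s * W < ∑ f ∈ F with t < e f x, w f} ≤
      ω.real {x | s * W * t ≤ ∑ f ∈ F, w f * e f x} := by
    refine measureReal_mono fun x hx => ?_
    have hx' : s * W < ∑ f ∈ F with t < e f x, w f := hx
    calc s * W * t ≤ (∑ f ∈ F with t < e f x, w f) * t := mul_le_mul_of_nonneg_right hx'.le ht.le
      _ = ∑ f ∈ F with t < e f x, w f * t := Finset.sum_mul _ _ _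
      _ ≤ ∑ f ∈ F with t < e f x, w f * e f x := Finset.sum_le_sum fun f hf =>
          mul_le_mul_of_nonneg_left (Finset.mem_filter.1 hf).2.le (hw f)
      _ ≤ ∑ f ∈ F, w f * e f x := Finset.sum_le_sum_of_subset_of_nonneg (Finset.filter_subset _ _)
          fun f _ _ => mul_nonneg (hw f) (h0 f x)
  refine h3.trans ?_
  rw [le_div_iff₀ (mul_pos hs ht)]
  refine le_of_mul_le_mul_left ?_ hW
  nlinarith

namespace Geo

variable (X : Geo G k)

theorem QP.shift {X : Geo G k} {c : ℕ} {ψ ψ' : G → G} (h : X.QP c ψ ψ') (x : G) :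
    X.QP c (fun g => ψ (x * g)) (fun y => x⁻¹ * ψ' y) := by
  have e : ∀ a b : G, (x * a)⁻¹ * (x * b) = a⁻¹ * b := fun a b => by group
  have e' : ∀ a b : G, (x⁻¹ * a)⁻¹ * (x⁻¹ * b) = a⁻¹ * b := fun a b => by group
  refine ⟨⟨fun a b n hn => h.qi.up _ _ n (by rwa [e]), fun a b n hn => ?_, fun p => ?_⟩,
    ⟨fun a b n hn => ?_, fun a b n hn => h.qi'.down _ _ n (by rwa [e'] at hn), fun p => ?_⟩,
    h.step.mul_left x, h.step'.comp fun y => x⁻¹ * y, fun g => ?_, fun y => ?_⟩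
  · rw [← e]
    exact h.qi.down _ _ n hn
  · obtain ⟨y, hy⟩ := h.qi.dense p
    exact ⟨x⁻¹ * y, by rwa [mul_inv_cancel_left]⟩
  · rw [e']
    exact h.qi'.up _ _ n hn
  · obtain ⟨y, hy⟩ := h.qi'.dense (x * p)
    exact ⟨y, by rwa [mul_inv_rev, inv_inv, mul_assoc]⟩
  · have := h.left (x * g)
    rwa [mul_inv_rev, mul_assoc] at this
  · rw [mul_inv_cancel_left]
    exact h.right y

/-- (MC) For a finite `Y ⊆ A` with `Sep Sg (3 c) Y` the sets `φ y • Ball 1 = (fun z => (φ y)⁻¹ * z) ⁻¹'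
Ball 1 ⊆ B` are pairwise disjoint (`QI.down` with `n = 2`), so `#Y * μ (Ball 1) ≤ μ B`; take such a `Y`
of maximal cardinality: `A ⊆ ⋃ y ∈ Y, y • Ball (3 c)`; `C = max 1 (μ (Ball (3 c)) / μ (Ball 1))` -/
theorem mc (c : ℕ) : ∃ C : ℝ, 1 ≤ C ∧ ∀ φ : G → G, QI X.Sg X.Sg φ c → ∀ A B : Set G, X.μ B ≠ ⊤ →
    (∀ a ∈ A, ∀ b ∈ Ball X.Sg 1, φ a * b ∈ B) → X.μ A ≠ ⊤ ∧ X.μ.real A ≤ C * X.μ.real B := by
  classical
  have hp : 0 < X.μ.real (Ball X.Sg 1) :=
    ENNReal.toReal_pos X.ball_pos (X.ball_fin 1)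
  refine ⟨max 1 (X.μ.real (Ball X.Sg (c * 2 + c)) / X.μ.real (Ball X.Sg 1)), le_max_left _ _,
    fun φ hφ A B hB hAB => ?_⟩
  have hmeas : ∀ (g : G) (n : ℕ), MeasurableSet ((fun z => g * z) ⁻¹' Ball X.Sg n) := fun g n =>
    (measurable_const_mul g) (X.ball_meas n)
  have hcard : ∀ Y : Finset G, (Y : Set G) ⊆ A → Sep X.Sg (c * 2 + c) Y →
      (Y.card : ℝ) * X.μ.real (Ball X.Sg 1) ≤ X.μ.real B := by
    intro Y hY hs
    have h1 : X.μ.real (⋃ y ∈ Y, (fun z => (φ y)⁻¹ * z) ⁻¹' Ball X.Sg 1) =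
        ∑ y ∈ Y, X.μ.real ((fun z => (φ y)⁻¹ * z) ⁻¹' Ball X.Sg 1) := by
      refine measureReal_biUnion_finset (fun x hx y hy hxy => ?_) (fun y _ => hmeas _ _)
        fun y _ => ?_
      · refine Set.disjoint_left.2 fun z hz hz' => hs x hx y hy hxy (hφ.down x y 2 ?_)
        have := Ball.mul_mem hz (Ball.inv_mem hz')
        simpa [mul_assoc] using this
      · rw [X.μ_left _ _ (X.ball_meas 1)]
        exact X.ball_fin 1
    have h2 : ∑ y ∈ Y, X.μ.real ((fun z => (φ y)⁻¹ * z) ⁻¹' Ball X.Sg 1) =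
        (Y.card : ℝ) * X.μ.real (Ball X.Sg 1) := by
      rw [Finset.sum_congr rfl (g := fun _ => X.μ.real (Ball X.Sg 1)) fun y _ => by
        rw [Measure.real, X.μ_left _ _ (X.ball_meas 1), Measure.real]]
      simp
    rw [← h2, ← h1]
    refine measureReal_mono (Set.iUnion₂_subset fun y hy z hz => ?_) hB
    have := hAB y (hY hy) _ hz
    simpa using this
  have hb : BddAbove {n : ℕ | ∃ Y : Finset G, (Y : Set G) ⊆ A ∧ Sep X.Sg (c * 2 + c) Y ∧
      Y.card = n} :=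
    ⟨⌈X.μ.real B / X.μ.real (Ball X.Sg 1)⌉₊, by
      rintro _ ⟨Y, h1, h2, rfl⟩
      have := (le_div_iff₀ hp).2 (hcard Y h1 h2)
      exact_mod_cast this.trans (Nat.le_ceil _)⟩
  obtain ⟨F, h1, h2, h3⟩ := Nat.sSup_mem (s := {n : ℕ | ∃ Y : Finset G, (Y : Set G) ⊆ A ∧
    Sep X.Sg (c * 2 + c) Y ∧ Y.card = n}) ⟨0, ∅, by simp, fun x hx => by simp at hx, rfl⟩ hb
  have hcov : ∀ g ∈ A, ∃ f ∈ F, f⁻¹ * g ∈ Ball X.Sg (c * 2 + c) := by
    intro g hg
    by_contra hcon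
    push Not at hcon
    have hgF : g ∉ F := fun h => hcon g h (by rw [inv_mul_cancel]; exact Ball.one_mem _ _)
    have h4 : (insert g F).card ≤ F.card := by
      rw [h3]
      refine le_csSup hb ⟨insert g F, ?_, fun x hx y hy hxy => ?_, rfl⟩
      · rw [Finset.coe_insert]
        exact Set.insert_subset hg h1
      · rw [Finset.coe_insert] at hx hy
        rcases hx with rfl | hx
        · rcases hy with rfl | hy
          · exact absurd rfl hxy
          · intro h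
            have := Ball.inv_mem h
            rw [mul_inv_rev, inv_inv] at this
            exact hcon y hy this
        · rcases hy with rfl | hy
          · exact hcon x hx
          · exact h2 x hx y hy hxy
    rw [Finset.card_insert_of_notMem hgF] at h4
    omega
  have hsub : A ⊆ ⋃ f ∈ F, (fun z => f⁻¹ * z) ⁻¹' Ball X.Sg (c * 2 + c) := fun g hg => by
    obtain ⟨f, hf, h⟩ := hcov g hg
    exact Set.mem_iUnion₂.2 ⟨f, hf, h⟩
  have hle : X.μ A ≤ F.card * X.μ (Ball X.Sg (c * 2 + c)) := by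
    refine (measure_mono hsub).trans ((measure_biUnion_finset_le _ _).trans (le_of_eq ?_))
    rw [Finset.sum_congr rfl (g := fun _ => X.μ (Ball X.Sg (c * 2 + c))) fun y _ =>
      X.μ_left _ _ (X.ball_meas _)]
    simp
  have hfin : (F.card : ENNReal) * X.μ (Ball X.Sg (c * 2 + c)) ≠ ⊤ :=
    ENNReal.mul_ne_top (ENNReal.natCast_ne_top _) (X.ball_fin _)
  refine ⟨ne_top_of_le_ne_top hfin hle, ?_⟩
  have h5 : X.μ.real A ≤ F.card * X.μ.real (Ball X.Sg (c * 2 + c)) := by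
    have := ENNReal.toReal_mono hfin hle
    simpa [Measure.real] using this
  have h6 := (le_div_iff₀ hp).2 (hcard F h1 h2)
  have h7 : (0 : ℝ) ≤ X.μ.real (Ball X.Sg (c * 2 + c)) := measureReal_nonneg
  have h8 : (0 : ℝ) ≤ X.μ.real B := measureReal_nonneg
  calc X.μ.real A ≤ X.μ.real B / X.μ.real (Ball X.Sg 1) * X.μ.real (Ball X.Sg (c * 2 + c)) :=
        h5.trans (mul_le_mul_of_nonneg_right h6 h7)
    _ = X.μ.real (Ball X.Sg (c * 2 + c)) / X.μ.real (Ball X.Sg 1) * X.μ.real B := by ring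
    _ ≤ _ := mul_le_mul_of_nonneg_right (le_max_right _ _) h8

/-- `μ (Ψ ∩ A) = μ ((· * g) ⁻¹' Ψ ∩ (· * g) ⁻¹' A)` by `μ_right`; compare with `μ (Ψ ∩ (· * g) ⁻¹' A)` -/
theorem tvr_cond {Ψ : Set G} (hm : MeasurableSet Ψ) (h0 : X.μ Ψ ≠ 0) (h1 : X.μ Ψ ≠ ⊤) (g : G)
    {η : ℝ} (h : X.μ.real {y | (y ∈ Ψ ∧ y * g ∉ Ψ) ∨ (y ∉ Ψ ∧ y * g ∈ Ψ)} ≤ η * X.μ.real Ψ) :
    TVr (ProbabilityTheory.cond X.μ Ψ) g η := by
  intro A hA
  have hg : Measurable fun x : G => x * g := measurable_mul_const g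
  have hreal : ∀ B, (ProbabilityTheory.cond X.μ Ψ).real B =
      (X.μ.real Ψ)⁻¹ * X.μ.real (Ψ ∩ B) := fun B => by
    simp only [Measure.real, ProbabilityTheory.cond_apply hm, ENNReal.toReal_mul,
      ENNReal.toReal_inv]
  have hpos : 0 < X.μ.real Ψ := ENNReal.toReal_pos h0 h1
  set Δ := {y | (y ∈ Ψ ∧ y * g ∉ Ψ) ∨ (y ∉ Ψ ∧ y * g ∈ Ψ)} with hΔ
  have h1' : X.μ ((fun x => x * g) ⁻¹' Ψ) ≠ ⊤ := by rw [X.μ_right g Ψ hm]; exact h1
  have hΔf : X.μ Δ ≠ ⊤ := by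
    refine ne_top_of_le_ne_top (measure_union_ne_top h1 h1') (measure_mono ?_)
    rintro y (hy | hy)
    · exact Or.inl hy.1
    · exact Or.inr hy.2
  have e : X.μ.real (Ψ ∩ A) = X.μ.real ((fun x => x * g) ⁻¹' (Ψ ∩ A)) := by
    simp only [Measure.real, X.μ_right g _ (hm.inter hA)]
  have f1 : X.μ (Ψ ∩ (fun x => x * g) ⁻¹' A) ≠ ⊤ :=
    ne_top_of_le_ne_top h1 (measure_mono Set.inter_subset_left)
  have f2 : X.μ ((fun x => x * g) ⁻¹' (Ψ ∩ A)) ≠ ⊤ :=
    ne_top_of_le_ne_top h1' (measure_mono fun _ hy => hy.1)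
  have l1 : X.μ.real (Ψ ∩ (fun x => x * g) ⁻¹' A) ≤
      X.μ.real ((fun x => x * g) ⁻¹' (Ψ ∩ A)) + X.μ.real Δ := by
    refine le_trans (measureReal_mono ?_ (measure_union_ne_top f2 hΔf)) (measureReal_union_le _ _)
    rintro y ⟨hy, hy'⟩
    by_cases h2 : y * g ∈ Ψ
    · exact Or.inl ⟨h2, hy'⟩
    · exact Or.inr (Or.inl ⟨hy, h2⟩)
  have l2 : X.μ.real ((fun x => x * g) ⁻¹' (Ψ ∩ A)) ≤
      X.μ.real (Ψ ∩ (fun x => x * g) ⁻¹' A) + X.μ.real Δ := by
    refine le_trans (measureReal_mono ?_ (measure_union_ne_top f1 hΔf)) (measureReal_union_le _ _)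
    rintro y ⟨hy, hy'⟩
    by_cases h2 : y ∈ Ψ
    · exact Or.inl ⟨h2, hy'⟩
    · exact Or.inr (Or.inr ⟨h2, hy⟩)
  rw [hreal, hreal, ← mul_sub, abs_mul, abs_of_pos (inv_pos.2 hpos), inv_mul_le_iff₀ hpos, e,
    mul_comm]
  refine le_trans (abs_le.2 ⟨?_, ?_⟩) h <;> linarith

/-- `Ψ = ψ' ⁻¹' D` (measurable: `Step.measurableSet`), `ζ = cond μ Ψ`, `∂` the set in `Fol.bdry`
(finite measure: inside `Ball (n + 3 c + 1)`).  `mc` for `ψ'` with `B = Ball (n + 1)`: `μ Ψ ≠ ⊤`.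
`mc` for `ψ` with `A = D \ ∂`, `B = Ψ` (`QI.up`, `QP.left`): `μ D / 2 ≤ C μ Ψ` if `2 |KR| ≤ n`.
`mc` for `ψ'` with `A` the set in `tvr_cond`, `B = ∂`; and with `A = ψ' ⁻¹' (D ∩ A)`, `B = B ∪ ∂`. -/
theorem pull (c : ℕ) (KR : ℝ) : ∃ C₁ : ℝ, 1 ≤ C₁ ∧ ∃ n₁ : ℕ, ∀ n ≥ n₁, ∀ D,
    X.Fol (3 * c + 1) KR n D → ∀ ψ ψ', X.QP c ψ ψ' → ∃ ζ : Measure G, IsProbabilityMeasure ζ ∧
      (∀ s ∈ Ball X.Sg 1, TVr ζ s (C₁ / n)) ∧ ∀ (A B : Set G) (ε : ℝ), 0 ≤ ε → B ⊆ D →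
        X.μ.real B ≤ ε * X.μ.real D → (∀ g ∈ A, ∀ b ∈ Ball X.Sg 1, g * b ∈ D → g * b ∈ B) →
          ζ.real {y | ψ' y ∉ D ∨ ψ' y ∈ A} ≤ C₁ * (ε + 1 / n) := by
  obtain ⟨C, hC1, hC⟩ := X.mc c
  have hK0 : 0 ≤ |KR| := abs_nonneg _
  have hC0 : 0 ≤ C := by linarith
  have hCC : 1 ≤ C * C := by nlinarith
  refine ⟨2 * (C * C) * (1 + |KR|), by nlinarith, ⌈2 * |KR|⌉₊ + 1, fun n hn D hD ψ ψ' hq => ?_⟩
  have hn' : 2 * |KR| + 1 ≤ n := by
    have h1 : ((⌈2 * |KR|⌉₊ + 1 : ℕ) : ℝ) ≤ n := by exact_mod_cast hn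
    have h2 := Nat.le_ceil (2 * |KR|)
    push_cast at h1
    linarith
  have hn0 : (0 : ℝ) < n := by linarith
  set Bd : Set G := {y | (∃ b ∈ Ball X.Sg (3 * c + 1), y * b ∈ D) ∧
    ∃ b ∈ Ball X.Sg (3 * c + 1), y * b ∉ D} with hBd
  have hDfin : X.μ D ≠ ⊤ := measure_ne_top_of_subset hD.sub (X.ball_fin n)
  have hDpos : 0 < X.μ.real D := ENNReal.toReal_pos hD.pos hDfin
  have hBdfin : X.μ Bd ≠ ⊤ := by
    refine measure_ne_top_of_subset (fun y hy => ?_) (X.ball_fin (n + (3 * c + 1)))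
    obtain ⟨⟨b, hb, hyb⟩, -⟩ := hy
    have := Ball.mul_mem (hD.sub hyb) (Ball.inv_mem hb)
    rwa [mul_inv_cancel_right] at this
  have hBd1 : X.μ.real Bd ≤ |KR| / n * X.μ.real D :=
    hD.bdry.trans (mul_le_mul_of_nonneg_right
      (div_le_div_of_nonneg_right (le_abs_self _) hn0.le) hDpos.le)
  set Ψ : Set G := {x | ψ' x ∈ D} with hΨ
  have hΨm : MeasurableSet Ψ := hq.step'.measurableSet fun y => y ∈ D
  have hΨfin : X.μ Ψ ≠ ⊤ :=
    (hC ψ' hq.qi' Ψ (Ball X.Sg (n + 1)) (X.ball_fin _)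
      fun a ha b hb => Ball.mul_mem (hD.sub ha) hb).1
  have hb1 : ∀ {b : G}, b ∈ Ball X.Sg 1 → b⁻¹ ∈ Ball X.Sg (3 * c + 1) := fun hb =>
    Ball.mono subset_rfl (by omega) (Ball.inv_mem hb)
  have hlow : X.μ.real D ≤ 2 * C * X.μ.real Ψ := by
    have h1 := (hC ψ hq.qi (D \ Bd) Ψ hΨfin fun a ha b hb => by
      have e1 := hq.left a
      have e2 := hq.qi'.up (ψ a) (ψ a * b) 1 (by rwa [inv_mul_cancel_left])
      have e3 : a⁻¹ * ψ' (ψ a * b) ∈ Ball X.Sg (3 * c + 1) := by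
        have := Ball.mul_mem e1 e2
        rw [mul_assoc, mul_inv_cancel_left] at this
        exact Ball.mono subset_rfl (by omega) this
      by_contra hne
      refine ha.2 ⟨⟨1, Ball.one_mem _ _, by rw [mul_one]; exact ha.1⟩, _, e3, ?_⟩
      rw [mul_inv_cancel_left]
      exact hne).2
    have h2 : X.μ.real D ≤ X.μ.real (D \ Bd) + X.μ.real Bd := by
      refine (measureReal_mono (fun x hx => ?_) (measure_union_ne_top
        (measure_ne_top_of_subset Set.sdiff_subset hDfin) hBdfin)).trans (measureReal_union_le _ _)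
      by_cases hx' : x ∈ Bd
      · exact Or.inr hx'
      · exact Or.inl ⟨hx, hx'⟩
    have h3 : |KR| / n ≤ 1 / 2 := by
      rw [div_le_iff₀ hn0]
      linarith
    have h4 := mul_le_mul_of_nonneg_right h3 hDpos.le
    linarith
  have hΨpos : 0 < X.μ.real Ψ := by
    by_contra hne
    have : X.μ.real Ψ = 0 := le_antisymm (not_lt.1 hne) measureReal_nonneg
    rw [this] at hlow
    linarith
  have hΨ0 : X.μ Ψ ≠ 0 := fun h => by simp [measureReal_def, h] at hΨpos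
  refine ⟨ProbabilityTheory.cond X.μ Ψ,
    ProbabilityTheory.cond_isProbabilityMeasure_of_finite hΨ0 hΨfin, fun s hs => ?_,
    fun A B ε hε hBD hB hAB => ?_⟩
  · refine X.tvr_cond hΨm hΨ0 hΨfin s ?_
    have h1 := (hC ψ' hq.qi' {y | (y ∈ Ψ ∧ y * s ∉ Ψ) ∨ (y ∉ Ψ ∧ y * s ∈ Ψ)} Bd hBdfin
      fun y hy b hb => by
        have e2 := hq.qi'.up y (y * s) 1 (by rwa [inv_mul_cancel_left])
        have e3 : b⁻¹ * ((ψ' y)⁻¹ * ψ' (y * s)) ∈ Ball X.Sg (3 * c + 1) :=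
          Ball.mono subset_rfl (by omega) (Ball.mul_mem (Ball.inv_mem hb) e2)
        have e4 : ψ' y * b * (b⁻¹ * ((ψ' y)⁻¹ * ψ' (y * s))) = ψ' (y * s) := by group
        have e5 : ψ' y * b * b⁻¹ = ψ' y := mul_inv_cancel_right _ _
        rcases hy with hy | hy
        · exact ⟨⟨_, hb1 hb, by rw [e5]; exact hy.1⟩, _, e3, by rw [e4]; exact hy.2⟩
        · exact ⟨⟨_, e3, by rw [e4]; exact hy.2⟩, _, hb1 hb, by rw [e5]; exact hy.1⟩).2
    refine h1.trans ?_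
    have h2 : 0 ≤ |KR| / n := by positivity
    calc C * X.μ.real Bd ≤ C * (|KR| / n * (2 * C * X.μ.real Ψ)) :=
          mul_le_mul_of_nonneg_left (hBd1.trans (mul_le_mul_of_nonneg_left hlow h2)) hC0
      _ = 2 * (C * C) * |KR| / n * X.μ.real Ψ := by ring
      _ ≤ _ := by gcongr; linarith
  · have hfin : X.μ (B ∪ Bd) ≠ ⊤ :=
      measure_union_ne_top (measure_ne_top_of_subset hBD hDfin) hBdfin
    have h1 := (hC ψ' hq.qi' (Ψ ∩ {y | ψ' y ∉ D ∨ ψ' y ∈ A}) (B ∪ Bd) hfin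
      fun y hy b hb => by
        have hA : ψ' y ∈ A := hy.2.resolve_left fun h => h hy.1
        by_cases hyb : ψ' y * b ∈ D
        · exact Or.inl (hAB _ hA b hb hyb)
        · exact Or.inr ⟨⟨_, hb1 hb, by rw [mul_inv_cancel_right]; exact hy.1⟩, 1,
            Ball.one_mem _ _, by rwa [mul_one]⟩).2
    have h2 : X.μ.real (B ∪ Bd) ≤ (ε + |KR| / n) * X.μ.real D := by
      have := measureReal_union_le (μ := X.μ) B Bd
      linarith
    have h3 : (ProbabilityTheory.cond X.μ Ψ).real {y | ψ' y ∉ D ∨ ψ' y ∈ A} =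
        (X.μ.real Ψ)⁻¹ * X.μ.real (Ψ ∩ {y | ψ' y ∉ D ∨ ψ' y ∈ A}) := by
      rw [measureReal_def, ProbabilityTheory.cond_apply hΨm, ENNReal.toReal_mul,
        ENNReal.toReal_inv]
      rfl
    rw [h3, inv_mul_le_iff₀ hΨpos]
    have h4 : 0 ≤ ε + |KR| / n := by positivity
    have h5 : ε + |KR| / n ≤ (1 + |KR|) * (ε + 1 / n) := by
      have : 0 ≤ 1 / (n : ℝ) := by positivity
      have e : |KR| / n = |KR| * (1 / n) := by ring
      rw [e]
      nlinarith [mul_nonneg hK0 hε]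
    calc _ ≤ C * ((ε + |KR| / n) * (2 * C * X.μ.real Ψ)) :=
          h1.trans (mul_le_mul_of_nonneg_left
            (h2.trans (mul_le_mul_of_nonneg_left hlow h4)) hC0)
      _ = X.μ.real Ψ * (2 * (C * C) * (ε + |KR| / n)) := by ring
      _ ≤ X.μ.real Ψ * (2 * (C * C) * ((1 + |KR|) * (ε + 1 / n))) := by gcongr
      _ = _ := by ring

omit [MeasurableInv G] in
theorem h49_cells (F : Finset G) : ∀ D : Set G, MeasurableSet D → X.μ D ≠ ⊤ →
    ∃ w : G → ℝ, (∀ f, 0 ≤ w f) ∧ ∑ f ∈ F, w f ≤ X.μ.real D ∧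
      ∀ (P : G → Prop) [DecidablePred P] (A : Set G), A ⊆ D →
        (∀ g ∈ A, ∃ f ∈ F, f⁻¹ * g ∈ Ball X.Sg 1) →
        (∀ g ∈ A, ∀ f ∈ F, f⁻¹ * g ∈ Ball X.Sg 1 → P f) →
          X.μ.real A ≤ ∑ f ∈ F with P f, w f := by
  classical
  induction F using Finset.induction_on with
  | empty =>
    intro D _ _
    refine ⟨0, fun _ => le_rfl, by simp, fun P _ A _ hA _ => ?_⟩
    have : A = ∅ := Set.eq_empty_of_forall_notMem fun g hg => by simpa using hA g hg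
    simp [this]
  | insert f₀ F hf₀ ih =>
    intro D hm hf
    set B : Set G := (fun g => f₀⁻¹ * g) ⁻¹' Ball X.Sg 1 with hB
    have hBm : MeasurableSet B := measurable_const_mul _ (X.ball_meas 1)
    obtain ⟨w, hw0, hw1, hw2⟩ := ih (D \ B) (hm.diff hBm)
      (ne_top_of_le_ne_top hf (measure_mono Set.sdiff_subset))
    have hs : ∀ s : Finset G, f₀ ∉ s →
        ∑ f ∈ s, Function.update w f₀ (X.μ.real (D ∩ B)) f = ∑ f ∈ s, w f := fun s hs =>
      Finset.sum_congr rfl fun f h => Function.update_of_ne (ne_of_mem_of_not_mem h hs) _ _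
    refine ⟨Function.update w f₀ (X.μ.real (D ∩ B)), fun f => ?_, ?_, fun P _ A hA h1 h2 => ?_⟩
    · by_cases h : f = f₀
      · rw [h, Function.update_self]; exact measureReal_nonneg
      · rw [Function.update_of_ne h]; exact hw0 f
    · rw [Finset.sum_insert hf₀, Function.update_self, hs F hf₀,
        ← measureReal_inter_add_sdiff hBm hf]
      linarith
    · have h3 : X.μ.real (A \ B) ≤ ∑ f ∈ F with P f, w f := by
        refine hw2 P (A \ B) (Set.sdiff_subset_sdiff_left hA) (fun g hg => ?_)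
          fun g hg f hf => h2 g hg.1 f (Finset.mem_insert_of_mem hf)
        obtain ⟨f, hf, h⟩ := h1 g hg.1
        rcases Finset.mem_insert.1 hf with rfl | hf
        · exact absurd h hg.2
        · exact ⟨f, hf, h⟩
      have hn : f₀ ∉ F.filter P := fun h => hf₀ (Finset.mem_filter.1 h).1
      rw [Finset.filter_insert]
      by_cases hP : P f₀
      · rw [if_pos hP, Finset.sum_insert hn, Function.update_self, hs _ hn,
          ← measureReal_inter_add_sdiff hBm (ne_top_of_le_ne_top hf (measure_mono hA))]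
        have : X.μ.real (A ∩ B) ≤ X.μ.real (D ∩ B) :=
          measureReal_mono (Set.inter_subset_inter_left _ hA)
            (ne_top_of_le_ne_top hf (measure_mono Set.inter_subset_left))
        linarith
      · rw [if_neg hP, hs _ hn]
        have : A \ B = A := by
          refine Set.Subset.antisymm Set.sdiff_subset fun g hg => ⟨hg, fun h => hP ?_⟩
          exact h2 g hg f₀ (Finset.mem_insert_self _ _) h
        rwa [this] at h3

/-- `F` from `net n (Ball n)`; cells `C f = D ∩ {g | f⁻¹ * g ∈ Ball 1} \ (earlier cells)` (enumerate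
`F`, e.g. `disjointed`, or induct on a finset `F` covering `D`), `w f = μ.real (C f)` -/
theorem cells (n : ℕ) {D : Set G} (hm : MeasurableSet D) (hD : D ⊆ Ball X.Sg n) :
    ∃ F : Finset G, (F : Set G) ⊆ Ball X.Sg n ∧ ∃ w : G → ℝ, (∀ f, 0 ≤ w f) ∧
      ∑ f ∈ F, w f ≤ X.μ.real D ∧ ∀ (P : G → Prop) [DecidablePred P] (A : Set G), A ⊆ D →
        (∀ g ∈ A, ∀ f ∈ F, f⁻¹ * g ∈ Ball X.Sg 1 → P f) →
          X.μ.real A ≤ ∑ f ∈ F with P f, w f := by
  obtain ⟨F, hF, hF'⟩ := X.net n (Ball X.Sg n) subset_rfl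
  obtain ⟨w, h0, h1, h2⟩ := X.h49_cells F D hm
    (ne_top_of_le_ne_top (X.ball_fin n) (measure_mono hD))
  exact ⟨F, hF, w, h0, h1, fun P _ A hA h => h2 P A hA (fun g hg => hF' g (hD (hA hg))) h⟩

end Geo

end Crest.Agent.R182
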