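import Crest.Agent.R182.MSLim
import Crest.Agent.R182.MSRev1

/-! Row 182, block M1: the reverse inequality (deterministic part). -/

set_option autoImplicit false
set_option linter.dupNamespace false

namespace Crest.Agent.R182

open Crest.GroupTheory MeasureTheory

theorem path_ball0 {G : Type*} [Group G] {T : Set G} {p : ℕ → G} (h0 : p 0 = 1)
    (h : ∀ j, (p j)⁻¹ * p (j + 1) ∈ Ball T 1) (j : ℕ) : p j ∈ Ball T j := by
  induction j with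
  | zero => rw [h0]; exact Ball.one_mem _ _
  | succ j ih =>
    have := Ball.mul_mem ih (h j)
    rwa [mul_inv_cancel_left] at this

namespace Geo

variable {G : Type} [Group G] [MeasurableSpace G] {k : ℕ} (X : Geo G k)

/-- `stair`, stopped at time `m`: `j ↦ p (min j m)` -/
theorem track : ∃ K₂ : ℕ, 1 ≤ K₂ ∧ ∀ (v : Fin k → ℝ) (N : ℕ), K₂ * (‖v‖ + 1) ≤ N →
    ∃ p : ℕ → G, p 0 = 1 ∧ (∀ j, (p j)⁻¹ * p (j + 1) ∈ Ball (X.SC : Set G) 1) ∧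
      ‖X.π (p N) - v‖ ≤ K₂ ∧ ∀ j, ∃ θ : ℝ, 0 ≤ θ ∧ θ ≤ 1 ∧ ‖X.π (p j) - θ • v‖ ≤ K₂ := by
  obtain ⟨K₂, hK⟩ := X.stair
  refine ⟨K₂ + 1, by omega, fun v N hN => ?_⟩
  obtain ⟨m, p, hm, p0, p1, p2, p3⟩ := hK v
  have hmN : m ≤ N := by
    have : (m : ℝ) ≤ N := by
      push_cast at hN
      nlinarith [norm_nonneg v]
    exact_mod_cast this
  refine ⟨fun j => p (min j m), by simpa using p0, fun j => ?_, ?_, fun j => ?_⟩
  · by_cases hj : j < m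
    · simp only [min_eq_left hj.le, min_eq_left (Nat.succ_le_of_lt hj)]
      exact p1 j
    · simp only [min_eq_right (show m ≤ j by omega), min_eq_right (show m ≤ j + 1 by omega),
        inv_mul_cancel]
      exact Ball.one_mem _ _
  · simp only [min_eq_right hmN]
    push_cast
    linarith
  · obtain ⟨θ, h1, h2, h3⟩ := p3 (min j m) (min_le_right _ _)
    refine ⟨θ, h1, h2, ?_⟩
    push_cast
    linarith

/-- With `h j = π (ψ' (y * p j))`: `‖h (j + 1) - h j‖ ≤ K (c K + c)` (`flat_ball`, `ht_lip`);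
at a grid point `j`, `π (ψ (ψ' (y * p j)))` is within `K c` of `π y + π (p j)` (`QP.right`, `π_ball`),
so `‖M (h j - h 0 - θ • a)‖ ≤ 3 e + 2 K c`; `θ • a ∈ convexHull {0, a}`; `prof` with `S' = {0, a}`;
`V_lev_le` with `S = {0, M a}` bounds `nu (M a)` by the source profile. -/
theorem rev_core (c : ℕ) (C₀ : ℝ) (hC : 1 ≤ C₀) : ∃ C₂ : ℝ, 1 ≤ C₂ ∧ ∀ ψ ψ', X.QP c ψ ψ' →
    ∀ M : Module.End ℝ (Fin k → ℝ), (∀ v, ‖v‖ ≤ C₀ * ‖M v‖) →
    ∀ (f₀ a : Fin k → ℝ) (y : G) (p : ℕ → G) (N s : ℕ) (e e' : ℝ), 0 < s → 0 ≤ e → p 0 = 1 →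
      (∀ j, (p j)⁻¹ * p (j + 1) ∈ Ball (X.SC : Set G) 1) → ‖X.π (p N) - M a‖ ≤ e →
      (∀ j, ∃ θ : ℝ, 0 ≤ θ ∧ θ ≤ 1 ∧ ‖X.π (p j) - θ • M a‖ ≤ e) →
      (∀ l, s * l ≤ N →
        ‖X.π (ψ (ψ' (y * p (s * l)))) - M (X.π (ψ' (y * p (s * l)))) - f₀‖ ≤ e) →
      X.V (lev X.χ ((fun j => X.π (p j)) '' Set.Iic N)) - e' ≤
        X.V (lev X.χ ((fun j => X.π (ψ' (y * p j))) '' Set.Iic N)) →
      X.nu (M a) ≤ X.nu a + e' + C₂ * (e + s) := by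
  obtain ⟨B₁, hB₁, hprof⟩ := X.prof
  obtain ⟨B₂, hB₂, hlev⟩ := X.V_lev_le
  have hK : (0 : ℝ) ≤ X.K := Nat.cast_nonneg _
  have hc : (0 : ℝ) ≤ c := Nat.cast_nonneg _
  set L : ℝ := X.K * (c * X.K + c) with hL
  have hL0 : 0 ≤ L := by positivity
  set Q : ℝ := X.K * c with hQ
  have hQ0 : 0 ≤ Q := by positivity
  have hB₁0 : 0 ≤ B₁ := by linarith
  have hC0 : 0 ≤ C₀ := by linarith
  have hBC : 0 ≤ B₁ * C₀ := by positivity
  have hBCQ : 0 ≤ B₁ * C₀ * Q := by positivity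
  have hBL : 0 ≤ B₁ * L := by positivity
  refine ⟨B₂ + 3 * (B₁ * C₀) + 2 * (B₁ * C₀ * Q) + B₁ * L, by linarith,
    fun ψ ψ' hq M hM f₀ a y p N s e e' hs he p0 p1 pN pθ hgrid hV => ?_⟩
  have hlip : ∀ j, ‖X.π (ψ' (y * p (j + 1))) - X.π (ψ' (y * p j))‖ ≤ L := by
    intro j
    have h1 : (y * p j)⁻¹ * (y * p (j + 1)) ∈ Ball X.Sg (X.K * 1) := by
      rw [show (y * p j)⁻¹ * (y * p (j + 1)) = (p j)⁻¹ * p (j + 1) by group]
      exact X.flat_ball (p1 j)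
    have := X.ht_lip hq.qi' h1
    rw [mul_one] at this
    exact this
  have hg : ∀ l, s * l ≤ N →
      ‖X.π y + X.π (p (s * l)) - M (X.π (ψ' (y * p (s * l)))) - f₀‖ ≤ e + Q := by
    intro l hl
    have h1 := X.π_ball (hq.right (y * p (s * l)))
    rw [X.π_hom.inv_mul, X.π_hom y] at h1
    have h2 := hgrid l hl
    have h3 := norm_sub_le (X.π (ψ (ψ' (y * p (s * l)))) - M (X.π (ψ' (y * p (s * l)))) - f₀)
      (X.π (ψ (ψ' (y * p (s * l)))) - (X.π y + X.π (p (s * l))))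
    rw [show X.π (ψ (ψ' (y * p (s * l)))) - M (X.π (ψ' (y * p (s * l)))) - f₀ -
      (X.π (ψ (ψ' (y * p (s * l)))) - (X.π y + X.π (p (s * l)))) =
      X.π y + X.π (p (s * l)) - M (X.π (ψ' (y * p (s * l)))) - f₀ by abel] at h3
    linarith
  have h0 := hg 0 (by simp)
  rw [mul_zero, p0, X.π_hom.one, add_zero] at h0
  have hup := hprof (fun j => X.π (ψ' (y * p j))) N s L (C₀ * (3 * e + 2 * Q)) {0, a} hs
    (Set.toFinite _) hL0 (by positivity) hlip (fun l hl => by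
      obtain ⟨θ, h1, h2, h3⟩ := pθ (s * l)
      refine ⟨θ • a, ?_, (hM _).trans (mul_le_mul_of_nonneg_left ?_ hC0)⟩
      · rw [convexHull_pair]
        exact ⟨1 - θ, θ, by linarith, h1, by ring, by simp⟩
      · have h4 := hg l hl
        simp only [p0]
        rw [map_sub, map_sub, map_smul]
        have h5 := norm_sub_le (X.π y - M (X.π (ψ' (y * 1))) - f₀)
          (X.π y + X.π (p (s * l)) - M (X.π (ψ' (y * p (s * l)))) - f₀)
        have h6 := norm_add_le (X.π y - M (X.π (ψ' (y * 1))) - f₀ -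
          (X.π y + X.π (p (s * l)) - M (X.π (ψ' (y * p (s * l)))) - f₀))
          (X.π (p (s * l)) - θ • M a)
        rw [show X.π y - M (X.π (ψ' (y * 1))) - f₀ -
          (X.π y + X.π (p (s * l)) - M (X.π (ψ' (y * p (s * l)))) - f₀) +
          (X.π (p (s * l)) - θ • M a) =
          M (X.π (ψ' (y * p (s * l)))) - M (X.π (ψ' (y * 1))) - θ • M a by abel] at h6
        linarith)
  have hlow := hlev {0, M a} ((fun j => X.π (p j)) '' Set.Iic N) e (Set.insert_nonempty _ _)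
    ((Set.finite_Iic N).image _) he (by
      rintro t (rfl | rfl)
      · refine ⟨0, subset_convexHull ℝ _ ⟨0, Nat.zero_le N, ?_⟩, by simpa using he⟩
        simp only [p0, X.π_hom.one]
      · refine ⟨X.π (p N), subset_convexHull ℝ _ ⟨N, le_refl N, rfl⟩, ?_⟩
        rwa [norm_sub_rev])
  have hs1 : (1 : ℝ) ≤ s := by exact_mod_cast hs
  unfold nu
  have e1 : 0 ≤ B₂ * s := by positivity
  have e2 : 0 ≤ B₁ * C₀ * s := by positivity
  have e3 : 0 ≤ B₁ * C₀ * Q * e := by positivity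
  have e4 : 0 ≤ B₁ * L * e := by positivity
  have e5 : B₁ * C₀ * Q ≤ B₁ * C₀ * Q * s := le_mul_of_one_le_right hBCQ hs1
  nlinarith

variable [MeasurableMul₂ G] [MeasurableInv G]

/-- the levels of the path are at most `⌈B⌉₊ * K * K * N` (`lev_le`, `χ_bound`, `path_ball0`,
`flat_ball`, `π_ball`), so `RB_mono`, `RB_ball` put the ray boxes into `Ball Sg (A * N)`;
`TVr.ball`; `η = η_VP / A` -/
theorem vp_ball (h : X.VP) (c : ℕ) {ε η' : ℝ} (hε : 0 < ε) (hη' : 0 < η') :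
    ∃ η : ℝ, 0 < η ∧ ∃ n₀ : ℕ, ∀ N ≥ n₀, ∀ p : ℕ → G, p 0 = 1 →
      (∀ j, (p j)⁻¹ * p (j + 1) ∈ Ball (X.SC : Set G) 1) → ∀ ψ : G → G, QI X.Sg X.Sg ψ c →
      Step ψ → ∀ ζ : Measure G, IsProbabilityMeasure ζ → (∀ s ∈ Ball X.Sg 1, TVr ζ s (η / N)) →
        ζ.real {x | X.V (lev X.χ ((fun j => X.π (ψ (x * p j))) '' Set.Iic N)) <
          X.V (lev X.χ ((fun j => X.π (p j)) '' Set.Iic N)) - ε * N} ≤ η' := by
  obtain ⟨η, hη, n₀, H⟩ := h c ε η' hε hη'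
  obtain ⟨B, hB1, hB⟩ := X.χ_bound
  have hK1 := X.one_le_K
  obtain ⟨A, hA⟩ : ∃ A : ℕ, A = X.K * (⌈B⌉₊ * X.K * X.K) + X.K := ⟨_, rfl⟩
  have hA0 : (0 : ℝ) < A := by
    have : 0 < A := by omega
    exact_mod_cast this
  refine ⟨η / A, by positivity, max n₀ 1, fun N hN p p0 p1 ψ hq hst ζ hζ hT => ?_⟩
  have hN1 : 1 ≤ N := le_trans (le_max_right _ _) hN
  have hN0 : (0 : ℝ) < N := by exact_mod_cast hN1
  refine H N (le_trans (le_max_left _ _) hN) p p0 (fun j _ => p1 j) ψ hq hst ζ hζ fun i g hg => ?_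
  have hle : lev X.χ ((fun j => X.π (p j)) '' Set.Iic N) i ≤ ((⌈B⌉₊ * X.K * X.K * N : ℕ) : ℝ) := by
    refine lev_le (Set.nonempty_Iic.image _) ?_
    rintro _ ⟨j, hj, rfl⟩
    have h1 := X.π_ball (X.flat_ball (path_ball0 p0 p1 j))
    have h2 := (le_abs_self _).trans (hB i (X.π (p j)))
    have h3 : (j : ℝ) ≤ N := by exact_mod_cast hj
    have hK : (0 : ℝ) ≤ X.K := Nat.cast_nonneg _
    have h4 : ‖X.π (p j)‖ ≤ X.K * (X.K * N) := by
      push_cast at h1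
      exact h1.trans (by gcongr)
    have h5 : B * ‖X.π (p j)‖ ≤ ⌈B⌉₊ * (X.K * (X.K * N)) :=
      mul_le_mul (Nat.le_ceil B) h4 (norm_nonneg _) (Nat.cast_nonneg _)
    push_cast
    linarith
  have hg' : g ∈ Ball X.Sg (A * N) := by
    refine Ball.mono subset_rfl ?_ (X.RB_ball i _ (X.RB_mono i _ _ hle hg))
    rw [hA]
    nlinarith
  refine (TVr.ball (by positivity) hT hg').mono (le_of_eq ?_)
  push_cast
  field_simp

omit [MeasurableMul₂ G] [MeasurableInv G] in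
/-- homogeneity -/
theorem h82_rev_of_scale {M : Module.End ℝ (Fin k → ℝ)} {ε lam : ℝ} (hl : 0 < lam)
    (h : ∀ a, ‖a‖ = lam → X.nu (M a) ≤ X.nu a + ε * lam) : X.Rev ε M := by
  intro a
  rcases eq_or_ne a 0 with rfl | ha
  · simp
  have hn : 0 < ‖a‖ := norm_pos_iff.2 ha
  have ht : 0 < lam / ‖a‖ := div_pos hl hn
  have h1 := h ((lam / ‖a‖) • a) (by
    rw [norm_smul, Real.norm_of_nonneg ht.le, div_mul_cancel₀ _ hn.ne'])
  rw [map_smul, X.nu_smul _ ht.le, X.nu_smul _ ht.le] at h1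
  have e : ε * lam = lam / ‖a‖ * (ε * ‖a‖) := by field_simp
  rw [e, ← mul_add] at h1
  exact le_of_mul_le_mul_left h1 ht

omit [MeasurableMul₂ G] [MeasurableInv G] in
theorem h82_f_lip {c : ℕ} {ψ : G → G} (h : QI X.Sg X.Sg ψ c) {C₀ : ℝ} (hC : 0 ≤ C₀)
    {M : Module.End ℝ (Fin k → ℝ)} (hM : ∀ v, ‖M v‖ ≤ C₀ * ‖v‖) (f₀ : Fin k → ℝ) (g : G) {b : G}
    (hb : b ∈ Ball X.Sg 1) : ‖X.π (ψ g) - M (X.π g) - f₀‖ ≤
      ‖X.π (ψ (g * b)) - M (X.π (g * b)) - f₀‖ + (X.K * (c + c) + C₀ * X.K) := by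
  have h1 := X.ht_lip h (x := g) (y := g * b) (n := 1) (by rwa [inv_mul_cancel_left])
  have h2 := X.π_ball hb
  have h3 := hM (X.π b)
  have h4 := mul_le_mul_of_nonneg_left h2 hC
  have e : X.π (ψ g) - M (X.π g) - f₀ = (X.π (ψ (g * b)) - M (X.π (g * b)) - f₀) +
      (M (X.π b) - (X.π (ψ (g * b)) - X.π (ψ g))) := by
    rw [X.π_hom, map_add]; abel
  rw [e]
  have h5 := norm_add_le (X.π (ψ (g * b)) - M (X.π (g * b)) - f₀)
    (M (X.π b) - (X.π (ψ (g * b)) - X.π (ψ g)))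
  have h6 := norm_sub_le (M (X.π b)) (X.π (ψ (g * b)) - X.π (ψ g))
  push_cast at h1 h4
  linarith

/-- (REV) -/
theorem rev (h : X.VP) (c : ℕ) (C₀ KR : ℝ) (hC : 1 ≤ C₀) {ε' : ℝ} (hε' : 0 < ε') :
    ∃ ε : ℝ, 0 < ε ∧ ∃ n₁ : ℕ, ∀ n ≥ n₁, ∀ D, X.Fol (3 * c + 1) KR n D → ∀ ψ ψ', X.QP c ψ ψ' →
      ∀ M : Module.End ℝ (Fin k → ℝ), (∀ v, ‖M v‖ ≤ C₀ * ‖v‖) → (∀ v, ‖v‖ ≤ C₀ * ‖M v‖) →
      ∀ f₀ : Fin k → ℝ,
        X.μ.real {g ∈ D | ε * n < ‖X.π (ψ g) - M (X.π g) - f₀‖} ≤ ε * X.μ.real D →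
          X.Rev ε' M := by
  obtain ⟨C₂, hC₂, hcore⟩ := X.rev_core c C₀ hC
  obtain ⟨K₂, hK₂, htr⟩ := X.track
  obtain ⟨C₁, hC₁, n₁, hpull⟩ := X.pull c KR
  have hK₂' : (1 : ℝ) ≤ K₂ := by exact_mod_cast hK₂
  have hK : (1 : ℝ) ≤ X.K := by exact_mod_cast X.one_le_K
  obtain ⟨ε₁, hε₁, hε₁e⟩ : ∃ ε₁ : ℝ, 0 < ε₁ ∧ ε₁ * (1 + 4 * C₂) = ε' / (2 * K₂ * C₀) :=
    ⟨ε' / (2 * K₂ * C₀) / (1 + 4 * C₂), by positivity, by field_simp⟩
  obtain ⟨η, hη, n₀, hvp⟩ := X.vp_ball h c hε₁ (show (0 : ℝ) < 1 / 4 by norm_num)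
  obtain ⟨J, hJ⟩ := exists_nat_ge (2 / ε₁)
  obtain ⟨Q, hQ, hQe⟩ : ∃ Q : ℝ, 0 < Q ∧ Q = 8 * (J + 1) * X.K * C₁ := ⟨_, by positivity, rfl⟩
  obtain ⟨ξ, hξ, hξ1, hξ2⟩ : ∃ ξ : ℝ, 0 < ξ ∧ ξ ≤ η / C₁ ∧ ξ ≤ 1 / Q :=
    ⟨min (η / C₁) (1 / Q), by positivity, min_le_left _ _, min_le_right _ _⟩
  obtain ⟨ε, hε, hε1, hε2⟩ : ∃ ε : ℝ, 0 < ε ∧ ε ≤ ε₁ * ξ / 2 ∧ ε ≤ 1 / Q :=
    ⟨min (ε₁ * ξ / 2) (1 / Q), by positivity, min_le_left _ _, min_le_right _ _⟩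
  obtain ⟨T, hT⟩ : ∃ T : ℝ, T = n₀ + 2 * K₂ + K₂ / ε₁ + 1 := ⟨_, rfl⟩
  obtain ⟨n₂, hn₂⟩ := exists_nat_ge (Q + (T + 1) / ξ + (X.K * (c + c) + C₀ * X.K) / ε)
  refine ⟨ε, hε, max n₁ n₂, fun n hn D hD ψ ψ' hq M hM hM' f₀ hbad => ?_⟩
  have hn1 : n₁ ≤ n := (le_max_left _ _).trans hn
  have hn2 : (n₂ : ℝ) ≤ n := by exact_mod_cast (le_max_right _ _).trans hn
  have hT0 : 1 ≤ T := by rw [hT]; have : 0 ≤ K₂ / ε₁ := by positivity
                         have : (0 : ℝ) ≤ n₀ := by positivity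
                         linarith
  have p1 : 0 ≤ (T + 1) / ξ := by positivity
  have p2 : 0 ≤ (X.K * (c + c) + C₀ * X.K) / ε := by positivity
  have hnQ : Q ≤ n := by linarith
  have hnpos : (0 : ℝ) < n := by linarith
  have hnT : T + 1 ≤ ξ * n := by
    have : (T + 1) / ξ ≤ n := by linarith
    rwa [div_le_iff₀' hξ] at this
  have hnL : X.K * (c + c) + C₀ * X.K ≤ ε * n := by
    have : (X.K * (c + c) + C₀ * X.K) / ε ≤ n := by linarith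
    rwa [div_le_iff₀' hε] at this
  obtain ⟨N, hN1, hN2⟩ : ∃ N : ℕ, (N : ℝ) ≤ ξ * n ∧ ξ * n < N + 1 :=
    ⟨⌊ξ * n⌋₊, Nat.floor_le (by positivity), Nat.lt_floor_add_one _⟩
  have hNT : T ≤ N := by linarith
  have hN0 : (1 : ℝ) ≤ N := by linarith
  have q1 : 0 ≤ K₂ / ε₁ := by positivity
  have hNn₀ : n₀ ≤ N := by
    have : (n₀ : ℝ) ≤ N := by linarith
    exact_mod_cast this
  have hNK : (2 : ℝ) * K₂ ≤ N := by
    have : (0 : ℝ) ≤ n₀ := by positivity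
    linarith
  have hNε : (K₂ : ℝ) ≤ ε₁ * N := by
    have : (K₂ : ℝ) / ε₁ ≤ N := by
      have : (0 : ℝ) ≤ n₀ := by positivity
      linarith
    rwa [div_le_iff₀' hε₁] at this
  have hεn : ε * n ≤ ε₁ * N := by
    have h1 : ε * n ≤ ε₁ * ξ / 2 * n := mul_le_mul_of_nonneg_right hε1 hnpos.le
    have h2 : ε₁ * (ξ * n) ≤ ε₁ * (2 * N) := mul_le_mul_of_nonneg_left (by linarith) hε₁.le
    linarith
  obtain ⟨s, hs1, hs2⟩ : ∃ s : ℕ, (s : ℝ) ≤ ε₁ * N ∧ ε₁ * N < s + 1 :=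
    ⟨⌊ε₁ * N⌋₊, Nat.floor_le (by positivity), Nat.lt_floor_add_one _⟩
  have hs0 : 0 < s := by
    have : (0 : ℝ) < s := by linarith
    exact_mod_cast this
  have hs0' : (1 : ℝ) ≤ s := by exact_mod_cast hs0
  obtain ⟨ζ, hζ, hinv, hA⟩ := hpull n hn1 D hD ψ ψ' hq
  have hA' := hA {g | 2 * (ε * n) < ‖X.π (ψ g) - M (X.π g) - f₀‖} _ ε hε.le
    (fun g hg => hg.1) hbad (fun g hg b hb hgb => ⟨hgb, by
      have h1 := X.h82_f_lip hq.qi (by linarith) hM f₀ g hb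
      have h2 : 2 * (ε * n) < ‖X.π (ψ g) - M (X.π g) - f₀‖ := hg
      linarith⟩)
  refine X.h82_rev_of_scale (lam := N / (2 * K₂ * C₀)) (by positivity) fun a ha => ?_
  obtain ⟨p, hp0, hp1, hp2, hp3⟩ := htr (M a) N (by
    have h1 := hM a
    rw [ha] at h1
    have h2 : (K₂ : ℝ) * (C₀ * (N / (2 * K₂ * C₀))) = N / 2 := by field_simp
    have h3 := mul_le_mul_of_nonneg_left h1 (show (0 : ℝ) ≤ K₂ by positivity)
    linarith)
  have hE := hvp N hNn₀ p hp0 hp1 ψ' hq.qi' hq.step' ζ hζ fun s hs => (hinv s hs).mono (by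
    rw [div_le_div_iff₀ hnpos (by linarith)]
    have h1 : C₁ * N ≤ C₁ * (ξ * n) := mul_le_mul_of_nonneg_left hN1 (by linarith)
    have h2 : C₁ * ξ ≤ η := by rwa [le_div_iff₀' (by linarith)] at hξ1
    have h3 := mul_le_mul_of_nonneg_right h2 hnpos.le
    linarith)
  obtain ⟨y, hyE, hyA⟩ := exists_good (T := X.Sg) (by positivity) hinv
    (hq.step'.measurableSet fun z => z ∉ D ∨ z ∈ {g | 2 * (ε * n) < ‖X.π (ψ g) - M (X.π g) - f₀‖})
    hA' hE (fun l => p (min (s * l) N)) J (X.K * N)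
    (fun l _ => Ball.mono subset_rfl (Nat.mul_le_mul_left _ (min_le_right _ _))
      (X.flat_ball (path_ball0 hp0 hp1 _))) (by
      push_cast
      have e1 : ε * Q ≤ 1 := by rwa [le_div_iff₀ hQ] at hε2
      have e2 : 1 / (n : ℝ) * Q ≤ 1 := by
        rw [div_mul_eq_mul_div, one_mul, div_le_one hnpos]; exact hnQ
      have e3 : (N : ℝ) / n * Q ≤ 1 := by
        have h1 : (N : ℝ) / n ≤ 1 / Q := by
          rw [div_le_iff₀ hnpos]
          have := mul_le_mul_of_nonneg_right hξ2 hnpos.le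
          linarith
        rwa [le_div_iff₀ hQ] at h1
      have e4 : ((J : ℝ) + 1) * (C₁ * (ε + 1 / n)) ≤ (J + 1) * X.K * C₁ * (ε + 1 / n) := by
        have : (0 : ℝ) ≤ (J + 1) * (C₁ * (ε + 1 / n)) := by positivity
        nlinarith
      have e5 : ((J : ℝ) + 1) * (X.K * N * (C₁ / n)) = (J + 1) * X.K * C₁ * (N / n) := by
        field_simp
      rw [mul_add, e5]
      rw [hQe] at e1 e2 e3
      nlinarith)
  have key := hcore ψ ψ' hq M hM' f₀ a y p N s (2 * (ε * n) + K₂) (ε₁ * N) hs0 (by positivity) hp0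
    hp1 (by have : 0 ≤ ε * n := by positivity
            linarith)
    (fun j => by
      obtain ⟨θ, h1, h2, h3⟩ := hp3 j
      exact ⟨θ, h1, h2, by have : 0 ≤ ε * n := by positivity
                           linarith⟩)
    (fun l hl => by
      have hlJ : l ≤ J := by
        have h1 : (s : ℝ) * l ≤ N := by exact_mod_cast hl
        have h2 : ε₁ * N * l ≤ 2 * s * l :=
          mul_le_mul_of_nonneg_right (by linarith) (by positivity)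
        have h3 : ε₁ * l * N ≤ 2 * N := by linarith
        have h4 : ε₁ * l ≤ 2 := le_of_mul_le_mul_right h3 (by linarith)
        have h5 : (l : ℝ) ≤ 2 / ε₁ := by rwa [le_div_iff₀' hε₁]
        exact_mod_cast h5.trans hJ
      have h1 := hyA l hlJ
      simp only [min_eq_left hl, Set.mem_setOf_eq, not_or, not_lt] at h1
      linarith [h1.2])
    (not_lt.1 hyE)
  have e : ε' * (N / (2 * K₂ * C₀)) = ε₁ * (1 + 4 * C₂) * N := by rw [hε₁e]; ring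
  have h1 : C₂ * (2 * (ε * n) + K₂ + s) ≤ C₂ * (4 * (ε₁ * N)) :=
    mul_le_mul_of_nonneg_left (by linarith) (by linarith)
  rw [e]
  linarith

end Geo

end Crest.Agent.R182
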