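import Crest.Agent.R182.MSRev2

/-! Row 182, block M1: from the flat approximation to balls; the reverse inequality in measure. -/

set_option autoImplicit false
set_option linter.dupNamespace false

namespace Crest.Agent.R182

open Crest.GroupTheory MeasureTheory

namespace Geo

variable {G : Type} [Group G] [MeasurableSpace G] {k : ℕ} (X : Geo G k)

/-- `c₁ = p m` from `stair` with `v = r • u i` (`path_ball0`), `χ i (π c₁) ≥ r - B K₂`;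
`RB_conj` with `c₁⁻¹`, `RB_mono` to a natural level `≤ B K₂ + K lg (A r + A) + 1`, `RB_ball`;
`lg_mul_le`, `lg_mono`, `one_le_lg` -/
theorem letter : ∃ A : ℕ, 1 ≤ A ∧ ∀ (i : X.ι) (r : ℕ), ∀ x ∈ X.RB i r,
    ∃ c₁ ∈ Ball (X.SC : Set G) (A * r + A), ∃ m : ℕ, (m : ℝ) ≤ A * lg r ∧
      c₁⁻¹ * x * c₁ ∈ Ball X.Sg m := by
  obtain ⟨K₂, hst⟩ := X.stair
  obtain ⟨B, hB, hχ⟩ := X.χ_bound
  obtain ⟨U, hU⟩ : ∃ U : ℕ, ∀ i, ‖X.u i‖ ≤ U :=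
    ⟨⌈∑ i, ‖X.u i‖⌉₊, fun i => (Finset.single_le_sum (f := fun i => ‖X.u i‖)
      (fun _ _ => norm_nonneg _) (Finset.mem_univ i)).trans (Nat.le_ceil _)⟩
  obtain ⟨A₁, hA₁⟩ : ∃ A₁ : ℕ, A₁ = K₂ * (U + 1) := ⟨_, rfl⟩
  obtain ⟨A₂, hA₂⟩ : ∃ A₂ : ℕ, (X.K : ℝ) * (B * K₂ + X.K * lg A₁ + 2) ≤ A₂ := ⟨_, Nat.le_ceil _⟩
  refine ⟨A₁ + 1 + A₂, by omega, fun i r x hx => ?_⟩
  obtain ⟨m, p, hm, h0, hp, hv, -⟩ := hst ((r : ℝ) • X.u i)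
  have hK₂ : (0 : ℝ) ≤ K₂ := K₂.cast_nonneg
  have hr : (0 : ℝ) ≤ r := r.cast_nonneg
  have hK : (0 : ℝ) ≤ X.K := X.K.cast_nonneg
  have hm' : m ≤ A₁ * r + A₁ := by
    have h1 : ‖(r : ℝ) • X.u i‖ ≤ r * U := by
      rw [norm_smul, Real.norm_natCast]
      exact mul_le_mul_of_nonneg_left (hU i) hr
    have h2 : (m : ℝ) ≤ K₂ * (r * U + 1) := hm.trans (by gcongr)
    have h3 : m ≤ K₂ * (r * U + 1) := by exact_mod_cast h2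
    rw [hA₁]
    nlinarith [Nat.zero_le (K₂ * r), Nat.zero_le (K₂ * U)]
  have hc : p m ∈ Ball (X.SC : Set G) (A₁ * r + A₁) :=
    Ball.mono subset_rfl hm' (path_ball0 h0 hp m)
  have hlev : (r : ℝ) + X.χ i (X.π (p m)⁻¹) ≤ B * K₂ := by
    have h1 := hχ i (X.π (p m) - (r : ℝ) • X.u i)
    rw [map_sub, map_smul, X.u_self, smul_eq_mul, mul_one] at h1
    have h2 : B * ‖X.π (p m) - (r : ℝ) • X.u i‖ ≤ B * K₂ := by gcongr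
    rw [X.π_hom.inv, map_neg]
    linarith [neg_abs_le (X.χ i (X.π (p m)) - r)]
  obtain ⟨L, hL, hL'⟩ : ∃ L : ℕ, B * K₂ + X.K * lg (A₁ * r + A₁) ≤ L ∧
      (L : ℝ) ≤ B * K₂ + X.K * lg (A₁ * r + A₁) + 1 := by
    refine ⟨_, Nat.le_ceil _, (Nat.ceil_lt_add_one ?_).le⟩
    have := one_le_lg (A₁ * r + A₁)
    positivity
  have h1 := X.RB_conj i r _ _ (Ball.inv_mem hc) x hx
  rw [inv_inv] at h1
  have h2 := X.RB_ball i L (X.RB_mono i _ L (by linarith) h1)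
  refine ⟨p m, Ball.mono subset_rfl (by nlinarith [Nat.zero_le (A₂ * r)]) hc, _, ?_, h2⟩
  have h3 := lg_mul_le A₁ r
  have h4 := one_le_lg r
  have h5 : (L : ℝ) + 1 ≤ (B * K₂ + X.K * lg A₁ + 2) * lg r := by
    have h6 : X.K * lg (A₁ * r + A₁) ≤ X.K * (lg A₁ * lg r) := mul_le_mul_of_nonneg_left h3 hK
    have h7 : 0 ≤ B * K₂ := by positivity
    nlinarith
  have h6 : (X.K : ℝ) * (L + 1) ≤ A₂ * lg r := by
    calc (X.K : ℝ) * (L + 1) ≤ X.K * ((B * K₂ + X.K * lg A₁ + 2) * lg r) := by gcongr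
      _ = X.K * (B * K₂ + X.K * lg A₁ + 2) * lg r := by ring
      _ ≤ A₂ * lg r := by gcongr
  have h7 : (0 : ℝ) ≤ A₁ := A₁.cast_nonneg
  push_cast
  nlinarith

theorem err_nonneg (ψ : G → G) (Φ : G → Module.End ℝ (Fin k → ℝ)) (g x : G) :
    0 ≤ X.err ψ Φ g x := norm_nonneg _

/-- `ht_lip`, `π_ball` -/
theorem err_le (c : ℕ) (C₀ : ℝ) : ∃ L : ℝ, 1 ≤ L ∧ ∀ ψ : G → G, QI X.Sg X.Sg ψ c →
    ∀ Φ : G → Module.End ℝ (Fin k → ℝ), (∀ x v, ‖Φ x v‖ ≤ C₀ * ‖v‖) → ∀ m : ℕ,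
      ∀ g ∈ Ball X.Sg m, ∀ x, X.err ψ Φ g x ≤ L * m + L := by
  have hK : (0 : ℝ) ≤ X.K := Nat.cast_nonneg _
  have hc : (0 : ℝ) ≤ c := Nat.cast_nonneg _
  have h0 : 0 ≤ X.K * c + |C₀| * X.K := by positivity
  refine ⟨X.K * c + |C₀| * X.K + 1, by linarith, fun ψ hψ Φ hΦ m g hg x => ?_⟩
  have hm : (0 : ℝ) ≤ m := Nat.cast_nonneg _
  have h1 := X.ht_lip hψ (x := x) (y := x * g) (n := m) (by rwa [inv_mul_cancel_left])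
  have h2 : ‖Φ x (X.π g)‖ ≤ |C₀| * (X.K * m) :=
    (hΦ x _).trans (mul_le_mul (le_abs_self _) (X.π_ball hg) (norm_nonneg _) (abs_nonneg _))
  have h3 : 0 ≤ |C₀| * X.K := by positivity
  refine (norm_sub_le _ _).trans ?_
  nlinarith

/-- Lipschitz in `g` (`ht_lip`, `π_ball`, `π_hom`) -/
theorem err_lip (c : ℕ) (C₀ : ℝ) : ∃ L : ℝ, 1 ≤ L ∧ ∀ ψ : G → G, QI X.Sg X.Sg ψ c →
    ∀ Φ : G → Module.End ℝ (Fin k → ℝ), (∀ x v, ‖Φ x v‖ ≤ C₀ * ‖v‖) → ∀ f g : G,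
      f⁻¹ * g ∈ Ball X.Sg 1 → ∀ x, X.err ψ Φ g x ≤ X.err ψ Φ f x + L := by
  have hK : (0 : ℝ) ≤ X.K := Nat.cast_nonneg _
  have hc : (0 : ℝ) ≤ c := Nat.cast_nonneg _
  have h0 : 0 ≤ X.K * (c * (1 : ℕ) + c) + |C₀| * (X.K * (1 : ℕ)) := by positivity
  refine ⟨X.K * (c * (1 : ℕ) + c) + |C₀| * (X.K * (1 : ℕ)) + 1, by linarith,
    fun ψ hψ Φ hΦ f g hg x => ?_⟩
  have h1 := X.ht_lip hψ (x := x * f) (y := x * g) (n := 1)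
    (by rwa [mul_inv_rev, mul_assoc, inv_mul_cancel_left])
  have h2 : ‖Φ x (X.π (f⁻¹ * g))‖ ≤ |C₀| * (X.K * (1 : ℕ)) :=
    (hΦ x _).trans (mul_le_mul (le_abs_self _) (X.π_ball hg) (norm_nonneg _) (abs_nonneg _))
  have h3 : X.π (ψ (x * g)) - X.π (ψ x) - Φ x (X.π g) =
      (X.π (ψ (x * f)) - X.π (ψ x) - Φ x (X.π f)) + (X.π (ψ (x * g)) - X.π (ψ (x * f))) -
        Φ x (X.π (f⁻¹ * g)) := by
    rw [X.π_hom.inv_mul, map_sub]; abel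
  unfold err
  rw [h3]
  refine (norm_sub_le _ _).trans ((add_le_add (norm_add_le _ _) h2).trans ?_)
  linarith

theorem err_mul (ψ : G → G) (Φ : G → Module.End ℝ (Fin k → ℝ)) (g h x : G) :
    X.err ψ Φ (g * h) x ≤
      X.err ψ Φ g x + X.err ψ Φ h (x * g) + ‖Φ (x * g) (X.π h) - Φ x (X.π h)‖ := by
  have h3 : X.π (ψ (x * (g * h))) - X.π (ψ x) - Φ x (X.π (g * h)) =
      (X.π (ψ (x * g)) - X.π (ψ x) - Φ x (X.π g)) +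
        (X.π (ψ (x * g * h)) - X.π (ψ (x * g)) - Φ (x * g) (X.π h)) +
        (Φ (x * g) (X.π h) - Φ x (X.π h)) := by
    rw [X.π_hom, map_add, mul_assoc]; abel
  unfold err
  rw [h3]
  exact norm_add₃_le

/-- the error is eventually small in the mean -/
def Small (𝒰 : Ultrafilter ℕ) (ψ : ℕ → G → G) (ω : ℕ → Measure G)
    (Φ : ℕ → G → Module.End ℝ (Fin k → ℝ)) (g : G) (δ : ℝ) : Prop :=
  ∀ᶠ i in (𝒰 : Filter ℕ), ∫ x, X.err (ψ i) (Φ i) g x ∂(ω i) ≤ δ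

theorem Small.mono {X : Geo G k} {𝒰 : Ultrafilter ℕ} {ψ : ℕ → G → G} {ω : ℕ → Measure G}
    {Φ : ℕ → G → Module.End ℝ (Fin k → ℝ)} {g : G} {δ δ' : ℝ} (h : X.Small 𝒰 ψ ω Φ g δ)
    (hδ : δ ≤ δ') : X.Small 𝒰 ψ ω Φ g δ' :=
  Filter.Eventually.mono h fun _ hi => hi.trans hδ

variable [MeasurableMul₂ G] [MeasurableInv G]

/-- `Step.mul_right`, `Step.prod`, `Step.measurable` -/
theorem meas_err {ψ : G → G} {Φ : G → Module.End ℝ (Fin k → ℝ)} (h : Step ψ) (h' : Step Φ)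
    (g : G) : Measurable (X.err ψ Φ g) := by
  exact (((h.mul_right g).prod h).prod h').measurable
    fun p => ‖X.π p.1.1 - X.π p.1.2 - p.2 (X.π g)‖

section small

variable {X} {c n₀ : ℕ} {C₀ ε : ℝ} {𝒰 : Ultrafilter ℕ} {ψ ψ' : ℕ → G → G} {ω : ℕ → Measure G}
  {Φ : ℕ → G → Module.End ℝ (Fin k → ℝ)}

/-- `err_mul`; every element lies in a ball (`gen`, `Ball.exists_of_mem_closure`), so the errors are
bounded (`err_le`) and measurable; `TVr.integral` for `err h`, `Apx.inv` with `v = π h` -/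
theorem Small.mul (H : X.Hyp c 𝒰 ψ ψ' ω) (hA : X.Apx C₀ 𝒰 ψ ω ε n₀ Φ) {g h : G} (hg : g ∈ X.Γ)
    {δ δ' η : ℝ} (h1 : X.Small 𝒰 ψ ω Φ g δ) (h2 : X.Small 𝒰 ψ ω Φ h δ') (hη : 0 < η) :
    X.Small 𝒰 ψ ω Φ (g * h) (δ + δ' + ε * ‖X.π h‖ + η) := by
  obtain ⟨L, hL1, hL⟩ := X.err_le c C₀
  have hb : ∀ g : G, ∃ B : ℝ, 0 < B ∧ ∀ i x, X.err (ψ i) (Φ i) g x ≤ B := fun g => by
    obtain ⟨m, hm⟩ : ∃ m, g ∈ Ball X.Sg m :=
      Ball.exists_of_mem_closure (X.gen ▸ Subgroup.mem_top g)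
    exact ⟨L * m + L, by positivity, fun i x => hL _ (H.qp i).qi _ (hA.bd i) m g hm x⟩
  have hm : ∀ i g, Measurable (X.err (ψ i) (Φ i) g) := fun i g =>
    X.meas_err (H.qp i).step (hA.step i) g
  have hint : ∀ i {f : G → ℝ} (B : ℝ), Measurable f → (∀ x, 0 ≤ f x) → (∀ x, f x ≤ B) →
      Integrable f (ω i) := fun i f B hf h0 hB => by
    have := H.prob i
    exact Integrable.of_bound hf.aestronglyMeasurable B
      (ae_of_all _ fun x => by rw [Real.norm_of_nonneg (h0 x)]; exact hB x)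
  obtain ⟨Bg, -, hBg⟩ := hb g
  obtain ⟨Bh, hBh0, hBh⟩ := hb h
  obtain ⟨Bgh, -, hBgh⟩ := hb (g * h)
  filter_upwards [h1, h2, hA.inv g hg (X.π h), H.inv g hg (η / Bh) (div_pos hη hBh0)]
    with i e1 e2 e3 e4
  have := H.prob i
  have i0 := hint i Bgh (hm i (g * h)) (X.err_nonneg _ _ _) (hBgh i)
  have i1 := hint i Bg (hm i g) (X.err_nonneg _ _ _) (hBg i)
  have i2 : Integrable (fun x => X.err (ψ i) (Φ i) h (x * g)) (ω i) :=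
    hint i Bh ((hm i h).comp (measurable_mul_const g)) (fun x => X.err_nonneg _ _ _ _)
      fun x => hBh i _
  have i3 : Integrable (fun x => ‖Φ i (x * g) (X.π h) - Φ i x (X.π h)‖) (ω i) :=
    hint i (C₀ * ‖X.π h‖ + C₀ * ‖X.π h‖)
      ((((hA.step i).mul_right g).prod (hA.step i)).measurable
        fun p => ‖p.1 (X.π h) - p.2 (X.π h)‖) (fun x => norm_nonneg _)
      fun x => (norm_sub_le _ _).trans (add_le_add (hA.bd i _ _) (hA.bd i _ _))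
  have e5 := (abs_le.1 (e4.integral (hm i h) (X.err_nonneg _ _ _) (hBh i))).2
  rw [mul_div_cancel₀ _ hBh0.ne'] at e5
  have e6 := integral_mono i0 ((i1.add i2).add i3) fun x => X.err_mul (ψ i) (Φ i) g h x
  simp only [Pi.add_apply] at e6
  have i12 : Integrable (fun x => X.err (ψ i) (Φ i) g x + X.err (ψ i) (Φ i) h (x * g)) (ω i) :=
    i1.add i2
  rw [integral_add i12 i3, integral_add i1 i2] at e6
  linarith

end small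

/-- pointwise bound `err_le` -/
theorem small_short (c : ℕ) (C₀ : ℝ) : ∃ L : ℝ, 1 ≤ L ∧ ∀ 𝒰 ψ ψ' ω ε n₀ Φ, X.Hyp c 𝒰 ψ ψ' ω →
    X.Apx C₀ 𝒰 ψ ω ε n₀ Φ → ∀ m : ℕ, ∀ g ∈ Ball X.Sg m, X.Small 𝒰 ψ ω Φ g (L * m + L) := by
  obtain ⟨L, hL1, hL⟩ := X.err_le c C₀
  refine ⟨L, hL1, fun 𝒰 ψ ψ' ω ε n₀ Φ H hA m g hg => Filter.Eventually.of_forall fun i => ?_⟩
  have := H.prob i
  have h := integral_mono_of_nonneg (μ := ω i) (ae_of_all _ (X.err_nonneg (ψ i) (Φ i) g))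
    (integrable_const (L * m + L)) (ae_of_all _ (hL _ (H.qp i).qi _ (hA.bd i) m g hg))
  simpa using h

omit [MeasurableMul₂ G] [MeasurableInv G] in
theorem h71_flat_Γ {c : G} {m : ℕ} (h : c ∈ Ball (X.SC : Set G) m) : c ∈ X.Γ :=
  X.flat_le_Γ (Ball.mem_closure h)

omit [MeasurableMul₂ G] [MeasurableInv G] in
theorem h71_flat_π {c : G} {m : ℕ} (h : c ∈ Ball (X.SC : Set G) m) :
    ‖X.π c‖ ≤ X.K * X.K * m := by
  have := X.π_ball (X.flat_ball h)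
  push_cast at this
  linarith [mul_assoc (X.K : ℝ) X.K m]

theorem h71_big (T : ℝ) {ε : ℝ} (hε : 0 < ε) : ∃ n₂ : ℕ, ∀ r : ℕ, n₂ ≤ r → T ≤ ε * r := by
  refine ⟨⌈T / ε⌉₊, fun r hr => ?_⟩
  have h1 : T / ε ≤ r := (Nat.le_ceil _).trans (by exact_mod_cast hr)
  rwa [div_le_iff₀' hε] at h1

/-- `x = (c₁ * x') * c₁⁻¹` from `letter`, `π x' = 0`, `c₁ * x' = x * c₁ ∈ Γ`; `Apx.flat` at the scale
`A r + A`, `small_short`, `Small.mul` twice (`η = 1`), `lg_le_lin` -/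
theorem small_letter : ∃ C₃ : ℝ, 1 ≤ C₃ ∧ ∀ (c : ℕ) (C₀ ε : ℝ) (n₀ : ℕ), 0 < ε → ∃ n₂ : ℕ,
    ∀ 𝒰 ψ ψ' ω Φ, X.Hyp c 𝒰 ψ ψ' ω → X.Apx C₀ 𝒰 ψ ω ε n₀ Φ → ∀ r : ℕ, n₂ ≤ r → ∀ i,
      ∀ x ∈ X.RB i r, X.Small 𝒰 ψ ω Φ x (C₃ * ε * r) := by
  obtain ⟨A, hA1, hA⟩ := X.letter
  have hA1' : (1 : ℝ) ≤ A := by exact_mod_cast hA1
  have hK : (0 : ℝ) ≤ X.K := X.K.cast_nonneg
  refine ⟨2 * A * (2 + X.K * X.K) + 2, by nlinarith [mul_nonneg hK hK], fun c C₀ ε n₀ hε => ?_⟩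
  obtain ⟨L, hL1, hL⟩ := X.small_short c C₀
  obtain ⟨B, -, hB⟩ := lg_le_lin (δ := ε / (L * A)) (by positivity)
  obtain ⟨n₂, hn₂⟩ := h71_big (L * A * B + L + 2) hε
  refine ⟨n₂ + n₀ + 1, fun 𝒰 ψ ψ' ω Φ H hΦ r hr i x hx => ?_⟩
  obtain ⟨c₁, hc₁, m, hm, hx'⟩ := hA i r x hx
  have hn : A * r + A ≥ n₀ := by nlinarith
  have hπ : X.π (c₁⁻¹ * x * c₁) = 0 := by
    rw [X.π_hom, X.π_hom, X.π_hom.inv, X.RB_π hx]; abel
  have s1 : X.Small 𝒰 ψ ω Φ c₁ _ := hΦ.flat _ hn c₁ hc₁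
  have s2 : X.Small 𝒰 ψ ω Φ c₁⁻¹ _ := hΦ.flat _ hn c₁⁻¹ (Ball.inv_mem hc₁)
  have s3 := Small.mul H hΦ (X.h71_flat_Γ hc₁) s1 (hL 𝒰 ψ ψ' ω ε n₀ Φ H hΦ m _ hx') one_pos
  have hΓ : c₁ * (c₁⁻¹ * x * c₁) ∈ X.Γ := by
    rw [← mul_assoc, mul_inv_cancel_left]
    exact X.Γ.mul_mem (X.RB_mem_Γ hx) (X.h71_flat_Γ hc₁)
  have s4 := Small.mul H hΦ hΓ s3 s2 one_pos
  have e : c₁ * (c₁⁻¹ * x * c₁) * c₁⁻¹ = x := by group
  rw [e, hπ, norm_zero] at s4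
  refine s4.mono ?_
  have h1 := X.h71_flat_π (Ball.inv_mem hc₁)
  have hr1 : (1 : ℝ) ≤ r := by exact_mod_cast (by omega : 1 ≤ r)
  have h2 := hn₂ r (by omega)
  have h3 : L * m ≤ ε * r + L * A * B := by
    have h4 : L * m ≤ L * (A * (ε / (L * A) * r + B)) :=
      mul_le_mul_of_nonneg_left (hm.trans (mul_le_mul_of_nonneg_left (hB r) (by positivity)))
        (by positivity)
    have h5 : L * (A * (ε / (L * A) * r + B)) = ε * r + L * A * B := by field_simp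
    linarith
  have h6 : ((A * r + A : ℕ) : ℝ) ≤ 2 * A * r := by push_cast; nlinarith
  have h7 : ε * ‖X.π c₁⁻¹‖ ≤ ε * (X.K * X.K * (2 * A * r)) :=
    mul_le_mul_of_nonneg_left (h1.trans (mul_le_mul_of_nonneg_left h6 (by positivity))) hε.le
  have h8 := mul_le_mul_of_nonneg_left h6 hε.le
  nlinarith

/-- `box_gen` (levels `r + K ≤ 2 r`), induction on the list with `Small.mul` (`RB_π`, `RB_mem_Γ`;
`Small 1 0`) -/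
theorem small_box : ∃ C₃ : ℝ, 1 ≤ C₃ ∧ ∀ (c : ℕ) (C₀ ε : ℝ) (n₀ : ℕ), 0 < ε → ∃ n₂ : ℕ,
    ∀ 𝒰 ψ ψ' ω Φ, X.Hyp c 𝒰 ψ ψ' ω → X.Apx C₀ 𝒰 ψ ω ε n₀ Φ → ∀ r : ℕ, n₂ ≤ r →
      ∀ e ∈ X.Box (fun _ => r), X.Small 𝒰 ψ ω Φ e (C₃ * ε * r) := by
  obtain ⟨C₃, hC₃, h⟩ := X.small_letter
  have hK : (0 : ℝ) ≤ X.K := X.K.cast_nonneg
  have hK1 : (1 : ℝ) ≤ X.K := by exact_mod_cast X.one_le_K
  refine ⟨X.K * (2 * C₃ + 1), by nlinarith, fun c C₀ ε n₀ hε => ?_⟩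
  obtain ⟨n₂, hn₂⟩ := h c C₀ ε n₀ hε
  refine ⟨n₂ + X.K + 1, fun 𝒰 ψ ψ' ω Φ H hΦ r hr e he => ?_⟩
  obtain ⟨l, hl, hx, rfl⟩ := X.box_gen _ e he
  have hr1 : (1 : ℝ) ≤ r := by exact_mod_cast (by omega : 1 ≤ r)
  have hKr : (X.K : ℝ) ≤ r := by exact_mod_cast (by omega : X.K ≤ r)
  have hεr : 0 < ε * r := by positivity
  have key : ∀ l : List G, (∀ x ∈ l, ∃ i, x ∈ X.RB i ((r : ℝ) + X.K)) →
      X.π l.prod = 0 ∧ X.Small 𝒰 ψ ω Φ l.prod (l.length * ((2 * C₃ + 1) * ε * r)) := by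
    intro l
    induction l with
    | nil =>
      refine fun _ => ⟨X.π_hom.one, Filter.Eventually.of_forall fun i => ?_⟩
      simp [err, X.π_hom.one]
    | cons x l ih =>
      intro hx
      obtain ⟨i, hi⟩ := hx x List.mem_cons_self
      obtain ⟨h0, hs⟩ := ih fun y hy => hx y (List.mem_cons_of_mem _ hy)
      have s1 := hn₂ 𝒰 ψ ψ' ω Φ H hΦ (2 * r) (by omega) i x
        (X.RB_mono i _ _ (by push_cast; linarith) hi)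
      have s2 := Small.mul H hΦ (X.RB_mem_Γ hi) s1 hs hεr
      rw [List.prod_cons]
      refine ⟨by rw [X.π_hom, h0, X.RB_π hi, add_zero], s2.mono (le_of_eq ?_)⟩
      rw [h0, norm_zero, List.length_cons]
      push_cast
      ring
  refine (key l hx).2.mono ?_
  have h1 : (l.length : ℝ) ≤ X.K := by exact_mod_cast hl
  have h2 : 0 ≤ (2 * C₃ + 1) * ε * r := by positivity
  nlinarith [mul_le_mul_of_nonneg_right h1 h2]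

/-- `ball_sl`: `g = (e * c) * b`; `small_box`, `Apx.flat`, `small_short`, `Small.mul` twice -/
theorem small_all : ∃ C₃ : ℝ, 1 ≤ C₃ ∧ ∀ (c : ℕ) (C₀ ε : ℝ) (n₀ : ℕ), 0 < ε → ∃ n₂ : ℕ,
    ∀ 𝒰 ψ ψ' ω Φ, X.Hyp c 𝒰 ψ ψ' ω → X.Apx C₀ 𝒰 ψ ω ε n₀ Φ → ∀ n : ℕ, n₂ ≤ n →
      ∀ g ∈ Ball X.Sg n, X.Small 𝒰 ψ ω Φ g (C₃ * ε * n) := by
  obtain ⟨C₃, hC₃, h⟩ := X.small_box
  obtain ⟨K₁, hK₁, hsl⟩ := X.ball_sl
  have hK : (0 : ℝ) ≤ X.K := X.K.cast_nonneg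
  have hK₁' : (1 : ℝ) ≤ K₁ := by exact_mod_cast hK₁
  refine ⟨2 * K₁ * C₃ + K₁ + X.K * X.K * K₁ + X.K + 1, by nlinarith [mul_nonneg hK hK],
    fun c C₀ ε n₀ hε => ?_⟩
  obtain ⟨n₂, hn₂⟩ := h c C₀ ε n₀ hε
  obtain ⟨L, hL1, hL⟩ := X.small_short c C₀
  obtain ⟨n₃, hn₃⟩ := h71_big (L + L + 2) hε
  refine ⟨n₂ + n₃ + n₀ + 1, fun 𝒰 ψ ψ' ω Φ H hΦ n hn g hg => ?_⟩
  obtain ⟨e, he, c₁, hc₁, b, hb, rfl⟩ := hsl n g hg
  have s1 := hn₂ 𝒰 ψ ψ' ω Φ H hΦ (K₁ * n + K₁) (by nlinarith) e he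
  have s2 : X.Small 𝒰 ψ ω Φ c₁ _ := hΦ.flat _ (by nlinarith) c₁ hc₁
  have s3 := Small.mul H hΦ (X.box_mem_Γ he) s1 s2 one_pos
  have s4 := Small.mul H hΦ (X.Γ.mul_mem (X.box_mem_Γ he) (X.h71_flat_Γ hc₁)) s3
    (hL 𝒰 ψ ψ' ω ε n₀ Φ H hΦ 1 b hb) one_pos
  refine s4.mono ?_
  have hn1 : (1 : ℝ) ≤ n := by exact_mod_cast (by omega : 1 ≤ n)
  have h1 := mul_le_mul_of_nonneg_left (X.h71_flat_π hc₁) hε.le
  have h2 := mul_le_mul_of_nonneg_left (X.π_ball hb) hε.le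
  have h3 := hn₃ n (by omega)
  have h4 : C₃ * ε * K₁ ≤ C₃ * ε * K₁ * n := le_mul_of_one_le_right (by positivity) hn1
  have h5 : ε * X.K ≤ ε * X.K * n := le_mul_of_one_le_right (by positivity) hn1
  push_cast at h1 h2 ⊢
  nlinarith

/-- (H2) `KR` from `exists_fol (3 c + 1)`, `ε₂, n₁` from `rev`, `ε = ε' ε₂² / (2 C₃)`; a Følner set `D`
at a scale `n ≥ n₁, n₂` with `L ≤ ε₂ n / 2` (`err_lip`); `cells`, `markov_cells` with `s = ε₂`,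
`t = ε₂ n / 2`, `W = μ.real D`; off the Markov set apply `rev` to `QP.shift x`, `f₀ = π (ψ x)` -/
theorem h2 (hV : X.VP) (c : ℕ) (C₀ : ℝ) (hC : 1 ≤ C₀) {ε' : ℝ} (hε' : 0 < ε') :
    ∃ ε : ℝ, 0 < ε ∧ ∀ 𝒰 ψ ψ' ω n₀ Φ, X.Hyp c 𝒰 ψ ψ' ω → X.Apx C₀ 𝒰 ψ ω ε n₀ Φ →
      ∀ᶠ i in (𝒰 : Filter ℕ),
        (ω i).real {x | (∀ v, ‖v‖ ≤ C₀ * ‖Φ i x v‖) ∧ ¬ X.Rev ε' (Φ i x)} ≤ ε' := by
  classical
  obtain ⟨KR, hKR⟩ := X.exists_fol (3 * c + 1)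
  obtain ⟨ε₂, hε₂, n₁, hrev⟩ := X.rev hV c C₀ KR hC hε'
  obtain ⟨C₃, hC₃, hall⟩ := X.small_all
  obtain ⟨L, hL, hlip⟩ := X.err_lip c C₀
  obtain ⟨L', hL', hle⟩ := X.err_le c C₀
  have hC₃' : 0 < C₃ := by linarith
  refine ⟨ε' * ε₂ ^ 2 / (2 * C₃), by positivity, fun 𝒰 ψ ψ' ω n₀ Φ H hA => ?_⟩
  obtain ⟨n₂, hn₂⟩ := hall c C₀ (ε' * ε₂ ^ 2 / (2 * C₃)) n₀ (by positivity)
  obtain ⟨n₃, hn₃⟩ := exists_nat_ge (2 * L / ε₂)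
  obtain ⟨n, hn, D, hD⟩ := hKR (max (max n₁ n₂) (max n₃ 1))
  have hn1 : n₁ ≤ n := by omega
  have hn2 : n₂ ≤ n := by omega
  have hn3 : (n₃ : ℝ) ≤ n := by exact_mod_cast (by omega : n₃ ≤ n)
  have hn0 : (0 : ℝ) < n := by exact_mod_cast (by omega : 0 < n)
  have hLn : L ≤ ε₂ * n / 2 := by
    have := (div_le_iff₀ hε₂).1 (hn₃.trans hn3)
    linarith
  obtain ⟨F, hF, w, hw0, hw1, hw2⟩ := X.cells n hD.meas hD.sub
  have hW : 0 < X.μ.real D :=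
    ENNReal.toReal_pos hD.pos (ne_top_of_le_ne_top (X.ball_fin n) (measure_mono hD.sub))
  have hev : ∀ᶠ i in (𝒰 : Filter ℕ), ∀ f ∈ F,
      ∫ x, X.err (ψ i) (Φ i) f x ∂(ω i) ≤ C₃ * (ε' * ε₂ ^ 2 / (2 * C₃)) * n :=
    (Filter.eventually_all_finset F).2 fun f hf => hn₂ 𝒰 ψ ψ' ω Φ H hA n hn2 f (hF hf)
  refine hev.mono fun i hi => ?_
  have := H.prob i
  have hM := markov_cells (ω := ω i) F w (X.err (ψ i) (Φ i)) (s := ε₂) (t := ε₂ * n / 2)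
    (B := L' * n + L') hW hε₂ (by positivity) (by positivity) hw0 hw1
    (fun f => X.meas_err (H.qp i).step (hA.step i) f) (X.err_nonneg _ _)
    (fun f hf x => hle _ (H.qp i).qi _ (hA.bd i) n f (hF hf) x) hi
  refine le_trans (measureReal_mono ?_) (hM.trans (le_of_eq ?_))
  · rintro x ⟨hx1, hx2⟩
    by_contra hx
    apply hx2
    refine hrev n hn1 D hD _ _ ((H.qp i).shift x) (Φ i x) (hA.bd i x) hx1 (X.π (ψ i x)) ?_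
    refine le_trans (hw2 (fun f => ε₂ * n / 2 < X.err (ψ i) (Φ i) f x) _ (fun g hg => hg.1)
      fun g hg f _ hfg => ?_) (not_lt.1 hx)
    have h1 := hlip _ (H.qp i).qi _ (hA.bd i) f g hfg x
    have h2 : ε₂ * n < X.err (ψ i) (Φ i) g x := by
      have := hg.2
      unfold err
      rwa [sub_right_comm]
    linarith
  · field_simp

/-- enlarge `C₀` by the constant of `exp_lower`; `near_of` gives `ε₃`; `h2` with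
`ε' = min ε₃ (ε / 2)`; `H1` with `ε₁ = min` of everything; `Apx.mono`, `Exp.mono`, `Rev.mono` -/
theorem h4 (hV : X.VP) (h1 : X.H1) : X.H4 := by
  intro c
  obtain ⟨C₀, hC₀, h1⟩ := h1 c
  obtain ⟨ε₀, hε₀, C, hC, hlow⟩ := X.exp_lower
  refine ⟨max C₀ C, le_max_of_le_left hC₀, fun 𝒰 ψ ψ' ω H ε hε => ?_⟩
  obtain ⟨ε₃, hε₃, hnear⟩ := X.near_of (max C₀ C) hε
  obtain ⟨ε₄, hε₄, h2⟩ := X.h2 hV c (max C₀ C) (le_max_of_le_left hC₀) (ε' := min ε₃ (ε / 2))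
    (by positivity)
  obtain ⟨ε₁, hε₁, e0, e3, e4, e5⟩ :
      ∃ ε₁ : ℝ, 0 < ε₁ ∧ ε₁ ≤ ε₀ ∧ ε₁ ≤ ε₃ ∧ ε₁ ≤ ε₄ ∧ ε₁ ≤ ε / 2 :=
    ⟨min (min ε₀ ε₃) (min ε₄ (ε / 2)), by positivity, (min_le_left _ _).trans (min_le_left _ _),
      (min_le_left _ _).trans (min_le_right _ _), (min_le_right _ _).trans (min_le_left _ _),
      (min_le_right _ _).trans (min_le_right _ _)⟩
  obtain ⟨n₀, Φ, hA, hE⟩ := h1 𝒰 ψ ψ' ω H ε₁ hε₁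
  have hA' : X.Apx (max C₀ C) 𝒰 ψ ω ε₁ n₀ Φ :=
    ⟨hA.step, fun i x v => (hA.bd i x v).trans
      (mul_le_mul_of_nonneg_right (le_max_left _ _) (norm_nonneg _)), hA.flat, hA.inv⟩
  refine ⟨n₀, Φ, hA'.mono (by linarith), ?_⟩
  filter_upwards [hE, h2 𝒰 ψ ψ' ω n₀ Φ H (hA'.mono e4)] with i h3 h4
  have := H.prob i
  have hsub : {x | ¬ X.Near ε (Φ i x)} ⊆ {x | ¬ X.Exp ε₁ (Φ i x)} ∪
      {x | (∀ v, ‖v‖ ≤ max C₀ C * ‖Φ i x v‖) ∧ ¬ X.Rev (min ε₃ (ε / 2)) (Φ i x)} := by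
    intro x hx
    by_cases he : X.Exp ε₁ (Φ i x)
    · refine Or.inr ⟨fun v => (hlow _ (he.mono e0) v).trans
        (mul_le_mul_of_nonneg_right (le_max_right _ _) (norm_nonneg _)), fun hr => hx ?_⟩
      exact hnear _ (hA'.bd i x) (he.mono e3) (hr.mono (min_le_left _ _))
    · exact Or.inl he
  have h5 := (measureReal_mono (μ := ω i) hsub).trans (measureReal_union_le _ _)
  have h6 := min_le_right ε₃ (ε / 2)
  linarith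

end Geo

end Crest.Agent.R182
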