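import Crest.Agent.R182.MV

/-! Row 182, block M4 (`Pure → UL`): definitions and the parameter filter. -/

set_option autoImplicit false
set_option linter.dupNamespace false
set_option linter.unusedSectionVars false

namespace Crest.Agent.R182

open Crest.GroupTheory MeasureTheory Filter Topology

/-- linear maps of the height space -/
abbrev En (k : ℕ) : Type := Module.End ℝ (Fin k → ℝ)

/-- eventually in the parameters: `δ → 0⁺`, then `η → 0⁺`, then `n → ∞` -/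
def EV (P : ℝ → ℝ → ℕ → Prop) : Prop :=
  ∀ᶠ δ in 𝓝[>] (0 : ℝ), ∀ᶠ η in 𝓝[>] (0 : ℝ), ∀ᶠ n in atTop, P δ η n

theorem EV.mono {P Q : ℝ → ℝ → ℕ → Prop} (h : EV P) (H : ∀ δ η n, P δ η n → Q δ η n) : EV Q :=
  Eventually.mono h fun δ h => h.mono fun η h => h.mono fun n h => H δ η n h

theorem EV.and {P Q : ℝ → ℝ → ℕ → Prop} (h : EV P) (h' : EV Q) :
    EV fun δ η n => P δ η n ∧ Q δ η n :=
  (Eventually.and h h').mono fun _ h => (h.1.and h.2).mono fun _ h => h.1.and h.2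

theorem EV.all {I : Type*} [Finite I] {P : I → ℝ → ℝ → ℕ → Prop} (h : ∀ i, EV (P i)) :
    EV fun δ η n => ∀ i, P i δ η n :=
  (eventually_all.2 h).mono fun _ h => (eventually_all.2 h).mono fun _ h => eventually_all.2 h

theorem EV.small {a : ℝ} (ha : 0 < a) : EV fun δ η _ => 0 < δ ∧ δ ≤ a ∧ 0 < η ∧ η ≤ a := by
  have h : ∀ᶠ x in 𝓝[>] (0 : ℝ), 0 < x ∧ x ≤ a := Ioc_mem_nhdsGT ha
  exact h.mono fun _ h1 => h.mono fun _ h2 => Eventually.of_forall fun _ => ⟨h1.1, h1.2, h2⟩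

theorem EV.large (f : ℝ → ℝ → ℝ) : EV fun δ η n => f δ η ≤ n :=
  Eventually.of_forall fun δ => Eventually.of_forall fun η =>
    tendsto_natCast_atTop_atTop.eventually_ge_atTop (f δ η)

theorem EV.lg (R : ℕ) {κ : ℝ} (hκ : 0 < κ) : EV fun _ _ n => lg (R * n) ≤ κ * n := by
  obtain ⟨B, -, hB⟩ := lg_le_lin (δ := κ / (2 * (R + 1))) (by positivity)
  refine (EV.large fun _ _ => 2 * B / κ).mono fun _ _ n hn => (hB _).trans ?_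
  have h1 : B ≤ κ / 2 * n := by
    rw [div_le_iff₀ hκ] at hn
    linarith
  have h2 : κ / (2 * (R + 1)) * ((R * n : ℕ) : ℝ) ≤ κ / 2 * n := by
    push_cast
    rw [div_mul_eq_mul_div, div_le_iff₀ (by positivity)]
    have : (0 : ℝ) ≤ κ * n := by positivity
    nlinarith
  linarith

/-- finite families of height vectors containing `0` -/
def Fam {k : ℕ} (N : ℕ) (F : Set (Fin k → ℝ)) (T : ℝ) : Prop :=
  F.Finite ∧ (0 : Fin k → ℝ) ∈ F ∧ F.ncard ≤ N ∧ ∀ v ∈ F, ‖v‖ ≤ T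

namespace Geo

variable {G : Type} [Group G] [MeasurableSpace G] [MeasurableMul₂ G] [MeasurableInv G] {k : ℕ}
  (X : Geo G k)

theorem ev_nu : EV fun _ η n =>
    (∀ (a : X.ι → ℝ) (t : ℝ), (n : ℝ) ≤ t → ∀ g ∈ X.Box a,
      TVr (X.ν fun i => a i + t) g η ∧ TVl (X.ν fun i => a i + t) g η) ∧
    ∀ i (b t : ℝ), (n : ℝ) ≤ t → ∀ g ∈ X.RB i b,
      TVr (X.νR i (b + t)) g η ∧ TVl (X.νR i (b + t)) g η := by
  refine Eventually.of_forall fun _ => Eventually.mono self_mem_nhdsWithin fun η hη => ?_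
  obtain ⟨t₀, h₀⟩ := X.ν_inv η hη
  obtain ⟨t₁, h₁⟩ := X.νR_inv η hη
  filter_upwards [tendsto_natCast_atTop_atTop.eventually_ge_atTop t₀,
    tendsto_natCast_atTop_atTop.eventually_ge_atTop t₁] with n h2 h3
  exact ⟨fun a t ht => h₀ a t (h2.trans ht), fun i b t ht => h₁ i b t (h3.trans ht)⟩

/-- `x` carries the label `w` -/
def Lb (Wp : En k → Prop) (ψ : G → G) (n : ℕ) (δ : ℝ) (x : G) (w : En k) : Prop :=
  Wp w ∧ X.Lab ψ n δ x w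

/-- the standing hypotheses -/
structure Cx (Wp : En k → Prop) (c A : ℕ) (δ η : ℝ) (n : ℕ) (ψ : G → G) : Prop where
  qi : QI X.Sg X.Sg ψ c
  step : Step ψ
  sub : ∀ w, Wp w → X.IsW w
  pl : ∀ ζ : Measure G, IsProbabilityMeasure ζ → X.Inv ζ (fun _ => A * n) (2 * η) →
    ζ.real {z | ¬ ∃ w, X.Lb Wp ψ n δ z w} ≤ δ

/-- eventually, under the standing hypotheses -/
def EVC (Wp : En k → Prop) (c A : ℕ) (P : ℝ → ℝ → ℕ → (G → G) → Prop) : Prop :=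
  EV fun δ η n => ∀ ψ, X.Cx Wp c A δ η n ψ → P δ η n ψ

variable {X} in
theorem EVC.mono {Wp : En k → Prop} {c A : ℕ} {P Q : ℝ → ℝ → ℕ → (G → G) → Prop}
    (h : X.EVC Wp c A P) (H : ∀ δ η n ψ, X.Cx Wp c A δ η n ψ → P δ η n ψ → Q δ η n ψ) :
    X.EVC Wp c A Q :=
  EV.mono h fun δ η n h ψ hψ => H δ η n ψ hψ (h ψ hψ)

variable {X} in
theorem EVC.and {Wp : En k → Prop} {c A : ℕ} {P Q : ℝ → ℝ → ℕ → (G → G) → Prop}
    (h : X.EVC Wp c A P) (h' : X.EVC Wp c A Q) :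
    X.EVC Wp c A fun δ η n ψ => P δ η n ψ ∧ Q δ η n ψ :=
  (EV.and h h').mono fun _ _ _ h ψ hψ => ⟨h.1 ψ hψ, h.2 ψ hψ⟩

variable {X} in
/-- add a condition on the parameters -/
theorem EVC.and_ev {Wp : En k → Prop} {c A : ℕ} {P : ℝ → ℝ → ℕ → (G → G) → Prop}
    {Q : ℝ → ℝ → ℕ → Prop} (h : X.EVC Wp c A P) (h' : EV Q) :
    X.EVC Wp c A fun δ η n ψ => P δ η n ψ ∧ Q δ η n :=
  (EV.and h h').mono fun _ _ _ h ψ hψ => ⟨h.1 ψ hψ, h.2⟩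

theorem evc_of_ev (Wp : En k → Prop) (c A : ℕ) {Q : ℝ → ℝ → ℕ → Prop} (h : EV Q) :
    X.EVC Wp c A fun δ η n _ => Q δ η n :=
  h.mono fun _ _ _ h _ _ => h

/-- labels are unique -/
def Uq (Wp : En k → Prop) (ψ : G → G) (n : ℕ) (δ : ℝ) : Prop :=
  ∀ x w w', X.Lb Wp ψ n δ x w → X.Lb Wp ψ n δ x w' → w = w'

/-- same label `w`, and the image heights differ by `w d` up to `E` -/
def Rel (Wp : En k → Prop) (ψ : G → G) (n : ℕ) (δ E : ℝ) (d : Fin k → ℝ) (x y : G) : Prop :=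
  ∃ w, X.Lb Wp ψ n δ x w ∧ X.Lb Wp ψ n δ y w ∧ ‖X.π (ψ y) - X.π (ψ x) - w d‖ ≤ E

/-- the images are joined by a path whose heights relative to `ψ x` stay `E`-near the levels `a` -/
def Jn (ψ : G → G) (a : X.ι → ℝ) (E : ℝ) (m : ℕ) (x y : G) : Prop :=
  ‖X.π (ψ y) - X.π (ψ x)‖ ≤ E ∧
    Reach X.Sg {z | ∃ v, ‖v‖ ≤ E ∧ ∀ i, X.χ i (X.π z - X.π (ψ x) - v) ≤ a i} (ψ x) m (ψ y)

/-- same label `w` and joined below the levels of `w F` -/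
def JE (Wp : En k → Prop) (ψ : G → G) (n : ℕ) (δ : ℝ) (F : Set (Fin k → ℝ)) (E : ℝ) (m : ℕ)
    (x y : G) : Prop :=
  ∃ w, X.Lb Wp ψ n δ x w ∧ X.Lb Wp ψ n δ y w ∧ X.Jn ψ (lev X.χ (w '' F)) E m x y

/-- good along the flat path `p` -/
def PG (Wp : En k → Prop) (ψ : G → G) (n : ℕ) (δ : ℝ) (p : ℕ → G) (N : ℕ) (x : G) (w : En k) :
    Prop :=
  X.Lb Wp ψ n δ x w ∧ X.Lb Wp ψ n δ (x * p N) w ∧
    ∀ j ≤ N, ‖X.π (ψ (x * p j)) - X.π (ψ x) - w (X.π (p j))‖ ≤ n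

/-- a flat path running along the segments `[0, v]`, `v ∈ F`; class `i` is maximal at time `tp i` -/
structure Tour (K₇ : ℕ) (F : Set (Fin k → ℝ)) (p : ℕ → G) (N : ℕ) (tp : X.ι → ℕ) : Prop where
  fp : X.FP p N
  le : ∀ i, tp i ≤ N
  top : ∀ i, lev X.χ F i - K₇ ≤ X.χ i (X.π (p (tp i)))
  near : ∀ j ≤ N, ∃ v ∈ F, ∃ t : ℝ, 0 ≤ t ∧ t ≤ 1 ∧ ‖X.π (p j) - t • v‖ ≤ K₇

/-- good along a tour -/
def Gd (Wp : En k → Prop) (ψ : G → G) (n : ℕ) (δ : ℝ) (p : ℕ → G) (N : ℕ) (tp : X.ι → ℕ) (x : G)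
    (w : En k) : Prop :=
  X.PG Wp ψ n δ p N x w ∧ ∀ i, X.Lb Wp ψ n δ (x * p (tp i)) w

/-- level `ρ₀` in class `i`, level `ρ₁` in the other classes -/
def gl (i : X.ι) (ρ₀ ρ₁ : ℝ) : X.ι → ℝ := fun j => if j = i then ρ₀ else ρ₁

/-- the level excess of a product of at most `K` letters -/
noncomputable def r₁ : ℝ := X.K + X.K * lg X.K

/-- `χ j ∘ w` is a positive multiple of `χ i` -/
def Par (w : En k) (i j : X.ι) (t : ℝ) : Prop := 0 < t ∧ ∀ v, X.χ j (w v) = t * X.χ i v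

/-- gap moves -/
def GapS (Wp : En k → Prop) (ψ : G → G) (n : ℕ) (δ η' ρ₀ ρ₁ b E θ : ℝ) : Prop :=
  ∀ (i : X.ι) (ζ : Measure G), IsProbabilityMeasure ζ → ∀ q ∈ X.RB i b,
    X.Inv ζ (X.gl i ρ₀ ρ₁) η' → X.Inv (ζ.map fun x => x * q) (X.gl i ρ₀ ρ₁) η' →
      ζ.real {z | ¬ X.Rel Wp ψ n δ E 0 z (z * q)} ≤ θ

/-- letters exceeding the invariance level by `g` -/
def LetS (Wp : En k → Prop) (ψ : G → G) (n : ℕ) (δ η' T ρ g E θ : ℝ) : Prop :=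
  ∀ (i : X.ι) (v : Fin k → ℝ) (a : X.ι → ℝ) (ζ : Measure G), IsProbabilityMeasure ζ → ‖v‖ ≤ T →
    (∀ j, ρ ≤ a j) → (∀ j, X.χ j v + ρ ≤ a j) → ∀ q ∈ X.RB i (X.χ i v + ρ + g),
      X.Inv ζ a η' → X.Inv (ζ.map fun x => x * q) a η' →
        ζ.real {z | ¬ X.Rel Wp ψ n δ E 0 z (z * q)} ≤ θ

/-- probability of an event for the pair `(z, z m)`, `z ∼ ζ`, `m ∼ νR i b` -/
noncomputable def pr (ζ : Measure G) (i : X.ι) (b : ℝ) (A : Set (G × G)) : ℝ :=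
  (ζ.prod (X.νR i b)).real {p | (p.1, p.1 * p.2) ∈ A}

/-- labels `w`, `w'` and a small displacement in class `j` -/
def TE (Wp : En k → Prop) (ψ : G → G) (n : ℕ) (δ : ℝ) (w w' : En k) (j : X.ι) (β : ℝ) :
    Set (G × G) :=
  {p | X.Lb Wp ψ n δ p.1 w ∧ X.Lb Wp ψ n δ p.2 w' ∧ X.χ j (X.π (ψ p.2) - X.π (ψ p.1)) ≤ β}

/-- the setting of the big move -/
structure TS (K₈ M₁ N₀ R n : ℕ) (η : ℝ) (i : X.ι) (b T : ℝ) (F : Set (Fin k → ℝ))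
    (ζ : Measure G) : Prop where
  prob : IsProbabilityMeasure ζ
  lo : (K₈ : ℝ) * n ≤ b
  hi : b ≤ R * n
  hT : T ≤ R * n
  fam : Fam N₀ F T
  neg : ∀ s ∈ F, X.χ i s ≤ 0
  inv : X.Inv ζ (X.gl i (K₈ * n) (M₁ * (T + b))) η

/-- the probabilistic core of the big move -/
def TBP (Wp : En k → Prop) (c A K₈ M₁ K₉ K₁₀ : ℕ) : Prop :=
  ∀ (N₀ R : ℕ) (θ : ℝ), 0 < θ → ∃ M : ℕ, X.EVC Wp c A fun δ η n ψ =>
    ∀ i b T F ζ, X.TS K₈ M₁ N₀ R n η i b T F ζ → ∀ A₂ : Set (G × G), MeasurableSet A₂ →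
      θ ≤ X.pr ζ i b A₂ → ∃ ν₃ : Measure G, IsProbabilityMeasure ν₃ ∧
        ∀ g ∈ X.Box fun j => lev X.χ F j + X.r₁, θ / 2 ≤ ((ζ.prod ν₃).prod (X.νR i b)).real
          {p | X.JE Wp ψ n δ F (K₉ * n) (M * n) p.1.1 (p.1.1 * g) ∧
            (p.1.1 * g, p.1.1 * g * p.2) ∈ A₂ ∧
            X.JE Wp ψ n δ (insert ((b - K₁₀ * n) • X.u i) F) (K₉ * n) (M * n)
              (p.1.1 * g * p.2) (p.1.1 * p.1.2)}

/-- first count -/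
def TB1 (Wp : En k → Prop) (c A K₈ M₁ K₁₀ K₅ : ℕ) : Prop :=
  ∀ (N₀ R : ℕ) (θ : ℝ), 0 < θ → X.EVC Wp c A fun δ η n ψ =>
    ∀ i b T F ζ, X.TS K₈ M₁ N₀ R n η i b T F ζ → ∀ w w' j β,
      θ ≤ X.pr ζ i b (X.TE Wp ψ n δ w w' j β) → lev X.χ (w '' F) j ≤
        max (β + lev X.χ (w' '' insert ((b - K₁₀ * n) • X.u i) F) j) (K₅ * b) + K₅ * n

/-- second count -/
def TB2 (Wp : En k → Prop) (c A K₈ M₁ K₁₀ K₅ : ℕ) : Prop :=
  ∀ (N₀ R : ℕ) (θ : ℝ), 0 < θ → X.EVC Wp c A fun δ η n ψ =>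
    ∀ i b T F ζ, X.TS K₈ M₁ N₀ R n η i b T F ζ → ∀ w w' j β,
      θ ≤ X.pr ζ i b (X.TE Wp ψ n δ w w' j β) → (∀ j', j' ≠ j → K₅ * b ≤ lev X.χ (w '' F) j') →
        X.dim i * b ≤ X.dim j * (β + lev X.χ (w' '' insert ((b - K₁₀ * n) • X.u i) F) j -
          lev X.χ (w '' F) j) + K₅ * n

/-- consequences of the two counts -/
def TBC (Wp : En k → Prop) (c A K₈ M₂ K₅ : ℕ) : Prop :=
  ∀ (R : ℕ) (θ : ℝ), 0 < θ → X.EVC Wp c A fun δ η n ψ =>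
    ∀ (i : X.ι) (b : ℝ) (ζ : Measure G), IsProbabilityMeasure ζ → (K₈ : ℝ) * n ≤ b → b ≤ R * n →
      X.Inv ζ (X.gl i (K₈ * n) (M₂ * b)) η →
        X.pr ζ i b {p | ¬ ∃ w, X.Lb Wp ψ n δ p.1 w ∧ X.Lb Wp ψ n δ p.2 w} ≤ θ ∧
        ∀ w j β, θ ≤ X.pr ζ i b (X.TE Wp ψ n δ w w j β) →
          ((¬ ∃ t, X.Par w i j t) → -(K₅ * n : ℝ) ≤ β) ∧
          (∀ t, X.Par w i j t → X.dim i * b ≤ X.dim j * (β + t * b) + K₅ * n) ∧
          ((∀ j' t, ¬ X.Par w i j' t) → X.dim i * b ≤ X.dim j * β + K₅ * n)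

/-- gap moves preserve the image heights -/
def GAP (Wp : En k → Prop) (c A K₈ M₂ K₁₂ : ℕ) : Prop :=
  ∀ (R : ℕ) (θ : ℝ), 0 < θ → X.EVC Wp c A fun δ η n ψ => ∀ b : ℝ, (K₈ : ℝ) * n ≤ b → b ≤ R * n →
    X.GapS Wp ψ n δ η (K₈ * n) (M₂ * b) b (K₁₂ * n) θ

/-- box moves preserve the image heights -/
def MOVE (Wp : En k → Prop) (c A M₅ K₁₃ : ℕ) : Prop :=
  ∀ (R : ℕ) (θ : ℝ), 0 < θ → X.EVC Wp c A fun δ η n ψ =>
    ∀ (ρ g : ℝ) (ζ : Measure G), IsProbabilityMeasure ζ → (n : ℝ) ≤ g → M₅ * g ≤ ρ → ρ ≤ R * n →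
      X.Inv ζ (fun _ => ρ) η → ∀ m ∈ X.Box fun _ => ρ + g,
        ζ.real {z | ¬ X.Rel Wp ψ n δ (K₁₃ * n) 0 z (z * m)} ≤ θ

/-- neighbouring boxes -/
def STEP (Wp : En k → Prop) (c A M₆ K₁₄ : ℕ) : Prop :=
  ∀ (R : ℕ) (θ : ℝ), 0 < θ → X.EVC Wp c A fun δ _ n ψ =>
    ∀ (s : ℕ) (L : ℝ), n ≤ s → (M₆ : ℝ) * s ≤ L → L ≤ R * n → ∀ p : G,
      ∀ e ∈ X.Box fun _ => s, ∀ d ∈ Ball (X.SC : Set G) s,
        ((X.ν fun _ => L).prod (X.ν fun _ => L)).real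
          {y | ¬ X.Rel Wp ψ n δ (K₁₄ * n) (X.π d) (p * y.1) (p * e * d * y.2)} ≤ θ

end Geo

end Crest.Agent.R182
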