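import Crest.Agent.R182.MBasic

/-! Row 182, block M4: linear algebra of labels. -/

set_option autoImplicit false
set_option linter.dupNamespace false

namespace Crest.Agent.R182

open Crest.GroupTheory MeasureTheory

/-- Farkas in dimension one -/
theorem farkas1 {V : Type*} [AddCommGroup V] [Module ℝ V] (φ ψ : V →ₗ[ℝ] ℝ) {u : V}
    (hu : ψ u = 1) (hφ : φ ≠ 0) :
    (∃ t : ℝ, 0 < t ∧ ∀ v, φ v = t * ψ v) ∨ ∃ v, ψ v ≤ 0 ∧ 0 < φ v := by
  by_cases h : ∃ v, ψ v ≤ 0 ∧ 0 < φ v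
  · exact Or.inr h
  · left
    push Not at h
    have h1 : ∀ v, φ v = φ u * ψ v := fun v => by
      have e : ψ (v - ψ v • u) = 0 := by simp [hu]
      have a1 := h _ e.le
      have a2 := h (-(v - ψ v • u)) (by rw [map_neg, e]; simp)
      rw [map_neg] at a2
      have a3 : φ (v - ψ v • u) = 0 := by linarith
      rw [map_sub, map_smul, smul_eq_mul] at a3
      linarith
    have h2 : 0 ≤ φ u := by
      have := h (-u) (by rw [map_neg, hu]; norm_num)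
      rw [map_neg] at this
      linarith
    refine ⟨φ u, lt_of_le_of_ne h2 fun h0 => hφ ?_, h1⟩
    ext v
    rw [h1 v, ← h0]
    simp

/-- a uniform positive lower bound over a finite set -/
theorem exists_unif {α : Type*} {s : Set α} (hs : s.Finite) (P : α → ℝ → Prop)
    (hm : ∀ a κ κ', 0 < κ' → κ' ≤ κ → P a κ → P a κ') (h : ∀ a ∈ s, ∃ κ, 0 < κ ∧ P a κ) :
    ∃ κ, 0 < κ ∧ κ ≤ 1 ∧ ∀ a ∈ s, P a κ := by
  induction s, hs using Set.Finite.induction_on with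
  | empty => exact ⟨1, one_pos, le_rfl, fun a ha => ha.elim⟩
  | @insert a s _ _ ih =>
    obtain ⟨κ, h0, h1, h2⟩ := ih fun b hb => h b (Set.mem_insert_of_mem _ hb)
    obtain ⟨κ', h0', h3⟩ := h a (Set.mem_insert _ _)
    refine ⟨min κ κ', lt_min h0 h0', (min_le_left _ _).trans h1, fun b hb => ?_⟩
    rcases hb with rfl | hb
    · exact hm _ _ _ (lt_min h0 h0') (min_le_right _ _) h3
    · exact hm _ _ _ (lt_min h0 h0') (min_le_left _ _) (h2 b hb)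

namespace Geo

variable {G : Type} [Group G] [MeasurableSpace G] {k : ℕ} (X : Geo G k)

/-- `χ j ∘ w` is a positive multiple of `χ i` -/
def Prp (w : Module.End ℝ (Fin k → ℝ)) (i j : X.ι) (t : ℝ) : Prop :=
  0 < t ∧ ∀ v, X.χ j (w v) = t * X.χ i v

theorem IsW.surj {X : Geo G k} {w : Module.End ℝ (Fin k → ℝ)} (h : X.IsW w) (x : Fin k → ℝ) :
    ∃ v, w v = x := by
  obtain ⟨w', -, h1, -⟩ := h.inv
  exact ⟨w' x, by rw [← Module.End.mul_apply, h1]; rfl⟩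

theorem Prp.unique {X : Geo G k} {w : Module.End ℝ (Fin k → ℝ)} (h : X.IsW w) {i j j' : X.ι}
    {t t' : ℝ} (h1 : X.Prp w i j t) (h2 : X.Prp w i j' t') : j = j' := by
  refine X.eq_of_prop (t := t / t') (div_pos h1.1 h2.1) fun x => ?_
  obtain ⟨v, rfl⟩ := h.surj x
  rw [h1.2, h2.2]
  have := h2.1.ne'
  field_simp

theorem Prp.unique_t {X : Geo G k} {w : Module.End ℝ (Fin k → ℝ)} {i j : X.ι}
    {t t' : ℝ} (h1 : X.Prp w i j t) (h2 : X.Prp w i j t') : t = t' := by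
  have a := h1.2 (X.u i)
  rw [h2.2, X.u_self] at a
  linarith

theorem arm0 {w : Module.End ℝ (Fin k → ℝ)} (h : X.IsW w) (i j : X.ι) :
    (∃ t, X.Prp w i j t) ∨ ∃ v, X.χ i v ≤ 0 ∧ 0 < X.χ j (w v) := by
  refine farkas1 ((X.χ j).comp w) (X.χ i) (X.u_self i) fun h0 => X.χ_ne_zero j ?_
  refine LinearMap.ext fun x => ?_
  obtain ⟨v, rfl⟩ := h.surj x
  exact LinearMap.congr_fun h0 v

theorem h59_norm {v : Fin k → ℝ} (hv : v ≠ 0) : ‖‖v‖⁻¹ • v‖ ≤ 1 := by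
  rw [norm_smul, norm_inv, norm_norm, inv_mul_cancel₀ (norm_ne_zero_iff.2 hv)]

/-- arms: directions in the half space `χ i ≤ 0` which raise the image class `j` -/
theorem arm₁ : ∃ κ : ℝ, 0 < κ ∧ κ ≤ 1 ∧ ∀ w, X.IsW w → ∀ i j, (∃ t, X.Prp w i j t) ∨
    ∃ v, ‖v‖ ≤ 1 ∧ X.χ i v ≤ 0 ∧ κ ≤ X.χ j (w v) := by
  obtain ⟨κ, h0, h1, h2⟩ := exists_unif
    (X.isW_finite.prod (Set.finite_univ (α := X.ι × X.ι)))
    (fun p κ => (∃ t, X.Prp p.1 p.2.1 p.2.2 t) ∨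
      ∃ v, ‖v‖ ≤ 1 ∧ X.χ p.2.1 v ≤ 0 ∧ κ ≤ X.χ p.2.2 (p.1 v))
    (fun p κ κ' _ hk h => h.imp id fun ⟨v, a, b, c⟩ => ⟨v, a, b, hk.trans c⟩)
    (fun p hp => by
      rcases X.arm0 hp.1 p.2.1 p.2.2 with h | ⟨v, a, b⟩
      · exact ⟨1, one_pos, Or.inl h⟩
      · have hv : v ≠ 0 := by rintro rfl; simp at b
        have hn : 0 < ‖v‖⁻¹ := inv_pos.2 (norm_pos_iff.2 hv)
        refine ⟨‖v‖⁻¹ * X.χ p.2.2 (p.1 v), mul_pos hn b, Or.inr ⟨‖v‖⁻¹ • v, h59_norm hv, ?_, ?_⟩⟩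
        · rw [map_smul, smul_eq_mul]
          exact mul_nonpos_of_nonneg_of_nonpos hn.le a
        · rw [map_smul, map_smul, smul_eq_mul])
  exact ⟨κ, h0, h1, fun w hw i j => h2 (w, i, j) ⟨hw, trivial⟩⟩

/-- a direction raising the class `j` but not the class `i` -/
theorem side : ∃ B : ℝ, 1 ≤ B ∧ ∀ i j, j ≠ i →
    ∃ v, ‖v‖ ≤ B ∧ X.χ i v ≤ 0 ∧ X.χ j v = 1 := by
  obtain ⟨κ, h0, h1, h⟩ := X.arm₁
  refine ⟨κ⁻¹, one_le_inv_iff₀.2 ⟨h0, h1⟩, fun i j hij => ?_⟩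
  rcases h 1 X.isW_one i j with ⟨t, ht, h2⟩ | ⟨v, a, b, c⟩
  · exact absurd (X.eq_of_prop ht h2) hij
  · have c' : κ ≤ X.χ j v := c
    have hp : 0 < X.χ j v := h0.trans_le c'
    refine ⟨(X.χ j v)⁻¹ • v, ?_, ?_, ?_⟩
    · rw [norm_smul, Real.norm_eq_abs, abs_of_pos (inv_pos.2 hp)]
      calc _ ≤ (X.χ j v)⁻¹ * 1 := mul_le_mul_of_nonneg_left a (inv_pos.2 hp).le
        _ ≤ κ⁻¹ := by rw [mul_one]; exact inv_anti₀ h0 c'
    · rw [map_smul, smul_eq_mul]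
      exact mul_nonpos_of_nonneg_of_nonpos (inv_pos.2 hp).le b
    · rw [map_smul, smul_eq_mul, inv_mul_cancel₀ hp.ne']

/-- `V` is strictly monotone -/
theorem eq_of_V_le {a a' : X.ι → ℝ} (h : a ≤ a') (hV : X.V a' ≤ X.V a) : a = a' := by
  obtain ⟨b, hb⟩ := X.exists_V a
  have h1 := X.le_V b a'
  have h2 : ∑ i, X.wt b i * (a' i - a i) = 0 := by
    apply le_antisymm
    · simp only [mul_sub, Finset.sum_sub_distrib]
      linarith
    · exact Finset.sum_nonneg fun i _ => mul_nonneg (X.wt_pos b i).le (sub_nonneg.2 (h i))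
  rw [Finset.sum_eq_zero_iff_of_nonneg
    fun i _ => mul_nonneg (X.wt_pos b i).le (sub_nonneg.2 (h i))] at h2
  funext i
  have := (mul_eq_zero.1 (h2 i (Finset.mem_univ i))).resolve_left (X.wt_pos b i).ne'
  linarith

theorem eq_zero_of_χ {i : X.ι} {x : Fin k → ℝ} (h : ∀ j, j ≠ i → X.χ j x = 0) : x = 0 := by
  obtain ⟨B, -, hB⟩ := X.χ_le_of_ne
  have h1 := hB i x 0 le_rfl fun j hj => by rw [h j hj]; simp
  have h2 := hB i (-x) 0 le_rfl fun j hj => by rw [map_neg, h j hj]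
  rw [map_neg] at h2
  refine X.span x fun j => ?_
  by_cases hj : j = i
  · subst hj; linarith
  · exact h j hj

theorem lab_test0 {w w' : Module.End ℝ (Fin k → ℝ)} (hw : X.IsW w) (hw' : X.IsW w') (i : X.ι)
    (h : ∀ v, X.χ i v ≤ 0 → ∀ j, X.χ j (w v) ≤ max (X.χ j (w' v)) 0) : w = w' := by
  have h1 : ∀ v, X.χ i v ≤ 0 → ∀ j, max (X.χ j (w v)) 0 = max (X.χ j (w' v)) 0 := by
    intro v hv
    have h2 : lev X.χ {0, w v} = lev X.χ {0, w' v} := by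
      refine X.eq_of_V_le (fun j => ?_) ?_
      · rw [X.lev_pair, X.lev_pair]
        exact max_le (h v hv j) (le_max_right _ _)
      · exact ((hw'.nu v).trans (hw.nu v).symm).le
    rw [X.lev_pair, X.lev_pair] at h2
    exact congr_fun h2
  have h2 : ∀ j, (∃ t, X.Prp w i j t) ∨ ∀ v, X.χ j (w v) = X.χ j (w' v) := by
    intro j
    refine (X.arm0 hw i j).imp id fun ⟨v₀, a, b⟩ => ?_
    have h3 : ∀ v, X.χ i v ≤ 0 → 0 < X.χ j (w v) → X.χ j (w v) = X.χ j (w' v) := by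
      intro v hv hp
      have := h1 v hv j
      rw [max_eq_left hp.le] at this
      rcases le_total (X.χ j (w' v)) 0 with h4 | h4
      · rw [max_eq_right h4] at this; linarith
      · rwa [max_eq_left h4] at this
    have h4 : ∀ v, X.χ i v ≤ 0 → X.χ j (w v) = X.χ j (w' v) := by
      intro v hv
      set s : ℝ := (|X.χ j (w v)| + 1) / X.χ j (w v₀) with hs
      have hs0 : 0 ≤ s := by positivity
      have e : s * X.χ j (w v₀) = |X.χ j (w v)| + 1 := by rw [hs]; field_simp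
      have h5 := h3 (v + s • v₀) (by
        rw [map_add, map_smul, smul_eq_mul]
        nlinarith [mul_nonneg hs0 (neg_nonneg.2 a)]) (by
        simp only [map_add, map_smul, smul_eq_mul]
        linarith [neg_abs_le (X.χ j (w v))])
      simp only [map_add, map_smul, smul_eq_mul] at h5
      rw [← h3 v₀ a b] at h5
      linarith
    intro v
    rcases le_total (X.χ i v) 0 with hv | hv
    · exact h4 v hv
    · have := h4 (-v) (by rw [map_neg]; linarith)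
      simp only [map_neg] at this
      linarith
  refine LinearMap.ext fun v => sub_eq_zero.1 ?_
  by_cases hp : ∃ j t, X.Prp w i j t
  · obtain ⟨j, t, hj⟩ := hp
    refine X.eq_zero_of_χ (i := j) fun l hl => ?_
    rcases h2 l with ⟨t', h3⟩ | h3
    · exact absurd (Prp.unique hw h3 hj) hl
    · rw [map_sub, h3, sub_self]
  · refine X.span _ fun l => ?_
    rcases h2 l with ⟨t', h3⟩ | h3
    · exact absurd ⟨l, t', h3⟩ hp
    · rw [map_sub, h3, sub_self]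

/-- two different labels are told apart on every half space -/
theorem lab_test : ∃ κ : ℝ, 0 < κ ∧ κ ≤ 1 ∧ ∀ w w', X.IsW w → X.IsW w' → w ≠ w' → ∀ i, ∃ v j,
    ‖v‖ ≤ 1 ∧ X.χ i v ≤ 0 ∧ max (X.χ j (w' v)) 0 + κ ≤ X.χ j (w v) := by
  obtain ⟨κ, h0, h1, h2⟩ := exists_unif
    (X.isW_finite.prod (X.isW_finite.prod (Set.finite_univ (α := X.ι))))
    (fun p κ => p.1 ≠ p.2.1 → ∃ v j, ‖v‖ ≤ 1 ∧ X.χ p.2.2 v ≤ 0 ∧
      max (X.χ j (p.2.1 v)) 0 + κ ≤ X.χ j (p.1 v))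
    (fun p κ κ' _ hk h hne => by
      obtain ⟨v, j, a, b, c⟩ := h hne
      exact ⟨v, j, a, b, by linarith⟩)
    (fun p hp => by
      by_cases hne : p.1 = p.2.1
      · exact ⟨1, one_pos, fun h => absurd hne h⟩
      have h3 : ¬ ∀ v, X.χ p.2.2 v ≤ 0 → ∀ j, X.χ j (p.1 v) ≤ max (X.χ j (p.2.1 v)) 0 :=
        fun h => hne (X.lab_test0 hp.1 hp.2.1 p.2.2 h)
      push Not at h3
      obtain ⟨v, a, j, b⟩ := h3
      have hv : v ≠ 0 := by rintro rfl; simp at b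
      have hn : 0 < ‖v‖⁻¹ := inv_pos.2 (norm_pos_iff.2 hv)
      refine ⟨‖v‖⁻¹ * (X.χ j (p.1 v) - max (X.χ j (p.2.1 v)) 0), mul_pos hn (by linarith),
        fun _ => ⟨‖v‖⁻¹ • v, j, h59_norm hv, ?_, ?_⟩⟩
      · rw [map_smul, smul_eq_mul]
        exact mul_nonpos_of_nonneg_of_nonpos hn.le a
      · simp only [map_smul, smul_eq_mul]
        have e : max (‖v‖⁻¹ * X.χ j (p.2.1 v)) 0 = ‖v‖⁻¹ * max (X.χ j (p.2.1 v)) 0 := by
          rw [mul_max_of_nonneg _ _ hn.le, mul_zero]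
        rw [e]
        linarith)
  exact ⟨κ, h0, h1, fun w w' hw hw' hne i => h2 (w, w', i) ⟨hw, hw', trivial⟩ hne⟩

theorem isW'_of_le0 {w : Module.End ℝ (Fin k → ℝ)} (hw : X.IsW w)
    (h : ∀ i, ∃ j t, X.Prp w i j t ∧ X.dim i ≤ t * X.dim j) : X.IsW' w := by
  choose σ t h1 h2 using h
  obtain ⟨m, hm, hwm⟩ := X.iso_order hw.nu
  refine ⟨hw, fun i => ⟨σ i, t i, (h1 i).1, (h1 i).2, le_antisymm (h2 i) ?_⟩⟩
  have key : ∀ l : ℕ, ∃ P : ℝ, 0 < P ∧ (∀ v, X.χ (σ^[l + 1] i) ((w ^ (l + 1)) v) = P * X.χ i v) ∧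
      t i * X.dim (σ i) ≤ P * X.dim (σ^[l + 1] i) := by
    intro l
    induction l with
    | zero => exact ⟨t i, (h1 i).1, fun v => by simpa using (h1 i).2 v, by simp⟩
    | succ l ih =>
      obtain ⟨P, hP, a, b⟩ := ih
      refine ⟨t (σ^[l + 1] i) * P, mul_pos (h1 _).1 hP, fun v => ?_, ?_⟩
      · rw [Function.iterate_succ_apply', pow_succ', Module.End.mul_apply, (h1 _).2, a, mul_assoc]
      · rw [Function.iterate_succ_apply' σ (l + 1)]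
        have := mul_le_mul_of_nonneg_left (h2 (σ^[l + 1] i)) hP.le
        linarith
  obtain ⟨l, rfl⟩ : ∃ l, m = l + 1 := ⟨m - 1, by omega⟩
  obtain ⟨P, hP, a, b⟩ := key l
  rw [hwm] at a
  have e : σ^[l + 1] i = i := X.eq_of_prop hP a
  rw [e] at a b
  have a1 := a (X.u i)
  rw [Module.End.one_apply, X.u_self] at a1
  rw [mul_one] at a1
  rw [← a1, one_mul] at b
  exact b

/-- one-sided inequalities between the dimensions are equalities -/
theorem isW'_of_le₁ : ∃ κ : ℝ, 0 < κ ∧ κ ≤ 1 ∧ ∀ w, X.IsW w →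
    (∀ i, ∃ j t, X.Prp w i j t ∧ X.dim i ≤ t * X.dim j + κ) → X.IsW' w := by
  obtain ⟨κ, h0, h1, h2⟩ := exists_unif
    (X.isW_finite.prod (Set.finite_univ (α := X.ι × X.ι)))
    (fun p κ => ∀ t, X.Prp p.1 p.2.1 p.2.2 t → X.dim p.2.1 ≤ t * X.dim p.2.2 + κ →
      X.dim p.2.1 ≤ t * X.dim p.2.2)
    (fun p κ κ' _ hk h t ht hd => h t ht (by linarith))
    (fun p _ => by
      by_cases hp : ∃ t, X.Prp p.1 p.2.1 p.2.2 t ∧ t * X.dim p.2.2 < X.dim p.2.1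
      · obtain ⟨t, ht, hd⟩ := hp
        refine ⟨(X.dim p.2.1 - t * X.dim p.2.2) / 2, by linarith, fun t' ht' hd' => ?_⟩
        rw [Prp.unique_t ht' ht] at hd'
        linarith
      · push Not at hp
        exact ⟨1, one_pos, fun t ht _ => hp t ht⟩)
  refine ⟨κ, h0, h1, fun w hw h => X.isW'_of_le0 hw fun i => ?_⟩
  obtain ⟨j, t, a, b⟩ := h i
  exact ⟨j, t, a, h2 (w, i, j) ⟨hw, trivial⟩ t a b⟩

theorem dim_bound : ∃ κ : ℝ, 0 < κ ∧ κ ≤ 1 ∧ ∀ i, κ ≤ X.dim i ∧ X.dim i ≤ κ⁻¹ := by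
  obtain ⟨κ, h0, h1, h2⟩ := exists_unif (Set.finite_univ (α := X.ι))
    (fun i κ => κ ≤ X.dim i ∧ κ ≤ (X.dim i)⁻¹)
    (fun i κ κ' _ hk h => ⟨hk.trans h.1, hk.trans h.2⟩)
    (fun i _ => ⟨min (X.dim i) (X.dim i)⁻¹, lt_min (X.dim_pos i) (inv_pos.2 (X.dim_pos i)),
      min_le_left _ _, min_le_right _ _⟩)
  exact ⟨κ, h0, h1, fun i => ⟨(h2 i trivial).1,
    (le_inv_comm₀ (X.dim_pos i) h0).2 (h2 i trivial).2⟩⟩

end Geo

end Crest.Agent.R182
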