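import Crest.Agent.R182.MTBig

/-! Row 182, block M4: the chain of majority points. -/

set_option autoImplicit false
set_option linter.dupNamespace false
set_option linter.unusedSectionVars false

namespace Crest.Agent.R182

open Crest.GroupTheory MeasureTheory Filter Topology

namespace Geo

variable {G : Type} [Group G] [MeasurableSpace G] [MeasurableMul₂ G] [MeasurableInv G] {k : ℕ}
  (X : Geo G k)

theorem h28_chain {Wp : En k → Prop} {ψ : G → G} {n : ℕ} {δ E θ₀ θ₁ : ℝ} (hψ : Step ψ)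
    (hU : X.Uq Wp ψ n δ) (ζ : Measure G) [IsProbabilityMeasure ζ] (l : List G)
    (h0 : ζ.real {z | ¬ ∃ w, X.Lb Wp ψ n δ z w} ≤ θ₀)
    (h : ∀ j (hj : j < l.length), (ζ.map fun x => x * (l.take j).prod).real
      {z | ¬ X.Rel Wp ψ n δ E 0 z (z * l[j])} ≤ θ₁) (j : ℕ) (hj : j ≤ l.length) :
    ζ.real {z | ¬ X.Rel Wp ψ n δ (j * E) 0 z (z * (l.take j).prod)} ≤ θ₀ + j * θ₁ := by
  induction j with
  | zero =>
    refine (measureReal_mono (s₂ := {z | ¬ ∃ w, X.Lb Wp ψ n δ z w}) (fun z hz => ?_)).trans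
      (by simpa using h0)
    rintro ⟨w, hw⟩
    exact hz (by simpa using Rel.refl hw)
  | succ j ih =>
    have hj' : j < l.length := hj
    have h1 := h j hj'
    have hm : MeasurableSet {z | ¬ X.Rel Wp ψ n δ E 0 z (z * l[j])} :=
      ((measurable_id.prodMk (measurable_mul_const l[j])) (meas_rel hψ E 0)).compl
    rw [map_measureReal_apply (measurable_mul_const _) hm] at h1
    refine (measureReal_mono (s₂ := {z | ¬ X.Rel Wp ψ n δ (j * E) 0 z (z * (l.take j).prod)} ∪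
      (fun x => x * (l.take j).prod) ⁻¹' {z | ¬ X.Rel Wp ψ n δ E 0 z (z * l[j])})
      (fun z hz => ?_)).trans ((measureReal_union_le _ _).trans ?_)
    · by_contra hc
      simp only [Set.mem_union, Set.mem_ofPred_eq, Set.mem_preimage, not_or, not_not] at hc
      refine hz ?_
      have := Rel.trans hU hc.1 hc.2
      rw [add_zero, mul_assoc, ← List.prod_take_succ _ _ hj'] at this
      push_cast
      rwa [add_mul, one_mul]
    · have := ih hj'.le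
      push_cast
      linarith

/-- `box_list` with `a₀ = 0`, `rebase` with `v = 0`, `T = 0`, `Rel.trans` along the list,
`Cx.pl` and `Rel.refl` for the start -/
theorem move_of {Wp : En k → Prop} {c A K₈ M₂ K₁₂ : ℕ} (hA : A + 2 ≤ K₈)
    (h : X.GAP Wp c A K₈ M₂ K₁₂) : ∃ M₅ K₁₃ : ℕ, X.MOVE Wp c A M₅ K₁₃ := by
  obtain ⟨K₆, hbl⟩ := X.box_list
  obtain ⟨M₃, hrb⟩ := X.rebase
  obtain ⟨B, hB⟩ : ∃ B : ℕ, B = 1 + X.K + 2 * K₆ + (K₈ + 2) := ⟨_, rfl⟩
  refine ⟨2 * K₆ + (K₈ + 1) + M₃ * (M₂ * B + 1), X.K * (K₁₂ + 2), fun R θ hθ => ?_⟩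
  have hK : (1 : ℝ) ≤ X.K := by exact_mod_cast X.one_le_K
  have hθ' : 0 < θ / (4 * X.K) := by positivity
  refine ((((h (B * R) _ hθ').and (hrb Wp c A K₈ R _ (by omega) hθ')).and
    (X.evc_uq Wp c A)).and_ev ((EV.small (half_pos hθ)).and (EV.large fun _ _ => 1))).mono ?_
  rintro δ η n ψ hC ⟨⟨⟨hgap, hreb⟩, hU⟩, ⟨-, hδ, hη, -⟩, hn⟩ ρ g ζ hζ hg hρ hR hinv m hm
  push_cast at hρ
  have hB' : (B : ℝ) = 1 + X.K + 2 * K₆ + (K₈ + 2) := by rw [hB]; push_cast; ring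
  have hA' : (A : ℝ) + 2 ≤ K₈ := by exact_mod_cast hA
  have p6 : (0 : ℝ) ≤ K₆ := Nat.cast_nonneg _
  have p8 : (0 : ℝ) ≤ K₈ := Nat.cast_nonneg _
  have p3 : (0 : ℝ) ≤ M₃ := Nat.cast_nonneg _
  have p2 : (0 : ℝ) ≤ M₂ := Nat.cast_nonneg _
  have pB : (0 : ℝ) ≤ B := Nat.cast_nonneg _
  have pA : (0 : ℝ) ≤ A := Nat.cast_nonneg _
  have hg1 : 1 ≤ g := hn.trans hg
  have e1 : K₆ * (g + 1) ≤ 2 * K₆ * g := by nlinarith
  have e2 : (K₈ + 1) * (n : ℝ) ≤ (K₈ + 1) * g := mul_le_mul_of_nonneg_left hg (by positivity)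
  have e3 : 0 ≤ M₃ * (M₂ * B + 1) * g := by positivity
  have e4 : 0 ≤ K₆ * (g + 1) := by positivity
  have e5 : (0 : ℝ) ≤ (K₈ + 1) * n := by positivity
  obtain ⟨b, hb⟩ : ∃ b : ℝ, b = g + X.K + K₆ * (g + 1) + (K₈ + 2) * n := ⟨_, rfl⟩
  have e6 : b ≤ B * g := by
    have := mul_le_mul_of_nonneg_left hg (show (0 : ℝ) ≤ K₈ + 2 by positivity)
    have := mul_le_mul_of_nonneg_left hg1 (show (0 : ℝ) ≤ X.K by positivity)
    rw [hb, hB']; linarith
  have e7 : M₃ * (M₂ * b + n) ≤ M₃ * (M₂ * B + 1) * g := by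
    rw [mul_assoc (M₃ : ℝ)]
    refine mul_le_mul_of_nonneg_left ?_ p3
    have := mul_le_mul_of_nonneg_left e6 p2
    linarith
  have e8 : g ≤ R * n := by nlinarith
  have hgb := hgap b (by rw [hb]; linarith) (by
    have := mul_le_mul_of_nonneg_left e8 pB
    push_cast; linarith)
  have hlet := hreb η 0 (ρ - K₆ * (g + 1)) (g + X.K + K₆ * (g + 1)) (M₂ * b) (K₁₂ * n)
    (θ / (4 * X.K)) (by linarith) (by positivity) (by linarith) (by linarith) (by linarith)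
    (by rw [← hb]; exact hgb)
  obtain ⟨l, hl1, hl2, hl3, hl4⟩ := hbl (fun _ => 0) (X.adm_const le_rfl) ρ g (by linarith)
    (by linarith) ζ η (by simpa using hinv) m (by simpa using hm)
  simp only [zero_add] at hl3 hl4
  have key := X.h28_chain (E := K₁₂ * n + 2 * n) (θ₁ := θ / (4 * X.K) + θ / (4 * X.K)) hC.step hU ζ l
    (hC.pl ζ hζ (hinv.mono (fun _ => by nlinarith) (by linarith))) (fun j hj => by
      obtain ⟨i, hi⟩ := hl3 _ (List.getElem_mem hj)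
      refine hlet i 0 _ _ (Measure.isProbabilityMeasure_map (measurable_mul_const _).aemeasurable)
        norm_zero.le (fun _ => le_rfl) (fun _ => by simp) _ ?_ (hl4 j) ?_
      · refine X.RB_mono _ _ _ ?_ hi
        rw [map_zero]; linarith
      · rw [Measure.map_map (measurable_mul_const _) (measurable_mul_const _)]
        have := hl4 (j + 1)
        rw [List.prod_take_succ _ _ hj] at this
        simpa only [Function.comp_def, mul_assoc] using this) l.length le_rfl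
  rw [List.take_length, hl2] at key
  have hl : (l.length : ℝ) ≤ X.K := by exact_mod_cast hl1
  refine le_trans (le_trans (measureReal_mono ?_) key) ?_
  · refine fun z hz hz' => hz (Rel.mono hz' ?_)
    push_cast
    have := mul_le_mul_of_nonneg_right hl (show (0 : ℝ) ≤ K₁₂ * n + 2 * n by positivity)
    linarith
  · have := mul_le_mul_of_nonneg_right hl (add_pos hθ' hθ').le
    have e : X.K * (θ / (4 * X.K) + θ / (4 * X.K)) = θ / 2 := by field_simp; ring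
    linarith

/-- the laws of `p y` and of `p e d y' d⁻¹` are invariant at level `ρ = L - K' s` (`ev_nu`,
`TVr.map_left`, `Inv.flat`); compare both with `p y''`, `y'' ∼ ν (L + K' s + n)` (`MOVE`, `mt_fub`,
`mt_shift`), `exists_fp`, `path_prob`, `PG.rel`, `mt_tri` -/
theorem step_of {Wp : En k → Prop} {c A M₅ K₁₃ : ℕ} (h : X.MOVE Wp c A M₅ K₁₃) :
    ∃ M₆ K₁₄ : ℕ, X.STEP Wp c A M₆ K₁₄ := by
  obtain ⟨B, hB1, hB⟩ := X.χ_bound
  have hK : (0 : ℝ) ≤ X.K := Nat.cast_nonneg _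
  obtain ⟨Q₀, hQ₀⟩ : ∃ Q₀ : ℝ, Q₀ = B * (X.K * X.K) := ⟨_, rfl⟩
  have hQ₀0 : 0 ≤ Q₀ := by rw [hQ₀]; positivity
  obtain ⟨Q, hQ⟩ : ∃ Q : ℝ, Q = Q₀ + 5 * X.K := ⟨_, rfl⟩
  have hQ0 : 0 ≤ Q := by rw [hQ]; positivity
  have hflat : ∀ (s : ℕ), ∀ d ∈ Ball (X.SC : Set G) s, ∀ i, |X.χ i (X.π d)| ≤ Q₀ * s := by
    intro s d hd i
    refine (hB i _).trans ?_
    have h1 := X.π_ball (X.flat_ball hd)
    push_cast at h1
    calc B * ‖X.π d‖ ≤ B * (X.K * (X.K * s)) := by gcongr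
      _ = Q₀ * s := by rw [hQ₀]; ring
  refine ⟨⌈M₅ * (2 * Q + 2) + 2 * Q + A + 2⌉₊, 2 * K₁₃ + 1, fun R θ hθ => ?_⟩
  have hθ' : 0 < θ / 5 := by positivity
  refine (((((h R _ hθ').and (X.path_prob Wp c A R hθ')).and (X.evc_uq Wp c A)).and_ev
    X.ev_nu).and_ev ((EV.small hθ').and (EV.large fun _ _ => 1))).mono ?_
  rintro δ η n ψ hψ ⟨⟨⟨⟨hmv, hpp⟩, hU⟩, hν, -⟩, ⟨-, -, hη0, hη⟩, hn1⟩ s L hns hML hLR p e he d hd
  have hns' : (n : ℝ) ≤ s := by exact_mod_cast hns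
  have hs1 : (1 : ℝ) ≤ s := hn1.trans hns'
  have hM₅ : (0 : ℝ) ≤ M₅ := Nat.cast_nonneg _
  have hA : (0 : ℝ) ≤ A := Nat.cast_nonneg _
  have hL : (M₅ * (2 * Q + 2) + 2 * Q + A + 2) * s ≤ L :=
    (mul_le_mul_of_nonneg_right (Nat.le_ceil _) (by linarith)).trans hML
  have hMs : 0 ≤ M₅ * (2 * Q + 2) * s := by positivity
  have hQs : 0 ≤ Q * s := by positivity
  have hAs : 0 ≤ (A : ℝ) * s := by positivity
  have hKs : (X.K : ℝ) ≤ X.K * s := le_mul_of_one_le_right hK hs1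
  have hsL : (s : ℝ) ≤ L := by nlinarith
  have hlg : X.K * lg s ≤ 2 * (X.K * s) := by
    have h2 := Real.log_le_sub_one_of_pos (x := 1 + (s : ℝ)) (by positivity)
    have h3 : lg s ≤ 2 * s := by unfold lg; linarith
    nlinarith
  have hQe : Q * s = Q₀ * s + 5 * (X.K * s) := by rw [hQ]; ring
  have := X.ν_prob
  obtain ⟨ρ, hρ⟩ : ∃ ρ : ℝ, ρ = L - (Q + 1) * s := ⟨_, rfl⟩
  obtain ⟨g, hg⟩ : ∃ g : ℝ, g = Q * s + n + (Q + 1) * s := ⟨_, rfl⟩
  have hinv0 : ∀ q : G, X.Inv ((X.ν fun _ => L).map fun x => q * x) (fun _ => L - n) η := by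
    intro q a' _ hle x hx
    have h1 := (hν (fun _ => L - n) n le_rfl x (X.box_mono _ _ hle hx)).1
    simp only [sub_add_cancel] at h1
    exact h1.map_left q
  have hmove : ∀ (f : G → G) (q : G), Measurable f →
      (∀ᵐ y ∂(X.ν fun _ => L), f y ∈ X.Box fun _ => L + Q * s) →
      X.Inv ((X.ν fun _ => L).map fun y => q * f y) (fun _ => ρ) η →
      ((X.ν fun _ => L).prod (X.ν fun _ => L + Q * s + n)).real
        {y | ¬ X.Rel Wp ψ n δ (K₁₃ * n) 0 (q * f y.1) (q * y.2)} ≤ θ / 5 + η := by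
    intro f q hf hbox hinv
    have hqf : Measurable fun y => q * f y := hf.const_mul q
    have hmA : MeasurableSet {y : G × G | ¬ X.Rel Wp ψ n δ (K₁₃ * n) 0 (q * f y.1) (q * y.2)} :=
      ((hqf.comp measurable_fst).prodMk (measurable_snd.const_mul q))
        (meas_rel (X := X) (Wp := Wp) (n := n) (δ := δ) hψ.step (K₁₃ * n) 0).compl
    have h1 := mt_shift (X.ν fun _ => L) (X.ν fun _ => L + Q * s + n) hf
      (hbox.mono fun y hy => (hν (fun _ => L + Q * s) n le_rfl _ hy).2) hmA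
    have h2 : ((X.ν fun _ => L).prod (X.ν fun _ => L + Q * s + n)).real
        {y : G × G | (y.1, f y.1 * y.2) ∈
          {y : G × G | ¬ X.Rel Wp ψ n δ (K₁₃ * n) 0 (q * f y.1) (q * y.2)}} ≤ θ / 5 := by
      refine mt_fub _ _ ((measurable_fst.prodMk ((hf.comp measurable_fst).mul measurable_snd)) hmA)
        ((X.ν_box _).mono fun m hm => ?_)
      have : IsProbabilityMeasure ((X.ν fun _ => L).map fun y => q * f y) :=
        Measure.isProbabilityMeasure_map hqf.aemeasurable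
      have h3 := hmv ρ g _ this (by rw [hg]; nlinarith) (by rw [hg, hρ]; nlinarith)
        (by rw [hρ]; nlinarith) hinv m (by
          have e1 : ρ + g = L + Q * s + n := by rw [hρ, hg]; ring
          rw [e1]; exact hm)
      have hm2 : MeasurableSet {z : G | ¬ X.Rel Wp ψ n δ (K₁₃ * n) 0 z (z * m)} :=
        (measurable_id.prodMk (measurable_mul_const m))
          (meas_rel (X := X) (Wp := Wp) (n := n) (δ := δ) hψ.step (K₁₃ * n) 0).compl
      rw [map_measureReal_apply hqf hm2] at h3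
      refine le_trans (le_of_eq ?_) h3
      congr 1
      ext y
      change ¬ X.Rel Wp ψ n δ (K₁₃ * n) 0 (q * f y) (q * (f y * m)) ↔
        ¬ X.Rel Wp ψ n δ (K₁₃ * n) 0 (q * f y) (q * f y * m)
      rw [mul_assoc q]
    linarith [(abs_le.1 h1).1]
  have hf₂ : Measurable fun y : G => e * (d * y * d⁻¹) :=
    ((measurable_const_mul d).mul_const d⁻¹).const_mul e
  have hinv2 : X.Inv ((X.ν fun _ => L).map fun y => p * (e * (d * y * d⁻¹))) (fun _ => ρ) η := by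
    have h1 := (hinv0 (p * e * d)).flat (Ball.inv_mem hd)
    rw [Measure.map_map (measurable_mul_const _) (measurable_const_mul _)] at h1
    have e1 : ((fun x => x * d⁻¹) ∘ fun x => p * e * d * x) =
        fun y => p * (e * (d * y * d⁻¹)) := by
      funext y
      simp only [Function.comp, mul_assoc]
    rw [e1] at h1
    refine h1.mono (fun i => ?_) le_rfl
    have h2 := (abs_le.1 (hflat s _ (Ball.inv_mem hd) i)).2
    change ρ ≤ L - n - _ - _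
    rw [hρ]
    nlinarith
  have b1 := hmove id p measurable_id
    ((X.ν_box _).mono fun y hy => X.box_mono _ _ (fun _ => by simpa using hQs) hy)
    ((hinv0 p).mono (fun _ => by change ρ ≤ L - n; rw [hρ]; nlinarith) le_rfl)
  have b2 := hmove (fun y => e * (d * y * d⁻¹)) p hf₂ ((X.ν_box _).mono fun y hy => by
    have h1 := X.box_conj _ (X.adm_const (by linarith : (0 : ℝ) ≤ L)) s d hd y hy
    have h2 : d * y * d⁻¹ ∈ X.Box fun _ => L + Q₀ * s + 2 * (X.K * s) :=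
      X.box_mono _ _ (fun i => by
        have h3 := (abs_le.1 (hflat s d hd i)).2
        change L + _ + _ ≤ L + _ + _
        linarith) h1
    have h3 : e ∈ X.Box fun _ => L + Q₀ * s + 2 * (X.K * s) :=
      X.box_mono _ _ (fun i => by
        have h4 : 0 ≤ Q₀ * s := by positivity
        change (s : ℝ) ≤ L + _ + _
        linarith) he
    refine X.box_mono _ _ (fun i => ?_) (X.box_mul h3 h2)
    change L + _ + _ + _ ≤ L + _
    linarith) hinv2
  obtain ⟨γ, hγ, hγs⟩ := X.exists_fp hd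
  have hqf₂ : Measurable fun y : G => p * (e * (d * y * d⁻¹)) := hf₂.const_mul p
  have b3 := hpp γ s (fun _ => ρ) _ (Measure.isProbabilityMeasure_map hqf₂.aemeasurable) hγ
    (by exact_mod_cast hsL.trans hLR) (hinv2.mono le_rfl (by linarith)) (fun j hj i => by
      have h1 := (abs_le.1 (hflat s _ (Ball.mono subset_rfl hj (hγ.mem hj)) i)).2
      have h2 : (A + 1 : ℝ) * n ≤ (A + 1) * s := by gcongr
      rw [hρ]
      nlinarith)
  have b5 : (X.ν fun _ => L).real ((fun y : G => p * (e * (d * y * d⁻¹))) ⁻¹'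
      {x | ∃ w, X.PG Wp ψ n δ γ s x w}ᶜ) ≤ θ / 5 := by
    rw [← map_measureReal_apply hqf₂
      (meas_pg (X := X) (Wp := Wp) (n := n) (δ := δ) hψ.step γ s).compl]
    exact b3
  have hmR := (meas_rel (X := X) (Wp := Wp) (n := n) (δ := δ) hψ.step (K₁₃ * n) 0).compl
  have b4 := mt_tri (X.ν fun _ => L) (X.ν fun _ => L + Q * s + n)
    (B := {y | ¬ X.Rel Wp ψ n δ ((2 * K₁₃ + 1 : ℕ) * n) (X.π d) (p * y.1) (p * e * d * y.2)})
    (A₁ := {y | ¬ X.Rel Wp ψ n δ (K₁₃ * n) 0 (p * id y.1) (p * y.2)})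
    (A₂ := {y | ¬ X.Rel Wp ψ n δ (K₁₃ * n) 0 (p * (e * (d * y.1 * d⁻¹))) (p * y.2)})
    (A₃ := (fun y : G => p * (e * (d * y * d⁻¹))) ⁻¹' {x | ∃ w, X.PG Wp ψ n δ γ s x w}ᶜ)
    (((measurable_fst.const_mul p).prodMk (measurable_snd.const_mul p)) hmR)
    (((hqf₂.comp measurable_fst).prodMk (measurable_snd.const_mul p)) hmR) (by
      intro y hy y''
      by_contra hc
      simp only [not_or, Set.mem_setOf_eq, not_not, Set.mem_preimage, Set.mem_compl_iff, id] at hc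
      obtain ⟨r1, r2, w, r3⟩ := hc
      have r4 := (r1.trans hU r2.symm).trans hU r3.rel
      rw [hγs, neg_zero, zero_add, zero_add,
        show p * (e * (d * y.2 * d⁻¹)) * d = p * e * d * y.2 by group] at r4
      refine hy (r4.mono (le_of_eq ?_))
      push_cast
      ring)
  linarith

/-- greedy decomposition along a word, in blocks of `s` letters -/
private theorem h65_chain {K s : ℕ} {E : ℝ} (f : G → Fin k → ℝ) (lab : G → En k)
    (hsl : ∀ g ∈ Ball X.Sg (s + 1), ∃ e ∈ X.Box fun _ => (K : ℕ), ∃ c ∈ Ball (X.SC : Set G) K,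
      ∃ b ∈ Ball X.Sg 1, g = e * c * b)
    (h : ∀ p, ∀ e ∈ X.Box fun _ => (K : ℕ), ∀ d ∈ Ball (X.SC : Set G) K,
      lab (p * e * d) = lab p ∧ ‖f (p * e * d) - f p - lab p (X.π d)‖ ≤ E) (j : ℕ) :
    ∀ p b g : G, b ∈ Ball X.Sg 1 → g ∈ Ball X.Sg (j * s) → ∃ p' b', b' ∈ Ball X.Sg 1 ∧
      p * b * g = p' * b' ∧ lab p' = lab p ∧
        ‖f p' - f p - lab p (X.π p' - X.π p)‖ ≤ j * E := by
  induction j with
  | zero =>
    intro p b g hb hg
    rw [Nat.zero_mul, h31_ball_zero] at hg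
    obtain rfl : g = 1 := hg
    exact ⟨p, b, hb, mul_one _, rfl, by simp⟩
  | succ j ih =>
    rintro p b g hb ⟨l, hl, hT, hp⟩
    have h1 : (l.take s).prod ∈ Ball X.Sg s :=
      ⟨l.take s, List.length_take_le _ _, fun x hx => hT x (List.mem_of_mem_take hx), rfl⟩
    have h2 : (l.drop s).prod ∈ Ball X.Sg (j * s) :=
      ⟨l.drop s, by rw [List.length_drop]; rw [Nat.succ_mul] at hl; omega,
        fun x hx => hT x (List.mem_of_mem_drop hx), rfl⟩
    obtain ⟨e, he, c, hc, b₁, hb₁, h3⟩ :=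
      hsl (b * (l.take s).prod) (by rw [add_comm]; exact Ball.mul_mem hb h1)
    obtain ⟨h4, h5⟩ := h p e he c hc
    obtain ⟨p', b', hb', h6, h7, h8⟩ := ih (p * e * c) b₁ _ hb₁ h2
    refine ⟨p', b', hb', ?_, h7.trans h4, ?_⟩
    · rw [← h6, ← hp, ← List.prod_take_mul_prod_drop l s]
      calc p * b * ((l.take s).prod * (l.drop s).prod)
          = p * (b * (l.take s).prod) * (l.drop s).prod := by simp only [mul_assoc]
        _ = p * e * c * b₁ * (l.drop s).prod := by rw [h3]; simp only [mul_assoc]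
    · have h9 : X.π (p * e * c) = X.π p + X.π c := by
        rw [X.π_hom, X.π_hom, X.box_π _ _ he, add_zero]
      rw [h4, h9] at h8
      have h10 : f p' - f p - lab p (X.π p' - X.π p) =
          (f p' - f (p * e * c) - lab p (X.π p' - (X.π p + X.π c))) +
            (f (p * e * c) - f p - lab p (X.π c)) := by
        simp only [map_sub, map_add]
        abel
      rw [h10]
      push_cast
      exact (norm_add_le _ _).trans (by linarith)

/-- join `1` to `y` and `y` to `z` by chains with steps in `Ball s` (`gen`), greedy decomposition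
`p (j+1) = p j * e j * d j` with `ball_sl (s + 1)`; `ht_lip`, `isW_bound` for the ends -/
theorem ul_det (c : ℕ) : ∃ K₁ : ℕ, 1 ≤ K₁ ∧ ∀ (s C₀ : ℕ) (E : ℝ), 1 ≤ s → 0 ≤ E → ∃ C : ℝ,
    ∀ ψ : G → G, QI X.Sg X.Sg ψ c → ∀ (x : G → G) (lab : G → En k),
      (∀ p, p⁻¹ * x p ∈ Ball X.Sg C₀) → (∀ p, X.IsW (lab p)) →
      (∀ p, ∀ e ∈ X.Box fun _ => (K₁ * s : ℕ), ∀ d ∈ Ball (X.SC : Set G) (K₁ * s),
        lab (p * e * d) = lab p ∧
          ‖X.π (ψ (x (p * e * d))) - X.π (ψ (x p)) - lab p (X.π d)‖ ≤ E) →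
      ∀ (y z : G) (m : ℕ), y⁻¹ * z ∈ Ball X.Sg m →
        ‖X.π (ψ z) - X.π (ψ y) - lab 1 (X.π z - X.π y)‖ ≤ E / s * m + C := by
  obtain ⟨K₁, hK₁, hsl⟩ := X.ball_sl
  obtain ⟨B, hB1, hB⟩ := X.isW_bound
  refine ⟨3 * K₁, by omega, fun s C₀ E hs hE =>
    ⟨E + 2 * (X.K * (c * (C₀ + 1 : ℕ) + c)) + B * (2 * X.K), ?_⟩⟩
  intro ψ hψ x lab hx hW h y z m hyz
  have hsl' : ∀ g ∈ Ball X.Sg (s + 1), ∃ e ∈ X.Box fun _ => (3 * K₁ * s : ℕ),
      ∃ c ∈ Ball (X.SC : Set G) (3 * K₁ * s), ∃ b ∈ Ball X.Sg 1, g = e * c * b := by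
    intro g hg
    obtain ⟨e, he, c', hc, b, hb, h1⟩ := hsl _ g hg
    have h2 : K₁ * (s + 1) + K₁ ≤ 3 * K₁ * s := by nlinarith
    exact ⟨e, X.box_mono _ _ (fun i => Nat.cast_le.2 h2) he, c',
      Ball.mono subset_rfl (by omega) hc, b, hb, h1⟩
  obtain ⟨r, hr⟩ := Ball.exists_of_mem_closure (T := X.Sg) (a := y) (X.gen ▸ Subgroup.mem_top y)
  obtain ⟨p, b, hb, h1, h2, -⟩ := X.h65_chain (fun p => X.π (ψ (x p))) lab hsl' h r 1 1 y
    (Ball.one_mem _ _) (Ball.mono subset_rfl (Nat.le_mul_of_pos_right _ hs) hr)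
  obtain ⟨q, b', hb', h3, -, h5⟩ := X.h65_chain (fun p => X.π (ψ (x p))) lab hsl' h (m / s + 1)
    p b (y⁻¹ * z) hb (Ball.mono subset_rfl
      ((Nat.lt_div_mul_add hs).le.trans_eq (Nat.succ_mul _ _).symm) hyz)
  have hy : y = p * b := by rw [← h1, one_mul, one_mul]
  have hz : z = q * b' := by rw [← h3, ← hy, mul_inv_cancel_left]
  have e0 : ∀ p b : G, b ∈ Ball X.Sg 1 →
      ‖X.π (ψ (p * b)) - X.π (ψ (x p))‖ ≤ X.K * (c * (C₀ + 1 : ℕ) + c) := by
    intro p b hb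
    refine X.ht_lip hψ ?_
    have h6 := Ball.mul_mem (Ball.inv_mem (hx p)) hb
    rwa [mul_inv_rev, inv_inv, mul_assoc] at h6
  have e1 := e0 p b hb
  have e2 := e0 q b' hb'
  have e3 := X.π_ball hb
  have e4 := X.π_ball hb'
  have e5 : ‖lab 1 (X.π b' - X.π b)‖ ≤ B * (2 * X.K) := by
    refine (hB _ (hW 1) _).trans (mul_le_mul_of_nonneg_left ?_ (by linarith))
    refine (norm_sub_le _ _).trans ?_
    push_cast at e3 e4
    linarith
  have e6 : ((m / s + 1 : ℕ) : ℝ) * E ≤ E / s * m + E := by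
    have h6 : ((m / s : ℕ) : ℝ) ≤ m / s := Nat.cast_div_le
    have h7 : E / s * m = m / s * E := by ring
    push_cast
    rw [h7, add_mul, one_mul]
    exact add_le_add (mul_le_mul_of_nonneg_right h6 hE) le_rfl
  rw [h2] at h5
  have e7 : X.π (ψ z) - X.π (ψ y) - lab 1 (X.π z - X.π y) =
      (X.π (ψ (x q)) - X.π (ψ (x p)) - lab 1 (X.π q - X.π p)) +
        (X.π (ψ (q * b')) - X.π (ψ (x q))) - (X.π (ψ (p * b)) - X.π (ψ (x p))) -
          lab 1 (X.π b' - X.π b) := by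
    rw [hy, hz, X.π_hom, X.π_hom]
    simp only [map_sub, map_add]
    abel
  rw [e7]
  refine (norm_sub_le _ _).trans ?_
  have e8 := norm_sub_le ((X.π (ψ (x q)) - X.π (ψ (x p)) - lab 1 (X.π q - X.π p)) +
    (X.π (ψ (q * b')) - X.π (ψ (x q)))) (X.π (ψ (p * b)) - X.π (ψ (x p)))
  have e9 := norm_add_le (X.π (ψ (x q)) - X.π (ψ (x p)) - lab 1 (X.π q - X.π p))
    (X.π (ψ (q * b')) - X.π (ψ (x q)))
  linarith

/-- `s = σ n` with `3 K₁₄ ≤ ε σ`, `L = M₆ K₁ σ n`, `θ = 1 / 10`; `EVC.exists`, `mt_maj` with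
`R₀ p = {Rel (K₁₄ n) 0 (p y) (p y')}` (`e = d = 1`), `Rel.trans`, `evc_uq`, `box_ball`, `ul_det` -/
theorem ul_of {Wp : En k → Prop} {c A M₆ K₁₄ : ℕ} (hs : ∀ w, Wp w → X.IsW w)
    (hp : X.PLoc Wp c A) (h : X.STEP Wp c A M₆ K₁₄) {ε : ℝ} (hε : 0 < ε) :
    ∃ C : ℝ, ∀ ψ ψ' : G → G, X.QP c ψ ψ' → ∃ w, X.IsW w ∧
      ∀ (x y : G) (n : ℕ), x⁻¹ * y ∈ Ball X.Sg n →
        ‖X.π (ψ y) - X.π (ψ x) - w (X.π y - X.π x)‖ ≤ ε * n + C := by
  obtain ⟨K₁, hK₁, hdet⟩ := X.ul_det c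
  obtain ⟨σ, hσ1, hσ⟩ : ∃ σ : ℕ, 1 ≤ σ ∧ 3 * (K₁₄ : ℝ) ≤ ε * σ := by
    refine ⟨⌈3 * (K₁₄ : ℝ) / ε⌉₊ + 1, by omega, ?_⟩
    have h1 := Nat.le_ceil (3 * (K₁₄ : ℝ) / ε)
    rw [div_le_iff₀ hε] at h1
    push_cast
    nlinarith
  obtain ⟨δ, η, n, H⟩ := EVC.exists ((((h (M₆ * (K₁ * σ)) (1 / 10) (by norm_num)).and
    (X.evc_uq Wp c A))).and_ev (EV.large fun _ _ => 1)) hp hs
  by_cases hn : 1 ≤ n
  swap
  · exact ⟨0, fun ψ ψ' hψ => absurd (by exact_mod_cast (H ψ ψ' hψ).2.2) hn⟩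
  have hs1 : 1 ≤ σ * n := Nat.mul_pos hσ1 hn
  obtain ⟨C, hC⟩ := hdet (σ * n) (X.K * (M₆ * (K₁ * (σ * n))) + X.K) (3 * (K₁₄ * n)) hs1
    (by positivity)
  refine ⟨C, fun ψ ψ' hψ => ?_⟩
  obtain ⟨hc, ⟨hst, hU⟩, -⟩ := H ψ ψ' hψ
  have hst' := hst (K₁ * (σ * n)) ((M₆ * (K₁ * (σ * n)) : ℕ) : ℝ)
    (by nlinarith [Nat.mul_pos hK₁ hσ1]) (le_of_eq (by push_cast; ring))
    (le_of_eq (by push_cast; ring))
  have := X.ν_prob fun _ => ((M₆ * (K₁ * (σ * n)) : ℕ) : ℝ)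
  obtain ⟨sel, hsel, hmaj⟩ := mt_maj (I := G) (X.ν fun _ => ((M₆ * (K₁ * (σ * n)) : ℕ) : ℝ))
    (X.ν_box _) (fun p => {y : G × G | X.Rel Wp ψ n δ (K₁₄ * n) 0 (p * y.1) (p * y.2)})
    (fun p => ((measurable_fst.const_mul p).prodMk (measurable_snd.const_mul p))
      (meas_rel hψ.step (K₁₄ * n) 0))
    (fun p => by
      have h1 := hst' p 1 (X.box_one _) 1 (Ball.one_mem _ _)
      rw [X.π_hom.one, mul_one, mul_one] at h1
      exact h1)
  have hl : ∀ p, ∃ w, X.Lb Wp ψ n δ (p * sel p) w := fun p => by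
    obtain ⟨y, -, ⟨w, hw, -⟩, -⟩ := hmaj p p Set.univ (by simp)
    exact ⟨w, hw⟩
  choose lab hlab using hl
  refine ⟨lab 1, hs _ (hlab 1).1, fun x y m hm => ?_⟩
  refine (hC ψ hψ.qi (fun p => p * sel p) lab (fun p => ?_) (fun p => hs _ (hlab p).1)
    (fun p e he d hd => ?_) x y m hm).trans ?_
  · rw [inv_mul_cancel_left]
    exact X.box_ball _ (hsel p)
  · obtain ⟨y, y', h1, h2, h3⟩ := hmaj p (p * e * d)
      {y : G × G | X.Rel Wp ψ n δ (K₁₄ * n) (X.π d) (p * y.1) (p * e * d * y.2)}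
      (hst' p e he d hd)
    obtain ⟨w, l1, l2, h4⟩ := Rel.trans hU (Rel.trans hU h1 h3) (Rel.symm h2)
    rw [neg_zero, zero_add, add_zero] at h4
    rw [hU _ _ _ (hlab p) l1, hU _ _ _ (hlab (p * e * d)) l2]
    exact ⟨rfl, h4.trans (le_of_eq (by ring))⟩
  · have h1 : 3 * ((K₁₄ : ℝ) * n) / ((σ * n : ℕ) : ℝ) ≤ ε := by
      have h2 : (0 : ℝ) < ((σ * n : ℕ) : ℝ) := by exact_mod_cast hs1
      rw [div_le_iff₀ h2]
      push_cast
      have h3 : (0 : ℝ) ≤ n := Nat.cast_nonneg _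
      nlinarith
    have h2 : (0 : ℝ) ≤ m := Nat.cast_nonneg _
    nlinarith

/-- block M4 -/
theorem ul (h : X.Pure) : X.UL := by
  intro c ε hε
  obtain ⟨A, hA⟩ := h c
  obtain ⟨K₈, M₂, K₅, h1, h2⟩ := X.tbc_all c A
  obtain ⟨A', hA'⟩ := X.pass1 h1 (h2 _) hA
  obtain ⟨K₈', M₂', K₅', h3, h4⟩ := X.tbc_all c A'
  obtain ⟨K₁₂, h5⟩ := X.gap_of h3 (h4 _)
  obtain ⟨M₅, K₁₃, h6⟩ := X.move_of h3 h5
  obtain ⟨M₆, K₁₄, h7⟩ := X.step_of h6
  exact X.ul_of (fun _ hw => hw.1) hA' h7 hε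

end Geo

end Crest.Agent.R182
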