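import Crest.Agent.R182.MT0

/-! Row 182, block M4: elementary properties of the relations. -/

set_option autoImplicit false
set_option linter.dupNamespace false
set_option linter.unusedSectionVars false

namespace Crest.Agent.R182

open Crest.GroupTheory MeasureTheory Filter Topology

namespace Geo

variable {G : Type} [Group G] [MeasurableSpace G] [MeasurableMul₂ G] [MeasurableInv G] {k : ℕ}
  (X : Geo G k)

theorem u_gap : ∃ κ : ℝ, 0 < κ ∧ κ ≤ 1 ∧ ∀ i j, j ≠ i → X.χ j (X.u i) ≤ 1 - κ := by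
  classical
  obtain ⟨κ, hκ, H⟩ : ∃ κ : ℝ, 0 < κ ∧ ∀ p ∈ (Finset.univ : Finset (X.ι × X.ι)), p.2 ≠ p.1 →
      X.χ p.2 (X.u p.1) ≤ 1 - κ := by
    induction (Finset.univ : Finset (X.ι × X.ι)) using Finset.induction_on with
    | empty => exact ⟨1, one_pos, by simp⟩
    | insert q s _ ih =>
      obtain ⟨κ, hκ, H⟩ := ih
      by_cases hq : q.2 = q.1
      · refine ⟨κ, hκ, fun p hp hne => ?_⟩
        rcases Finset.mem_insert.1 hp with rfl | hp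
        · exact absurd hq hne
        · exact H p hp hne
      · have := X.u_ne q.1 q.2 hq
        refine ⟨min κ (1 - X.χ q.2 (X.u q.1)), lt_min hκ (by linarith), fun p hp hne => ?_⟩
        rcases Finset.mem_insert.1 hp with rfl | hp
        · linarith [min_le_right κ (1 - X.χ p.2 (X.u p.1))]
        · linarith [min_le_left κ (1 - X.χ q.2 (X.u q.1)), H p hp hne]
  refine ⟨min κ 1, lt_min hκ one_pos, min_le_right _ _, fun i j hj => ?_⟩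
  linarith [min_le_left κ 1, H (i, j) (Finset.mem_univ _) hj]

theorem u_bound : ∃ B : ℝ, 1 ≤ B ∧ ∀ i, ‖X.u i‖ ≤ B := by
  refine ⟨1 + ∑ i, ‖X.u i‖, ?_, fun i => ?_⟩
  · linarith [Finset.sum_nonneg fun i (_ : i ∈ Finset.univ) => norm_nonneg (X.u i)]
  · linarith [Finset.single_le_sum (fun i (_ : i ∈ Finset.univ) => norm_nonneg (X.u i))
      (Finset.mem_univ i)]

theorem χ_u_le (i j : X.ι) : X.χ j (X.u i) ≤ 1 := by
  by_cases h : j = i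
  · rw [h, X.u_self]
  · exact (X.u_ne i j h).le

/-- a product of at most `K` letters (`RB_box`, `box_prod`) -/
theorem word_box {a : X.ι → ℝ} (ha : Adm X.χ a) {l : List G} (hl : l.length ≤ X.K)
    (h : ∀ g ∈ l, ∃ j, g ∈ X.RB j (a j)) : l.prod ∈ X.Box fun j => a j + X.r₁ := by
  refine X.box_mono _ _ (fun j => ?_) (X.box_prod (fun j => a j + X.K) l fun g hg => ?_)
  · have := mul_le_mul_of_nonneg_left (lg_mono hl) (Nat.cast_nonneg (α := ℝ) X.K)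
    simp only [r₁]
    linarith
  · obtain ⟨j, hj⟩ := h g hg
    exact X.RB_box a ha j hj

/-- `RB_mono`, `RB_ball` with `⌈r⌉₊` -/
theorem RB_ball' {i : X.ι} {r : ℝ} {g : G} (h : g ∈ X.RB i r) :
    g ∈ Ball X.Sg (X.K * ⌈r⌉₊ + X.K) := by
  exact X.RB_ball i ⌈r⌉₊ (X.RB_mono i _ _ (Nat.le_ceil r) h)

/-- flat elements are endpoints of flat paths (`Reach.of_ball`) -/
theorem exists_fp {d : G} {s : ℕ} (h : d ∈ Ball (X.SC : Set G) s) :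
    ∃ p : ℕ → G, X.FP p s ∧ p s = d := by
  obtain ⟨p, h0, hs, h1, -⟩ := Reach.of_ball (T := (X.SC : Set G)) (x := 1) (y := d) (n := s)
    (by rwa [inv_one, one_mul])
  exact ⟨p, ⟨h0, h1⟩, hs⟩

theorem FP.mono {X : Geo G k} {p : ℕ → G} {N N' : ℕ} (h : X.FP p N) (hN : N' ≤ N) :
    X.FP p N' := by
  exact ⟨h.1, fun j hj => h.2 j (hj.trans_le hN)⟩

theorem FP.mem_sub {X : Geo G k} {p : ℕ → G} {N : ℕ} (h : X.FP p N) {j j' : ℕ} (hj : j ≤ j')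
    (hj' : j' ≤ N) : (p j)⁻¹ * p j' ∈ Ball (X.SC : Set G) (j' - j) := by
  induction j', hj using Nat.le_induction with
  | base => rw [inv_mul_cancel]; exact Ball.one_mem _ _
  | succ m hm ih =>
    have := Ball.mul_mem (ih (by omega)) (h.2 m (by omega))
    rw [mul_assoc, mul_inv_cancel_left] at this
    rwa [show m + 1 - j = m - j + 1 by omega]

/-- `lab_overlap` with `c = 1`, `Lab.mono` -/
theorem evc_uq (Wp : En k → Prop) (c A : ℕ) : X.EVC Wp c A fun δ _ n ψ => X.Uq Wp ψ n δ := by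
  obtain ⟨ε₀, hε₀, H⟩ := X.lab_overlap
  refine ((EV.small hε₀).and (EV.large fun _ _ => 2)).mono
    fun δ η n h ψ hψ x w w' hw hw' => ?_
  refine H ψ n x 1 w w' (by exact_mod_cast h.2) (hψ.sub w hw.1) (hψ.sub w' hw'.1)
    (Ball.one_mem _ _) (hw.2.mono h.1.2.1) ?_
  rw [mul_one]
  exact hw'.2.mono h.1.2.1

section rel

variable {X} {Wp : En k → Prop} {ψ : G → G} {n : ℕ} {δ : ℝ}

theorem Rel.mono {E E' : ℝ} {d : Fin k → ℝ} {x y : G} (h : X.Rel Wp ψ n δ E d x y) (hE : E ≤ E') :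
    X.Rel Wp ψ n δ E' d x y := by
  obtain ⟨w, h1, h2, h3⟩ := h
  exact ⟨w, h1, h2, h3.trans hE⟩

theorem Rel.refl {x : G} {w : En k} (h : X.Lb Wp ψ n δ x w) : X.Rel Wp ψ n δ 0 0 x x := by
  exact ⟨w, h, h, by simp⟩

theorem Rel.symm {E : ℝ} {d : Fin k → ℝ} {x y : G} (h : X.Rel Wp ψ n δ E d x y) :
    X.Rel Wp ψ n δ E (-d) y x := by
  obtain ⟨w, h1, h2, h3⟩ := h
  refine ⟨w, h2, h1, ?_⟩
  rw [← norm_neg, map_neg]
  refine le_trans (le_of_eq ?_) h3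
  congr 1
  abel

theorem Rel.trans (hU : X.Uq Wp ψ n δ) {E E' : ℝ} {d d' : Fin k → ℝ} {x y z : G}
    (h : X.Rel Wp ψ n δ E d x y) (h' : X.Rel Wp ψ n δ E' d' y z) :
    X.Rel Wp ψ n δ (E + E') (d + d') x z := by
  obtain ⟨w, h1, h2, h3⟩ := h
  obtain ⟨w', h4, h5, h6⟩ := h'
  obtain rfl := hU y w w' h2 h4
  refine ⟨w, h1, h5, le_trans ?_ ((norm_add_le _ _).trans (add_le_add h3 h6))⟩
  rw [map_add]
  apply le_of_eq
  congr 1
  abel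

theorem PG.rel {p : ℕ → G} {N : ℕ} {x : G} {w : En k} (h : X.PG Wp ψ n δ p N x w) :
    X.Rel Wp ψ n δ n (X.π (p N)) x (x * p N) := by
  exact ⟨w, h.1, h.2.1, h.2.2 N le_rfl⟩

theorem Jn.mono {a a' : X.ι → ℝ} {E E' : ℝ} {m m' : ℕ} {x y : G} (h : X.Jn ψ a E m x y)
    (ha : a ≤ a') (hE : E ≤ E') (hm : m ≤ m') : X.Jn ψ a' E' m' x y := by
  refine ⟨h.1.trans hE, (h.2.mono ?_).of_le hm⟩
  rintro z ⟨v, h1, h2⟩
  exact ⟨v, h1.trans hE, fun i => (h2 i).trans (ha i)⟩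

theorem Jn.refl {a : X.ι → ℝ} (ha : 0 ≤ a) (x : G) : X.Jn ψ a 0 0 x x := by
  refine ⟨by simp, Reach.refl _ ?_ _⟩
  exact ⟨0, by simp, fun i => by simpa using ha i⟩

theorem Jn.symm {a : X.ι → ℝ} {E : ℝ} {m : ℕ} {x y : G} (h : X.Jn ψ a E m x y) :
    X.Jn ψ a (2 * E) m y x := by
  have hE : 0 ≤ E := (norm_nonneg _).trans h.1
  refine ⟨by rw [norm_sub_rev]; linarith [h.1], h.2.symm.mono ?_⟩
  rintro z ⟨v, h1, h2⟩
  refine ⟨v - (X.π (ψ y) - X.π (ψ x)), (norm_sub_le _ _).trans (by linarith [h.1]), fun i => ?_⟩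
  convert h2 i using 2
  abel

theorem Jn.trans {a : X.ι → ℝ} {E E' : ℝ} {m m' : ℕ} {x y z : G} (h : X.Jn ψ a E m x y)
    (h' : X.Jn ψ a E' m' y z) : X.Jn ψ a (E + E') (m + m') x z := by
  have hE : 0 ≤ E := (norm_nonneg _).trans h.1
  have hE' : 0 ≤ E' := (norm_nonneg _).trans h'.1
  refine ⟨?_, (h.2.mono ?_).trans (h'.2.mono ?_)⟩
  · refine le_trans (le_of_eq ?_) ((norm_add_le _ _).trans (add_le_add h.1 h'.1))
    congr 1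
    abel
  · rintro u ⟨v, h1, h2⟩
    exact ⟨v, by linarith, h2⟩
  · rintro u ⟨v, h1, h2⟩
    refine ⟨X.π (ψ y) - X.π (ψ x) + v, (norm_add_le _ _).trans (add_le_add h.1 h1), fun i => ?_⟩
    convert h2 i using 2
    abel

theorem JE.mono {F : Set (Fin k → ℝ)} {E E' : ℝ} {m m' : ℕ} {x y : G}
    (h : X.JE Wp ψ n δ F E m x y) (hE : E ≤ E') (hm : m ≤ m') : X.JE Wp ψ n δ F E' m' x y := by
  obtain ⟨w, h1, h2, h3⟩ := h
  exact ⟨w, h1, h2, h3.mono le_rfl hE hm⟩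

/-- a set of pairs determined by finitely many values of a step map (`Step.meas_fin₂`, cf. `mv_meas`) -/
theorem meas_det₂ (hψ : Step ψ) {F : Set G} (hF : F.Finite) {A : Set (G × G)}
    (h : ∀ p q : G × G, (∀ c ∈ F, ψ (p.1 * c) = ψ (q.1 * c)) →
      (∀ c ∈ F, ψ (p.2 * c) = ψ (q.2 * c)) → p ∈ A → q ∈ A) : MeasurableSet A := by
  have := Step.meas_fin₂ hψ hF
    (fun f g => ∃ q ∈ A, (∀ c ∈ F, f c = ψ (q.1 * c)) ∧ ∀ c ∈ F, g c = ψ (q.2 * c))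
    (fun f f' g g' hf hg ⟨q, hq, h1, h2⟩ => ⟨q, hq, fun c hc => (hf c hc).symm.trans (h1 c hc),
      fun c hc => (hg c hc).symm.trans (h2 c hc)⟩)
  convert this using 1
  ext p
  exact ⟨fun hp => ⟨p, hp, fun _ _ => rfl, fun _ _ => rfl⟩, fun ⟨q, hq, h1, h2⟩ =>
    h q p (fun c hc => (h1 c hc).symm) (fun c hc => (h2 c hc).symm) hq⟩

theorem meas_det (hψ : Step ψ) {F : Set G} (hF : F.Finite) {A : Set G}
    (h : ∀ x y : G, (∀ c ∈ F, ψ (x * c) = ψ (y * c)) → x ∈ A → y ∈ A) : MeasurableSet A := by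
  have := Step.meas_fin hψ hF (fun f => ∃ q ∈ A, ∀ c ∈ F, f c = ψ (q * c))
    (fun f f' hf ⟨q, hq, h1⟩ => ⟨q, hq, fun c hc => (hf c hc).symm.trans (h1 c hc)⟩)
  convert this using 1
  ext p
  exact ⟨fun hp => ⟨p, hp, fun _ _ => rfl⟩, fun ⟨q, hq, h1⟩ =>
    h q p (fun c hc => (h1 c hc).symm) hq⟩

theorem h93_one {x y : G} (h : ∀ c ∈ Ball (X.SC : Set G) n, ψ (x * c) = ψ (y * c)) :
    ψ x = ψ y := by
  simpa using h 1 (Ball.one_mem _ _)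

theorem h93_lb {x y : G} {w : En k} (h : ∀ c ∈ Ball (X.SC : Set G) n, ψ (x * c) = ψ (y * c))
    (hx : X.Lb Wp ψ n δ x w) : X.Lb Wp ψ n δ y w :=
  ⟨hx.1, fun c hc => by rw [← h c hc, ← h93_one h]; exact hx.2 c hc⟩

/-- the points seen from a path -/
def h93F (X : Geo G k) (n : ℕ) (p : ℕ → G) (N : ℕ) : Set G :=
  Set.image2 (· * ·) (insert 1 (p '' Set.Iic N)) (Ball (X.SC : Set G) n)

theorem h93_fin (X : Geo G k) (n : ℕ) (p : ℕ → G) (N : ℕ) : (h93F X n p N).Finite :=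
  (((Set.finite_Iic N).image p).insert 1).image2 _ (Ball.finite X.SC.finite_toSet n)

theorem h93_at {p : ℕ → G} {N j : ℕ} {x y : G} (h : ∀ c ∈ h93F X n p N, ψ (x * c) = ψ (y * c))
    (hj : j ≤ N) : ∀ c ∈ Ball (X.SC : Set G) n, ψ (x * p j * c) = ψ (y * p j * c) := fun c hc => by
  rw [mul_assoc, mul_assoc]
  exact h _ ⟨p j, Or.inr ⟨j, hj, rfl⟩, c, hc, rfl⟩

theorem h93_lb_at {p : ℕ → G} {N j : ℕ} {x y : G} {w : En k}
    (h : ∀ c ∈ h93F X n p N, ψ (x * c) = ψ (y * c)) (hj : j ≤ N)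
    (hx : X.Lb Wp ψ n δ (x * p j) w) : X.Lb Wp ψ n δ (y * p j) w :=
  h93_lb (h93_at h hj) hx

theorem h93_pg {p : ℕ → G} {N : ℕ} {x y : G} {w : En k}
    (h : ∀ c ∈ h93F X n p N, ψ (x * c) = ψ (y * c)) (hx : X.PG Wp ψ n δ p N x w) :
    X.PG Wp ψ n δ p N y w := by
  have h0 : ∀ c ∈ Ball (X.SC : Set G) n, ψ (x * c) = ψ (y * c) := fun c hc =>
    h c ⟨1, Or.inl rfl, c, hc, one_mul c⟩
  refine ⟨h93_lb h0 hx.1, h93_lb_at h le_rfl hx.2.1, fun j hj => ?_⟩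
  rw [← h93_one h0, ← h93_one (h93_at h hj)]
  exact hx.2.2 j hj

theorem meas_lb (hψ : Step ψ) (w : En k) : MeasurableSet {x | X.Lb Wp ψ n δ x w} :=
  meas_det hψ (Ball.finite X.SC.finite_toSet n) fun _ _ h hx => h93_lb h hx

theorem meas_ex_lb (hψ : Step ψ) : MeasurableSet {x | ∃ w, X.Lb Wp ψ n δ x w} :=
  meas_det hψ (Ball.finite X.SC.finite_toSet n) fun _ _ h ⟨w, hx⟩ => ⟨w, h93_lb h hx⟩

theorem meas_rel (hψ : Step ψ) (E : ℝ) (d : Fin k → ℝ) :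
    MeasurableSet {p : G × G | X.Rel Wp ψ n δ E d p.1 p.2} :=
  meas_det₂ hψ (Ball.finite X.SC.finite_toSet n) fun _ _ h h' ⟨w, h1, h2, h3⟩ =>
    ⟨w, h93_lb h h1, h93_lb h' h2, h93_one h ▸ h93_one h' ▸ h3⟩

theorem meas_je (hψ : Step ψ) (F : Set (Fin k → ℝ)) (E : ℝ) (m : ℕ) :
    MeasurableSet {p : G × G | X.JE Wp ψ n δ F E m p.1 p.2} := by
  refine meas_det₂ hψ (Ball.finite X.SC.finite_toSet n) fun _ _ h h' ⟨w, h1, h2, h3⟩ =>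
    ⟨w, h93_lb h h1, h93_lb h' h2, ?_⟩
  unfold Jn at h3 ⊢
  rwa [← h93_one h, ← h93_one h']

theorem meas_te (hψ : Step ψ) (w w' : En k) (j : X.ι) (β : ℝ) :
    MeasurableSet (X.TE Wp ψ n δ w w' j β) :=
  meas_det₂ hψ (Ball.finite X.SC.finite_toSet n) fun _ _ h h' ⟨h1, h2, h3⟩ =>
    ⟨h93_lb h h1, h93_lb h' h2, h93_one h ▸ h93_one h' ▸ h3⟩

theorem meas_same (hψ : Step ψ) :
    MeasurableSet {p : G × G | ∃ w, X.Lb Wp ψ n δ p.1 w ∧ X.Lb Wp ψ n δ p.2 w} :=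
  meas_det₂ hψ (Ball.finite X.SC.finite_toSet n) fun _ _ h h' ⟨w, h1, h2⟩ =>
    ⟨w, h93_lb h h1, h93_lb h' h2⟩

theorem meas_pg (hψ : Step ψ) (p : ℕ → G) (N : ℕ) :
    MeasurableSet {x | ∃ w, X.PG Wp ψ n δ p N x w} :=
  meas_det hψ (h93_fin X n p N) fun _ _ h ⟨w, hx⟩ => ⟨w, h93_pg h hx⟩

theorem meas_gd (hψ : Step ψ) (p : ℕ → G) (N : ℕ) (tp : X.ι → ℕ) :
    MeasurableSet {x | ∃ w, X.Gd Wp ψ n δ p N tp x w} := by
  refine meas_det hψ ((h93_fin X n p N).union (h93_fin X n p (∑ i, tp i))) ?_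
  rintro x y h ⟨w, h1, h2⟩
  exact ⟨w, h93_pg (fun c hc => h c (Or.inl hc)) h1, fun i => h93_lb_at
    (fun c hc => h c (Or.inr hc))
    (Finset.single_le_sum (fun _ _ => Nat.zero_le _) (Finset.mem_univ i)) (h2 i)⟩

end rel

theorem h95_evc {X : Geo G k} {Wp : En k → Prop} {c A : ℕ}
    {P : ℝ → ℝ → ℕ → (G → G) → Prop} (h : X.EVC Wp c A P) (hp : X.PLoc Wp c A)
    (hs : ∀ w, Wp w → X.IsW w) :
    ∃ δ η, 0 < η ∧ ∀ n₀ : ℕ, ∃ n ≥ n₀, ∀ ψ ψ', X.QP c ψ ψ' →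
      X.Cx Wp c A δ η n ψ ∧ P δ η n ψ := by
  obtain ⟨δ, h1, hδ⟩ := (Eventually.and h self_mem_nhdsWithin).exists
  obtain ⟨η₁, hη₁, h2⟩ := hp δ δ hδ hδ
  have h3 : ∀ᶠ x in 𝓝[>] (0 : ℝ), 0 < x ∧ x ≤ η₁ / 2 := Ioc_mem_nhdsGT (half_pos hη₁)
  obtain ⟨η, h4, hη, hη'⟩ := (h1.and h3).exists
  obtain ⟨n₁, h5⟩ := eventually_atTop.1 h4
  refine ⟨δ, η, hη, fun n₀ => ?_⟩
  obtain ⟨n, hn, h6⟩ := h2 (max n₀ n₁)
  refine ⟨n, le_of_max_le_left hn, fun ψ ψ' hψ => ?_⟩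
  have hc : X.Cx Wp c A δ η n ψ :=
    ⟨hψ.qi, hψ.step, hs, fun ζ hζ hi => h6 ψ ψ' hψ ζ hζ (hi.mono le_rfl (by linarith))⟩
  exact ⟨hc, h5 n (le_of_max_le_right hn) ψ hc⟩

/-- take `δ` from the filter, `η₁` from `PLoc δ δ`, `η ≤ η₁ / 2` from the filter, `n` from `PLoc` -/
theorem EVC.exists {X : Geo G k} {Wp : En k → Prop} {c A : ℕ}
    {P : ℝ → ℝ → ℕ → (G → G) → Prop} (h : X.EVC Wp c A P) (hp : X.PLoc Wp c A)
    (hs : ∀ w, Wp w → X.IsW w) :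
    ∃ δ η n, ∀ ψ ψ', X.QP c ψ ψ' → X.Cx Wp c A δ η n ψ ∧ P δ η n ψ := by
  obtain ⟨δ, η, -, h1⟩ := h95_evc h hp hs
  obtain ⟨n, -, h2⟩ := h1 0
  exact ⟨δ, η, n, h2⟩

/-- as `EVC.exists` -/
theorem PLoc.of_evc {X : Geo G k} {Wp Wp' : En k → Prop} {c A A' : ℕ} (hp : X.PLoc Wp c A)
    (hs : ∀ w, Wp w → X.IsW w)
    (h : ∀ ε θ : ℝ, 0 < ε → 0 < θ → X.EVC Wp c A fun _ η n ψ => ∀ ζ : Measure G,
      IsProbabilityMeasure ζ → X.Inv ζ (fun _ => A' * n) η →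
        ζ.real {z | ¬ ∃ w, Wp' w ∧ X.Lab ψ n ε z w} ≤ θ) : X.PLoc Wp' c A' := by
  intro ε θ hε hθ
  obtain ⟨δ, η, hη, h1⟩ := h95_evc (h ε θ hε hθ) hp hs
  refine ⟨η, hη, fun n₀ => ?_⟩
  obtain ⟨n, hn, h2⟩ := h1 n₀
  exact ⟨n, hn, fun ψ ψ' hψ => (h2 ψ ψ' hψ).2⟩

end Geo

end Crest.Agent.R182
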