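import Crest.Agent.R182.MTLab

/-! Row 182, block M4: the big move. -/

set_option autoImplicit false
set_option linter.dupNamespace false
set_option linter.unusedSectionVars false

namespace Crest.Agent.R182

open Crest.GroupTheory MeasureTheory Filter Topology

namespace Geo

variable {G : Type} [Group G] [MeasurableSpace G] [MeasurableMul₂ G] [MeasurableInv G] {k : ℕ}
  (X : Geo G k)

/-- `K₁₀ = ρ₀ + 2`, `ν₃ = ν (lev F₂ + (K₁₀ + 1) n + n)`, `F₂ = insert ((b - K₁₀ n) u i) F`;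
`natjoin`, `inv_conv` (`t = n`), `boxjoin` for the convolution, `ev_nu`, `mt_tbm` -/
theorem tbp (c A : ℕ) : ∃ K₈ M₁ K₉ K₁₀ : ℕ, A + 2 ≤ K₈ ∧ K₁₀ ≤ K₈ ∧
    ∀ Wp : En k → Prop, X.TBP Wp c A K₈ M₁ K₉ K₁₀ := by
  obtain ⟨ρ₀, K₉, hbj⟩ := X.boxjoin c A
  obtain ⟨K₉', hnj⟩ := X.natjoin c
  obtain ⟨K₁₁, hic⟩ := X.inv_conv
  obtain ⟨Bχ, hBχ, hχ⟩ := X.χ_bound
  obtain ⟨Bu, hBu, hu⟩ := X.u_bound
  obtain ⟨M₁, hM₁⟩ := exists_nat_ge (((K₁₁ : ℝ) + 1) * (Bχ + 2))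
  obtain ⟨Bu', hBu'⟩ := exists_nat_ge Bu
  refine ⟨A + 2 + (ρ₀ + 2), M₁, K₉ + K₉', ρ₀ + 2, by omega, by omega, fun Wp N₀ R θ hθ => ?_⟩
  obtain ⟨M, h1⟩ := hbj Wp (N₀ + 1) (Bu' * R) (θ / 8) (by positivity)
  obtain ⟨M', h2⟩ := hnj Wp A N₀ R X.r₁ (θ / 8) (by positivity)
  have hK : (1 : ℝ) ≤ X.K := by exact_mod_cast X.one_le_K
  have hr : 0 ≤ X.r₁ := by
    have := one_le_lg X.K
    unfold r₁
    positivity
  refine ⟨M + M', (((h1.and h2).and_ev X.ev_nu).and_ev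
    ((EV.small (a := θ / 12) (by positivity)).and (EV.large fun _ _ => 4 * X.K + X.r₁))).mono ?_⟩
  rintro δ η n ψ hc ⟨⟨⟨hb1, hb2⟩, hν1, hν2⟩, ⟨-, -, hη0, hη⟩, hn⟩ i b T F ζ hS A₂ hA₂ hθ₂
  obtain ⟨hζ, hlo, hhi, hT, hF, hneg, hinv⟩ := hS
  push_cast at hlo hinv
  have hn0 : (0 : ℝ) ≤ n := Nat.cast_nonneg _
  have pA : (0 : ℝ) ≤ A * n := by positivity
  have pρ : (0 : ℝ) ≤ ρ₀ * n := by positivity
  have p11 : (0 : ℝ) ≤ K₁₁ := Nat.cast_nonneg _
  have pR : (0 : ℝ) ≤ R * n := by positivity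
  have hT0 : 0 ≤ T := by simpa using hF.2.2.2 0 hF.2.1
  have hb0 : 0 ≤ b - ((ρ₀ + 2 : ℕ) : ℝ) * n := by push_cast; linarith
  have hbn : (n : ℝ) ≤ b := by linarith
  have hne : F.Nonempty := ⟨0, hF.2.1⟩
  have hBT : 0 ≤ Bχ * T := by positivity
  have hlevF : ∀ j, lev X.χ F j ≤ Bχ * T := fun j => lev_le hne fun s hs =>
    (le_abs_self _).trans ((hχ j s).trans (mul_le_mul_of_nonneg_left (hF.2.2.2 s hs) (by linarith)))
  have hlevi : lev X.χ F i ≤ 0 := lev_le hne hneg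
  have hM : Bχ * T + b ≤ M₁ * (T + b) ∧ K₁₁ * (Bχ * T + b + b) ≤ M₁ * (T + b) := by
    have e1 := mul_le_mul_of_nonneg_right hM₁ (show 0 ≤ T + b by linarith)
    have e2 : 0 ≤ Bχ * b := mul_nonneg (by linarith) (by linarith)
    have e3 : 0 ≤ K₁₁ * (Bχ * b) := by positivity
    have e4 : 0 ≤ K₁₁ * T := by positivity
    have e5 : 0 ≤ K₁₁ * (Bχ * T) := by positivity
    have e6 : 0 ≤ K₁₁ * b := mul_nonneg p11 (by linarith)
    constructor <;> nlinarith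
  have hgl : ∀ j, lev X.χ F j + (A + 2) * n ≤
      X.gl i ((A + 2 + (ρ₀ + 2)) * n) (M₁ * (T + b)) j := fun j => by
    unfold gl
    split_ifs with hj
    · rw [hj]; linarith
    · linarith [hlevF j, hM.1]
  obtain ⟨F₂, hF₂⟩ : ∃ F₂, F₂ = insert ((b - ((ρ₀ + 2 : ℕ) : ℝ) * n) • X.u i) F := ⟨_, rfl⟩
  rw [← hF₂]
  have hfin : F₂.Finite := hF₂ ▸ hF.1.insert _
  have hsub : F ⊆ F₂ := hF₂ ▸ Set.subset_insert _ _
  have hne₂ : F₂.Nonempty := hne.mono hsub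
  have hBu1 : (1 : ℝ) ≤ Bu' := hBu.trans hBu'
  have hFam : Fam (N₀ + 1) F₂ (((Bu' * R : ℕ) : ℝ) * n) := by
    refine ⟨hfin, hsub hF.2.1, ?_, fun v hv => ?_⟩
    · rw [hF₂]
      exact (Set.ncard_insert_le _ _).trans (Nat.succ_le_succ hF.2.2.1)
    · rw [hF₂] at hv
      push_cast
      rcases hv with rfl | hv
      · rw [norm_smul, Real.norm_of_nonneg hb0]
        have e1 : b - ((ρ₀ + 2 : ℕ) : ℝ) * n ≤ R * n := by push_cast; linarith
        calc _ ≤ (R * n) * (Bu' : ℝ) := mul_le_mul e1 ((hu i).trans hBu') (norm_nonneg _) pR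
          _ = _ := by ring
      · have := hF.2.2.2 v hv
        nlinarith
  have hlev₂ : ∀ j, lev X.χ F₂ j ≤ max (lev X.χ F j) (b - ((ρ₀ + 2 : ℕ) : ℝ) * n) := fun j => by
    refine lev_le hne₂ fun s hs => ?_
    rw [hF₂] at hs
    rcases hs with rfl | hs
    · rw [map_smul, smul_eq_mul]
      exact le_max_of_le_right (mul_le_of_le_one_right hb0 (X.χ_u_le i j))
    · exact le_max_of_le_left (le_lev hF.1 hs j)
  have hlev₂i : b - ((ρ₀ + 2 : ℕ) : ℝ) * n ≤ lev X.χ F₂ i := by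
    have := le_lev (χ := X.χ) hfin (hF₂ ▸ Set.mem_insert _ _) i
    rwa [map_smul, X.u_self, smul_eq_mul, mul_one] at this
  have hmono : ∀ j, lev X.χ F j ≤ lev X.χ F₂ j := fun j =>
    lev_le hne fun s hs => le_lev hfin (hsub hs) j
  have hξ := X.νR_prob i b
  have hconv := hic i _ _ (Bχ * T + b) b n η η ζ hζ (by positivity) (by linarith) hn0
    (by linarith) hM.2 hinv (fun g hg => by
      have := (hν2 i (b - n) n le_rfl g hg).1
      rwa [sub_add_cancel] at this)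
  have hP : IsProbabilityMeasure ((ζ.prod (X.νR i b)).map fun p => p.1 * p.2) :=
    Measure.isProbabilityMeasure_map measurable_mul.aemeasurable
  have hb1' := hb1 F₂ _ hP hFam (hconv.mono (fun j => by
    have := hlev₂ j
    unfold gl
    split_ifs with hj
    · rw [hj] at this ⊢
      rw [max_eq_right (hlevi.trans hb0)] at this
      push_cast at this
      linarith
    · rcases le_max_iff.1 this with h | h
      · linarith [hlevF j]
      · push_cast at h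
        linarith) (le_of_eq (by ring)))
  have hν₃ := X.ν_prob fun j => lev X.χ F₂ j + (ρ₀ + 3) * n + n
  refine ⟨X.ν fun j => lev X.χ F₂ j + (ρ₀ + 3) * n + n, hν₃, fun g hg => ?_⟩
  have hK₉ : (0 : ℝ) ≤ K₉ * n := by positivity
  have hK₉' : (0 : ℝ) ≤ K₉' * n := by positivity
  have key := mt_tbm ζ (X.νR i b) (X.ν fun j => lev X.χ F₂ j + (ρ₀ + 3) * n + n) (g := g)
    (η := η) (θ := θ) (θ₁ := θ / 8) (θ₃ := θ / 8)
    (hinv _ (X.adm_add_const (Adm.lev hF.1 hne) hr) (fun j => by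
      have := hgl j
      simp only
      linarith) g hg)
    ((X.νR_box i b).mono fun m hm => by
      have ha : Adm X.χ fun j => lev X.χ F₂ j + ((ρ₀ + 2 : ℕ) : ℝ) * n :=
        X.adm_add_const (Adm.lev hfin hne₂) (by positivity)
      have e1 := X.RB_box _ ha i (X.RB_mono i _ _ (by linarith) hm)
      have e2 : g * m ∈ X.Box fun j =>
          (lev X.χ F₂ j + ((ρ₀ + 2 : ℕ) : ℝ) * n + X.K + X.r₁) + 3 * X.K :=
        X.box_mul (X.box_mono _ _ (fun j => by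
          have := hmono j
          push_cast
          linarith) hg) (X.box_mono _ _ (fun j => by simp only; linarith) e1)
      exact (hν1 (fun j => lev X.χ F₂ j + (ρ₀ + 3) * n) n le_rfl _
        (X.box_mono _ _ (fun j => by push_cast; linarith) e2)).2)
    (A₁ := {z | X.JE Wp ψ n δ F (((K₉ + K₉' : ℕ) : ℝ) * n) ((M + M') * n) z (z * g)})
    (A₃ := {p | X.JE Wp ψ n δ F₂ (((K₉ + K₉' : ℕ) : ℝ) * n) ((M + M') * n) p.1 p.2})
    ((measurable_id.prodMk (measurable_mul_const g)) (meas_je hc.step _ _ _)) hA₂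
    (meas_je hc.step _ _ _)
    (by
      refine le_trans (measureReal_mono ?_ (measure_ne_top _ _))
        (hb2 F _ ζ hζ ⟨hF.1, hF.2.1, hF.2.2.1, fun v hv => (hF.2.2.2 v hv).trans hT⟩
          (hinv.mono le_rfl (by linarith)) hgl g hg)
      exact fun z hz h => hz (h.mono (by push_cast; linarith)
        (Nat.mul_le_mul_right _ (Nat.le_add_left _ _))))
    hθ₂
    ((X.ν_box _).mono fun m hm => by
      refine le_trans (measureReal_mono ?_ (measure_ne_top _ _))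
        (hb1' m (X.box_mono _ _ (fun j => le_of_eq (by ring)) hm))
      exact fun z hz h => hz (h.mono (by push_cast; linarith)
        (Nat.mul_le_mul_right _ (Nat.le_add_right _ _))))
  exact le_trans (by linarith) key

/-- `zig0p` on `Ω = (G × G) × G` (add the almost sure event `p.2 ∈ Ball (K ⌈b⌉₊ + K)`), `evc_uq`,
`Jn.symm`, `back` (`y = z m`, `y' = z g n₀`, `x = z g`), `det1`, `IsW` -/
theorem tb1 {c A K₈ M₁ K₉ K₁₀ : ℕ} (hK : 1 ≤ K₈) : ∃ K₅ : ℕ, ∀ Wp : En k → Prop,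
    X.TBP Wp c A K₈ M₁ K₉ K₁₀ → X.TB1 Wp c A K₈ M₁ K₁₀ K₅ := by
  classical
  obtain ⟨C, hC, hback⟩ := X.back c
  obtain ⟨C₁, hC₁, hdet⟩ := X.det1 c
  obtain ⟨B, hB1, hB⟩ := X.χ_bound
  obtain ⟨γ, hγ, hd, -⟩ := X.gapdim
  have hKK : (0 : ℝ) ≤ X.K := Nat.cast_nonneg _
  have h9 : (0 : ℝ) ≤ K₉ := Nat.cast_nonneg _
  obtain ⟨D, hD0, hD⟩ : ∃ D : ℝ, 0 ≤ D ∧ γ * D = 1 + C₁ * (K₉ + 1) :=
    ⟨(1 + C₁ * (K₉ + 1)) / γ, by positivity, mul_div_cancel₀ _ hγ.ne'⟩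
  obtain ⟨K₅, hK₅⟩ := exists_nat_ge
    (C * X.K + 2 * B * K₉ + C * (2 * K₉ + 2 * X.K + 1) + D : ℝ)
  refine ⟨K₅, fun Wp hP N₀ R θ hθ => ?_⟩
  obtain ⟨M, hM⟩ := hP N₀ R θ hθ
  obtain ⟨Kθ, hz⟩ := X.zig0p (θ := θ / 2) (half_pos hθ) (c + c)
  refine ((hM.and (X.evc_uq Wp c A)).and_ev
    (((EV.large fun _ _ => 1).and (EV.large fun _ _ => Kθ)).and
      (EV.lg (M + (c * (X.K * R + X.K) + c)) one_pos))).mono ?_
  rintro δ η n ψ hψ ⟨⟨h1, hU⟩, ⟨hn, hnK⟩, hlg⟩ i b T F ζ hS w w' j β hpr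
  obtain ⟨ν₃, hν₃, h2⟩ := h1 i b T F ζ hS _ (meas_te hψ.step w w' j β) hpr
  have hζ := hS.prob
  have hR := X.νR_prob i b
  have hK8 : (1 : ℝ) ≤ K₈ := by exact_mod_cast hK
  have hnb : (n : ℝ) ≤ b := le_trans (by nlinarith) hS.lo
  have hb0 : 0 ≤ b := by linarith
  obtain ⟨hF, hF0, -⟩ := hS.fam
  have hFn : F.Nonempty := ⟨0, hF0⟩
  set d : ℕ := X.K * ⌈b⌉₊ + X.K with hdd
  set F₂ := insert ((b - K₁₀ * n) • X.u i) F with hF₂
  obtain ⟨⟨⟨z, m⟩, n₀⟩, Y, hY, hYQ, hcard⟩ := hz _ (Adm.lev hF hFn) ((G × G) × G)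
    ((ζ.prod ν₃).prod (X.νR i b))
    (fun g => {p | X.JE Wp ψ n δ F (K₉ * n) (M * n) p.1.1 (p.1.1 * g) ∧
      (p.1.1 * g, p.1.1 * g * p.2) ∈ X.TE Wp ψ n δ w w' j β ∧
      X.JE Wp ψ n δ F₂ (K₉ * n) (M * n) (p.1.1 * g * p.2) (p.1.1 * p.1.2)} ∩
        {p | p.2 ∈ Ball X.Sg d})
    (fun g => by
      refine MeasurableSet.inter (MeasurableSet.inter ?_ (MeasurableSet.inter ?_ ?_))
        (measurable_snd (X.ball_meas d))
      · exact (meas_je hψ.step F (K₉ * n) (M * n)).preimage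
          (f := fun p : (G × G) × G => (p.1.1, p.1.1 * g)) (by fun_prop)
      · exact (meas_te hψ.step w w' j β).preimage
          (f := fun p : (G × G) × G => (p.1.1 * g, p.1.1 * g * p.2)) (by fun_prop)
      · exact (meas_je hψ.step F₂ (K₉ * n) (M * n)).preimage
          (f := fun p : (G × G) × G => (p.1.1 * g * p.2, p.1.1 * p.1.2)) (by fun_prop))
    (fun g hg => by
      refine (h2 g hg).trans (ENNReal.toReal_mono (measure_ne_top _ _) (measure_mono_ae ?_))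
      filter_upwards [Measure.quasiMeasurePreserving_snd.ae (X.νR_box i b)] with p hp hq
      exact ⟨hq, X.RB_ball' hp⟩)
  have hpos : 0 < Y.card := by exact_mod_cast (Real.exp_pos _).trans_le hcard
  obtain ⟨g₀, hg₀⟩ := Finset.card_pos.1 hpos
  have hw : X.IsW w := hψ.sub w (hYQ g₀ hg₀).1.2.1.1.1
  set a := lev X.χ (w '' F) with ha
  set a' := lev X.χ (w' '' F₂) with ha'
  set B₀ : ℝ := max (β + a' j + (2 * B * K₉ + 2 * C * K₉) * n) (C * (2 * (K₉ * n) + d + 1))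
    with hB₀
  have h3 := hdet ψ hψ.qi a (Adm.lev (hF.image w) (hFn.image w)) j B₀ (K₉ * n)
    (M * n + (c * d + c)) z (ψ (z * m)) Y (by positivity) hY fun g hg => by
      obtain ⟨⟨⟨w₁, -, l1, j1⟩, ⟨l2, l3, hβ⟩, ⟨w₂, l4, -, j2⟩⟩, hn₀⟩ := hYQ g hg
      obtain rfl : w₁ = w := hU _ _ _ l1 l2
      obtain rfl : w₂ = w' := hU _ _ _ l4 l3
      refine ⟨j1.mono le_rfl le_rfl (Nat.le_add_right _ _), ?_⟩
      have hE : (0 : ℝ) ≤ K₉ * n := by positivity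
      have h4 := hback ψ hψ.qi _ j _ _ d z _ _ (z * g) j2.symm
        (by rw [inv_mul_cancel_left]; exact hn₀) (j1.1.trans (by linarith))
      refine h4.mono fun t ht => ?_
      rw [Set.mem_ofPred_eq] at ht ⊢
      refine le_trans ht (max_le_max ?_ le_rfl)
      have e : X.π (ψ (z * m)) - X.π (ψ z) = (X.π (ψ (z * m)) - X.π (ψ (z * g * n₀))) +
          (X.π (ψ (z * g * n₀)) - X.π (ψ (z * g))) + (X.π (ψ (z * g)) - X.π (ψ z)) := by abel
      have b1 := (le_abs_self _).trans ((hB j _).trans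
        (mul_le_mul_of_nonneg_left j1.1 (by linarith)))
      have b2 := (le_abs_self _).trans ((hB j _).trans
        (mul_le_mul_of_nonneg_left j2.1 (by linarith)))
      simp only at hβ b1 b2
      rw [e, map_add, map_add]
      nlinarith
  have h5 := Real.exp_le_exp.1 (hcard.trans h3)
  rw [hw F hF hFn] at h5
  have hn1 : 1 ≤ n := by exact_mod_cast hn
  have hceil : ⌈b⌉₊ ≤ R * n := Nat.ceil_le.2 (by exact_mod_cast hS.hi)
  have h6 : lg (M * n + (c * d + c)) ≤ n := by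
    refine (lg_mono ?_).trans (hlg.trans (one_mul _).le)
    have e1 : d ≤ (X.K * R + X.K) * n := by
      rw [add_mul, mul_assoc]
      exact add_le_add (Nat.mul_le_mul_left _ hceil) (Nat.le_mul_of_pos_right _ hn1)
    rw [add_mul, add_mul, mul_assoc]
    exact Nat.add_le_add_left
      (add_le_add (Nat.mul_le_mul_left _ e1) (Nat.le_mul_of_pos_right _ hn1)) _
  have h7 : a j ≤ B₀ + D * n := by
    by_contra hc
    have h8 : D * n < a j - B₀ := by linarith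
    have h10 : γ * (D * n) < X.dim j * (a j - B₀) :=
      lt_of_lt_of_le (mul_lt_mul_of_pos_left h8 hγ)
        (mul_le_mul_of_nonneg_right (hd j) (le_trans (by positivity) h8.le))
    rw [← mul_assoc, hD] at h10
    have h11 := mul_le_mul_of_nonneg_left h6 hC₁
    nlinarith
  have hd1 : (d : ℝ) ≤ X.K * b + 2 * X.K * n := by
    have := (Nat.ceil_lt_add_one hb0).le
    rw [hdd]
    push_cast
    nlinarith
  have hK₅' : C * X.K ≤ K₅ := le_trans (by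
    have : 0 ≤ 2 * B * K₉ + C * (2 * K₉ + 2 * X.K + 1) + D := by positivity
    linarith) hK₅
  have hn0 : (0 : ℝ) ≤ n := by linarith
  have h12 := mul_le_mul_of_nonneg_right hK₅ hn0
  have h13 : 0 ≤ C * X.K * n := by positivity
  refine h7.trans (le_sub_iff_add_le.1 (max_le ?_ ?_))
  · have : 0 ≤ C * (2 * X.K + 1) * n := by positivity
    nlinarith [le_max_left (β + a' j) (K₅ * b)]
  · have h14 := mul_le_mul_of_nonneg_left hd1 hC
    have h15 := mul_le_mul_of_nonneg_right hK₅' hb0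
    have h16 := mul_le_mul_of_nonneg_left hn hC
    have : 0 ≤ 2 * B * K₉ * n := by positivity
    nlinarith [le_max_right (β + a' j) (K₅ * b)]

/-- `zigp` on `Ω = G × G` (`lev F i = 0`), `evc_uq`, `Jn.symm`, `det2` (`y₁ = ψ (z m)`, `x = z g`) -/
theorem tb2 {c A K₈ M₁ K₉ K₁₀ : ℕ} (hK : 1 ≤ K₈) : ∃ K₅ : ℕ, ∀ Wp : En k → Prop,
    X.TBP Wp c A K₈ M₁ K₉ K₁₀ → X.TB2 Wp c A K₈ M₁ K₁₀ K₅ := by
  obtain ⟨C, hC, hdet⟩ := X.det2 c
  obtain ⟨B₀, hB₀, hχ⟩ := X.χ_bound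
  obtain ⟨κ, hκ, -, hd⟩ := X.dim_bound
  have hK0 : (0 : ℝ) ≤ X.K := Nat.cast_nonneg _
  have hK9 : (0 : ℝ) ≤ K₉ := Nat.cast_nonneg _
  obtain ⟨K₅, hK₅⟩ := exists_nat_ge
    (C * (K₉ + 3 * X.K + 1) + (κ⁻¹ * (2 * B₀ * K₉) + 1 + C * (K₉ + 1)))
  have hq1 : 0 ≤ C * (K₉ + 3 * X.K + 1) := by positivity
  have hq2 : 0 ≤ κ⁻¹ * (2 * B₀ * K₉) + 1 + C * (K₉ + 1) := by positivity
  refine ⟨K₅, fun Wp hP N₀ R θ hθ => ?_⟩
  obtain ⟨M, hM⟩ := hP N₀ R θ hθ
  obtain ⟨Kθ, hz⟩ := X.zigp (half_pos hθ) (c + c)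
  refine ((hM.and (X.evc_uq Wp c A)).and_ev ((EV.lg (M + X.K * R + 2 * X.K) one_pos).and
    (EV.large fun _ _ => max Kθ 1))).mono ?_
  rintro δ η n ψ hcx ⟨⟨h1, hU⟩, hlg, hn⟩ i b T F ζ hT w w' j β hθ' hbig
  have hn1 : (1 : ℝ) ≤ n := (le_max_right _ _).trans hn
  have hn2 : Kθ ≤ n := (le_max_left _ _).trans hn
  have hn3 : 1 ≤ n := by exact_mod_cast hn1
  have hnb : (n : ℝ) ≤ b := by
    have : (1 : ℝ) ≤ K₈ := by exact_mod_cast hK
    nlinarith [hT.lo]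
  obtain ⟨hF, hF0, -, -⟩ := hT.fam
  have hFn : F.Nonempty := ⟨0, hF0⟩
  have hi : lev X.χ F i = 0 :=
    le_antisymm (lev_le hFn hT.neg) (by simpa using le_lev (χ := X.χ) hF hF0 i)
  obtain ⟨ν₃, hν₃, h2⟩ := h1 i b T F ζ hT _ (meas_te hcx.step w w' j β) hθ'
  have := hT.prob
  set F₂ := insert ((b - K₁₀ * n) • X.u i) F with hF₂
  obtain ⟨⟨z, m₀⟩, Y, hY1, hY2, hY3⟩ := hz _ (Adm.lev hF hFn) i b (by linarith) (G × G) (ζ.prod ν₃)
    (fun g => {p | X.JE Wp ψ n δ F (K₉ * n) (M * n) p.1.1 (p.1.1 * g) ∧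
      (p.1.1 * g, p.1.1 * g * p.2) ∈ X.TE Wp ψ n δ w w' j β ∧
      X.JE Wp ψ n δ F₂ (K₉ * n) (M * n) (p.1.1 * g * p.2) (p.1.1 * p.1.2)})
    (fun g => by
      have m1 : Measurable fun p : (G × G) × G => (p.1.1, p.1.1 * g) := by fun_prop
      have m2 : Measurable fun p : (G × G) × G => (p.1.1 * g, p.1.1 * g * p.2) := by fun_prop
      have m3 : Measurable fun p : (G × G) × G => (p.1.1 * g * p.2, p.1.1 * p.1.2) := by fun_prop
      exact (m1 (meas_je hcx.step F _ _)).inter ((m2 (meas_te hcx.step w w' j β)).inter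
        (m3 (meas_je hcx.step F₂ _ _)))) h2
  have hw : X.IsW w := by
    obtain ⟨y, hy⟩ : Y.Nonempty := by
      rw [← Finset.card_pos]
      exact_mod_cast (Real.exp_pos _).trans_le hY3
    obtain ⟨g, m, -, hq, -⟩ := hY2 y hy
    exact hcx.sub _ hq.2.1.1.1
  have hE : (0 : ℝ) ≤ K₉ * n := by positivity
  have hc1 : (⌈b⌉₊ : ℝ) ≤ b + 1 := (Nat.ceil_lt_add_one (by linarith)).le
  have hc2 : ⌈b⌉₊ ≤ R * n := Nat.ceil_le.2 (by exact_mod_cast hT.hi)
  have hl1 : lg (M * n + (X.K * ⌈b⌉₊ + X.K)) ≤ n := by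
    refine (lg_mono ?_).trans (hlg.trans (one_mul _).le)
    have a1 := Nat.mul_le_mul_left X.K hc2
    have a2 := Nat.mul_le_mul_left X.K hn3
    have a3 : (M + X.K * R + 2 * X.K) * n = M * n + X.K * (R * n) + 2 * (X.K * n) := by ring
    omega
  have hl2 : lg (M * n) ≤ n := (lg_mono (Nat.le_add_right _ _)).trans hl1
  have h3 := hdet ψ hcx.qi _ (Adm.lev (hF.image w) (hFn.image w)) j
    (β + lev X.χ (w' '' F₂) j + 2 * B₀ * (K₉ * n)) (K₉ * n) (M * n) (X.K * ⌈b⌉₊ + X.K) z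
    (ψ (z * m₀)) Y hE hY1
    (by simpa using le_lev (χ := X.χ) (hF.image w) ⟨0, hF0, rfl⟩ j)
    (fun j' hj' => by
      refine le_trans ?_ (hbig j' hj')
      have a1 : (K₉ : ℝ) * n + (X.K * ⌈b⌉₊ + X.K : ℕ) + lg (M * n) ≤ (K₉ + 3 * X.K + 1) * b := by
        push_cast
        nlinarith [mul_le_mul_of_nonneg_left hc1 hK0, mul_le_mul_of_nonneg_left hnb hK9,
          mul_le_mul_of_nonneg_left (hn1.trans hnb) hK0]
      have a2 := mul_le_mul_of_nonneg_left a1 hC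
      have a3 := mul_le_mul_of_nonneg_right (show C * (K₉ + 3 * X.K + 1) ≤ K₅ by linarith)
        (show 0 ≤ b by linarith)
      linarith)
    (fun y hy => by
      obtain ⟨g, m, hm, ⟨⟨w₁, a1, a2, a3⟩, ⟨a4, a5, a6⟩, w₂, a7, -, a8⟩, rfl⟩ := hY2 y hy
      obtain rfl : w₁ = w := hU _ _ _ a2 a4
      obtain rfl : w₂ = w' := hU _ _ _ a7 a5
      refine ⟨z * g, a3, ?_, ?_⟩
      · rw [← mul_assoc z, inv_mul_cancel_left]
        exact X.RB_ball' hm
      · rw [← mul_assoc z]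
        refine a8.2.symm.mono ?_
        rintro t ⟨v, b1, b2⟩
        have b3 := (le_abs_self _).trans ((hχ j v).trans
          (mul_le_mul_of_nonneg_left b1 (by linarith)))
        have b4 := (le_abs_self _).trans ((hχ j _).trans
          (mul_le_mul_of_nonneg_left a3.1 (by linarith)))
        have b5 := b2 j
        simp only [map_sub] at a6 b4 b5
        simp only [Set.mem_ofPred_eq, map_sub]
        linarith)
  have h4 := Real.exp_le_exp.1 (hY3.trans h3)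
  rw [hw F hF hFn, hi] at h4
  have h5 : X.dim j * (2 * B₀ * (K₉ * n)) ≤ κ⁻¹ * (2 * B₀ * (K₉ * n)) :=
    mul_le_mul_of_nonneg_right (hd j).2 (by positivity)
  have h6 := mul_le_mul_of_nonneg_left hl1 hC
  have h7 := mul_le_mul_of_nonneg_right
    (show κ⁻¹ * (2 * B₀ * K₉) + 1 + C * (K₉ + 1) ≤ K₅ by linarith) (show (0 : ℝ) ≤ n by linarith)
  linarith

theorem h62_lev_insert {F : Set (Fin k → ℝ)} (hF : F.Finite) (w : En k) (s : Fin k → ℝ) (j : X.ι)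
    {r : ℝ} (h1 : X.χ j (w s) ≤ r) (h2 : lev X.χ (w '' F) j ≤ r) :
    lev X.χ (w '' insert s F) j ≤ r := by
  refine lev_le ((Set.insert_nonempty s F).image w) ?_
  rintro _ ⟨x, rfl | hx, rfl⟩
  · exact h1
  · exact (le_lev (hF.image w) (Set.mem_image_of_mem w hx) j).trans h2

theorem h62_disp (c : ℕ) : ∃ B : ℝ, 0 ≤ B ∧ ∀ ψ : G → G, QI X.Sg X.Sg ψ c → ∀ (i j : X.ι) (b : ℝ),
    1 ≤ b → ∀ z, ∀ m ∈ X.RB i b, X.χ j (X.π (ψ (z * m)) - X.π (ψ z)) ≤ B * b := by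
  obtain ⟨B, hB, h⟩ := X.χ_bound
  refine ⟨B * (X.K * (c * (3 * X.K) + c)), by positivity, fun ψ hψ i j b hb z m hm => ?_⟩
  have h1 := X.ht_lip hψ (x := z) (y := z * m) (by rw [inv_mul_cancel_left]; exact X.RB_ball' hm)
  refine (le_abs_self _).trans ((h j _).trans ?_)
  rw [mul_assoc]
  refine mul_le_mul_of_nonneg_left (h1.trans ?_) (by linarith)
  rw [mul_assoc]
  refine mul_le_mul_of_nonneg_left ?_ (Nat.cast_nonneg _)
  have h2 : (⌈b⌉₊ : ℝ) ≤ 2 * b := by linarith [Nat.ceil_lt_add_one (show 0 ≤ b by linarith)]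
  have hK : (0 : ℝ) ≤ X.K := Nat.cast_nonneg _
  have hc : (0 : ℝ) ≤ c := Nat.cast_nonneg _
  have h3 : ((X.K * ⌈b⌉₊ + X.K : ℕ) : ℝ) ≤ 3 * X.K * b := by
    push_cast
    nlinarith
  nlinarith

theorem h62_top : ∃ B : ℝ, 0 ≤ B ∧ ∀ w, X.IsW w → ∀ (i j : X.ι) (τ b : ℝ), 0 ≤ τ → τ ≤ b →
    X.χ j (w (τ • X.u i)) ≤ B * b := by
  obtain ⟨B₁, hB₁, h₁⟩ := X.χ_bound
  obtain ⟨B₂, hB₂, h₂⟩ := X.isW_bound
  obtain ⟨B₃, hB₃, h₃⟩ := X.u_bound
  refine ⟨B₁ * (B₂ * B₃), by positivity, fun w hw i j τ b h0 hb => ?_⟩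
  refine (le_abs_self _).trans ((h₁ j _).trans ?_)
  rw [mul_assoc, mul_assoc]
  refine mul_le_mul_of_nonneg_left ((h₂ w hw _).trans
    (mul_le_mul_of_nonneg_left ?_ (by linarith))) (by linarith)
  rw [norm_smul, Real.norm_of_nonneg h0, mul_comm]
  exact mul_le_mul (h₃ i) hb h0 (by linarith)

/-- union bound for the first part of `tbc` -/
theorem h62_union {Wp : En k → Prop} (hW : ∀ w, Wp w → X.IsW w) {ψ : G → G} (hψ : Step ψ) {n : ℕ}
    {δ θ' : ℝ} {ζ : Measure G} [IsProbabilityMeasure ζ] {i : X.ι} {b : ℝ}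
    (h1 : ζ.real {z | ¬ ∃ w, X.Lb Wp ψ n δ z w} ≤ δ)
    (h2 : ((ζ.prod (X.νR i b)).map fun p => p.1 * p.2).real {z | ¬ ∃ w, X.Lb Wp ψ n δ z w} ≤ δ)
    (h3 : ∀ w w', X.IsW w → X.IsW w' → (ζ.prod (X.νR i b)).real {p | w ≠ w' ∧ p.2 ∈ X.RB i b ∧
      X.Lb Wp ψ n δ p.1 w ∧ X.Lb Wp ψ n δ (p.1 * p.2) w'} ≤ θ') :
    X.pr ζ i b {p | ¬ ∃ w, X.Lb Wp ψ n δ p.1 w ∧ X.Lb Wp ψ n δ p.2 w} ≤
      2 * δ + (X.isW_finite.toFinset.card : ℝ) ^ 2 * θ' := by
  have := X.νR_prob i b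
  have hm : MeasurableSet {z | ¬ ∃ w, X.Lb Wp ψ n δ z w} := (meas_ex_lb hψ).compl
  have e1 : (ζ.prod (X.νR i b)).real (Prod.fst ⁻¹' {z | ¬ ∃ w, X.Lb Wp ψ n δ z w}) ≤ δ := by
    rw [Measure.real, measurePreserving_fst.measure_preimage hm.nullMeasurableSet]
    exact h1
  have e2 : (ζ.prod (X.νR i b)).real
      ((fun p : G × G => p.1 * p.2) ⁻¹' {z | ¬ ∃ w, X.Lb Wp ψ n δ z w}) ≤ δ := by
    rw [Measure.real, ← Measure.map_apply measurable_mul hm]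
    exact h2
  have e3 : (ζ.prod (X.νR i b)).real {p : G × G | ¬ p.2 ∈ X.RB i b} = 0 := by
    rw [Measure.real, ae_iff.1 (Measure.quasiMeasurePreserving_snd.ae (X.νR_box i b))]
    rfl
  have e4 := (measureReal_biUnion_finset_le (μ := ζ.prod (X.νR i b))
    (X.isW_finite.toFinset ×ˢ X.isW_finite.toFinset) fun q => {p | q.1 ≠ q.2 ∧ p.2 ∈ X.RB i b ∧
      X.Lb Wp ψ n δ p.1 q.1 ∧ X.Lb Wp ψ n δ (p.1 * p.2) q.2}).trans
    (Finset.sum_le_card_nsmul _ _ θ' fun q hq => h3 q.1 q.2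
      (X.isW_finite.mem_toFinset.1 (Finset.mem_product.1 hq).1)
      (X.isW_finite.mem_toFinset.1 (Finset.mem_product.1 hq).2))
  rw [Finset.card_product, nsmul_eq_mul, Nat.cast_mul, ← sq] at e4
  refine (measureReal_mono (s₂ := _ ∪ _ ∪ _ ∪ _) fun p hp => ?_).trans
    ((measureReal_union_le _ _).trans ((add_le_add ((measureReal_union_le _ _).trans
      (add_le_add ((measureReal_union_le _ _).trans (add_le_add e1 e2)) e3.le)) e4).trans
        (le_of_eq (by ring))))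
  by_cases a1 : ∃ w, X.Lb Wp ψ n δ p.1 w
  swap
  · exact Or.inl (Or.inl (Or.inl a1))
  by_cases a2 : ∃ w, X.Lb Wp ψ n δ (p.1 * p.2) w
  swap
  · exact Or.inl (Or.inl (Or.inr a2))
  by_cases a3 : p.2 ∈ X.RB i b
  swap
  · exact Or.inl (Or.inr a3)
  obtain ⟨w, hw⟩ := a1
  obtain ⟨w', hw'⟩ := a2
  refine Or.inr (Set.mem_iUnion₂.2 ⟨(w, w'), Finset.mem_product.2
    ⟨X.isW_finite.mem_toFinset.2 (hW _ hw.1), X.isW_finite.mem_toFinset.2 (hW _ hw'.1)⟩,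
    fun e => hp ⟨w, hw, ?_⟩, a3, hw, hw'⟩)
  have e' : w = w' := e
  rw [e']
  exact hw'

/-- `T = T₀ b`.  First part: `Cx.pl` for `ζ` and for the convolution (`inv_conv`, `ev_nu`), `wit`,
`TB1` with `F = {0, T v}` and the almost sure bound `β = O(b)` (`ht_lip`), union bound over pairs.
Second part: `F = T • F₀` (`arm`, `lev_smul`), `TB1`, `TB2`, `Par.unique` -/
theorem tbc {c A K₈ M₁ K₁₀ K₅ K₅' : ℕ} (hA : A + 2 ≤ K₈) (hK : K₁₀ ≤ K₈) :
    ∃ M₂ K₅'' : ℕ, ∀ Wp : En k → Prop, X.TB1 Wp c A K₈ M₁ K₁₀ K₅ → X.TB2 Wp c A K₈ M₁ K₁₀ K₅' →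
      X.TBC Wp c A K₈ M₂ K₅'' := by
  obtain ⟨γ₁, hγ₁, hwit⟩ := X.wit
  obtain ⟨γ₂, hγ₂, harm⟩ := X.arm
  obtain ⟨K₁₁, hconv⟩ := X.inv_conv
  obtain ⟨B₀, hB₀, hdisp⟩ := X.h62_disp c
  obtain ⟨B₁, hB₁, htop⟩ := X.h62_top
  have hγ : 0 < min γ₁ γ₂ := lt_min hγ₁ hγ₂
  obtain ⟨T₀, hT₀⟩ := exists_nat_ge ((B₀ + B₁ + 2 * K₅ + K₅' + 1) / min γ₁ γ₂)
  rw [div_le_iff₀ hγ] at hT₀
  have hT0 : (0 : ℝ) ≤ T₀ := Nat.cast_nonneg _
  have hT1 : B₀ + B₁ + 2 * K₅ + K₅' + 1 ≤ T₀ * γ₁ :=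
    hT₀.trans (mul_le_mul_of_nonneg_left (min_le_left _ _) hT0)
  have hT2 : B₀ + B₁ + 2 * K₅ + K₅' + 1 ≤ T₀ * γ₂ :=
    hT₀.trans (mul_le_mul_of_nonneg_left (min_le_right _ _) hT0)
  refine ⟨M₁ * (T₀ + 1) + 2 * K₁₁ + 1, K₅ + K₅', fun Wp h1 h2 R θ hθ => ?_⟩
  obtain ⟨N, hN⟩ : ∃ N : ℝ, N = X.isW_finite.toFinset.card := ⟨_, rfl⟩
  have hθ' : 0 < θ / (2 * (N ^ 2 + 1)) := by positivity
  have hθ1 : N ^ 2 * (θ / (2 * (N ^ 2 + 1))) ≤ θ / 2 := by
    rw [← mul_div_assoc, div_le_div_iff₀ (by positivity) (by norm_num)]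
    nlinarith
  have hθ2 : θ / (2 * (N ^ 2 + 1)) ≤ θ := div_le_self hθ.le (by nlinarith [sq_nonneg N])
  refine (((h1 (Fintype.card X.ι + 2) ((T₀ + 1) * R) _ hθ').and
    (h2 (Fintype.card X.ι + 2) ((T₀ + 1) * R) _ hθ')).and_ev ((X.ev_nu.and
      (EV.small (show 0 < θ / 4 by positivity))).and (EV.large fun _ _ => X.K))).mono ?_
  rintro δ η n ψ hc ⟨⟨t1, t2⟩, ⟨⟨-, hν⟩, -, hδ, hη, -⟩, hn⟩ i b ζ hζ hb1 hb2 hinv
  have hK1 : (1 : ℝ) ≤ X.K := by exact_mod_cast X.one_le_K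
  have hA' : (A : ℝ) + 2 ≤ K₈ := by exact_mod_cast hA
  have hK' : (K₁₀ : ℝ) ≤ K₈ := by exact_mod_cast hK
  have hA0 : (0 : ℝ) ≤ A := Nat.cast_nonneg _
  have hn0 : (0 : ℝ) ≤ n := Nat.cast_nonneg _
  have hb3 : (A + 2) * (n : ℝ) ≤ b := (mul_le_mul_of_nonneg_right hA' hn0).trans hb1
  have hAn : (0 : ℝ) ≤ A * n := by positivity
  have hAK : (A : ℝ) * n ≤ K₈ * n := mul_le_mul_of_nonneg_right (by linarith) hn0
  have hb4 : (n : ℝ) ≤ b := by linarith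
  have hb0 : 1 ≤ b := by linarith
  have hs0 : 0 ≤ b - K₁₀ * n := by linarith [mul_le_mul_of_nonneg_right hK' hn0]
  have hs1 : b - K₁₀ * n ≤ b := sub_le_self _ (by positivity)
  have hM0 : (0 : ℝ) ≤ M₁ * (T₀ + 1) * b := by positivity
  have hK0 : (0 : ℝ) ≤ K₁₁ * b := by positivity
  have h5 : (K₅ : ℝ) * n ≤ K₅ * b := mul_le_mul_of_nonneg_left hb4 (Nat.cast_nonneg _)
  have h50 : (0 : ℝ) ≤ K₅ * n := by positivity
  have h50' : (0 : ℝ) ≤ K₅' * n := by positivity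
  have h51 : (0 : ℝ) ≤ K₅' * b := by positivity
  have hB0 : 0 ≤ B₀ * b := by positivity
  have hB1 : 0 ≤ B₁ * b := by positivity
  have hTb : 0 ≤ T₀ * b := by positivity
  have hts : ∀ F, Fam (Fintype.card X.ι + 2) F (T₀ * b) → (∀ s ∈ F, X.χ i s ≤ 0) →
      X.TS K₈ M₁ (Fintype.card X.ι + 2) ((T₀ + 1) * R) n η i b (T₀ * b) F ζ := fun F f1 f2 => by
    have hR : 0 ≤ (R : ℝ) * n := by positivity
    refine ⟨hζ, hb1, ?_, ?_, f1, f2, hinv.mono (fun j => ?_) le_rfl⟩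
    · have : 0 ≤ T₀ * ((R : ℝ) * n) := by positivity
      push_cast; linarith
    · have := mul_le_mul_of_nonneg_left hb2 hT0
      push_cast; linarith
    · simp only [gl]
      split_ifs
      · exact le_rfl
      · push_cast; linarith
  refine ⟨?_, fun w j β hpr => ?_⟩
  · have := X.νR_prob i b
    have a1 := hc.pl ζ hζ (hinv.mono (fun j => by
      simp only [gl]
      split_ifs
      · linarith
      · push_cast; linarith) (by linarith))
    have a2 := hconv i (K₈ * n) _ b b n η η ζ hζ (by positivity) (by linarith) hn0 (by linarith)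
      (by push_cast; linarith) hinv fun g hg => by
        simpa only [sub_add_cancel] using (hν i (b - n) n le_rfl g hg).1
    have a3 := hc.pl _ (Measure.isProbabilityMeasure_map measurable_mul.aemeasurable)
      (a2.mono (fun j => by
        simp only [gl]
        split_ifs
        · linarith
        · linarith) (by linarith))
    refine (X.h62_union hc.sub hc.step a1 a3 (θ' := θ / (2 * (N ^ 2 + 1)))
      fun w w' hw hw' => ?_).trans (by rw [← hN]; linarith)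
    by_cases e : w = w'
    · simp [e, hθ'.le]
    obtain ⟨j, v, v1, v2, v3⟩ := hwit i w w' hw hw' e
    refine (measureReal_mono (s₂ := {p | (p.1, p.1 * p.2) ∈ X.TE Wp ψ n δ w w' j (B₀ * b)})
      fun p hp => ⟨hp.2.2.1, hp.2.2.2, hdisp ψ hc.qi i j b hb0 _ _ hp.2.1⟩).trans ?_
    by_contra hcon
    have hl : ∀ w₀ : En k, lev X.χ (w₀ '' {0, (T₀ * b) • v}) j =
        T₀ * b * max (X.χ j (w₀ v)) 0 := fun w₀ => by
      rw [Set.image_pair, map_zero, lev_pair, mul_max_of_nonneg _ _ hTb, mul_zero]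
      simp only [map_smul, smul_eq_mul]
    have a4 := t1 i b _ {0, (T₀ * b) • v} ζ (hts _ ⟨Set.toFinite _, Set.mem_insert _ _,
      (Set.ncard_insert_le _ _).trans (by simp), by
        rintro _ (rfl | rfl)
        · simpa using hTb
        · rw [norm_smul, Real.norm_of_nonneg hTb]
          exact mul_le_of_le_one_right hTb v1⟩ (by
        rintro _ (rfl | rfl)
        · simp
        · rw [map_smul, smul_eq_mul]
          exact mul_nonpos_of_nonneg_of_nonpos hTb v2)) w w' j _ (not_le.1 hcon).le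
    have a5 : 0 ≤ T₀ * b * max (X.χ j (w' v)) 0 := mul_nonneg hTb (le_max_right _ _)
    have a6 := X.h62_lev_insert (F := {0, (T₀ * b) • v}) (Set.toFinite _) w'
      ((b - K₁₀ * n) • X.u i) j (r := T₀ * b * max (X.χ j (w' v)) 0 + B₁ * b)
      (by linarith [htop w' hw' i j _ b hs0 hs1]) (by rw [hl]; linarith)
    have a7 := mul_le_mul_of_nonneg_left v3 hTb
    have a8 := mul_le_mul_of_nonneg_right hT1 (show 0 ≤ b by linarith)
    rw [hl] at a4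
    rcases le_max_iff.1 (sub_le_iff_le_add.2 a4) with a9 | a9 <;> linarith
  · have hw : X.IsW w := by
      obtain ⟨p, hp⟩ : {p : G × G | (p.1, p.1 * p.2) ∈ X.TE Wp ψ n δ w w j β}.Nonempty := by
        rw [Set.nonempty_iff_ne_empty]
        intro e
        rw [pr, e, measureReal_empty] at hpr
        linarith
      exact hc.sub w hp.1.1
    obtain ⟨F₀, f1, f2, f3⟩ := harm i w hw
    have fF : Fam (Fintype.card X.ι + 2) ((fun s => (T₀ * b) • s) '' F₀) (T₀ * b) :=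
      ⟨f1.1.image _, ⟨0, f1.2.1, smul_zero _⟩,
        (Set.ncard_image_le f1.1).trans (f1.2.2.1.trans (Nat.le_succ _)), by
          rintro _ ⟨s, hs, rfl⟩
          rw [norm_smul, Real.norm_of_nonneg hTb]
          exact mul_le_of_le_one_right hTb (f1.2.2.2 s hs)⟩
    have fn : ∀ s ∈ (fun s => (T₀ * b) • s) '' F₀, X.χ i s ≤ 0 := by
      rintro _ ⟨s, hs, rfl⟩
      rw [map_smul, smul_eq_mul]
      exact mul_nonpos_of_nonneg_of_nonpos hTb (f2 s hs)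
    have fl : ∀ j', (¬ ∃ t, X.Par w i j' t) → (B₀ + B₁ + 2 * K₅ + K₅' + 1) * b ≤
        lev X.χ (w '' ((fun s => (T₀ * b) • s) '' F₀)) j' := fun j' hj' => by
      obtain ⟨s, ⟨s₀, hs₀, rfl⟩, hs⟩ := exists_lev (χ := X.χ) (f1.1.image w) ⟨_, 0, f1.2.1, rfl⟩ j'
      have a1 := (f3 j').resolve_left hj'
      have a2 := le_lev (χ := X.χ) (fF.1.image w)
        (Set.mem_image_of_mem w (Set.mem_image_of_mem _ hs₀)) j'
      rw [map_smul, map_smul, smul_eq_mul, ← hs] at a2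
      have a3 := mul_le_mul_of_nonneg_left a1 hTb
      have a4 := mul_le_mul_of_nonneg_right hT2 (show 0 ≤ b by linarith)
      linarith
    generalize (fun s => (T₀ * b) • s) '' F₀ = F at fF fn fl
    have b1 := t1 i b _ F ζ (hts F fF fn) w w j β (hθ2.trans hpr)
    have b2 := t2 i b _ F ζ (hts F fF fn) w w j β (hθ2.trans hpr)
    have b3 : (¬ ∃ t, X.Par w i j t) → lev X.χ (w '' insert ((b - K₁₀ * n) • X.u i) F) j ≤
        lev X.χ (w '' F) j := fun hj => X.h62_lev_insert fF.1 w _ j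
      (by have := fl j hj; have := htop w hw i j _ b hs0 hs1; linarith) le_rfl
    have hd := (X.dim_pos j).le
    refine ⟨fun hj => ?_, fun t ht => ?_, fun hj => ?_⟩
    · have := fl j hj
      have := b3 hj
      push_cast
      rcases le_max_iff.1 (sub_le_iff_le_add.2 b1) with a9 | a9 <;> linarith
    · have c1 := b2 fun j' hj' => by
        have := fl j' fun ⟨t', ht'⟩ => hj' (Par.unique hw ht' ht).1
        linarith
      have c2 : 0 ≤ lev X.χ (w '' F) j := by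
        simpa using le_lev (χ := X.χ) (fF.1.image w) (Set.mem_image_of_mem w fF.2.1) j
      have c3 : lev X.χ (w '' insert ((b - K₁₀ * n) • X.u i) F) j ≤ t * b := by
        refine X.h62_lev_insert fF.1 w _ j ?_ (lev_le (Set.Nonempty.image w ⟨0, fF.2.1⟩) ?_)
        · rw [ht.2, map_smul, X.u_self, smul_eq_mul, mul_one]
          exact mul_le_mul_of_nonneg_left hs1 ht.1.le
        · rintro _ ⟨s, hs, rfl⟩
          rw [ht.2]
          exact mul_le_mul_of_nonneg_left ((fn s hs).trans (by linarith)) ht.1.le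
      have c4 := mul_le_mul_of_nonneg_left (show β + lev X.χ (w '' insert ((b - K₁₀ * n) • X.u i) F) j -
        lev X.χ (w '' F) j ≤ β + t * b by linarith) hd
      push_cast
      linarith
    · have c1 := b2 fun j' _ => by
        have := fl j' fun ⟨t', ht'⟩ => hj j' t' ht'
        linarith
      have c3 := b3 fun ⟨t', ht'⟩ => hj j t' ht'
      have c4 := mul_le_mul_of_nonneg_left (show β + lev X.χ (w '' insert ((b - K₁₀ * n) • X.u i) F) j -
        lev X.χ (w '' F) j ≤ β by linarith) hd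
      push_cast
      linarith

theorem tbc_all (c A : ℕ) : ∃ K₈ M₂ K₅ : ℕ, A + 2 ≤ K₈ ∧
    ∀ Wp : En k → Prop, X.TBC Wp c A K₈ M₂ K₅ := by
  obtain ⟨K₈, M₁, K₉, K₁₀, h1, h2, h3⟩ := X.tbp c A
  obtain ⟨K₅, h4⟩ := X.tb1 (c := c) (A := A) (K₈ := K₈) (M₁ := M₁) (K₉ := K₉) (K₁₀ := K₁₀) (by omega)
  obtain ⟨K₅', h5⟩ := X.tb2 (c := c) (A := A) (K₈ := K₈) (M₁ := M₁) (K₉ := K₉) (K₁₀ := K₁₀) (by omega)
  obtain ⟨M₂, K₅'', h6⟩ := X.tbc (c := c) (M₁ := M₁) (K₅ := K₅) (K₅' := K₅') h1 h2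
  exact ⟨K₈, M₂, K₅'', h1, fun Wp => h6 Wp (h4 Wp (h3 Wp)) (h5 Wp (h3 Wp))⟩

/-- pass 1, `b = A₀ n`: if `z` has label `w` with probability `> θ'`, then with positive probability
`z n₀` has label `w` and `χ j Δ > -(K₅ + 1) n` for all non-parallel `j`, so (`χ_le_of_ne`,
`Par.unique`) the remaining class has `χ j Δ ≤ B (K₅ + 1) n`; `TBC` and `gapdim` force
`dim i ≤ t dim j`; `isW'_of_le`, `PLoc.of_evc`, `Lab.mono` -/
theorem pass1 {c A K₈ M₂ K₅ : ℕ} (hA : A + 2 ≤ K₈) (h : X.TBC X.IsW c A K₈ M₂ K₅)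
    (hp : X.PLoc X.IsW c A) : ∃ A' : ℕ, X.PLoc X.IsW' c A' := by
  classical
  obtain ⟨B, hB1, hB⟩ := X.χ_le_of_ne
  obtain ⟨γ, hγ, hγ1, hγ2⟩ := X.gapdim
  have hD : ∀ j, X.dim j ≤ ∑ j, X.dim j := fun j =>
    Finset.single_le_sum (f := X.dim) (fun j _ => (X.dim_pos j).le) (Finset.mem_univ j)
  obtain ⟨A₁, hA₁⟩ := exists_nat_gt (((∑ j, X.dim j) * (B * (K₅ + 1)) + K₅) / γ)
  rw [div_lt_iff₀ hγ] at hA₁
  generalize ∑ j, X.dim j = D at hD hA₁
  refine ⟨K₈ + M₂ * (K₈ + A₁), hp.of_evc (fun _ hw => hw) fun ε θ hε hθ => ?_⟩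
  set W := X.isW_finite.toFinset with hW
  set θ' : ℝ := θ / (2 * ((W.card + 1) * (Fintype.card X.ι + 1))) with hθ'
  have hθ'0 : 0 < θ' := by positivity
  refine ((((h (K₈ + A₁) θ' hθ'0).and (X.evc_uq X.IsW c A)).and_ev
    (EV.small (a := min ε (θ / 2)) (by positivity))).and_ev (EV.large fun _ _ => 1)).mono ?_
  rintro δ η n ψ cx ⟨⟨⟨hT, hU⟩, hδ0, hδ, hη0, -⟩, hn⟩ ζ hζ hI
  have hn0 : (0 : ℝ) ≤ n := by positivity
  have hK₈ : (0 : ℝ) ≤ K₈ := by positivity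
  have hA₁0 : (0 : ℝ) ≤ A₁ := by positivity
  have hM₂ : (0 : ℝ) ≤ M₂ := by positivity
  have hK₅ : (0 : ℝ) ≤ K₅ := by positivity
  have key : ∀ w, X.IsW w → ¬ X.IsW' w →
      ζ.real {z | X.Lb X.IsW ψ n δ z w} ≤ (Fintype.card X.ι + 1) * θ' := by
    intro w hw hw'
    obtain ⟨i, hi⟩ : ∃ i, ¬ ∃ j t, X.Par w i j t ∧ X.dim i ≤ t * X.dim j := by
      by_contra hc
      push Not at hc
      exact hw' (X.isW'_of_le hw hc)
    obtain ⟨h1, h2⟩ := hT i (((K₈ + A₁ : ℕ) : ℝ) * n) ζ hζ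
      (by push_cast; nlinarith [mul_nonneg hA₁0 hn0]) le_rfl
      (hI.mono (fun j => by
        unfold gl
        push_cast
        split_ifs
        · nlinarith [mul_nonneg (mul_nonneg hM₂ (add_nonneg hK₈ hA₁0)) hn0]
        · nlinarith [mul_nonneg hK₈ hn0]) le_rfl)
    have hb : D * (B * (K₅ + 1)) * n + K₅ * n < γ * (((K₈ + A₁ : ℕ) : ℝ) * n) := by
      push_cast
      nlinarith [mul_nonneg (mul_nonneg hγ.le hK₈) hn0]
    have hb0 : (0 : ℝ) ≤ ((K₈ + A₁ : ℕ) : ℝ) * n := by positivity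
    generalize ((K₈ + A₁ : ℕ) : ℝ) * n = b at h1 h2 hb hb0
    have hr0 : (0 : ℝ) ≤ B * ((K₅ + 1) * n) := by positivity
    obtain ⟨j₀, hj₀, hj₁⟩ : ∃ j₀, (∀ j, j ≠ j₀ → ¬ ∃ t, X.Par w i j t) ∧
        X.pr ζ i b (X.TE X.IsW ψ n δ w w j₀ (B * ((K₅ + 1) * n))) ≤ θ' := by
      by_cases hp : ∃ j t, X.Par w i j t
      · obtain ⟨j₀, t, ht⟩ := hp
        refine ⟨j₀, fun j hj ⟨t', ht'⟩ => hj (Par.unique hw ht' ht).1, ?_⟩
        by_contra hc
        have h3 := (h2 w j₀ _ (not_le.1 hc).le).2.1 t ht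
        have h4 := hγ2 w i j₀ t hw ht (not_le.1 fun h => hi ⟨j₀, t, ht, h⟩)
        have h5 := mul_le_mul_of_nonneg_right (hD j₀) hr0
        have h6 := mul_le_mul_of_nonneg_right h4 hb0
        nlinarith
      · refine ⟨i, fun j _ ⟨t, ht⟩ => hp ⟨j, t, ht⟩, ?_⟩
        by_contra hc
        have h3 := (h2 w i _ (not_le.1 hc).le).2.2 fun j t ht => hp ⟨j, t, ht⟩
        have h5 := mul_le_mul_of_nonneg_right (hD i) hr0
        have h6 := mul_le_mul_of_nonneg_right (hγ1 i) hb0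
        nlinarith
    have hall : ∀ j, X.pr ζ i b (X.TE X.IsW ψ n δ w w j
        (if j = j₀ then B * ((K₅ + 1) * n) else -((K₅ + 1) * n))) ≤ θ' := by
      intro j
      split_ifs with hj
      · subst hj; exact hj₁
      · by_contra hc
        have h3 := (h2 w j _ (not_le.1 hc).le).1 (hj₀ j hj)
        linarith
    haveI := X.νR_prob i b
    have e : ζ.real {z | X.Lb X.IsW ψ n δ z w} =
        (ζ.prod (X.νR i b)).real ({z | X.Lb X.IsW ψ n δ z w} ×ˢ Set.univ) := by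
      rw [measureReal_prod_prod, probReal_univ, mul_one]
    rw [e]
    have hsub : ({z | X.Lb X.IsW ψ n δ z w} ×ˢ Set.univ : Set (G × G)) ⊆
        {p | (p.1, p.1 * p.2) ∈ {p : G × G | ¬ ∃ w, X.Lb X.IsW ψ n δ p.1 w ∧
          X.Lb X.IsW ψ n δ p.2 w}} ∪
        ⋃ j, {p | (p.1, p.1 * p.2) ∈ X.TE X.IsW ψ n δ w w j
          (if j = j₀ then B * ((K₅ + 1) * n) else -((K₅ + 1) * n))} := by
      rintro ⟨z, m⟩ ⟨hz, -⟩
      by_cases hs : ∃ w, X.Lb X.IsW ψ n δ z w ∧ X.Lb X.IsW ψ n δ (z * m) w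
      · right
        obtain ⟨w', h3, h4⟩ := hs
        obtain rfl : w = w' := hU z w w' hz h3
        by_contra hc
        simp only [Set.mem_iUnion, not_exists] at hc
        refine hc j₀ ⟨h3, h4, ?_⟩
        rw [if_pos rfl]
        refine hB j₀ _ _ (by positivity) fun j hj => ?_
        by_contra h5
        refine hc j ⟨h3, h4, ?_⟩
        rw [if_neg hj]
        exact (not_le.1 h5).le
      · exact Or.inl hs
    refine (measureReal_mono hsub).trans ((measureReal_union_le _ _).trans ?_)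
    have h7 := (measureReal_iUnion_fintype_le (μ := ζ.prod (X.νR i b)) fun j =>
      {p : G × G | (p.1, p.1 * p.2) ∈ X.TE X.IsW ψ n δ w w j
          (if j = j₀ then B * ((K₅ + 1) * n) else -((K₅ + 1) * n))}).trans
      (Finset.sum_le_sum fun j _ => hall j)
    rw [Finset.sum_const, Finset.card_univ, nsmul_eq_mul] at h7
    have h8 := add_le_add h1 h7
    refine h8.trans (le_of_eq ?_)
    ring
  have hpl := cx.pl ζ hζ (hI.mono (fun j => by
    have : (A : ℝ) + 2 ≤ K₈ := by exact_mod_cast hA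
    push_cast
    nlinarith [mul_nonneg (mul_nonneg hM₂ (add_nonneg hK₈ hA₁0)) hn0]) (by linarith))
  have hsub : {z | ¬ ∃ w, X.IsW' w ∧ X.Lab ψ n ε z w} ⊆ {z | ¬ ∃ w, X.Lb X.IsW ψ n δ z w} ∪
      ⋃ w ∈ W.filter fun w => ¬ X.IsW' w, {z | X.Lb X.IsW ψ n δ z w} := by
    intro z hz
    by_cases hs : ∃ w, X.Lb X.IsW ψ n δ z w
    · right
      obtain ⟨w, hw⟩ := hs
      simp only [Set.mem_iUnion]
      refine ⟨w, Finset.mem_filter.2 ⟨by simpa [hW] using hw.1, fun h => hz ⟨w, h, ?_⟩⟩, hw⟩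
      exact hw.2.mono (hδ.trans (min_le_left _ _))
    · exact Or.inl hs
  refine (measureReal_mono hsub).trans ((measureReal_union_le _ _).trans ?_)
  have h7 := (measureReal_biUnion_finset_le (μ := ζ) (W.filter fun w => ¬ X.IsW' w)
    fun w => {z | X.Lb X.IsW ψ n δ z w}).trans (Finset.sum_le_sum fun w hw =>
      key w (by simpa [hW] using (Finset.mem_filter.1 hw).1) (Finset.mem_filter.1 hw).2)
  rw [Finset.sum_const, nsmul_eq_mul] at h7
  have h8 : ((W.filter fun w => ¬ X.IsW' w).card : ℝ) ≤ W.card + 1 := by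
    have := Finset.card_filter_le W fun w => ¬ X.IsW' w
    exact_mod_cast Nat.le_succ_of_le this
  have h9 : ((W.card : ℝ) + 1) * ((Fintype.card X.ι + 1) * θ') = θ / 2 := by
    rw [hθ']; field_simp
  have h10 := mul_le_mul_of_nonneg_right h8
    (show (0 : ℝ) ≤ (Fintype.card X.ι + 1) * θ' by positivity)
  have h11 := hδ.trans (min_le_right _ _)
  linarith

/-- pass 2: for `w` in `IsW'` every class `j` has `χ j Δ > -K' n` with high probability (`TBC`,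
`gapdim`, `Par.unique`), `norm_le_of_χ`; then `mt_gap` with `νR i (b + n)` (`ev_nu`), `Rel.trans` -/
theorem gap_of {c A K₈ M₂ K₅ : ℕ} (hA : A + 2 ≤ K₈) (h : X.TBC X.IsW' c A K₈ M₂ K₅) :
    ∃ K₁₂ : ℕ, X.GAP X.IsW' c A K₈ (2 * M₂) K₁₂ := by
  classical
  obtain ⟨γ, hγ, hd, -⟩ := X.gapdim
  obtain ⟨B, hB1, hB⟩ := X.norm_le_of_χ
  have hW : {w | X.IsW' w}.Finite := X.isW_finite.subset fun _ h => h.1
  obtain ⟨K', hK1, hK2⟩ : ∃ K' : ℝ, (K₅ : ℝ) < K' ∧ (K₅ : ℝ) < γ * K' := by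
    refine ⟨K₅ / γ + K₅ + 1, ?_, ?_⟩
    · have : (0 : ℝ) ≤ K₅ / γ := by positivity
      linarith
    · have : (0 : ℝ) ≤ γ * K₅ := by positivity
      rw [mul_add, mul_add, mul_div_cancel₀ _ hγ.ne']
      linarith
  have hK0 : 0 ≤ K' := le_trans (Nat.cast_nonneg _) hK1.le
  refine ⟨⌈2 * (B * K')⌉₊, fun R θ hθ => ?_⟩
  set s := hW.toFinset ×ˢ (Finset.univ : Finset X.ι) with hs
  have hθ' : 0 < θ / (3 * (1 + s.card)) := by positivity
  refine ((((h (R + 1) _ hθ').and (X.evc_uq _ c A)).and_ev X.ev_nu).and_ev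
    ((EV.small (a := θ / 3) (by positivity)).and (EV.large fun _ _ => 1))).mono ?_
  rintro δ η n ψ hψ ⟨⟨⟨h1, hU⟩, -, hν⟩, ⟨-, -, -, hη⟩, hn⟩ b hb hb' i ζ hζ q hq hI hI'
  have hK8 : (1 : ℝ) ≤ K₈ := by exact_mod_cast (by omega : 1 ≤ K₈)
  have hnb : (n : ℝ) ≤ b := le_trans (by nlinarith) hb
  have hle : X.gl i (K₈ * n) (M₂ * (b + n)) ≤ X.gl i (K₈ * n) (((2 * M₂ : ℕ) : ℝ) * b) := by
    intro j
    unfold gl
    split_ifs
    · exact le_rfl
    · push_cast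
      have : (0 : ℝ) ≤ M₂ := Nat.cast_nonneg _
      nlinarith
  have := X.νR_prob i (b + n)
  have key : ∀ ζ : Measure G, IsProbabilityMeasure ζ →
      X.Inv ζ (X.gl i (K₈ * n) (((2 * M₂ : ℕ) : ℝ) * b)) η →
      X.pr ζ i (b + n) {p | ¬ X.Rel X.IsW' ψ n δ (B * (K' * n)) 0 p.1 p.2} ≤ θ / 3 := by
    intro ζ hζ hI
    obtain ⟨h2, h3⟩ := h1 i (b + n) ζ hζ (by linarith) (by push_cast; linarith)
      (hI.mono hle le_rfl)
    have h4 : ∀ x ∈ s, X.pr ζ i (b + n) (X.TE X.IsW' ψ n δ x.1 x.1 x.2 (-(K' * n))) ≤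
        θ / (3 * (1 + s.card)) := by
      rintro ⟨w, j⟩ hx
      have hw : X.IsW' w := hW.mem_toFinset.1 (Finset.mem_product.1 hx).1
      by_contra hc
      obtain ⟨h5, h6, -⟩ := h3 w j _ (not_le.1 hc).le
      by_cases hp : ∃ t, X.Par w i j t
      · obtain ⟨t, ht⟩ := hp
        obtain ⟨j', t', ht0, ht', he⟩ := hw.2 i
        obtain ⟨rfl, rfl⟩ := Par.unique hw.1 ht ⟨ht0, ht'⟩
        have h7 := h6 t ht
        have h8 : γ * (K' * n) ≤ X.dim j * (K' * n) :=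
          mul_le_mul_of_nonneg_right (hd j) (by positivity)
        rw [he] at h7
        nlinarith
      · have h7 := h5 hp
        nlinarith
    have hsub : {p : G × G | (p.1, p.1 * p.2) ∈
        {p : G × G | ¬ X.Rel X.IsW' ψ n δ (B * (K' * n)) 0 p.1 p.2}} ⊆
        {p : G × G | (p.1, p.1 * p.2) ∈
          {p : G × G | ¬ ∃ w, X.Lb X.IsW' ψ n δ p.1 w ∧ X.Lb X.IsW' ψ n δ p.2 w}} ∪
        ⋃ x ∈ s, {p : G × G | (p.1, p.1 * p.2) ∈ X.TE X.IsW' ψ n δ x.1 x.1 x.2 (-(K' * n))} := by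
      intro p hp
      by_contra hc
      rw [Set.mem_union, not_or] at hc
      obtain ⟨w, l1, l2⟩ := not_not.1 hc.1
      refine hp ⟨w, l1, l2, ?_⟩
      rw [map_zero, sub_zero]
      refine hB _ _ (by positivity) fun j => not_lt.1 fun hj => hc.2 ?_
      exact Set.mem_biUnion (x := (w, j))
        (Finset.mem_product.2 ⟨hW.mem_toFinset.2 l1.1, Finset.mem_univ _⟩) ⟨l1, l2, hj.le⟩
    refine (measureReal_mono hsub).trans ((measureReal_union_le _ _).trans ?_)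
    have h5 := (measureReal_biUnion_finset_le (μ := ζ.prod (X.νR i (b + n))) s fun x =>
      {p : G × G | (p.1, p.1 * p.2) ∈ X.TE X.IsW' ψ n δ x.1 x.1 x.2 (-(K' * n))}).trans
      (Finset.sum_le_card_nsmul _ _ _ h4)
    rw [nsmul_eq_mul] at h5
    refine (add_le_add h2 h5).trans (le_of_eq ?_)
    field_simp
  have h9 := mt_gap ζ (X.νR i (b + n)) (meas_rel hψ.step (B * (K' * n)) 0).compl (key ζ hζ hI)
    (key _ (Measure.isProbabilityMeasure_map (measurable_mul_const q).aemeasurable) hI')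
    (hν i b n le_rfl q hq).2
    (B := {z | ¬ X.Rel X.IsW' ψ n δ ((⌈2 * (B * K')⌉₊ : ℕ) * n) 0 z (z * q)}) fun z hz y => by
      by_contra hc
      rw [not_or] at hc
      have h10 := Rel.trans hU (not_not.1 hc.1) (Rel.symm (not_not.1 hc.2))
      rw [neg_zero, add_zero] at h10
      refine hz (h10.mono ?_)
      have := Nat.le_ceil (2 * (B * K'))
      nlinarith
  linarith

end Geo

end Crest.Agent.R182
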