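import Crest.Agent.R182.MTAlg

/-! Row 182, block M4: the two deterministic counts. -/

set_option autoImplicit false
set_option linter.dupNamespace false

namespace Crest.Agent.R182

open Crest.GroupTheory MeasureTheory

namespace Geo

variable {G : Type} [Group G] [MeasurableSpace G] {k : ℕ} (X : Geo G k)

/-- points whose height relative to `x` has levels at most `a` -/
def Lv (a : X.ι → ℝ) (x : G) : Set G := {y | pt X.χ (X.π y - X.π x) ≤ a}

theorem mem_Lv {a : X.ι → ℝ} {x y : G} : y ∈ X.Lv a x ↔ ∀ l, X.χ l (X.π y - X.π x) ≤ a l :=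
  Iff.rfl

/-- the image of a separated set -/
theorem img_sep {c : ℕ} {ψ : G → G} (hψ : QI X.Sg X.Sg ψ c) (z : G) {Y : Finset G}
    (hY : Sep X.Sg (c + c) Y) : ∃ Y' : Finset G, Sep X.Sg 1 Y' ∧ Y'.card = Y.card ∧
      ∀ y' ∈ Y', ∃ y ∈ Y, y' = (ψ z)⁻¹ * ψ (z * y) := by
  classical
  obtain ⟨h1, h2⟩ := (hY.mul_left z).qi hψ
  refine ⟨Y.image fun y => (ψ z)⁻¹ * ψ (z * y), ?_, ?_, fun y' hy' => ?_⟩
  · have := h1.mul_left (ψ z)⁻¹
    rw [Set.image_image, Set.image_image] at this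
    rwa [Finset.coe_image]
  · refine Finset.card_image_of_injOn fun x hx y hy h => ?_
    exact mul_left_cancel (h2 ⟨x, hx, rfl⟩ ⟨y, hy, rfl⟩ (mul_left_cancel h))
  · obtain ⟨y, hy, rfl⟩ := Finset.mem_image.1 hy'
    exact ⟨y, hy, rfl⟩

theorem lg_mul_le' (c n : ℕ) : lg (c * n) ≤ lg c * lg n :=
  (lg_mono (Nat.le_add_right _ _)).trans (lg_mul_le c n)

/-- COUNT 1.  The endpoints of the zigzags are reached from `ψ z` below the levels `lev (w S) + E`, and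
from `h` below the absolute level `B` in the class `j`. -/
theorem cnt1 : ∃ K₁ : ℝ, 0 ≤ K₁ ∧ ∀ (c : ℕ) (θ : ℝ), 0 < θ → ∃ K₀ : ℝ, 0 ≤ K₀ ∧
    ∀ S : Set (Fin k → ℝ), S.Finite → S.Nonempty → ∃ Z : Sch G, Z.size ≤ X.K ∧
      Z.Let (fun g => ∃ j, g ∈ X.RB j (lev X.χ S j)) ∧
      ∀ ψ : G → G, QI X.Sg X.Sg ψ c → ∀ w, X.IsW w → ∀ (z h : G) (j : X.ι) (E B : ℝ) (m : ℕ)
        (A : Set (List G)), 0 ≤ E → θ ≤ Z.avg (A.indicator 1) → (ψ z)⁻¹ * h ∈ Ball X.Sg m →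
        (∀ u ∈ A, Z.Mem u →
          Reach X.Sg (X.Lv (fun l => lev X.χ (w '' S) l + E) (ψ z)) (ψ z) m (ψ (z * u.prod)) ∧
          X.χ j (X.π (ψ (z * u.prod)) - X.π (ψ z)) ≤ B ∧
          ∃ a', Adm X.χ a' ∧ 0 ≤ a' j ∧ a' j + X.χ j (X.π h - X.π (ψ z)) ≤ B ∧
            Reach X.Sg (X.Lv a' h) h m (ψ (z * u.prod))) →
        lev X.χ (w '' S) j ≤ B + K₁ * E + K₀ * lg m := by
  obtain ⟨K₁, hK₁, hsl⟩ := X.sl
  obtain ⟨B₀, hB₀, hχ⟩ := X.χ_bound
  obtain ⟨Bv, hBv, hV⟩ := X.V_lip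
  obtain ⟨κ, hκ, -, hd⟩ := X.dim_bound
  refine ⟨Bv / κ, by positivity, fun c θ hθ => ?_⟩
  obtain ⟨Kθ, hz⟩ := X.zig0 θ hθ (c + c)
  have hK₁' : (0 : ℝ) ≤ K₁ := Nat.cast_nonneg _
  have hK : (0 : ℝ) ≤ X.K := Nat.cast_nonneg _
  have hl1 := one_le_lg K₁
  refine ⟨(|Kθ| + Bv * (K₁ + B₀ * K₁) + X.K * lg K₁) / κ + (K₁ + B₀ * K₁), by positivity,
    fun S hS hn => ?_⟩
  obtain ⟨Z, hZ1, hZ2, hZ3⟩ := hz _ (Adm.lev hS hn)
  refine ⟨Z, hZ1, hZ2, fun ψ hψ w hw z h j E B m A hE hA hh H => ?_⟩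
  obtain ⟨Y, hY1, hY2, hY3⟩ := hZ3 A hA
  obtain ⟨Y', h1, h2, h3⟩ := X.img_sep hψ z hY1
  have hlm := one_le_lg m
  set r : ℝ := K₁ * lg m + B₀ * K₁ with hr
  have hr1 : 0 ≤ (K₁ : ℝ) * lg m := by positivity
  have hr2 : 0 ≤ B₀ * K₁ := by positivity
  have hadm : Adm X.χ fun l => lev X.χ (w '' S) l + (E + r) :=
    X.adm_add_const (Adm.lev (hS.image w) (hn.image w)) (by positivity)
  have hc := X.count1 _ hadm j (B + r) (K₁ * m) ((ψ z)⁻¹ * h) Y'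
    (Ball.mono subset_rfl (Nat.le_mul_of_pos_left m hK₁) hh) h1 fun y' hy' => by
      obtain ⟨y, hy, rfl⟩ := h3 y' hy'
      obtain ⟨u, hu, hm, rfl⟩ := hY2 y hy
      obtain ⟨a1, a2, a', a3, a4, a5, a6⟩ := H u hu hm
      obtain ⟨e, he, c₁, hc₁, b, hb, e1, e2⟩ := hsl _ _ _ _ a1
      obtain ⟨e', he', c', hc', b', hb', e1', -⟩ := hsl _ _ _ _ a6
      have h4 : ∀ l, X.χ l (X.π c₁) ≤ X.χ l (X.π (ψ (z * u.prod)) - X.π (ψ z)) + B₀ * K₁ := by
        intro l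
        have := (le_abs_self _).trans ((hχ l _).trans (mul_le_mul_of_nonneg_left e2 (by linarith)))
        rw [map_sub] at this
        linarith
      refine ⟨e, X.box_mono _ _ (fun l => ?_) he, c₁, hc₁, b, hb, e1, fun l => ?_, ?_,
        fun l => a' l + K₁ * lg m, X.adm_add_const a3 hr1, by linarith, ?_, e', he', c', hc',
        b', hb', ?_⟩
      · simp only
        linarith
      · have := a1.right l
        simp only [pt] at this ⊢
        linarith [h4 l]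
      · linarith [h4 j]
      · rw [X.π_hom.inv_mul]
        simp only
        linarith
      · rw [mul_assoc ((ψ z)⁻¹ * h), mul_assoc ((ψ z)⁻¹ * h), ← e1']
        group
  rw [h2] at hc
  have h5 := Real.exp_le_exp.1 (hY3.trans hc)
  have h6 := hV (lev X.χ (w '' S)) (fun l => lev X.χ (w '' S) l + (E + r)) (E + r) (by positivity)
    fun _ => le_rfl
  rw [hw S hS hn] at h6
  unfold V at h6
  have h7 := mul_le_mul_of_nonneg_left (lg_mul_le' K₁ m) hK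
  have h8 : |Kθ| ≤ |Kθ| * lg m := le_mul_of_one_le_right (abs_nonneg _) hlm
  have h9 : r ≤ (K₁ + B₀ * K₁) * lg m := by
    have := le_mul_of_one_le_right hr2 hlm
    rw [hr]; linarith
  have h10 := mul_le_mul_of_nonneg_left h9 (zero_le_one.trans hBv)
  set Q : ℝ := Bv * E + (|Kθ| + Bv * (K₁ + B₀ * K₁) + X.K * lg K₁) * lg m with hQ
  have hQ0 : 0 ≤ Q := by positivity
  have h11 : X.dim j * (lev X.χ (w '' S) j + E - B) ≤ Q := by
    have := le_abs_self Kθ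
    rw [hQ]
    nlinarith
  have h12 : lev X.χ (w '' S) j + E - B ≤ Q / κ := by
    rcases le_total (lev X.χ (w '' S) j + E - B) 0 with h | h
    · exact h.trans (by positivity)
    · rw [le_div_iff₀ hκ]
      nlinarith [(hd j).1]
  have h13 : Q / κ = Bv / κ * E + (|Kθ| + Bv * (K₁ + B₀ * K₁) + X.K * lg K₁) / κ * lg m := by
    rw [hQ]; ring
  have h14 : 0 ≤ (K₁ + B₀ * K₁) * lg m := by positivity
  rw [add_mul]
  linarith

/-- COUNT 2.  A zigzag followed by a move of class `i` and level `b ≤ r`; all image levels but the one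
of class `j` are large. -/
theorem cnt2 (c : ℕ) : ∃ K₁ : ℝ, 1 ≤ K₁ ∧ ∀ θ : ℝ, 0 < θ → ∃ K₀ : ℝ, 0 ≤ K₀ ∧
    ∀ S : Set (Fin k → ℝ), S.Finite → S.Nonempty → ∀ (i : X.ι) (b : ℝ), lev X.χ S i ≤ b →
      ∃ Z : Sch G, Z.size ≤ X.K ∧ Z.Let (fun g => ∃ j, g ∈ X.RB j (lev X.χ S j)) ∧
      ∀ ψ : G → G, QI X.Sg X.Sg ψ c → ∀ w, X.IsW w → ∀ (z h : G) (j : X.ι) (E B : ℝ) (m r : ℕ)
        (A : List G → Set G), 0 ≤ E → b ≤ r → r ≤ m → (∀ u, MeasurableSet (A u)) →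
        θ ≤ Z.avg (fun u => (X.νR i b).real (A u)) → (ψ z)⁻¹ * h ∈ Ball X.Sg m →
        0 ≤ lev X.χ (w '' S) j → (∀ l, l ≠ j → K₁ * (r + E + lg m) ≤ lev X.χ (w '' S) l) →
        (∀ u, Z.Mem u → ∀ q ∈ A u, q ∈ X.RB i b →
          Reach X.Sg (X.Lv (fun l => lev X.χ (w '' S) l + E) (ψ z)) (ψ z) m (ψ (z * u.prod)) ∧
          ‖X.π (ψ (z * u.prod)) - X.π (ψ z)‖ ≤ E ∧
          X.χ j (X.π (ψ (z * u.prod * q)) - X.π (ψ z)) ≤ B ∧
          ∃ a', Adm X.χ a' ∧ 0 ≤ a' j ∧ a' j + X.χ j (X.π h - X.π (ψ z)) ≤ B ∧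
            Reach X.Sg (X.Lv a' h) h m (ψ (z * u.prod * q))) →
        X.dim i * (b - lev X.χ S i) ≤ X.dim j * (B - lev X.χ (w '' S) j) + K₁ * E + K₀ * lg m := by
  obtain ⟨K₁, hK₁, hsl⟩ := X.sl
  obtain ⟨K₂, hK₂, hbs⟩ := X.ball_sl
  obtain ⟨B₀, hB₀, hχ⟩ := X.χ_bound
  obtain ⟨Bv, hBv, hV⟩ := X.V_lip
  obtain ⟨κ, hκ, -, hd⟩ := X.dim_bound
  have hK₁' : (0 : ℝ) ≤ K₁ := Nat.cast_nonneg _
  have hK₂' : (0 : ℝ) ≤ K₂ := Nat.cast_nonneg _
  have hK : (0 : ℝ) ≤ X.K := Nat.cast_nonneg _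
  have hl1 := one_le_lg K₁
  -- jump length `≤ L * (r + 1)`
  set L : ℕ := c * X.K + c + 1 with hL
  have hL0 : (0 : ℝ) ≤ L := Nat.cast_nonneg _
  set M : ℕ := K₁ + K₂ * L with hM
  set C₁ : ℝ := K₂ * L + B₀ * (X.K * (X.K * (K₂ * L))) with hC₁
  set C₂ : ℝ := C₁ + K₂ + B₀ * K₁ + X.K * lg K₁ with hC₂
  have hC₁0 : 0 ≤ C₁ := by positivity
  have hC₂0 : 0 ≤ C₂ := by positivity
  refine ⟨X.K * (C₂ + B₀) + Bv + 1, le_add_of_nonneg_left (by positivity), fun θ hθ => ?_⟩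
  obtain ⟨Kθ, hz⟩ := X.zig θ hθ (c + c)
  have hlM := one_le_lg M
  refine ⟨|Kθ| + Bv * K₁ + X.K * lg M + κ⁻¹ * (K₁ + B₀ * X.K), by positivity,
    fun S hS hn i b hb => ?_⟩
  obtain ⟨Z, hZ1, hZ2, hZ3⟩ := hz _ (Adm.lev hS hn) i b hb
  refine ⟨Z, hZ1, hZ2, fun ψ hψ w hw z h j E B m r A hE hbr hrm hAm hA hh hj hl H => ?_⟩
  obtain ⟨Y, hY1, hY2, hY3⟩ := hZ3 A hAm hA
  obtain ⟨Y', h1, h2, h3⟩ := X.img_sep hψ z hY1
  have hlm := one_le_lg m
  have hr0 : (0 : ℝ) ≤ r := Nat.cast_nonneg _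
  have hr1 : 0 ≤ (K₁ : ℝ) * lg m := by positivity
  have hr2 : 0 ≤ B₀ * X.K := by positivity
  have hadm : Adm X.χ fun l => lev X.χ (w '' S) l + (E + K₁ * lg m) :=
    X.adm_add_const (Adm.lev (hS.image w) (hn.image w)) (by positivity)
  set D : ℝ := C₁ * (r + 1) + K₂ + B₀ * (E + K₁) + X.K * lg K₁ * lg m with hD
  have hD0 : 0 ≤ D := by positivity
  have hD1 : D ≤ (C₂ + B₀) * (r + E + lg m) := by
    have a1 : C₁ + K₂ + B₀ * K₁ ≤ (C₁ + K₂ + B₀ * K₁) * lg m :=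
      le_mul_of_one_le_right (by positivity) hlm
    have a2 : C₁ * r ≤ C₂ * r := mul_le_mul_of_nonneg_right (by
      rw [hC₂]; have : 0 ≤ X.K * lg K₁ := by positivity
      have : 0 ≤ B₀ * K₁ := by positivity
      linarith) hr0
    have a3 : 0 ≤ C₂ * E := by positivity
    have a4 : 0 ≤ B₀ * (r + lg m) := by positivity
    have a5 : C₂ * lg m = (C₁ + K₂ + B₀ * K₁) * lg m + X.K * lg K₁ * lg m := by rw [hC₂]; ring
    rw [hD]
    linarith
  have hm1 : K₁ * m ≤ M * m + M :=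
    (Nat.mul_le_mul_right m (Nat.le_add_right _ _)).trans (Nat.le_add_right _ _)
  clear_value D C₂ C₁
  have hc := X.count2 _ hadm j 0 D (B + (K₁ * lg m + B₀ * X.K)) (M * m + M) ((ψ z)⁻¹ * h) Y' hD0
    (by rw [map_zero]; positivity)
    (fun l hlj => by
      have a1 := hl l hlj
      have a2 := mul_le_mul_of_nonneg_left hD1 hK
      have a3 : 0 ≤ (Bv + 1) * (r + E + lg m) := by positivity
      rw [map_zero]
      linarith)
    (Ball.mono subset_rfl ((Nat.le_mul_of_pos_left m hK₁).trans hm1) hh) h1 fun y' hy' => by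
      obtain ⟨y, hy, rfl⟩ := h3 y' hy'
      obtain ⟨u, hm, q, hq, hqb, rfl⟩ := hY2 y hy
      obtain ⟨a1, a0, a2, a', a3, a4, a5, a6⟩ := H u hm q hq hqb
      obtain ⟨e, he, c₁, hc₁, b₁, hb₁, e1, e2⟩ := hsl _ _ _ _ a1
      obtain ⟨e', he', c', hc', b', hb', e1', -⟩ := hsl _ _ _ _ a6
      have j1 : (z * u.prod)⁻¹ * (z * u.prod * q) ∈ Ball X.Sg (X.K * r + X.K) := by
        rw [inv_mul_cancel_left]
        exact X.RB_ball i r (X.RB_mono i _ _ hbr hqb)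
      have j2 : b₁ * ((ψ (z * u.prod))⁻¹ * ψ (z * u.prod * q)) ∈ Ball X.Sg (L * (r + 1)) :=
        Ball.mono subset_rfl (by
          have : L * (r + 1) = 1 + (c * (X.K * r + X.K) + c) + (c * r + r) := by rw [hL]; ring
          omega) (Ball.mul_mem hb₁ (hψ.up _ _ _ j1))
      obtain ⟨e₂, he₂, c₂, hc₂, b₂, hb₂, e3⟩ := hbs _ _ j2
      have p1 : ∀ l, X.χ l (X.π c₁) ≤ B₀ * (E + K₁) := fun l => by
        refine (le_abs_self _).trans ((hχ l _).trans (mul_le_mul_of_nonneg_left ?_ (by linarith)))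
        have := norm_add_le (X.π c₁ - (X.π (ψ (z * u.prod)) - X.π (ψ z)))
          (X.π (ψ (z * u.prod)) - X.π (ψ z))
        rw [sub_add_cancel] at this
        linarith
      have p2 : ∀ l, X.χ l (X.π c₂) ≤ B₀ * (X.K * (X.K * (K₂ * L))) * (r + 1) := fun l => by
        refine (le_abs_self _).trans ((hχ l _).trans ?_)
        have := mul_le_mul_of_nonneg_left (X.π_ball (X.flat_ball hc₂)) (zero_le_one.trans hB₀)
        push_cast at this
        linarith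
      have p3 := X.box_conj _ (X.adm_const (Nat.cast_nonneg _)) _ c₁ hc₁ e₂ he₂
      have p4 := mul_le_mul_of_nonneg_left (lg_mul_le' K₁ m) hK
      have e4 : (ψ z)⁻¹ * ψ (z * (u.prod * q)) = e * (c₁ * e₂ * c₁⁻¹) * (c₁ * c₂) * b₂ := by
        calc _ = ((ψ z)⁻¹ * ψ (z * u.prod)) * ((ψ (z * u.prod))⁻¹ * ψ (z * u.prod * q)) := by
              rw [mul_assoc z]; group
          _ = e * c₁ * (b₁ * ((ψ (z * u.prod))⁻¹ * ψ (z * u.prod * q))) := by rw [e1]; group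
          _ = _ := by rw [e3]; group
      have p5 : 0 ≤ B₀ * (X.K * (X.K * (K₂ * L))) * (r + 1) := by positivity
      have p6 : 0 ≤ K₂ * L * ((r : ℝ) + 1) := by positivity
      have p7 : 0 ≤ X.K * lg K₁ * lg m := by positivity
      have p8 : D = K₂ * L * (r + 1) + B₀ * (X.K * (X.K * (K₂ * L))) * (r + 1) + K₂ +
          B₀ * (E + K₁) + X.K * lg K₁ * lg m := by rw [hD, hC₁]; ring
      refine ⟨e, X.box_mono _ _ (fun l => ?_) he, c₁ * e₂ * c₁⁻¹, X.box_mono _ _ (fun l => ?_) p3,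
        c₁ * c₂, Ball.mono subset_rfl ?_ (Ball.mul_mem hc₁ hc₂), b₂, hb₂, e4, fun l => ?_, ?_,
        fun l => a' l + K₁ * lg m, X.adm_add_const a3 hr1, by linarith, ?_, e', he', c',
        Ball.mono subset_rfl hm1 hc', b', hb', ?_⟩
      · simp only
        linarith
      · simp only [map_zero]
        push_cast
        linarith [p1 l]
      · have a7 := Nat.mul_le_mul_left (K₂ * L) hrm
        have a8 : M * m + M = K₁ * m + (K₂ * L * m + K₂ * L) + K₁ := by rw [hM]; ring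
        have a9 : K₂ * (L * (r + 1)) = K₂ * L * r + K₂ * L := by ring
        omega
      · rw [X.π_hom, map_add, map_zero]
        linarith [p1 l, p2 l]
      · have q1 := congrArg X.π e4
        rw [X.π_hom.inv_mul, X.π_hom (_ * _ * _), X.π_hom (_ * _), X.π_hom e, X.box_π _ _ he,
          X.box_π _ _ p3, ← mul_assoc] at q1
        have q2 : X.π (c₁ * c₂) = X.π (ψ (z * u.prod * q)) - X.π (ψ z) - X.π b₂ := by
          rw [q1]; abel
        have q3 := (neg_le_abs _).trans ((hχ j (X.π b₂)).trans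
          (mul_le_mul_of_nonneg_left (X.π_ball hb₂) (by linarith)))
        rw [q2, map_sub]
        push_cast at q3
        linarith
      · rw [X.π_hom.inv_mul]
        simp only
        linarith
      · rw [mul_assoc ((ψ z)⁻¹ * h), mul_assoc ((ψ z)⁻¹ * h), ← e1', mul_assoc z]
        group
  rw [h2] at hc
  have h5 := Real.exp_le_exp.1 (hY3.trans hc)
  have h6 := hV (lev X.χ (w '' S)) (fun l => lev X.χ (w '' S) l + (E + K₁ * lg m)) (E + K₁ * lg m)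
    (by positivity) fun _ => le_rfl
  rw [hw S hS hn] at h6
  unfold V at h6
  have h7 := mul_le_mul_of_nonneg_left (lg_mul_le M m) hK
  have h8 : |Kθ| ≤ |Kθ| * lg m := le_mul_of_one_le_right (abs_nonneg _) hlm
  have h9 : K₁ * lg m + B₀ * X.K ≤ (K₁ + B₀ * X.K) * lg m := by
    have := le_mul_of_one_le_right hr2 hlm
    linarith
  have h10 : X.dim j * (K₁ * lg m + B₀ * X.K) ≤ κ⁻¹ * ((K₁ + B₀ * X.K) * lg m) :=
    mul_le_mul (hd j).2 h9 (by positivity) (by positivity)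
  have h11 : 0 ≤ X.dim j * (E + K₁ * lg m) := mul_nonneg (X.dim_pos j).le (by positivity)
  have h12 : 0 ≤ (X.K * (C₂ + B₀) + 1) * E := by positivity
  have := le_abs_self Kθ
  have e : X.dim j * (B + (K₁ * lg m + B₀ * X.K) - (lev X.χ (w '' S) j + (E + K₁ * lg m))) =
      X.dim j * (B - lev X.χ (w '' S) j) + X.dim j * (K₁ * lg m + B₀ * X.K) -
        X.dim j * (E + K₁ * lg m) := by ring
  rw [e] at h5
  linarith

end Geo

end Crest.Agent.R182
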