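import Crest.Agent.R182.MTApi
import Crest.Agent.R182.MTC

/-! Row 182, block M4: upper counts for images and linear algebra. -/

set_option autoImplicit false
set_option linter.dupNamespace false
set_option linter.unusedSectionVars false

namespace Crest.Agent.R182

open Crest.GroupTheory MeasureTheory Filter Topology

namespace Geo

variable {G : Type} [Group G] [MeasurableSpace G] [MeasurableMul₂ G] [MeasurableInv G] {k : ℕ}
  (X : Geo G k)

/-- the levels of a path relative to its starting point -/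
theorem h25_lev {j : X.ι} {B : ℝ} {v : Fin k → ℝ} {y₁ y₂ : G} {m : ℕ}
    (h : Reach X.Sg {y | X.χ j (X.π y - v) ≤ B} y₁ m y₂) : ∃ a', Adm X.χ a' ∧ 0 ≤ a' j ∧
      a' j + X.χ j (X.π y₁ - v) ≤ B ∧ Reach X.Sg {z | pt X.χ (X.π z - X.π y₁) ≤ a'} y₁ m y₂ := by
  obtain ⟨p, h0, h1, h2, h3⟩ := h
  have hf := (Set.finite_Iic m).image fun i => X.π (p i) - X.π y₁
  have hn := (Set.nonempty_Iic (a := m)).image fun i => X.π (p i) - X.π y₁
  refine ⟨_, Adm.lev hf hn, ?_, ?_, p, h0, h1, h2, fun i hi l => le_lev hf ⟨i, hi, rfl⟩ l⟩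
  · have := le_lev (χ := X.χ) hf ⟨0, Nat.zero_le m, rfl⟩ j
    simpa only [h0, sub_self, map_zero] using this
  · rw [← le_sub_iff_add_le]
    refine lev_le hn ?_
    rintro _ ⟨i, hi, rfl⟩
    have : X.χ j (X.π (p i) - v) ≤ B := h3 i hi
    simp only [map_sub] at this ⊢
    linarith

theorem h25_jn {B₀ : ℝ} (hB : 0 ≤ B₀) (hχ : ∀ i v, |X.χ i v| ≤ B₀ * ‖v‖) {ψ : G → G}
    {a : X.ι → ℝ} {E : ℝ} {m : ℕ} {x y : G} (h : X.Jn ψ a E m x y) :
    Reach X.Sg {z | pt X.χ (X.π z - X.π (ψ x)) ≤ fun i => a i + B₀ * E} (ψ x) m (ψ y) := by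
  refine h.2.mono ?_
  rintro z ⟨v, h1, h2⟩ i
  have h3 := h2 i
  have h4 := (le_abs_self _).trans ((hχ i v).trans (mul_le_mul_of_nonneg_left h1 hB))
  rw [map_sub] at h3
  simp only [pt]
  linarith

/-- `Sep.qi`, `sl` for both paths (for the second one the levels are `lev` of its own heights relative to
`y₁`), `count1` for the translate by `(ψ z)⁻¹`, `g₀ = (ψ z)⁻¹ y₁ ∈ Ball (2 m)`; cf. `mv_count` -/
theorem det1 (c : ℕ) : ∃ C : ℝ, 0 ≤ C ∧ ∀ ψ : G → G, QI X.Sg X.Sg ψ c → ∀ a, Adm X.χ a →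
    ∀ (j : X.ι) (B E : ℝ) (m : ℕ) (z y₁ : G) (Y : Finset G), 0 ≤ E → Sep X.Sg (c + c) Y →
      (∀ g ∈ Y, X.Jn ψ a E m z (z * g) ∧
        Reach X.Sg {y | X.χ j (X.π y - X.π (ψ z)) ≤ B} y₁ m (ψ (z * g))) →
      (Y.card : ℝ) ≤ Real.exp (X.V a + X.dim j * (B - a j) + C * (E + lg m)) := by
  obtain ⟨K₁, hK₁, hsl⟩ := X.sl
  obtain ⟨B₀, hB₀, hχ⟩ := X.χ_bound
  obtain ⟨Bv, hBv, hV⟩ := X.V_lip
  have hK₁' : (0 : ℝ) ≤ K₁ := Nat.cast_nonneg _
  have hK : (0 : ℝ) ≤ X.K := Nat.cast_nonneg _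
  have hl1 := one_le_lg (K₁ + 2)
  refine ⟨Bv * B₀ + (Bv * (K₁ + B₀ * K₁) + X.K * lg (K₁ + 2)), by positivity,
    fun ψ hψ a ha j B E m z y₁ Y hE hY H => ?_⟩
  rcases Y.eq_empty_or_nonempty with rfl | ⟨g, hg⟩
  · simpa using Real.exp_nonneg _
  have hh : (ψ z)⁻¹ * y₁ ∈ Ball X.Sg ((K₁ + 2) * m) := by
    have := Ball.mul_mem (H g hg).1.2.mem_ball (H g hg).2.symm.mem_ball
    rw [mul_assoc, mul_inv_cancel_left] at this
    exact Ball.mono subset_rfl (by nlinarith) this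
  obtain ⟨Y', h1, h2, h3⟩ := X.img_sep hψ z hY
  have hlm := one_le_lg m
  set r : ℝ := K₁ * lg m + B₀ * K₁ with hr
  have hr1 : 0 ≤ (K₁ : ℝ) * lg m := by positivity
  have hr2 : 0 ≤ B₀ * K₁ := by positivity
  have hr3 : 0 ≤ B₀ * E := by positivity
  have hm1 : K₁ * m ≤ (K₁ + 2) * m := Nat.mul_le_mul_right m (Nat.le_add_right _ _)
  have hc := X.count1 _ (X.adm_add_const ha (r := B₀ * E + r) (by positivity)) j (B + r) _ _ Y'
    hh h1 fun y' hy' => by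
      obtain ⟨y, hy, rfl⟩ := h3 y' hy'
      have a1 := X.h25_jn (by linarith) hχ (H y hy).1
      have a2 : X.χ j (X.π (ψ (z * y)) - X.π (ψ z)) ≤ B := (H y hy).2.right
      obtain ⟨a', a3, a4, a5, a6⟩ := X.h25_lev (H y hy).2
      obtain ⟨e, he, c₁, hc₁, b, hb, e1, e2⟩ := hsl _ _ _ _ a1
      obtain ⟨e', he', c', hc', b', hb', e1', -⟩ := hsl _ _ _ _ a6
      have h4 : ∀ l, X.χ l (X.π c₁) ≤ X.χ l (X.π (ψ (z * y)) - X.π (ψ z)) + B₀ * K₁ := by
        intro l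
        have := (le_abs_self _).trans ((hχ l _).trans (mul_le_mul_of_nonneg_left e2 (by linarith)))
        rw [map_sub] at this
        linarith
      refine ⟨e, X.box_mono _ _ (fun l => ?_) he, c₁, Ball.mono subset_rfl hm1 hc₁, b, hb, e1,
        fun l => ?_, ?_, fun l => a' l + K₁ * lg m, X.adm_add_const a3 hr1, by linarith, ?_, e',
        he', c', Ball.mono subset_rfl hm1 hc', b', hb', ?_⟩
      · simp only
        linarith
      · have := a1.right l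
        simp only [pt] at this ⊢
        linarith [h4 l]
      · linarith [h4 j]
      · rw [X.π_hom.inv_mul]
        simp only
        linarith
      · rw [mul_assoc ((ψ z)⁻¹ * y₁), mul_assoc ((ψ z)⁻¹ * y₁), ← e1']
        group
  rw [h2] at hc
  refine hc.trans (Real.exp_le_exp.2 ?_)
  have h6 := hV a (fun l => a l + (B₀ * E + r)) (B₀ * E + r) (by positivity) fun _ => le_rfl
  unfold V at h6 ⊢
  have h7 := mul_le_mul_of_nonneg_left (lg_mul_le' (K₁ + 2) m) hK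
  have h9 : r ≤ (K₁ + B₀ * K₁) * lg m := by
    have := le_mul_of_one_le_right hr2 hlm
    rw [hr]; linarith
  have h10 := mul_le_mul_of_nonneg_left h9 (zero_le_one.trans hBv)
  have h11 := mul_nonneg (X.dim_pos j).le hr3
  have h12 : 0 ≤ Bv * B₀ * lg m := by positivity
  have h13 : 0 ≤ (Bv * (K₁ + B₀ * K₁) + X.K * lg (K₁ + 2)) * E := by positivity
  linarith

/-- as `det1` with `count2` (`s = 0`): `(ψ z)⁻¹ ψ x = e c b`, `b (ψ x)⁻¹ ψ (z y) = e' c' b'` (`ball_sl`),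
`e₂ = c e' c⁻¹` -/
theorem det2 (c : ℕ) : ∃ C : ℝ, 0 ≤ C ∧ ∀ ψ : G → G, QI X.Sg X.Sg ψ c → ∀ a, Adm X.χ a →
    ∀ (j : X.ι) (B E : ℝ) (m d : ℕ) (z y₁ : G) (Y : Finset G), 0 ≤ E → Sep X.Sg (c + c) Y →
      0 ≤ a j → (∀ j', j' ≠ j → C * (E + d + lg m) ≤ a j') →
      (∀ y ∈ Y, ∃ x, X.Jn ψ a E m z x ∧ x⁻¹ * (z * y) ∈ Ball X.Sg d ∧
        Reach X.Sg {y | X.χ j (X.π y - X.π (ψ z)) ≤ B} y₁ m (ψ (z * y))) →
      (Y.card : ℝ) ≤ Real.exp (X.V a + X.dim j * (B - a j) + C * (E + lg (m + d))) := by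
  obtain ⟨K₁, hK₁, hsl⟩ := X.sl
  obtain ⟨K₂, hK₂, hbs⟩ := X.ball_sl
  obtain ⟨B₀, hB₀, hχ⟩ := X.χ_bound
  obtain ⟨Bv, hBv, hV⟩ := X.V_lip
  obtain ⟨κ, hκ, -, hd⟩ := X.dim_bound
  have hK₁' : (0 : ℝ) ≤ K₁ := Nat.cast_nonneg _
  have hK₂' : (0 : ℝ) ≤ K₂ := Nat.cast_nonneg _
  have hK : (0 : ℝ) ≤ X.K := Nat.cast_nonneg _
  have hl1 := one_le_lg K₁
  set L : ℕ := c + 1 with hL
  have hL0 : (0 : ℝ) ≤ L := Nat.cast_nonneg _
  set M : ℕ := K₁ + K₂ * L + 2 + c with hM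
  set C₁ : ℝ := K₂ * L + B₀ * (X.K * (X.K * (K₂ * L))) with hC₁
  set C₂ : ℝ := C₁ + K₂ + B₀ * K₁ + X.K * lg K₁ with hC₂
  have hC₁0 : 0 ≤ C₁ := by positivity
  have hC₂0 : 0 ≤ C₂ := by positivity
  have hlM := one_le_lg M
  set Q : ℝ := Bv * B₀ + (Bv * K₁ + κ⁻¹ * (B₀ * X.K) + X.K * lg M) with hQ
  have hQ0 : 0 ≤ Q := by positivity
  refine ⟨X.K * (C₂ + B₀) + Q, by positivity,
    fun ψ hψ a ha j B E m d z y₁ Y hE hY hj hl H => ?_⟩
  rcases Y.eq_empty_or_nonempty with rfl | ⟨g, hg⟩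
  · simpa using Real.exp_nonneg _
  have a8 : M * (m + d) + M = K₁ * m + (K₂ * (L * (d + 1))) + (m + (c * d + c) + m) +
      (K₁ * d + K₂ * L * m + 2 * d + c * m + K₁ + 2) := by rw [hM]; ring
  have hh : (ψ z)⁻¹ * y₁ ∈ Ball X.Sg (M * (m + d) + M) := by
    obtain ⟨x, b1, b2, b3⟩ := H g hg
    have := Ball.mul_mem (Ball.mul_mem b1.2.mem_ball (hψ.up _ _ _ b2)) b3.symm.mem_ball
    rw [mul_assoc, mul_assoc (ψ x)⁻¹, mul_inv_cancel_left, mul_assoc, mul_inv_cancel_left] at this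
    exact Ball.mono subset_rfl (by omega) this
  obtain ⟨Y', h1, h2, h3⟩ := X.img_sep hψ z hY
  have hlm := one_le_lg m
  have hr0 : (0 : ℝ) ≤ d := Nat.cast_nonneg _
  have hr1 : 0 ≤ (K₁ : ℝ) * lg m := by positivity
  have hr2 : 0 ≤ B₀ * X.K := by positivity
  have hr3 : 0 ≤ B₀ * E := by positivity
  set D : ℝ := C₁ * (d + 1) + K₂ + B₀ * (E + K₁) + X.K * lg K₁ * lg m with hD
  have hD0 : 0 ≤ D := by positivity
  have hD1 : D ≤ (C₂ + B₀) * (E + d + lg m) := by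
    have a1 : C₁ + K₂ + B₀ * K₁ ≤ (C₁ + K₂ + B₀ * K₁) * lg m :=
      le_mul_of_one_le_right (by positivity) hlm
    have a2 : C₁ * d ≤ C₂ * d := mul_le_mul_of_nonneg_right (by
      rw [hC₂]; have : 0 ≤ X.K * lg K₁ := by positivity
      have : 0 ≤ B₀ * K₁ := by positivity
      linarith) hr0
    have a3 : 0 ≤ C₂ * E := by positivity
    have a4 : 0 ≤ B₀ * (d + lg m) := by positivity
    have a5 : C₂ * lg m = (C₁ + K₂ + B₀ * K₁) * lg m + X.K * lg K₁ * lg m := by rw [hC₂]; ring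
    rw [hD]
    linarith
  clear_value D C₂ C₁
  have hc := X.count2 _ (X.adm_add_const ha (r := B₀ * E + K₁ * lg m) (by positivity)) j 0 D
    (B + (K₁ * lg m + B₀ * X.K)) _ _ Y' hD0 (by rw [map_zero]; positivity)
    (fun l hlj => by
      have a1 := hl l hlj
      have a2 := mul_le_mul_of_nonneg_left hD1 hK
      have a3 : 0 ≤ Q * (E + d + lg m) := by positivity
      rw [map_zero]
      linarith) hh h1 fun y' hy' => by
      obtain ⟨y, hy, rfl⟩ := h3 y' hy'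
      obtain ⟨x, b1, b2, b3⟩ := H y hy
      have a1 := X.h25_jn (by linarith) hχ b1
      have a0 := b1.1
      have a2 : X.χ j (X.π (ψ (z * y)) - X.π (ψ z)) ≤ B := b3.right
      obtain ⟨a', a3, a4, a5, a6⟩ := X.h25_lev b3
      obtain ⟨e, he, c₁, hc₁, b₁, hb₁, e1, e2⟩ := hsl _ _ _ _ a1
      obtain ⟨e', he', c', hc', b', hb', e1', -⟩ := hsl _ _ _ _ a6
      have j2 : b₁ * ((ψ x)⁻¹ * ψ (z * y)) ∈ Ball X.Sg (L * (d + 1)) :=
        Ball.mono subset_rfl (by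
          have : L * (d + 1) = 1 + (c * d + c) + d := by rw [hL]; ring
          omega) (Ball.mul_mem hb₁ (hψ.up _ _ _ b2))
      obtain ⟨e₂, he₂, c₂, hc₂, b₂, hb₂, e3⟩ := hbs _ _ j2
      have p1 : ∀ l, X.χ l (X.π c₁) ≤ B₀ * (E + K₁) := fun l => by
        refine (le_abs_self _).trans ((hχ l _).trans (mul_le_mul_of_nonneg_left ?_ (by linarith)))
        have := norm_add_le (X.π c₁ - (X.π (ψ x) - X.π (ψ z))) (X.π (ψ x) - X.π (ψ z))
        rw [sub_add_cancel] at this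
        linarith
      have p2 : ∀ l, X.χ l (X.π c₂) ≤ B₀ * (X.K * (X.K * (K₂ * L))) * (d + 1) := fun l => by
        refine (le_abs_self _).trans ((hχ l _).trans ?_)
        have := mul_le_mul_of_nonneg_left (X.π_ball (X.flat_ball hc₂)) (zero_le_one.trans hB₀)
        push_cast at this
        linarith
      have p3 := X.box_conj _ (X.adm_const (Nat.cast_nonneg _)) _ c₁ hc₁ e₂ he₂
      have p4 := mul_le_mul_of_nonneg_left (lg_mul_le' K₁ m) hK
      have e4 : (ψ z)⁻¹ * ψ (z * y) = e * (c₁ * e₂ * c₁⁻¹) * (c₁ * c₂) * b₂ := by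
        calc _ = ((ψ z)⁻¹ * ψ x) * ((ψ x)⁻¹ * ψ (z * y)) := by group
          _ = e * c₁ * (b₁ * ((ψ x)⁻¹ * ψ (z * y))) := by rw [e1]; group
          _ = _ := by rw [e3]; group
      have p5 : 0 ≤ B₀ * (X.K * (X.K * (K₂ * L))) * (d + 1) := by positivity
      have p6 : 0 ≤ K₂ * L * ((d : ℝ) + 1) := by positivity
      have p7 : 0 ≤ X.K * lg K₁ * lg m := by positivity
      have p8 : D = K₂ * L * (d + 1) + B₀ * (X.K * (X.K * (K₂ * L))) * (d + 1) + K₂ +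
          B₀ * (E + K₁) + X.K * lg K₁ * lg m := by rw [hD, hC₁]; ring
      refine ⟨e, X.box_mono _ _ (fun l => ?_) he, c₁ * e₂ * c₁⁻¹, X.box_mono _ _ (fun l => ?_) p3,
        c₁ * c₂, Ball.mono subset_rfl (by omega) (Ball.mul_mem hc₁ hc₂), b₂, hb₂, e4, fun l => ?_,
        ?_, fun l => a' l + K₁ * lg m, X.adm_add_const a3 hr1, by linarith, ?_, e', he', c',
        Ball.mono subset_rfl (by omega) hc', b', hb', ?_⟩
      · simp only
        linarith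
      · simp only [map_zero]
        push_cast
        linarith [p1 l]
      · rw [X.π_hom, map_add, map_zero]
        linarith [p1 l, p2 l]
      · have q1 := congrArg X.π e4
        rw [X.π_hom.inv_mul, X.π_hom (_ * _ * _), X.π_hom (_ * _), X.π_hom e, X.box_π _ _ he,
          X.box_π _ _ p3] at q1
        have q2 : X.π (c₁ * c₂) = X.π (ψ (z * y)) - X.π (ψ z) - X.π b₂ := by
          rw [q1]; abel
        have q3 := (neg_le_abs _).trans ((hχ j (X.π b₂)).trans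
          (mul_le_mul_of_nonneg_left (X.π_ball hb₂) (by linarith)))
        rw [q2, map_sub]
        push_cast at q3
        linarith
      · rw [X.π_hom.inv_mul]
        simp only
        linarith
      · rw [mul_assoc ((ψ z)⁻¹ * y₁), mul_assoc ((ψ z)⁻¹ * y₁), ← e1']
        group
  rw [h2] at hc
  refine hc.trans (Real.exp_le_exp.2 ?_)
  have h6 := hV a (fun l => a l + (B₀ * E + K₁ * lg m)) (B₀ * E + K₁ * lg m) (by positivity)
    fun _ => le_rfl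
  unfold V at h6 ⊢
  have h7 := mul_le_mul_of_nonneg_left (lg_mul_le M (m + d)) hK
  have h8 : lg m ≤ lg (m + d) := lg_mono (Nat.le_add_right _ _)
  have h9 : X.dim j * (B₀ * X.K) ≤ κ⁻¹ * (B₀ * X.K) * lg (m + d) :=
    (mul_le_mul_of_nonneg_right (hd j).2 hr2).trans
      (le_mul_of_one_le_right (by positivity) (hlm.trans h8))
  have h10 := mul_le_mul_of_nonneg_left h8 (show 0 ≤ Bv * K₁ by positivity)
  have h11 := mul_nonneg (X.dim_pos j).le hr3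
  have h12 : 0 ≤ X.K * (C₂ + B₀) * (E + lg (m + d)) := by
    have := hlm.trans h8
    positivity
  have h13 : 0 ≤ Bv * B₀ * lg (m + d) := by
    have := hlm.trans h8
    positivity
  have h14 : 0 ≤ (Bv * K₁ + κ⁻¹ * (B₀ * X.K) + X.K * lg M) * E := by positivity
  rw [hQ]
  linarith

/-- a join followed by a geodesic (`Lip.reach`) -/
theorem back (c : ℕ) : ∃ C : ℝ, 0 ≤ C ∧ ∀ ψ : G → G, QI X.Sg X.Sg ψ c →
    ∀ (a : X.ι → ℝ) (j : X.ι) (E : ℝ) (m d : ℕ) (z y y' x : G), X.Jn ψ a E m y y' →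
      x⁻¹ * y' ∈ Ball X.Sg d → ‖X.π (ψ x) - X.π (ψ z)‖ ≤ E →
      Reach X.Sg {t | X.χ j (X.π t - X.π (ψ z)) ≤
        max (X.χ j (X.π (ψ y) - X.π (ψ z)) + a j + C * E) (C * (E + d + 1))} (ψ y)
        (m + (c * d + c)) (ψ x) := by
  obtain ⟨B₀, hB₀, hχ⟩ := X.χ_bound
  have hK : (0 : ℝ) ≤ X.K * c := by positivity
  refine ⟨B₀ * (X.K * c + 1), by positivity, fun ψ hψ a j E m d z y y' x h1 h2 h3 => ?_⟩
  have hE : 0 ≤ E := (norm_nonneg _).trans h3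
  have hd : (0 : ℝ) ≤ d := Nat.cast_nonneg _
  refine ((X.h25_jn (by linarith) hχ h1).mono fun t ht => ?_).trans
    ((X.π_lip.reach (hψ.up _ _ _ h2)).symm.mono fun t ht => ?_)
  · refine le_max_of_le_left (α := ℝ) ?_
    have h4 := ht j
    have h5 : 0 ≤ B₀ * (X.K * c) * E := by positivity
    simp only [pt, map_sub] at h4 ⊢
    linarith
  · refine le_max_of_le_right (α := ℝ) ?_
    have h4 : ‖X.π t - X.π (ψ x)‖ ≤ X.K * ((c * d + c : ℕ) : ℝ) := ht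
    have h5 := norm_add_le (X.π t - X.π (ψ x)) (X.π (ψ x) - X.π (ψ z))
    rw [sub_add_sub_cancel] at h5
    refine (le_abs_self _).trans ((hχ j _).trans ?_)
    rw [mul_assoc]
    refine mul_le_mul_of_nonneg_left ?_ (by linarith)
    push_cast at h4
    have h6 : 0 ≤ X.K * c * E := by positivity
    linarith

/-- If `(χ j w v)⁺ ≤ (χ j w' v)⁺` for all `j` and all `v` with `χ i v ≤ 0`, then equality holds
(`IsW.nu`, `exists_V`, `le_V`, `wt_pos`); so `χ j w = χ j w'` unless both are positive multiples of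
`χ i`, which happens for at most one `j` (`eq_of_prop`, `IsW.inv`); `wt_sum`, `span`.
Uniform `γ` by `isW_finite`. -/
theorem wit : ∃ γ : ℝ, 0 < γ ∧ ∀ (i : X.ι) (w w' : En k), X.IsW w → X.IsW w' → w ≠ w' →
    ∃ j v, ‖v‖ ≤ 1 ∧ X.χ i v ≤ 0 ∧ max (X.χ j (w' v)) 0 + γ ≤ max (X.χ j (w v)) 0 := by
  obtain ⟨κ, h0, -, h⟩ := X.lab_test
  refine ⟨κ, h0, fun i w w' hw hw' hne => ?_⟩
  obtain ⟨v, j, a, b, c⟩ := h w w' hw hw' hne i
  exact ⟨j, v, a, b, c.trans (le_max_left _ _)⟩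

/-- a nonzero functional which is `≤ 0` on `{χ i ≤ 0}` is a positive multiple of `χ i` -/
theorem arm : ∃ γ : ℝ, 0 < γ ∧ ∀ (i : X.ι) (w : En k), X.IsW w → ∃ F₀ : Set (Fin k → ℝ),
    Fam (Fintype.card X.ι + 1) F₀ 1 ∧ (∀ s ∈ F₀, X.χ i s ≤ 0) ∧
      ∀ j, (∃ t, X.Par w i j t) ∨ γ ≤ lev X.χ (w '' F₀) j := by
  classical
  obtain ⟨κ, h0, -, h⟩ := X.arm₁
  refine ⟨κ, h0, fun i w hw => ?_⟩
  have h1 : ∀ j, ∃ v, ‖v‖ ≤ 1 ∧ X.χ i v ≤ 0 ∧ ((∃ t, X.Par w i j t) ∨ κ ≤ X.χ j (w v)) := by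
    intro j
    rcases h w hw i j with h2 | ⟨v, a, b, c⟩
    · exact ⟨0, by simp, by simp, Or.inl h2⟩
    · exact ⟨v, a, b, Or.inr c⟩
  choose v h2 h3 h4 using h1
  have hf : (insert 0 (Set.range v)).Finite := (Set.finite_range v).insert _
  refine ⟨insert 0 (Set.range v), ⟨hf, Set.mem_insert _ _, ?_, ?_⟩, ?_, fun j => ?_⟩
  · refine (Set.ncard_insert_le _ _).trans (Nat.add_le_add_right ?_ 1)
    rw [← Set.image_univ]
    refine (Set.ncard_image_le Set.finite_univ).trans ?_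
    rw [Set.ncard_univ, Nat.card_eq_fintype_card]
  · rintro s (rfl | ⟨j, rfl⟩)
    · simp
    · exact h2 j
  · rintro s (rfl | ⟨j, rfl⟩)
    · simp
    · exact h3 j
  · refine (h4 j).imp id fun h5 => h5.trans ?_
    exact le_lev (hf.image w) ⟨v j, Set.mem_insert_of_mem _ ⟨j, rfl⟩, rfl⟩ j

theorem Par.unique {X : Geo G k} {w : En k} (hw : X.IsW w) {i j j' : X.ι} {t t' : ℝ}
    (h : X.Par w i j t) (h' : X.Par w i j' t') : j = j' ∧ t = t' := by
  have h1 : j = j' := Prp.unique hw h h'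
  subst h1
  exact ⟨rfl, Prp.unique_t h h'⟩

/-- `t = χ j (w (u i))`, `isW_finite` -/
theorem gapdim : ∃ γ : ℝ, 0 < γ ∧ (∀ i, γ ≤ X.dim i) ∧ ∀ (w : En k) (i j : X.ι) (t : ℝ), X.IsW w →
    X.Par w i j t → t * X.dim j < X.dim i → t * X.dim j + γ ≤ X.dim i := by
  obtain ⟨κ₀, h0, -, hd⟩ := X.dim_bound
  obtain ⟨κ, h1, -, h2⟩ := exists_unif
    (X.isW_finite.prod (Set.finite_univ (α := X.ι × X.ι)))
    (fun p κ => ∀ t, X.Par p.1 p.2.1 p.2.2 t → t * X.dim p.2.2 < X.dim p.2.1 →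
      t * X.dim p.2.2 + κ ≤ X.dim p.2.1)
    (fun p κ κ' _ hk h t ht hd => by linarith [h t ht hd])
    (fun p _ => by
      by_cases hp : ∃ t, X.Par p.1 p.2.1 p.2.2 t ∧ t * X.dim p.2.2 < X.dim p.2.1
      · obtain ⟨t, ht, hd⟩ := hp
        refine ⟨X.dim p.2.1 - t * X.dim p.2.2, by linarith, fun t' ht' _ => ?_⟩
        rw [Prp.unique_t ht' ht]
        linarith
      · exact ⟨1, one_pos, fun t ht hd => absurd ⟨t, ht, hd⟩ hp⟩)
  refine ⟨min κ₀ κ, lt_min h0 h1, fun i => (min_le_left _ _).trans (hd i).1,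
    fun w i j t hw ht hlt => ?_⟩
  linarith [h2 (w, i, j) ⟨hw, trivial⟩ t ht hlt, min_le_right κ₀ κ]

/-- `i ↦ j` is injective, hence a permutation `σ`; with the invariant norm of covectors
(`exists_inner`) `dim i ‖χ i‖ ≤ dim (σ i) ‖χ (σ i)‖`; sum over `i` -/
theorem isW'_of_le {w : En k} (hw : X.IsW w)
    (h : ∀ i, ∃ j t, X.Par w i j t ∧ X.dim i ≤ t * X.dim j) : X.IsW' w := by
  exact X.isW'_of_le0 hw h

end Geo

end Crest.Agent.R182
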