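import Crest.Agent.R182.MTC

/-! Row 182, block M4: shapes, invariance under shears and convolution, labels of close points. -/

set_option autoImplicit false
set_option linter.dupNamespace false
set_option linter.unusedSectionVars false

namespace Crest.Agent.R182

open Crest.GroupTheory MeasureTheory

namespace Geo

variable {G : Type} [Group G] [MeasurableSpace G] {k : ℕ} (X : Geo G k)

/-- level `α` in the class `i`, level `M` in the other classes -/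
def upd (i : X.ι) (α M : ℝ) : X.ι → ℝ := fun l => if l = i then α else M

@[simp] theorem upd_self (i : X.ι) (α M : ℝ) : X.upd i α M i = α := if_pos rfl

theorem upd_ne {i l : X.ι} (h : l ≠ i) (α M : ℝ) : X.upd i α M l = M := if_neg h

theorem le_upd {i : X.ι} {α M : ℝ} {a : X.ι → ℝ} :
    a ≤ X.upd i α M ↔ a i ≤ α ∧ ∀ l, l ≠ i → a l ≤ M := by
  refine ⟨fun h => ⟨by simpa using h i, fun l hl => by simpa [X.upd_ne hl] using h l⟩,
    fun h l => ?_⟩
  by_cases hl : l = i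
  · subst hl; simpa using h.1
  · rw [X.upd_ne hl]; exact h.2 l hl

theorem upd_le {i : X.ι} {α M : ℝ} {a : X.ι → ℝ} :
    X.upd i α M ≤ a ↔ α ≤ a i ∧ ∀ l, l ≠ i → M ≤ a l := by
  refine ⟨fun h => ⟨by simpa using h i, fun l hl => by simpa [X.upd_ne hl] using h l⟩,
    fun h l => ?_⟩
  by_cases hl : l = i
  · subst hl; simpa using h.1
  · rw [X.upd_ne hl]; exact h.2 l hl

theorem upd_mono {i : X.ι} {α M α' M' : ℝ} (h : α ≤ α') (h' : M ≤ M') :
    X.upd i α M ≤ X.upd i α' M' :=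
  X.upd_le.2 ⟨by simpa using h, fun l hl => by rwa [X.upd_ne hl]⟩

/-- an admissible vector between two shapes -/
theorem adm_shape : ∃ B : ℝ, 1 ≤ B ∧ ∀ (i : X.ι) (α β : ℝ), 0 ≤ α → α ≤ β →
    ∃ a, Adm X.χ a ∧ X.upd i α β ≤ a ∧ a ≤ X.upd i α (B * β) := by
  obtain ⟨B₀, hB₀, hχ⟩ := X.χ_bound
  obtain ⟨B, hB, hs⟩ := X.side
  have hBB : 1 ≤ B₀ * B := one_le_mul_of_one_le_of_one_le hB₀ hB
  refine ⟨B₀ * B, hBB, fun i α β h0 h1 => ?_⟩
  have hβ : 0 ≤ β := h0.trans h1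
  choose! v h2 h3 h4 using hs i
  set S : Set (Fin k → ℝ) := insert (α • X.u i) ((fun l => β • v l) '' {l | l ≠ i}) with hS
  have hf : S.Finite := ((Set.toFinite _).image _).insert _
  have hn : S.Nonempty := Set.insert_nonempty _ _
  refine ⟨lev X.χ S, Adm.lev hf hn, X.upd_le.2 ⟨?_, fun l hl => ?_⟩,
    X.le_upd.2 ⟨lev_le hn ?_, fun l hl => lev_le hn ?_⟩⟩
  · have := le_lev (χ := X.χ) hf (Set.mem_insert _ _) i
    rwa [map_smul, X.u_self, smul_eq_mul, mul_one] at this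
  · have := le_lev (χ := X.χ) hf (Set.mem_insert_of_mem _ ⟨l, hl, rfl⟩) l
    rwa [map_smul, h4 l hl, smul_eq_mul, mul_one] at this
  · rintro s (rfl | ⟨l, hl, rfl⟩)
    · rw [map_smul, X.u_self, smul_eq_mul, mul_one]
    · rw [map_smul, smul_eq_mul]
      exact (mul_nonpos_of_nonneg_of_nonpos hβ (h3 l hl)).trans h0
  · rintro s (rfl | ⟨l', hl', rfl⟩)
    · rw [map_smul, smul_eq_mul]
      nlinarith [X.u_ne i l hl]
    · rw [map_smul, smul_eq_mul, mul_comm]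
      refine mul_le_mul_of_nonneg_right ((le_abs_self _).trans ((hχ _ _).trans ?_)) hβ
      exact mul_le_mul_of_nonneg_left (h2 l' hl') (by linarith)

/-- labels are unique -/
theorem lab_unique : ∃ ε₀ : ℝ, 0 < ε₀ ∧ ∀ (ψ : G → G) (n : ℕ) (δ : ℝ) (z : G) w w', 2 ≤ n →
    δ ≤ ε₀ → X.IsW w → X.IsW w' → X.Lab ψ n δ z w → X.Lab ψ n δ z w' → w = w' := by
  obtain ⟨ε₀, h0, h⟩ := X.lab_overlap
  refine ⟨ε₀, h0, fun ψ n δ z w w' hn hδ hw hw' a b =>
    h ψ n z 1 w w' hn hw hw' (Ball.one_mem _ _) (a.mono hδ) ?_⟩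
  rw [mul_one]
  exact b.mono hδ

/-- labels of points which differ by a small element of a ray box agree: test on `s ^ (± n)` -/
theorem lab_near (c : ℕ) : ∃ ε₀ : ℝ, 0 < ε₀ ∧ ∃ n₀ : ℕ, ∀ n ≥ n₀, ∀ ψ : G → G, QI X.Sg X.Sg ψ c →
    ∀ (z r : G) (j : X.ι) w w', X.IsW w → X.IsW w' → r ∈ X.RB j (ε₀ * n) → X.Lab ψ n ε₀ z w →
      X.Lab ψ n ε₀ (z * r) w' → w = w' := by
  obtain ⟨ε₁, h₁, hsep⟩ := X.isW_sep
  have hK : (0 : ℝ) ≤ X.K := Nat.cast_nonneg _
  have hc : (0 : ℝ) ≤ c := Nat.cast_nonneg _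
  set L : ℝ := X.K * (c * X.K) with hL
  have hL0 : 0 ≤ L := by positivity
  set ε₀ : ℝ := ε₁ / (3 + 2 * L * (1 + X.K)) with hε
  have hε0 : 0 < ε₀ := by positivity
  have hε1 : ε₀ * (3 + 2 * L * (1 + X.K)) = ε₁ := by rw [hε]; field_simp
  obtain ⟨B, hB, hlg⟩ := lg_le_lin hε0
  obtain ⟨n₀, hn₀⟩ := exists_nat_ge ((2 * (L * (X.K * B + 2) + X.K * c)) / ε₀ + 1)
  refine ⟨ε₀, hε0, n₀, fun n hn ψ hψ z r j w w' hw hw' hr h1 h2 => hsep w w' hw hw' fun l => ?_⟩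
  have hn' : (n₀ : ℝ) ≤ n := by exact_mod_cast hn
  have hn1 : 2 * (L * (X.K * B + 2) + X.K * c) ≤ ε₀ * n := by
    rw [← div_le_iff₀' hε0]
    linarith
  have hn0 : (0 : ℝ) < n := by
    have : 0 ≤ 2 * (L * (X.K * B + 2) + X.K * c) / ε₀ := by positivity
    linarith
  obtain ⟨s, hs, hπ⟩ := X.SC_surj l
  have hs1 : s ∈ Ball (X.SC : Set G) 1 := Ball.mem_of_mem (Finset.mem_coe.2 hs)
  -- closeness of the two flats on the half space
  have near : ∀ g ∈ Ball (X.SC : Set G) n, 0 ≤ X.χ j (X.π g) →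
      ‖X.π (ψ (z * r * g)) - X.π (ψ (z * g))‖ ≤ L * (1 + X.K) * (ε₀ * n) + ε₀ * n / 2 := by
    intro g hg h0
    have a1 := X.RB_conj j _ n g⁻¹ (Ball.inv_mem hg) r hr
    rw [inv_inv, X.π_hom.inv, map_neg] at a1
    have a2 : 0 ≤ ε₀ * n + X.K * lg n := by
      have := one_le_lg n
      positivity
    have a3 := X.RB_ball j ⌈ε₀ * n + X.K * lg n⌉₊
      (X.RB_mono j _ _ (le_trans (by linarith) (Nat.le_ceil _)) a1)
    have a4 := X.ht_lip hψ (x := z * g) (y := z * r * g) (by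
      rwa [show (z * g)⁻¹ * (z * r * g) = g⁻¹ * r * g by group])
    push_cast at a4
    have a5 := (Nat.ceil_lt_add_one a2).le
    have a6 := mul_le_mul_of_nonneg_left (hlg n) hK
    have a7 : (⌈ε₀ * n + X.K * lg n⌉₊ : ℝ) + 1 ≤ (1 + X.K) * (ε₀ * n) + (X.K * B + 2) := by linarith
    have a8 := mul_le_mul_of_nonneg_left a7 hL0
    have e : X.K * (c * (X.K * (⌈ε₀ * n + X.K * lg n⌉₊ : ℝ) + X.K) + c) =
        L * (⌈ε₀ * n + X.K * lg n⌉₊ + 1) + X.K * c := by rw [hL]; ring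
    rw [e] at a4
    linarith
  have key : ∀ g ∈ Ball (X.SC : Set G) n, 0 ≤ X.χ j (X.π g) →
      ‖w (X.π g) - w' (X.π g)‖ ≤ ε₁ * n := by
    intro g hg h0
    have a1 := near g hg h0
    have a2 := near 1 (Ball.one_mem _ _) (by rw [X.π_hom.one, map_zero])
    rw [mul_one, mul_one] at a2
    have a3 := h1 g hg
    have a4 := h2 g hg
    have e : w (X.π g) - w' (X.π g) =
        (X.π (ψ (z * r * g)) - X.π (ψ (z * r)) - w' (X.π g)) -
          (X.π (ψ (z * g)) - X.π (ψ z) - w (X.π g)) -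
          (X.π (ψ (z * r * g)) - X.π (ψ (z * g))) + (X.π (ψ (z * r)) - X.π (ψ z)) := by abel
    rw [e, ← hε1]
    refine (norm_add_le _ _).trans ((add_le_add ((norm_sub_le _ _).trans
      (add_le_add (norm_sub_le _ _) le_rfl)) le_rfl).trans ?_)
    linarith
  have hsn : s ^ n ∈ Ball (X.SC : Set G) n := by simpa using Ball.pow_mem hs1 n
  have fin : ‖(n : ℝ) • (w (Pi.single l 1) - w' (Pi.single l 1))‖ ≤ ε₁ * n := by
    rcases le_total 0 (X.χ j (X.π (s ^ n))) with h | h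
    · have := key _ hsn h
      rwa [X.π_hom.pow, hπ, map_smul, map_smul, ← smul_sub] at this
    · have := key _ (Ball.inv_mem hsn) (by rw [X.π_hom.inv, map_neg]; linarith)
      rwa [X.π_hom.inv, map_neg, map_neg, neg_sub_neg, norm_sub_rev, X.π_hom.pow, hπ, map_smul,
        map_smul, ← smul_sub] at this
  rw [norm_smul, Real.norm_natCast, mul_comm] at fin
  exact le_of_mul_le_mul_right fin hn0

variable [MeasurableMul₂ G] [MeasurableInv G]

/-- invariance survives right translation by a slightly larger box element -/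
theorem Inv.shear0 {X : Geo G k} {ζ : Measure G} {a a' : X.ι → ℝ} {η s : ℝ} (h : X.Inv ζ a η)
    (ha : Adm X.χ a') (hle : a' ≤ a) (hs : 0 ≤ s) {m : G} (hm : m ∈ X.Box fun l => a' l + s) :
    X.Inv (ζ.map fun x => x * m) (fun l => a' l - (X.K * s + X.K)) η := by
  intro b _ hb g hg
  rw [TVr.map_iff]
  refine h a' ha hle _ ?_
  have := X.box_shear (fun l => a' l - (X.K * s + X.K)) s (X.K * s + X.K) hs le_rfl m
    (by simpa using hm) g (X.box_mono _ _ hb hg)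
  simpa using this

theorem inv_shear₁ : ∃ B : ℝ, 1 ≤ B ∧ ∀ (ζ : Measure G) (i : X.ι) (α β M η s : ℝ) (m : G),
    X.Inv ζ (X.upd i α M) η → 0 ≤ α → α ≤ β → B * β ≤ M → 0 ≤ s →
    m ∈ X.Box (X.upd i (α + s) (β + s)) →
    X.Inv (ζ.map fun x => x * m) (X.upd i (α - (X.K * s + X.K)) (β - (X.K * s + X.K))) η := by
  obtain ⟨B, hB, H⟩ := X.adm_shape
  refine ⟨B, hB, fun ζ i α β M η s m h h0 h1 h2 hs hm => ?_⟩
  obtain ⟨a, a1, a2, a3⟩ := H i α β h0 h1
  obtain ⟨b1, b2⟩ := X.upd_le.1 a2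
  refine (h.shear0 a1 (a3.trans (X.upd_mono le_rfl h2)) hs (X.box_mono _ _ ?_ hm)).mono ?_ le_rfl
  · exact X.upd_le.2 ⟨by linarith, fun l hl => by linarith [b2 l hl]⟩
  · exact X.upd_le.2 ⟨by linarith, fun l hl => by linarith [b2 l hl]⟩

/-- convolution with a ray box raises the invariance in its class (`split`) -/
theorem inv_conv₁ : ∃ B : ℝ, 1 ≤ B ∧ ∀ η' : ℝ, 0 < η' → ∃ t₀ : ℝ, 0 ≤ t₀ ∧
    ∀ (ζ : Measure G), IsProbabilityMeasure ζ → ∀ (i : X.ι) (α β M η b D : ℝ),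
      X.Inv ζ (X.upd i α M) η → 0 ≤ α → α ≤ β → B * β ≤ M → X.K ≤ D → b ≤ α + D →
      X.Inv ((ζ.prod (X.νR i b)).map fun p => p.1 * p.2) (X.upd i (b - t₀) (β - X.K * D))
        (η + η') := by
  obtain ⟨B, hB, H⟩ := X.adm_shape
  refine ⟨B, hB, fun η' hη' => ?_⟩
  obtain ⟨t₀, ht⟩ := X.νR_inv η' hη'
  have hK : (0 : ℝ) ≤ X.K := Nat.cast_nonneg _
  refine ⟨|t₀| + X.K, by positivity, fun ζ hζ i α β M η b D h h0 h1 h2 hD hb a' ha' hle g hg => ?_⟩
  obtain ⟨a, a1, a2, a3⟩ := H i α β h0 h1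
  obtain ⟨b1, b2⟩ := X.upd_le.1 a2
  obtain ⟨b3, b4⟩ := X.le_upd.1 hle
  obtain ⟨x, r, hr, rfl, hx⟩ := X.split i a a' b D a1 ha' hD
    (fun l hl => by linarith [b2 l hl, b4 l hl]) (by linarith [abs_nonneg t₀]) (by linarith) g hg
  have := X.νR_prob i b
  refine TVr.conv ?_ ?_
  · filter_upwards [X.νR_box i b] with q hq
    exact h a a1 (a3.trans (X.upd_mono le_rfl h2)) _ (hx q hq)
  · have := (ht i (a' i + X.K) (b - (a' i + X.K)) (by linarith [le_abs_self t₀]) r hr).1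
    rwa [add_sub_cancel] at this

end Geo

end Crest.Agent.R182
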