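import Crest.Agent.R182.MT0

/-! Row 182, block M4: abstract measure lemmas. -/

set_option autoImplicit false
set_option linter.dupNamespace false
set_option linter.unusedSectionVars false

namespace Crest.Agent.R182

open Crest.GroupTheory MeasureTheory Filter Topology

section

variable {G : Type} [Group G] [MeasurableSpace G] [MeasurableMul₂ G] [MeasurableInv G]
  {Ω : Type} [MeasurableSpace Ω]

theorem h78_int {Ω' : Type} [MeasurableSpace Ω'] (P : Measure Ω) (ν : Measure Ω')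
    [IsProbabilityMeasure P] [IsProbabilityMeasure ν] {A : Set (Ω × Ω')} (hA : MeasurableSet A) :
    Integrable (fun ω => ν.real (Prod.mk ω ⁻¹' A)) P :=
  Measure.integrable_measure_prodMk_left hA (measure_ne_top _ _)

theorem h78_fib {Ω' : Type} [MeasurableSpace Ω'] (P : Measure Ω) (ν : Measure Ω')
    [IsProbabilityMeasure P] [IsProbabilityMeasure ν] {A : Set (Ω × Ω')} (hA : MeasurableSet A) :
    (P.prod ν).real A = ∫ ω, ν.real (Prod.mk ω ⁻¹' A) ∂P := by
  simp only [Measure.real]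
  rw [Measure.prod_apply hA, integral_toReal (measurable_measure_prodMk_left hA).aemeasurable
    (Eventually.of_forall fun _ => measure_lt_top _ _)]

theorem h78_abs {Ω' : Type} [MeasurableSpace Ω'] (P : Measure Ω) (ν : Measure Ω')
    [IsProbabilityMeasure P] [IsProbabilityMeasure ν] {A B : Set (Ω × Ω')} (hA : MeasurableSet A)
    (hB : MeasurableSet B) {η : ℝ}
    (h : ∀ᵐ ω ∂P, |ν.real (Prod.mk ω ⁻¹' A) - ν.real (Prod.mk ω ⁻¹' B)| ≤ η) :
    |(P.prod ν).real A - (P.prod ν).real B| ≤ η := by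
  rw [h78_fib P ν hA, h78_fib P ν hB, ← integral_sub (h78_int P ν hA) (h78_int P ν hB)]
  have := norm_integral_le_of_norm_le_const (μ := P)
    (f := fun ω => ν.real (Prod.mk ω ⁻¹' A) - ν.real (Prod.mk ω ⁻¹' B)) (C := η) h
  simpa using this

theorem h78_swap {Ω' : Type} [MeasurableSpace Ω'] (P : Measure Ω) (ν : Measure Ω')
    [IsProbabilityMeasure P] [IsProbabilityMeasure ν] {A : Set (Ω × Ω')} (hA : MeasurableSet A) :
    (P.prod ν).real A = (ν.prod P).real (Prod.swap ⁻¹' A) :=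
  ((Measure.measurePreserving_swap (μ := ν) (ν := P)).measureReal_preimage
    hA.nullMeasurableSet).symm

/-- `Measure.prod_apply_symm`, `lintegral_mono_ae` -/
theorem mt_fub {Ω' : Type} [MeasurableSpace Ω'] (P : Measure Ω) (ν : Measure Ω')
    [IsProbabilityMeasure P] [IsProbabilityMeasure ν] {A : Set (Ω × Ω')} (hA : MeasurableSet A)
    {θ : ℝ} (h : ∀ᵐ m ∂ν, P.real {ω | (ω, m) ∈ A} ≤ θ) : (P.prod ν).real A ≤ θ := by
  rw [h78_swap P ν hA, h78_fib ν P (measurable_swap hA)]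
  have := integral_mono_ae (h78_int ν P (measurable_swap hA)) (integrable_const θ) h
  simpa using this

/-- Fubini and `TVl` in every fibre -/
theorem mt_shift (P : Measure Ω) (ν : Measure G) [IsProbabilityMeasure P] [IsProbabilityMeasure ν]
    {h : Ω → G} (hh : Measurable h) {η : ℝ} (H : ∀ᵐ ω ∂P, TVl ν (h ω) η) {A : Set (Ω × G)}
    (hA : MeasurableSet A) :
    |(P.prod ν).real {p | (p.1, h p.1 * p.2) ∈ A} - (P.prod ν).real A| ≤ η := by
  have hB : MeasurableSet {p : Ω × G | (p.1, h p.1 * p.2) ∈ A} :=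
    (measurable_fst.prodMk ((hh.comp measurable_fst).mul measurable_snd)) hA
  refine h78_abs P ν hB hA ?_
  filter_upwards [H] with ω hω
  exact hω _ (measurable_prodMk_left hA)

/-- Fubini and `TVr` in every fibre -/
theorem mt_shiftr (ζ : Measure G) (P : Measure Ω) [IsProbabilityMeasure ζ] [IsProbabilityMeasure P]
    {g : G} {η : ℝ} (H : TVr ζ g η) {A : Set (G × Ω)} (hA : MeasurableSet A) :
    |(ζ.prod P).real {p | (p.1 * g, p.2) ∈ A} - (ζ.prod P).real A| ≤ η := by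
  have hB : MeasurableSet {p : G × Ω | (p.1 * g, p.2) ∈ A} :=
    ((measurable_fst.mul_const g).prodMk measurable_snd) hA
  rw [h78_swap ζ P hA, h78_swap ζ P hB]
  refine h78_abs P ζ (measurable_swap hB) (measurable_swap hA) (Eventually.of_forall fun ω => ?_)
  exact H _ (measurable_prodMk_right hA)

/-- union bound on a triple product (`Measure.prod_prod`, `measurePreserving_prodAssoc`, swaps) -/
theorem mt_tri (ν₁ ν₂ : Measure Ω) [IsProbabilityMeasure ν₁] [IsProbabilityMeasure ν₂]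
    {B A₁ A₂ : Set (Ω × Ω)} {A₃ : Set Ω} (h₁ : MeasurableSet A₁) (h₂ : MeasurableSet A₂)
    (h : ∀ y ∈ B, ∀ y'', (y.1, y'') ∈ A₁ ∨ (y.2, y'') ∈ A₂ ∨ y.2 ∈ A₃) :
    (ν₁.prod ν₁).real B ≤ (ν₁.prod ν₂).real A₁ + (ν₁.prod ν₂).real A₂ + ν₁.real A₃ := by

  let P := (ν₁.prod ν₁).prod ν₂
  have e0 : P.real (B ×ˢ Set.univ) = (ν₁.prod ν₁).real B := by
    simp only [P, Measure.real, Measure.prod_prod, measure_univ, mul_one]
  have e3 : P.real ((Set.univ ×ˢ A₃) ×ˢ Set.univ) = ν₁.real A₃ := by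
    simp only [P, Measure.real, Measure.prod_prod, measure_univ, mul_one, one_mul]
  have m1 : MeasurePreserving (Prod.map Prod.fst id) P (ν₁.prod ν₂) :=
    MeasurePreserving.prod measurePreserving_fst (MeasurePreserving.id ν₂)
  have m2 : MeasurePreserving (Prod.map Prod.snd id) P (ν₁.prod ν₂) :=
    MeasurePreserving.prod measurePreserving_snd (MeasurePreserving.id ν₂)
  have e1 := m1.measureReal_preimage h₁.nullMeasurableSet
  have e2 := m2.measureReal_preimage h₂.nullMeasurableSet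
  have hs : B ×ˢ Set.univ ⊆ (Prod.map Prod.fst id ⁻¹' A₁ ∪ Prod.map Prod.snd id ⁻¹' A₂) ∪
      (Set.univ ×ˢ A₃) ×ˢ (Set.univ : Set Ω) := by
    rintro ⟨y, y''⟩ ⟨hy, -⟩
    rcases h y hy y'' with h | h | h
    · exact Or.inl (Or.inl h)
    · exact Or.inl (Or.inr h)
    · exact Or.inr ⟨⟨trivial, h⟩, trivial⟩
  have := (measureReal_mono (μ := P) hs).trans ((measureReal_union_le _ _).trans
    (add_le_add_left (measureReal_union_le _ _) _))
  linarith

/-- `B ×ˢ univ ⊆ {(z, z q m) ∈ A} ∪ {(z q, z q m) ∈ A}`; `mt_shift` with the constant `q` -/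
theorem mt_gap (ζ ξ : Measure G) [IsProbabilityMeasure ζ] [IsProbabilityMeasure ξ] {q : G}
    {η θ : ℝ} {A : Set (G × G)} (hA : MeasurableSet A)
    (h₁ : (ζ.prod ξ).real {p | (p.1, p.1 * p.2) ∈ A} ≤ θ)
    (h₂ : ((ζ.map fun x => x * q).prod ξ).real {p | (p.1, p.1 * p.2) ∈ A} ≤ θ) (hq : TVl ξ q η)
    {B : Set G} (hB : ∀ z ∈ B, ∀ y, (z, y) ∈ A ∨ (z * q, y) ∈ A) : ζ.real B ≤ 2 * θ + η := by

  have hA' : MeasurableSet {p : G × G | (p.1, p.1 * p.2) ∈ A} :=
    (measurable_fst.prodMk (measurable_fst.mul measurable_snd)) hA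
  have e0 : (ζ.prod ξ).real (B ×ˢ Set.univ) = ζ.real B := by
    simp only [Measure.real, Measure.prod_prod, measure_univ, mul_one]
  have e1 := mt_shift ζ ξ (h := fun _ => q) measurable_const (Eventually.of_forall fun _ => hq) hA'
  have m1 : MeasurePreserving (fun x => x * q) ζ (ζ.map fun x => x * q) :=
    (measurable_mul_const q).measurePreserving ζ
  haveI : IsProbabilityMeasure (ζ.map fun x => x * q) :=
    Measure.isProbabilityMeasure_map (measurable_mul_const q).aemeasurable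
  have m2 := MeasurePreserving.prod m1 (MeasurePreserving.id ξ)
  have e2 := m2.measureReal_preimage hA'.nullMeasurableSet
  have hs : B ×ˢ Set.univ ⊆
      {p : G × G | (p.1, q * p.2) ∈ {p : G × G | (p.1, p.1 * p.2) ∈ A}} ∪
        Prod.map (fun x => x * q) id ⁻¹' {p : G × G | (p.1, p.1 * p.2) ∈ A} := by
    rintro ⟨z, m⟩ ⟨hz, -⟩
    rcases hB z hz (z * q * m) with h | h
    · left
      show (z, z * (q * m)) ∈ A
      rwa [← mul_assoc]
    · exact Or.inr h
  have := (measureReal_mono (μ := ζ.prod ξ) hs).trans (measureReal_union_le _ _)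
  have e3 := (abs_le.1 e1).2
  linarith

/-- union bound on `(ζ ⊗ ν) ⊗ ξ`: `mt_shiftr` twice, `mt_fub`, `mt_shift` with `h (z, m) = g * m` on
`ζ ⊗ ξ` -/
theorem mt_tbm (ζ ξ ν : Measure G) [IsProbabilityMeasure ζ] [IsProbabilityMeasure ξ]
    [IsProbabilityMeasure ν] {g : G} {η θ θ₁ θ₃ : ℝ} (hg : TVr ζ g η)
    (hν : ∀ᵐ m ∂ξ, TVl ν (g * m) η) {A₁ : Set G} {A₂ A₃ : Set (G × G)} (m₁ : MeasurableSet A₁)
    (m₂ : MeasurableSet A₂) (m₃ : MeasurableSet A₃) (h₁ : ζ.real A₁ᶜ ≤ θ₁)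
    (h₂ : θ ≤ (ζ.prod ξ).real {p | (p.1, p.1 * p.2) ∈ A₂})
    (h₃ : ∀ᵐ m ∂ν, ((ζ.prod ξ).map fun p => p.1 * p.2).real {y | (y, y * m) ∉ A₃} ≤ θ₃) :
    θ - θ₁ - θ₃ - 3 * η ≤ ((ζ.prod ν).prod ξ).real {p | p.1.1 ∈ A₁ ∧
      (p.1.1 * g, p.1.1 * g * p.2) ∈ A₂ ∧ (p.1.1 * g * p.2, p.1.1 * p.1.2) ∈ A₃} := by
  -- the exchange of the last two factors
  have hT : MeasurePreserving (fun p : (G × G) × G => ((p.1.1, p.2), p.1.2))
      ((ζ.prod ν).prod ξ) ((ζ.prod ξ).prod ν) :=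
    (measurePreserving_prodAssoc ζ ξ ν).symm.comp
      (((MeasurePreserving.id ζ).prod (Measure.measurePreserving_swap (μ := ν) (ν := ξ))).comp
        (measurePreserving_prodAssoc ζ ν ξ))
  set E₁ : Set (G × G) := {q | q.1 ∈ A₁ᶜ} with hE₁
  set E₂ : Set (G × G) := {q | (q.1 * g, q.1 * g * q.2) ∈ A₂} with hE₂
  set E₃ : Set ((G × G) × G) := {q | (q.1.1 * g * q.1.2, q.1.1 * q.2) ∉ A₃} with hE₃
  set B : Set ((G × G) × G) := {q | q.1.1 ∈ A₁ ∧ (q.1.1 * g, q.1.1 * g * q.1.2) ∈ A₂ ∧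
    (q.1.1 * g * q.1.2, q.1.1 * q.2) ∈ A₃} with hB
  have mE₃ : MeasurableSet E₃ :=
    (m₃.preimage (f := fun q : (G × G) × G => (q.1.1 * g * q.1.2, q.1.1 * q.2)) (by fun_prop)).compl
  have mB : MeasurableSet B :=
    (m₁.preimage (f := fun q : (G × G) × G => q.1.1) (by fun_prop)).inter
      ((m₂.preimage (f := fun q : (G × G) × G => (q.1.1 * g, q.1.1 * g * q.1.2))
        (by fun_prop)).inter
      (m₃.preimage (f := fun q : (G × G) × G => (q.1.1 * g * q.1.2, q.1.1 * q.2)) (by fun_prop)))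
  have e0 := hT.measureReal_preimage mB.nullMeasurableSet
  have e1 : ((ζ.prod ξ).prod ν).real (E₁ ×ˢ Set.univ) ≤ θ₁ := by
    have : E₁ = A₁ᶜ ×ˢ (Set.univ : Set G) := by ext q; simp [hE₁]
    rw [measureReal_prod_prod, this, measureReal_prod_prod]
    simpa using h₁
  have e2 : θ - η ≤ ((ζ.prod ξ).prod ν).real (E₂ ×ˢ Set.univ) := by
    have h := mt_shiftr ζ ξ hg (A := {p : G × G | (p.1, p.1 * p.2) ∈ A₂})
      (m₂.preimage (f := fun p : G × G => (p.1, p.1 * p.2)) (by fun_prop))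
    rw [measureReal_prod_prod]
    have h' := (abs_le.1 h).1
    simp only [Set.mem_ofPred_eq] at h'
    simp only [probReal_univ, mul_one]
    linarith
  have e3 : ((ζ.prod ξ).prod ν).real E₃ ≤ θ₃ + 2 * η := by
    have hq : ∀ᵐ ω ∂(ζ.prod ξ), TVl ν (g * ω.2) η :=
      (Measure.quasiMeasurePreserving_snd (μ := ζ) (ν := ξ)).ae hν
    have h := mt_shift (ζ.prod ξ) ν (h := fun ω : G × G => g * ω.2) (by fun_prop) hq mE₃
    have h' := (abs_le.1 h).1
    have h'' : ((ζ.prod ξ).prod ν).real {p : (G × G) × G | (p.1, g * p.1.2 * p.2) ∈ E₃} ≤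
        θ₃ + η := by
      refine mt_fub (ζ.prod ξ) ν
        (mE₃.preimage (f := fun p : (G × G) × G => (p.1, g * p.1.2 * p.2)) (by fun_prop)) ?_
      filter_upwards [h₃] with y hy
      have mC : MeasurableSet {x : G | (x, x * y) ∉ A₃} :=
        (m₃.preimage (f := fun x : G => (x, x * y)) (by fun_prop)).compl
      rw [map_measureReal_apply (by fun_prop) mC] at hy
      have h4 := mt_shiftr ζ ξ hg (mC.preimage (f := fun p : G × G => p.1 * p.2) (by fun_prop))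
      have h5 := (abs_le.1 h4).2
      have h6 : {ω : G × G | (ω, y) ∈ (fun p : (G × G) × G => (p.1, g * p.1.2 * p.2)) ⁻¹' E₃} =
          {p : G × G | (p.1 * g, p.2) ∈
            (fun p : G × G => p.1 * p.2) ⁻¹' {x : G | (x, x * y) ∉ A₃}} := by
        ext ω
        simp [hE₃, mul_assoc]
      rw [h6]
      linarith
    linarith
  have hsub : E₂ ×ˢ (Set.univ : Set G) ⊆ B ∪ (E₁ ×ˢ Set.univ ∪ E₃) := by
    rintro q ⟨hq, -⟩
    by_cases a1 : q.1.1 ∈ A₁
    · by_cases a3 : (q.1.1 * g * q.1.2, q.1.1 * q.2) ∈ A₃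
      · exact Or.inl ⟨a1, hq, a3⟩
      · exact Or.inr (Or.inr a3)
    · exact Or.inr (Or.inl ⟨a1, trivial⟩)
  have e4 := (measureReal_mono hsub (measure_ne_top ((ζ.prod ξ).prod ν) _)).trans
    ((measureReal_union_le _ _).trans (add_le_add le_rfl (measureReal_union_le _ _)))
  refine le_trans ?_ e0.ge
  linarith

/-- majority points: choose `sel p ∈ S` with `ν {y | (sel p, y) ∉ R₀ p} ≤ 1 / 5` (Markov), then
`(4/5)² > 1/10` and `Measure.prod_prod` -/
theorem mt_maj {I : Type*} (ν : Measure Ω) [IsProbabilityMeasure ν] {S : Set Ω}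
    (hS : ∀ᵐ y ∂ν, y ∈ S) (R₀ : I → Set (Ω × Ω)) (hm : ∀ p, MeasurableSet (R₀ p))
    (h₀ : ∀ p, (ν.prod ν).real (R₀ p)ᶜ ≤ 1 / 10) : ∃ sel : I → Ω, (∀ p, sel p ∈ S) ∧
      ∀ (p p' : I) (R₁ : Set (Ω × Ω)), (ν.prod ν).real R₁ᶜ ≤ 1 / 10 →
        ∃ y y', (sel p, y) ∈ R₀ p ∧ (sel p', y') ∈ R₀ p' ∧ (y, y') ∈ R₁ := by
  have key : ∀ p, ∃ x ∈ S, ν.real (Prod.mk x ⁻¹' (R₀ p)ᶜ) ≤ 1 / 5 := by
    intro p
    by_contra hcon
    push Not at hcon
    have h1 : ENNReal.ofReal (1 / 5) ≤ (ν.prod ν) (R₀ p)ᶜ := by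
      rw [Measure.prod_apply (hm p).compl]
      calc ENNReal.ofReal (1 / 5) = ∫⁻ _, ENNReal.ofReal (1 / 5) ∂ν := by simp
        _ ≤ _ := by
          refine lintegral_mono_ae ?_
          filter_upwards [hS] with x hx
          exact ENNReal.ofReal_le_of_le_toReal (hcon x hx).le
    have h2 := (ENNReal.ofReal_le_iff_le_toReal (measure_ne_top _ _)).1 h1
    have h3 := h₀ p
    rw [Measure.real] at h3
    linarith
  choose sel hsel hle using key
  refine ⟨sel, hsel, fun p p' R₁ h₁ => ?_⟩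
  by_contra hcon
  push Not at hcon
  have hs : (Set.univ : Set (Ω × Ω)) ⊆ ((Prod.mk (sel p) ⁻¹' (R₀ p)ᶜ) ×ˢ Set.univ ∪
      Set.univ ×ˢ (Prod.mk (sel p') ⁻¹' (R₀ p')ᶜ)) ∪ R₁ᶜ := by
    rintro ⟨y, y'⟩ -
    by_cases a1 : (sel p, y) ∈ R₀ p
    · by_cases a2 : (sel p', y') ∈ R₀ p'
      · exact Or.inr (hcon y y' a1 a2)
      · exact Or.inl (Or.inr ⟨trivial, a2⟩)
    · exact Or.inl (Or.inl ⟨a1, trivial⟩)
  have h2 := (measureReal_mono (μ := ν.prod ν) hs).trans ((measureReal_union_le _ _).trans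
    (add_le_add_left (measureReal_union_le _ _) _))
  rw [measureReal_prod_prod, measureReal_prod_prod] at h2
  simp only [probReal_univ, mul_one, one_mul] at h2
  linarith [hle p, hle p']

end

end Crest.Agent.R182
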