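import Crest.Agent.R182.MTApi

/-! Row 182, block M4: lower counts at a random point; invariance of derived measures. -/

set_option autoImplicit false
set_option linter.dupNamespace false
set_option linter.unusedSectionVars false

namespace Crest.Agent.R182

open Crest.GroupTheory MeasureTheory Filter Topology

namespace Geo

variable {G : Type} [Group G] [MeasurableSpace G] [MeasurableMul₂ G] [MeasurableInv G] {k : ℕ}
  (X : Geo G k)

theorem h51_mem_box {a : X.ι → ℝ} (ha : Adm X.χ a) {Z : Sch G} (hZ : Z.size ≤ X.K)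
    (hL : Z.Let fun g => ∃ j, g ∈ X.RB j (a j)) {w : List G} (hw : Z.Mem w) :
    w.prod ∈ X.Box fun j => a j + X.r₁ :=
  X.word_box ha (hw.length_le.trans hZ)
    (hw.let hL fun _ ⟨j, hj⟩ => ⟨j, X.RB_inv _ _ _ hj⟩)

/-- `zig0`, `Sch.exists_point`, `Sch.avg_mono`, `word_box` -/
theorem zig0p {θ : ℝ} (hθ : 0 < θ) (σ : ℕ) : ∃ Kθ : ℝ, ∀ a, Adm X.χ a →
    ∀ (Ω : Type) [MeasurableSpace Ω] (P : Measure Ω) [IsProbabilityMeasure P] (Q : G → Set Ω),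
      (∀ g, MeasurableSet (Q g)) → (∀ g ∈ X.Box fun j => a j + X.r₁, θ ≤ P.real (Q g)) →
      ∃ ω, ∃ Y : Finset G, Sep X.Sg σ Y ∧ (∀ y ∈ Y, ω ∈ Q y) ∧
        Real.exp (X.V a - Kθ) ≤ Y.card := by
  obtain ⟨Kθ, H⟩ := X.zig0 θ hθ σ
  refine ⟨Kθ, fun a ha Ω _ P _ Q hQ hθQ => ?_⟩
  obtain ⟨Z, hZ, hL, hA⟩ := H a ha
  obtain ⟨ω, hω⟩ := Sch.exists_point Z P (B := fun w => Q w.prod) (fun w => hQ _) (τ := θ) (by
    rw [← Z.avg_const θ]
    exact Z.avg_mono fun w hw => hθQ _ (X.h51_mem_box ha hZ hL hw))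
  obtain ⟨Y, h1, h2, h3⟩ := hA _ hω
  refine ⟨ω, Y, h1, fun y hy => ?_, h3⟩
  obtain ⟨w, hw, -, rfl⟩ := h2 y hy
  exact hw

/-- `zig`, `Sch.avg_integral`, `exists_integral_le`, Fubini -/
theorem zigp {θ : ℝ} (hθ : 0 < θ) (σ : ℕ) : ∃ Kθ : ℝ, ∀ a, Adm X.χ a → ∀ i (b : ℝ), a i ≤ b →
    ∀ (Ω : Type) [MeasurableSpace Ω] (P : Measure Ω) [IsProbabilityMeasure P]
      (Q : G → Set (Ω × G)), (∀ g, MeasurableSet (Q g)) →
      (∀ g ∈ X.Box fun j => a j + X.r₁, θ ≤ (P.prod (X.νR i b)).real (Q g)) →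
      ∃ ω, ∃ Y : Finset G, Sep X.Sg σ Y ∧
        (∀ y ∈ Y, ∃ g, ∃ m ∈ X.RB i b, (ω, m) ∈ Q g ∧ y = g * m) ∧
        Real.exp (X.V a + X.dim i * (b - a i) - Kθ) ≤ Y.card := by
  obtain ⟨Kθ, H⟩ := X.zig θ hθ σ
  refine ⟨Kθ, fun a ha i b hb Ω _ P _ Q hQ hθQ => ?_⟩
  obtain ⟨Z, hZ, hL, hA⟩ := H a ha i b hb
  have := X.νR_prob i b
  have hint : ∀ w : List G,
      Integrable (fun ω => (X.νR i b).real (Prod.mk ω ⁻¹' Q w.prod)) P := fun w =>
    Integrable.of_bound (measurable_measure_prodMk_left (hQ _)).ennreal_toReal.aestronglyMeasurable 1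
      (Eventually.of_forall fun ω => by
        rw [Real.norm_of_nonneg measureReal_nonneg]
        exact measureReal_le_one)
  obtain ⟨h1, h2⟩ := Z.avg_integral P hint
  have h3 : θ ≤ ∫ ω, Z.avg (fun w => (X.νR i b).real (Prod.mk ω ⁻¹' Q w.prod)) ∂P := by
    rw [h2, ← Z.avg_const θ]
    refine Z.avg_mono fun w hw => (hθQ _ (X.h51_mem_box ha hZ hL hw)).trans (le_of_eq ?_)
    rw [measureReal_def, Measure.prod_apply (hQ _)]
    exact (integral_toReal (measurable_measure_prodMk_left (hQ _)).aemeasurable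
      (Eventually.of_forall fun ω => measure_lt_top _ _)).symm
  obtain ⟨ω, hω⟩ := exists_integral_le h1
  obtain ⟨Y, h4, h5, h6⟩ := hA (fun w => Prod.mk ω ⁻¹' Q w.prod)
    (fun w => measurable_prodMk_left (hQ _)) (h3.trans hω)
  refine ⟨ω, Y, h4, fun y hy => ?_, h6⟩
  obtain ⟨w, -, m, hm, hm', rfl⟩ := h5 y hy
  exact ⟨_, m, hm', hm, rfl⟩

/-- `TVr.map_iff`, `box_shear` -/
theorem inv_shear {ζ : Measure G} {a₀ : X.ι → ℝ} {η s t : ℝ} (ha : Adm X.χ a₀) (hs : 0 ≤ s)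
    (ht : X.K * s + X.K ≤ t) (h : X.Inv ζ (fun i => a₀ i + t) η) {m : G}
    (hm : m ∈ X.Box fun i => a₀ i + t + s) : X.Inv (ζ.map fun x => x * m) a₀ η := by
  intro a' _ hle g hg
  have hK : (0 : ℝ) ≤ X.K := Nat.cast_nonneg _
  rw [TVr.map_iff]
  exact h _ (X.adm_add_const ha (le_trans (by positivity) ht)) le_rfl _
    (X.box_shear a₀ s t hs ht m hm g (X.box_mono _ _ hle hg))

/-- `box_gen`; the prefixes lie in the box of level `a₀ + ρ + s`, `s = g + K + r₁` (`word_box`);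
`inv_shear` with `t = K s + K` -/
theorem box_list : ∃ K₆ : ℕ, ∀ a₀, Adm X.χ a₀ → ∀ ρ g : ℝ, 0 ≤ g → K₆ * (g + 1) ≤ ρ →
    ∀ (ζ : Measure G) (η : ℝ), X.Inv ζ (fun i => a₀ i + ρ) η →
      ∀ m ∈ X.Box fun i => a₀ i + ρ + g, ∃ l : List G, l.length ≤ X.K ∧ l.prod = m ∧
        (∀ x ∈ l, ∃ i, x ∈ X.RB i (a₀ i + ρ + g + X.K)) ∧
        ∀ j, X.Inv (ζ.map fun x => x * (l.take j).prod)
          (fun i => a₀ i + (ρ - K₆ * (g + 1))) η := by
  have hK : (0 : ℝ) ≤ X.K := Nat.cast_nonneg _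
  have hr : 0 ≤ X.r₁ := by
    have := one_le_lg X.K
    unfold r₁
    positivity
  obtain ⟨K₆, hK₆⟩ := exists_nat_ge (X.K * (1 + X.K + X.r₁) + X.K : ℝ)
  refine ⟨K₆, fun a₀ ha ρ g hg hρ ζ η h m hm => ?_⟩
  obtain ⟨l, h1, h2, h3⟩ := X.box_gen _ m hm
  refine ⟨l, h1, h3, h2, fun j => ?_⟩
  have h6 : (0 : ℝ) ≤ K₆ * (g + 1) := by positivity
  have h4 := X.word_box (a := fun i => a₀ i + (ρ + g + X.K))
    (X.adm_add_const ha (by linarith)) (l := l.take j)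
    ((List.length_take_le' _ _).trans h1) fun x hx => by
      obtain ⟨i, hi⟩ := h2 x (List.mem_of_mem_take hx)
      exact ⟨i, X.RB_mono i _ _ (le_of_eq (by ring)) hi⟩
  refine X.inv_shear (s := g + X.K + X.r₁) (t := K₆ * (g + 1))
    (X.adm_add_const ha (by linarith)) (by positivity) ?_
    (h.mono (fun i => le_of_eq (by ring)) le_rfl) (X.box_mono _ _ (fun i => le_of_eq (by ring)) h4)
  have h5 : 0 ≤ X.K * (X.K + X.r₁) := by positivity
  nlinarith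

/-- `split` with `D = b` and `a = lev {0, σ (u j - u i)}`, `σ κ = ρ₂ + K b` (`u_gap`); `TVr.conv` -/
theorem inv_conv : ∃ K₁₁ : ℕ, ∀ (i : X.ι) (ρ₀ ρ₁ ρ₂ b t η η' : ℝ) (ζ : Measure G),
    IsProbabilityMeasure ζ → 0 ≤ ρ₀ → 0 ≤ ρ₂ → 0 ≤ t → X.K ≤ b → K₁₁ * (ρ₂ + b) ≤ ρ₁ →
      X.Inv ζ (X.gl i ρ₀ ρ₁) η → (∀ g ∈ X.RB i (b - t), TVr (X.νR i b) g η') →
      X.Inv ((ζ.prod (X.νR i b)).map fun p => p.1 * p.2) (X.gl i (b - t - X.K) ρ₂) (η + η') := by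
  obtain ⟨κ, hκ, -, hgap⟩ := X.u_gap
  obtain ⟨B, hB, hχ⟩ := X.χ_bound
  obtain ⟨B', hB', hu⟩ := X.u_bound
  have hK : (1 : ℝ) ≤ X.K := by exact_mod_cast X.one_le_K
  obtain ⟨K₁₁, hK₁₁⟩ := exists_nat_ge (X.K * (1 + B * B') / κ : ℝ)
  refine ⟨K₁₁, fun i ρ₀ ρ₁ ρ₂ b t η η' ζ hζ h0 h2 ht hb h1 h hR a' ha' hle g hg => ?_⟩
  have hb0 : 0 ≤ b := by linarith
  obtain ⟨σ, hσ0, hσ⟩ : ∃ σ : ℝ, 0 ≤ σ ∧ σ * κ = ρ₂ + X.K * b :=
    ⟨(ρ₂ + X.K * b) / κ, by positivity, div_mul_cancel₀ _ hκ.ne'⟩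
  have hσ1 : σ * (1 + B * B') ≤ ρ₁ := by
    refine le_trans ?_ h1
    rw [div_le_iff₀ hκ] at hK₁₁
    refine le_of_mul_le_mul_right ?_ hκ
    have a1 : σ * κ ≤ X.K * (ρ₂ + b) := by nlinarith
    have a2 : 0 ≤ 1 + B * B' := by positivity
    calc σ * (1 + B * B') * κ = σ * κ * (1 + B * B') := by ring
      _ ≤ X.K * (ρ₂ + b) * (1 + B * B') := by gcongr
      _ = X.K * (1 + B * B') * (ρ₂ + b) := by ring
      _ ≤ K₁₁ * κ * (ρ₂ + b) := by gcongr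
      _ = _ := by ring
  set S : Set (Fin k → ℝ) := insert 0 (Set.range fun j => σ • (X.u j - X.u i)) with hS
  have hf : S.Finite := (Set.finite_range _).insert _
  have hn : S.Nonempty := Set.insert_nonempty _ _
  have a1 : 0 ≤ lev X.χ S i := by simpa using le_lev (χ := X.χ) hf (Set.mem_insert _ _) i
  have a2 : ∀ j, j ≠ i → ρ₂ + X.K * b ≤ lev X.χ S j := fun j hj => by
    have := le_lev (χ := X.χ) hf (Set.mem_insert_of_mem _ ⟨j, rfl⟩) j
    simp only [map_smul, map_sub, X.u_self, smul_eq_mul] at this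
    nlinarith [hgap i j hj]
  have a3 : lev X.χ S ≤ X.gl i ρ₀ ρ₁ := fun l => lev_le hn <| by
    have hρ₁ : 0 ≤ ρ₁ := le_trans (by positivity) hσ1
    rintro s (rfl | ⟨j, rfl⟩)
    · rw [map_zero, gl]
      split_ifs
      · exact h0
      · exact hρ₁
    · simp only [map_smul, map_sub, smul_eq_mul, gl]
      split_ifs with e
      · rw [e, X.u_self]
        nlinarith [X.χ_u_le j i]
      · have b1 := X.χ_u_le j l
        have b2 := (neg_le_abs _).trans ((hχ l (X.u i)).trans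
          (mul_le_mul_of_nonneg_left (hu i) (by linarith)))
        nlinarith
  have b3 : a' i ≤ b - t - X.K := by simpa [gl] using hle i
  have b4 : ∀ l, l ≠ i → a' l ≤ ρ₂ := fun l hl => by simpa [gl, hl] using hle l
  obtain ⟨x, r, hr, rfl, hx⟩ := X.split i _ a' b b (Adm.lev hf hn) ha' hb
    (fun l hl => by linarith [a2 l hl, b4 l hl]) (by linarith) (by linarith) g hg
  have := X.νR_prob i b
  refine TVr.conv ?_ (hR r (X.RB_mono i _ _ (by linarith) hr))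
  filter_upwards [X.νR_box i b] with q hq
  exact h _ (Adm.lev hf hn) a3 _ (hx q hq)

/-- a very negative element of class `i` conjugated by a moderate one -/
theorem h77_shear (i : X.ι) {b σ : ℝ} (hb : 0 ≤ b) (hσ : X.K * (b + X.K) + 2 * X.K ≤ -σ)
    {q r : G} (hq : q ∈ X.RB i b) (hr : r ∈ X.RB i σ) :
    q * r * q⁻¹ ∈ X.Box fun j => -σ * (1 - X.χ j (X.u i)) := by
  have hK : (0 : ℝ) ≤ X.K := Nat.cast_nonneg _
  have hσ0 : 0 ≤ -σ := le_trans (by positivity) hσ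
  have e1 : pt X.χ (σ • X.u i) i = σ := by simp [pt, X.u_self]
  have h1 := X.RB_box _ (Adm.pt (σ • X.u i)) i (e1.symm ▸ hr)
  have h2 := X.RB_box _ (X.adm_add_const (Adm.pt (χ := X.χ) (σ • X.u i))
    (r := b - σ) (by linarith)) i (X.RB_mono i b _ (by rw [e1]; linarith) hq)
  refine X.box_mono _ _ (fun j => le_of_eq ?_)
    (X.box_shear _ (b + X.K) (-σ - X.K) (by positivity) (by linarith) q
      (X.box_mono _ _ (fun j => le_of_eq (by ring)) h2) r h1)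
  simp only [pt, map_smul, smul_eq_mul]
  ring

/-- `S₁ = {s₀, s₀ + T v}`, `s₀ = -λ b u i`, `F₂ = {0} ∪ (S₁ + μ b (u j - u i))`.
`split` with `D = K b`, `a' = lev S₁ + r₀`, `a = (a' + K D) ⊔ 0` gives `g = x r`;
`q⁻¹ r q` by `box_shear` with base level `pt (σ u i) + K`, `σ = a' i + K`, `s = b + K`,
`t = -σ - K` (`RB_box`, `χ_u_le`); `box_mul` -/
theorem geo1 (r₀ : ℝ) : ∃ K₅ : ℕ, ∀ (i : X.ι) (b T : ℝ) (v : Fin k → ℝ), 1 ≤ b → 0 ≤ T → ‖v‖ ≤ 1 →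
    X.χ i v ≤ 0 → ∃ S₁ F₂ : Set (Fin k → ℝ),
      Fam (2 * Fintype.card X.ι + 3) (insert 0 S₁) (T + K₅ * b) ∧
      Fam (2 * Fintype.card X.ι + 3) F₂ (T + K₅ * b) ∧
      (∀ s ∈ S₁ ∪ F₂, X.χ i s ≤ 0 ∧ (‖s‖ ≤ K₅ * b ∨ ‖s - T • v‖ ≤ K₅ * b)) ∧
      (∃ s ∈ S₁, ‖s‖ ≤ K₅ * b) ∧ (∃ s ∈ S₁, ‖s - T • v‖ ≤ K₅ * b) ∧
      ∀ q ∈ X.RB i b, ∀ g ∈ X.Box fun j => lev X.χ S₁ j + r₀,
        q⁻¹ * g * q ∈ X.Box fun j => lev X.χ F₂ j + 3 * X.K := by
  obtain ⟨κ, hκ, -, hgap⟩ := X.u_gap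
  obtain ⟨B, hB, hu⟩ := X.u_bound
  have hK : (1 : ℝ) ≤ X.K := by exact_mod_cast X.one_le_K
  obtain ⟨r, hr0, hr⟩ : ∃ r : ℝ, 0 ≤ r ∧ r₀ ≤ r := ⟨max r₀ 0, le_max_right _ _, le_max_left _ _⟩
  obtain ⟨lam, hlam⟩ : ∃ lam : ℝ, lam = X.K * X.K + 4 * X.K + r := ⟨_, rfl⟩
  have hlam0 : 0 ≤ lam := by rw [hlam]; positivity
  obtain ⟨μ, hμ0, hμ⟩ : ∃ μ : ℝ, 0 ≤ μ ∧ μ * κ = lam :=
    ⟨lam / κ, by positivity, div_mul_cancel₀ _ hκ.ne'⟩
  obtain ⟨K₅, hK₅⟩ := exists_nat_ge ((lam + 2 * μ) * B)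
  refine ⟨K₅, fun i b T v hb hT hv hχ => ?_⟩
  have hb0 : 0 ≤ b := by linarith
  obtain ⟨s₀, hs₀⟩ : ∃ s₀, s₀ = (-(lam * b)) • X.u i := ⟨_, rfl⟩
  obtain ⟨f, hf⟩ : ∃ f : X.ι → Fin k → ℝ, f = fun j => s₀ + (μ * b) • (X.u j - X.u i) := ⟨_, rfl⟩
  have hTv : ‖T • v‖ ≤ T := by
    rw [norm_smul, Real.norm_of_nonneg hT]
    exact mul_le_of_le_one_right hT hv
  have n0 : ‖s₀‖ ≤ lam * b * B := by
    rw [hs₀, norm_smul, norm_neg, Real.norm_of_nonneg (by positivity)]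
    exact mul_le_mul_of_nonneg_left (hu i) (by positivity)
  have nf : ∀ j, ‖f j‖ ≤ K₅ * b := fun j => by
    have a1 : ‖(μ * b) • (X.u j - X.u i)‖ ≤ μ * b * (B + B) := by
      rw [norm_smul, Real.norm_of_nonneg (by positivity)]
      exact mul_le_mul_of_nonneg_left ((norm_sub_le _ _).trans (add_le_add (hu j) (hu i)))
        (by positivity)
    have a2 := mul_le_mul_of_nonneg_right hK₅ hb0
    rw [hf]
    exact (norm_add_le _ _).trans (by linarith)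
  have fi : f i = s₀ := by simp [hf]
  have n1 : ‖s₀‖ ≤ K₅ * b := fi ▸ nf i
  have hKb : (0 : ℝ) ≤ K₅ * b := by positivity
  have cf : ∀ j l, X.χ l (f j) = X.χ l s₀ + μ * b * (X.χ l (X.u j) - X.χ l (X.u i)) := fun j l => by
    simp [hf]
  have c0 : ∀ l, X.χ l s₀ = -(lam * b) * X.χ l (X.u i) := fun l => by simp [hs₀]
  have cT : X.χ i (T • v) ≤ 0 := by
    rw [map_smul, smul_eq_mul]
    exact mul_nonpos_of_nonneg_of_nonpos hT hχ
  have ci : ∀ j, X.χ i (f j) ≤ -(lam * b) := fun j => by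
    rw [cf, c0, X.u_self]
    have := mul_le_mul_of_nonneg_left (X.χ_u_le j i) (show 0 ≤ μ * b by positivity)
    linarith
  have hlb : 0 ≤ lam * b := by positivity
  have cg : ∀ j, j ≠ i → lam * b ≤ μ * b * (1 - X.χ j (X.u i)) := fun j hj => by
    have := hgap i j hj
    rw [← hμ]
    nlinarith [mul_nonneg hμ0 hb0]
  set S₁ : Set (Fin k → ℝ) := {s₀, s₀ + T • v} with hS₁
  set F₂ : Set (Fin k → ℝ) := insert 0 (Set.range f ∪ Set.range fun j => f j + T • v) with hF₂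
  have fS : S₁.Finite := Set.toFinite _
  have nS : S₁.Nonempty := Set.insert_nonempty _ _
  have fF : F₂.Finite := ((Set.finite_range _).union (Set.finite_range _)).insert _
  have nF : F₂.Nonempty := Set.insert_nonempty _ _
  have sub : insert 0 S₁ ⊆ F₂ := by
    refine Set.insert_subset_insert ?_
    rintro s (rfl | rfl)
    · exact Or.inl ⟨i, fi⟩
    · exact Or.inr ⟨i, by simp only [fi]⟩
  have cF : F₂.ncard ≤ 2 * Fintype.card X.ι + 3 := by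
    have a1 : ∀ f' : X.ι → Fin k → ℝ, (Set.range f').ncard ≤ Fintype.card X.ι := fun f' => by
      rw [← Set.image_univ]
      refine (Set.ncard_image_le Set.finite_univ).trans ?_
      rw [Set.ncard_univ, Nat.card_eq_fintype_card]
    have a2 := Set.ncard_insert_le 0 (Set.range f ∪ Set.range fun j => f j + T • v)
    have a3 := Set.ncard_union_le (Set.range f) (Set.range fun j => f j + T • v)
    have := a1 f
    have := a1 fun j => f j + T • v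
    rw [hF₂]
    omega
  have pF : ∀ s ∈ F₂, X.χ i s ≤ 0 ∧ (‖s‖ ≤ K₅ * b ∨ ‖s - T • v‖ ≤ K₅ * b) := by
    rintro s (rfl | ⟨j, rfl⟩ | ⟨j, rfl⟩)
    · simpa using Or.inl hKb
    · exact ⟨by linarith [ci j], Or.inl (nf j)⟩
    · exact ⟨by rw [map_add]; linarith [ci j], Or.inr (by simpa using nf j)⟩
  have bF : ∀ s ∈ F₂, ‖s‖ ≤ T + K₅ * b := fun s hs => by
    rcases (pF s hs).2 with h | h
    · linarith
    · linarith [norm_le_norm_add_norm_sub' s (T • v)]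
  refine ⟨S₁, F₂, ⟨fS.insert _, Set.mem_insert _ _, (Set.ncard_le_ncard sub fF).trans cF,
    fun s hs => bF s (sub hs)⟩, ⟨fF, Set.mem_insert _ _, cF, bF⟩, ?_, ⟨s₀, Or.inl rfl, n1⟩,
    ⟨s₀ + T • v, Or.inr rfl, by simpa using n1⟩, fun q hq g hg => ?_⟩
  · rintro s (hs | hs)
    · exact pF s (sub (Or.inr hs))
    · exact pF s hs
  have li : lev X.χ S₁ i ≤ -(lam * b) := lev_le nS <| by
    rintro s (rfl | rfl)
    · exact fi ▸ ci i
    · rw [map_add]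
      linarith [fi ▸ ci i]
  have li' : -(lam * b) ≤ lev X.χ S₁ i := by
    have := le_lev (χ := X.χ) fS (Set.mem_insert _ _) i
    rwa [c0, X.u_self, mul_one] at this
  have lF : 0 ≤ lev X.χ F₂ i := by simpa using le_lev (χ := X.χ) fF (Set.mem_insert _ _) i
  have lj : ∀ j, j ≠ i → lev X.χ S₁ j + lam * b ≤ lev X.χ F₂ j := fun j hj => by
    obtain ⟨s, hs, e⟩ := exists_lev (χ := X.χ) fS nS j
    have a1 := cg j hj
    have a2 := cf j j
    rw [X.u_self] at a2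
    rw [e]
    rcases hs with rfl | rfl
    · have := le_lev (χ := X.χ) fF (s := f j) (Or.inr (Or.inl ⟨j, rfl⟩)) j
      linarith
    · have := le_lev (χ := X.χ) fF (s := f j + T • v) (Or.inr (Or.inr ⟨j, rfl⟩)) j
      rw [map_add] at this ⊢
      linarith
  have hq' := X.RB_inv i b q hq
  have b1 : X.K * (X.K * b) + 4 * X.K * b + r * b = lam * b := by rw [hlam]; ring
  have b2 : r ≤ r * b := le_mul_of_one_le_right hr0 hb
  have b3 : (X.K : ℝ) ≤ X.K * b := le_mul_of_one_le_right (by linarith) hb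
  have b4 : b ≤ X.K * b := le_mul_of_one_le_left hb0 hK
  have b5 : (X.K : ℝ) * X.K ≤ X.K * (X.K * b) := mul_le_mul_of_nonneg_left b3 (by linarith)
  have b6 : 0 ≤ (X.K : ℝ) * X.K := by positivity
  obtain ⟨x, y, hy, rfl, hx⟩ := X.split i (lev X.χ F₂) (fun j => lev X.χ S₁ j + r) b (X.K * b)
    (Adm.lev fF nF) (X.adm_add_const (Adm.lev fS nS) hr0) b3
    (fun j hj => by linarith [lj j hj]) (by linarith) (by linarith) g
    (X.box_mono _ _ (fun j => by linarith) hg)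
  have h1 := hx _ hq'
  have h2 := X.h77_shear i hb0 (σ := lev X.χ S₁ i + r + X.K) (by linarith) hq' hy
  rw [inv_inv] at h1 h2
  have h3 := X.box_mono _ (lev X.χ F₂) (fun j => ?_) h2
  · have := X.box_mul h1 h3
    rwa [show q⁻¹ * x * q * (q⁻¹ * y * q) = q⁻¹ * (x * y) * q by group] at this
  by_cases hj : j = i
  · rw [hj, X.u_self]
    linarith
  · have a1 := cg j hj
    have a2 := cf j j
    rw [X.u_self, c0] at a2
    have a3 := le_lev (χ := X.χ) fF (s := f j) (Or.inr (Or.inl ⟨j, rfl⟩)) j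
    have a4 : 0 ≤ 1 - X.χ j (X.u i) := by linarith [X.χ_u_le i j]
    have a5 := mul_le_mul_of_nonneg_right
      (show -(lev X.χ S₁ i + r + X.K) ≤ lam * b by linarith) a4
    show -(lev X.χ S₁ i + r + X.K) * (1 - X.χ j (X.u i)) ≤ _
    linarith

end Geo

end Crest.Agent.R182
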