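import Crest.Agent.R182.MTPath
import Crest.Agent.R182.MTZig
import Crest.Agent.R182.MTDet
import Crest.Agent.R182.MTMeas

/-! Row 182, block M4: labels across gap moves. -/

set_option autoImplicit false
set_option linter.dupNamespace false
set_option linter.unusedSectionVars false

namespace Crest.Agent.R182

open Crest.GroupTheory MeasureTheory Filter Topology

namespace Geo

variable {G : Type} [Group G] [MeasurableSpace G] [MeasurableMul₂ G] [MeasurableInv G] {k : ℕ}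
  (X : Geo G k)

theorem h98_fam_mono {N : ℕ} {F : Set (Fin k → ℝ)} {T T' : ℝ} (h : Fam N F T) (hT : T ≤ T') :
    Fam N F T' := ⟨h.1, h.2.1, h.2.2.1, fun v hv => (h.2.2.2 v hv).trans hT⟩

theorem h98_lev_le {Bχ BW : ℝ} (hχ : ∀ i v, |X.χ i v| ≤ Bχ * ‖v‖) (hχ1 : 1 ≤ Bχ) (hW1 : 1 ≤ BW)
    {w : En k} (hW : ∀ v, ‖w v‖ ≤ BW * ‖v‖) (j : X.ι) {s t : Fin k → ℝ} {ρ : ℝ}
    (h : ‖s - t‖ ≤ ρ) : X.χ j (w s) ≤ X.χ j (w t) + Bχ * (BW * ρ) := by
  have h1 := (le_abs_self _).trans (hχ j (w (s - t)))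
  have h2 := mul_le_mul_of_nonneg_left ((hW (s - t)).trans
    (mul_le_mul_of_nonneg_left h (by linarith))) (show 0 ≤ Bχ by linarith)
  rw [map_sub, map_sub] at h1
  rw [map_sub] at h2
  linarith

set_option maxHeartbeats 800000 in
/-- `geo1 r₁`, `natjoin` for `ζ` (family `insert 0 S₁`) and for `ζ q` (family `F₂`, element `q⁻¹ g q`),
`zig0p` with `a = lev S₁`, `evc_uq`, `back` (`y = z q`, `y' = z g q`, `x = z g`), `det1` with
`a = lev (w '' insert 0 S₁)`; all levels are `O(b)`-close to those of `{0, T v}` (`lev_pair`, `V_lip`,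
`IsW.nu`, `isW_bound`) -/
theorem gl1 (c A : ℕ) : ∃ K₄ M₁ : ℕ, ∀ (Wp : En k → Prop) (R : ℕ) (θ : ℝ), 0 < θ →
    X.EVC Wp c A fun δ η n ψ => ∀ (i : X.ι) (b T : ℝ) (v : Fin k → ℝ) (ζ : Measure G) (q : G)
      (w w' : En k) (j : X.ι), IsProbabilityMeasure ζ → (n : ℝ) ≤ b → b ≤ R * n → 0 ≤ T →
      T ≤ R * n → ‖v‖ ≤ 1 → X.χ i v ≤ 0 → q ∈ X.RB i b →
      X.Inv ζ (X.gl i ((A + 2) * n) (M₁ * (T + b))) (2 * η) →
      X.Inv (ζ.map fun x => x * q) (X.gl i ((A + 2) * n) (M₁ * (T + b))) (2 * η) →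
      θ ≤ ζ.real {z | X.Lb Wp ψ n δ z w ∧ X.Lb Wp ψ n δ (z * q) w'} →
      T * max (X.χ j (w v)) 0 ≤ T * max (X.χ j (w' v)) 0 + K₄ * b := by
  obtain ⟨K₅, hgeo⟩ := X.geo1 X.r₁
  obtain ⟨K₉, hnat⟩ := X.natjoin c
  obtain ⟨C₁, hC₁, hdet⟩ := X.det1 c
  obtain ⟨C₂, hC₂, hback⟩ := X.back c
  obtain ⟨Bχ, hχ1, hχ⟩ := X.χ_bound
  obtain ⟨BV, hV1, hV⟩ := X.V_lip
  obtain ⟨BW, hW1, hW⟩ := X.isW_bound
  obtain ⟨κ, hκ0, -, hκ⟩ := X.dim_bound
  obtain ⟨K₄, hK₄⟩ := exists_nat_ge ((BV * (Bχ * K₅) + 1 + C₁ * (K₉ + 1)) / κ +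
    2 * (Bχ * (BW * K₅)) + Bχ * (X.K * (c * (3 * X.K) + c)) + C₂ * (K₉ + 3 * X.K + 1))
  obtain ⟨M₁, hM₁⟩ := exists_nat_ge (Bχ * (1 + K₅) + (A + 2))
  refine ⟨K₄, M₁, fun Wp R θ hθ => ?_⟩
  obtain ⟨M, hM⟩ := hnat Wp A (2 * Fintype.card X.ι + 3) ((K₅ + 1) * R) X.r₁ (θ / 3) (by positivity)
  obtain ⟨M', hM'⟩ := hnat Wp A (2 * Fintype.card X.ι + 3) ((K₅ + 1) * R) (3 * X.K) (θ / 3)
    (by positivity)
  obtain ⟨Kθ, hzig⟩ := X.zig0p (θ := θ / 3) (by positivity) (c + c)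
  refine ((((hM.and hM').and (X.evc_uq Wp c A)).and_ev
    (((EV.lg (M + M' + c * (3 * X.K * R) + c) one_pos).and (EV.large fun _ _ => Kθ)).and
      (EV.large fun _ _ => 1)))).mono ?_
  rintro δ η n ψ hx ⟨⟨⟨hn1, hn2⟩, hU⟩, ⟨hlg, hKθ⟩, hn⟩ i b T v ζ q w w' j hζ hb hbR hT hTR hv hiv
    hq hI hI' hθ'
  have hb1 : 1 ≤ b := hn.trans hb
  have hK0 : (0 : ℝ) ≤ X.K := X.K.cast_nonneg
  have hK5 : (0 : ℝ) ≤ K₅ := K₅.cast_nonneg
  have hK9 : (0 : ℝ) ≤ K₉ := K₉.cast_nonneg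
  have hc0 : (0 : ℝ) ≤ c := c.cast_nonneg
  have hn0 : (0 : ℝ) ≤ n := n.cast_nonneg
  obtain ⟨S₁, F₂, hF₁, hF₂, hS, ⟨s₀, hs₀, hs₀'⟩, ⟨s₁, hs₁, hs₁'⟩, hconj⟩ :=
    hgeo i b T v hb1 hT hv hiv
  have hS₁ : S₁.Finite := hF₁.1.subset (Set.subset_insert _ _)
  have hTb : T + K₅ * b ≤ (((K₅ + 1) * R : ℕ) : ℝ) * n := by
    push_cast
    linarith [mul_le_mul_of_nonneg_left hbR hK5]
  have hlev : ∀ F : Set (Fin k → ℝ), Fam (2 * Fintype.card X.ι + 3) F (T + K₅ * b) →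
      (∀ s ∈ F, X.χ i s ≤ 0) → ∀ l, lev X.χ F l + (A + 2) * n ≤
        X.gl i ((A + 2) * n) (M₁ * (T + b)) l := by
    intro F hF hF' l
    unfold gl
    split_ifs with hl
    · subst hl
      linarith [lev_le (χ := X.χ) ⟨_, hF.2.1⟩ hF']
    · have h1 : lev X.χ F l ≤ Bχ * (T + K₅ * b) := lev_le ⟨_, hF.2.1⟩ fun s hs =>
        ((le_abs_self _).trans (hχ l s)).trans
          (mul_le_mul_of_nonneg_left (hF.2.2.2 s hs) (by linarith))
      have h2 := mul_le_mul_of_nonneg_right hM₁ (show 0 ≤ T + b by linarith)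
      have h3 : (0 : ℝ) ≤ A + 2 := by positivity
      have h4 : 0 ≤ Bχ * K₅ * T := by positivity
      have h5 : 0 ≤ Bχ * b := by positivity
      linarith [mul_le_mul_of_nonneg_left hb h3, mul_nonneg h3 hT]
  have hmq : Measurable fun x : G => x * q := measurable_mul_const q
  have hζ' : IsProbabilityMeasure (ζ.map fun x => x * q) :=
    Measure.isProbabilityMeasure_map hmq.aemeasurable
  have hj₁ := hn1 _ _ ζ hζ (h98_fam_mono hF₁ hTb) hI (hlev _ hF₁ (by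
    rintro s (rfl | hs)
    · simp
    · exact (hS s (Or.inl hs)).1))
  have hj₂ := hn2 _ _ _ hζ' (h98_fam_mono hF₂ hTb) hI' (hlev _ hF₂ fun s hs => (hS s (Or.inr hs)).1)
  have hmono : ∀ l, lev X.χ S₁ l ≤ lev X.χ (insert 0 S₁) l := fun l =>
    lev_le ⟨_, hs₀⟩ fun s hs => le_lev hF₁.1 (Set.mem_insert_of_mem _ hs) l
  have m0 : MeasurableSet {z | X.Lb Wp ψ n δ z w ∧ X.Lb Wp ψ n δ (z * q) w'} :=
    (meas_lb hx.step w).inter (hmq (meas_lb hx.step w'))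
  have m1 : ∀ (F : Set (Fin k → ℝ)) (m : ℕ) (g : G),
      MeasurableSet {z | X.JE Wp ψ n δ F (K₉ * n) m z (z * g)} := fun F m g =>
    (measurable_id.prodMk (measurable_mul_const g)) (meas_je hx.step F _ m)
  obtain ⟨z, Y, hY1, hY2, hY3⟩ := hzig _ (Adm.lev hS₁ ⟨_, hs₀⟩) G ζ
    (fun g => ({z | X.Lb Wp ψ n δ z w ∧ X.Lb Wp ψ n δ (z * q) w'} ∩
      {z | X.JE Wp ψ n δ (insert 0 S₁) (K₉ * n) (M * n) z (z * g)}) ∩
      (fun x => x * q) ⁻¹' {z | X.JE Wp ψ n δ F₂ (K₉ * n) (M' * n) z (z * (q⁻¹ * g * q))})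
    (fun g => (m0.inter (m1 _ _ g)).inter (hmq (m1 _ _ _))) fun g hg => by
      have h1 := hj₁ g (X.box_mono _ _ (fun l => by linarith [hmono l]) hg)
      have h2 := hj₂ _ (hconj q hq g hg)
      replace h2 := (map_measureReal_apply (μ := ζ) hmq (m1 F₂ (M' * n) (q⁻¹ * g * q)).compl).symm.trans_le h2
      have h3 := measureReal_mono (μ := ζ) (s₁ := {z | X.Lb Wp ψ n δ z w ∧ X.Lb Wp ψ n δ (z * q) w'})
        (s₂ := ((({z | X.Lb Wp ψ n δ z w ∧ X.Lb Wp ψ n δ (z * q) w'} ∩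
          {z | X.JE Wp ψ n δ (insert 0 S₁) (K₉ * n) (M * n) z (z * g)}) ∩
          (fun x => x * q) ⁻¹' {z | X.JE Wp ψ n δ F₂ (K₉ * n) (M' * n) z (z * (q⁻¹ * g * q))}) ∪
          {z | ¬ X.JE Wp ψ n δ (insert 0 S₁) (K₉ * n) (M * n) z (z * g)}) ∪
          (fun x => x * q) ⁻¹' {z | X.JE Wp ψ n δ F₂ (K₉ * n) (M' * n) z (z * (q⁻¹ * g * q))}ᶜ)
        (fun z hz => by
          by_cases a1 : X.JE Wp ψ n δ (insert 0 S₁) (K₉ * n) (M * n) z (z * g)
          · by_cases a2 : X.JE Wp ψ n δ F₂ (K₉ * n) (M' * n) (z * q) (z * q * (q⁻¹ * g * q))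
            · exact Or.inl (Or.inl ⟨⟨hz, a1⟩, a2⟩)
            · exact Or.inr a2
          · exact Or.inl (Or.inr a1))
      have h4 := h3.trans ((measureReal_union_le _ _).trans
        (add_le_add (measureReal_union_le _ _) le_rfl))
      linarith
  have hpos : (0 : ℝ) < Y.card := (Real.exp_pos _).trans_le hY3
  obtain ⟨g₀, hg₀⟩ := Finset.card_pos.1 (by exact_mod_cast hpos : 0 < Y.card)
  obtain ⟨hw, hw'⟩ := (hY2 g₀ hg₀).1.1
  have hwW := hx.sub w hw.1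
  have hwW' := hx.sub w' hw'.1
  set d : ℕ := X.K * ⌈b⌉₊ + X.K with hd
  have hd1 : (d : ℝ) ≤ 3 * X.K * b := by
    have := Nat.ceil_lt_add_one (show 0 ≤ b by linarith)
    rw [hd]
    push_cast
    linarith [mul_le_mul_of_nonneg_left this.le hK0, mul_le_mul_of_nonneg_left hb1 hK0]
  have hqd : q ∈ Ball X.Sg d := X.RB_ball' hq
  have hE : (0 : ℝ) ≤ K₉ * n := by positivity
  have hfin : (w '' insert 0 S₁).Finite := hF₁.1.image _
  have hcnt := hdet ψ hx.qi _ (Adm.lev hfin ⟨_, 0, Set.mem_insert _ _, rfl⟩) j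
    (max (X.χ j (X.π (ψ (z * q)) - X.π (ψ z)) + lev X.χ (w' '' F₂) j + C₂ * (K₉ * n))
      (C₂ * (K₉ * n + d + 1))) (K₉ * n) (M * n + (M' * n + (c * d + c))) z (ψ (z * q)) Y hE hY1
    fun g hg => by
      obtain ⟨⟨-, w₁, a1, -, a2⟩, w₂, a3, -, a4⟩ := hY2 g hg
      rw [hU _ _ _ a1 hw] at a2
      rw [hU _ _ _ a3 hw'] at a4
      refine ⟨a2.mono le_rfl le_rfl (Nat.le_add_right _ _), ?_⟩
      exact (hback ψ hx.qi _ j _ _ d z _ _ (z * g) a4 (by simpa [mul_assoc] using hqd) a2.1).of_le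
        (Nat.le_add_left _ _)
  have hlg' : lg (M * n + (M' * n + (c * d + c))) ≤ b := by
    refine (lg_mono ?_).trans (hlg.trans (by linarith))
    have h1 : (d : ℝ) ≤ 3 * X.K * (R * n) :=
      hd1.trans (mul_le_mul_of_nonneg_left hbR (by positivity))
    have h2 : ((M * n + (M' * n + (c * d + c)) : ℕ) : ℝ) ≤
        (((M + M' + c * (3 * X.K * R) + c) * n : ℕ) : ℝ) := by
      push_cast
      linarith [mul_le_mul_of_nonneg_left h1 hc0, mul_le_mul_of_nonneg_left hn hc0]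
    exact_mod_cast h2
  have h1 := Real.exp_le_exp.1 (hY3.trans hcnt)
  rw [hwW _ hF₁.1 ⟨_, hF₁.2.1⟩] at h1
  have h2 := hV (lev X.χ S₁) (lev X.χ (insert 0 S₁)) (Bχ * K₅ * b) (by positivity) fun l => by
    have a1 := le_lev (χ := X.χ) hS₁ hs₀ l
    have a2 := (neg_le_abs _).trans (hχ l s₀)
    have a3 := mul_le_mul_of_nonneg_left hs₀' (show 0 ≤ Bχ by linarith)
    have a4 : 0 ≤ Bχ * K₅ * b := by positivity
    refine lev_le ⟨_, hF₁.2.1⟩ ?_
    rintro s (rfl | hs)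
    · rw [map_zero]; linarith
    · linarith [le_lev (χ := X.χ) hS₁ hs l]
  have hρ : 0 ≤ Bχ * (BW * (K₅ * b)) := by positivity
  have h3 : T * max (X.χ j (w v)) 0 ≤ lev X.χ (w '' insert 0 S₁) j + Bχ * (BW * (K₅ * b)) := by
    rw [mul_max_of_nonneg _ _ hT, mul_zero]
    refine max_le ?_ ?_
    · have a1 := X.h98_lev_le hχ hχ1 hW1 (hW w hwW) j (s := T • v) (t := s₁)
        ((norm_sub_rev _ _).trans_le hs₁')
      have a2 := le_lev (χ := X.χ) hfin ⟨s₁, Set.mem_insert_of_mem _ hs₁, rfl⟩ j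
      rw [map_smul, map_smul, smul_eq_mul] at a1
      linarith
    · have a2 := le_lev (χ := X.χ) hfin ⟨0, Set.mem_insert _ _, rfl⟩ j
      rw [map_zero, map_zero] at a2
      linarith
  have hT' : 0 ≤ T * max (X.χ j (w' v)) 0 := mul_nonneg hT (le_max_right _ _)
  have h4 : lev X.χ (w' '' F₂) j ≤ T * max (X.χ j (w' v)) 0 + Bχ * (BW * (K₅ * b)) := by
    refine lev_le (Set.Nonempty.image _ ⟨0, hF₂.2.1⟩) ?_
    rintro _ ⟨s, hs, rfl⟩
    rcases (hS s (Or.inr hs)).2 with a | a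
    · have a1 := X.h98_lev_le hχ hχ1 hW1 (hW w' hwW') j (s := s) (t := 0) (ρ := K₅ * b)
        (by rwa [sub_zero])
      rw [map_zero, map_zero] at a1
      linarith
    · have a1 := X.h98_lev_le hχ hχ1 hW1 (hW w' hwW') j a
      rw [map_smul, map_smul, smul_eq_mul] at a1
      linarith [mul_le_mul_of_nonneg_left (le_max_left (X.χ j (w' v)) 0) hT]
  have h5 : X.χ j (X.π (ψ (z * q)) - X.π (ψ z)) ≤ Bχ * (X.K * (c * (3 * X.K) + c)) * b := by
    have a1 := X.ht_lip hx.qi (x := z) (y := z * q) (by simpa using hqd)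
    have a2 : X.K * (c * (d : ℝ) + c) ≤ X.K * (c * (3 * X.K) + c) * b := by
      have := mul_le_mul_of_nonneg_left hd1 hc0
      have := mul_le_mul_of_nonneg_left hb1 hc0
      rw [mul_assoc]
      exact mul_le_mul_of_nonneg_left (by linarith) hK0
    have a3 := mul_le_mul_of_nonneg_left (a1.trans a2) (show 0 ≤ Bχ by linarith)
    linarith [(le_abs_self _).trans (hχ j (X.π (ψ (z * q)) - X.π (ψ z)))]
  have hE' : (K₉ : ℝ) * n ≤ K₉ * b := mul_le_mul_of_nonneg_left hb hK9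
  have h6 : max (X.χ j (X.π (ψ (z * q)) - X.π (ψ z)) + lev X.χ (w' '' F₂) j + C₂ * (K₉ * n))
      (C₂ * (K₉ * n + d + 1)) ≤ T * max (X.χ j (w' v)) 0 + (Bχ * (BW * K₅) +
        Bχ * (X.K * (c * (3 * X.K) + c)) + C₂ * (K₉ + 3 * X.K + 1)) * b := by
    have a1 : C₂ * (K₉ * n + d + 1) ≤ C₂ * (K₉ + 3 * X.K + 1) * b := by
      rw [mul_assoc]
      exact mul_le_mul_of_nonneg_left (by linarith) hC₂
    have a2 : C₂ * (K₉ * n) ≤ C₂ * (K₉ * n + d + 1) :=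
      mul_le_mul_of_nonneg_left (by linarith [d.cast_nonneg (α := ℝ)]) hC₂
    have a3 : 0 ≤ Bχ * (X.K * (c * (3 * X.K) + c)) * b := by positivity
    refine max_le ?_ ?_ <;> linarith
  generalize max (X.χ j (X.π (ψ (z * q)) - X.π (ψ z)) + lev X.χ (w' '' F₂) j + C₂ * (K₉ * n))
      (C₂ * (K₉ * n + d + 1)) = B at h1 h6
  generalize lev X.χ (w '' insert 0 S₁) j = a at h1 h3
  have h7 : a - B ≤ (BV * (Bχ * K₅) + 1 + C₁ * (K₉ + 1)) / κ * b := by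
    have a0 : X.dim j * (a - B) ≤ (BV * (Bχ * K₅) + 1 + C₁ * (K₉ + 1)) * b := by
      have := mul_le_mul_of_nonneg_left (add_le_add hE' hlg') hC₁
      linarith
    rcases le_total (a - B) 0 with a1 | a1
    · exact a1.trans (by positivity)
    · rw [div_mul_eq_mul_div, le_div_iff₀ hκ0]
      linarith [mul_le_mul_of_nonneg_right (hκ j).1 a1]
  have h8 := mul_le_mul_of_nonneg_right hK₄ (show 0 ≤ b by linarith)
  linarith

/-- `gl1` with `T = (K₄ + 1) b / γ`, `wit`; union bound over the pairs `w ≠ w'` (`isW_finite`);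
`Cx.pl` for `ζ` and `ζ q`; the height bound is `ht_lip` with `RB_ball'` -/
theorem glab (c A : ℕ) : ∃ K₈ M₂ : ℕ, A + 2 ≤ K₈ ∧ ∀ (Wp : En k → Prop) (R : ℕ) (θ : ℝ), 0 < θ →
    X.EVC Wp c A fun δ η n ψ => ∀ b : ℝ, (n : ℝ) ≤ b → b ≤ R * n →
      X.GapS Wp ψ n δ (2 * η) (K₈ * n) (M₂ * b) b (K₈ * b) θ := by
  classical
  obtain ⟨K₄, M₁, h⟩ := X.gl1 c A
  obtain ⟨γ, hγ, hw⟩ := X.wit
  obtain ⟨Q, hQ⟩ := exists_nat_ge ((K₄ + 1) / γ)
  rw [div_le_iff₀ hγ] at hQ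
  refine ⟨A + 2 + X.K * (c * (3 * X.K) + c), M₁ * (Q + 1) + A, Nat.le_add_right _ _,
    fun Wp R θ hθ => ?_⟩
  set P := (X.isW_finite.toFinset ×ˢ X.isW_finite.toFinset).filter fun p => p.1 ≠ p.2 with hP
  have hθ' : 0 < θ / (2 * (P.card + 1)) := by positivity
  refine (((h Wp ((Q + 1) * R) _ hθ').and_ev (EV.small (a := θ / 4) (by positivity))).and_ev
    (EV.large fun _ _ => 1)).mono ?_
  rintro δ η n ψ hψ ⟨⟨H, -, hδ, -⟩, hn⟩ b hb hbR i ζ hζ q hq h₁ h₂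
  have hb1 : 1 ≤ b := hn.trans hb
  have hn0 : (0 : ℝ) ≤ n := Nat.cast_nonneg n
  have hQb : 0 ≤ Q * b := by positivity
  have hmq : Measurable fun x : G => x * q := measurable_mul_const q
  have hζ' : IsProbabilityMeasure (ζ.map fun x => x * q) :=
    Measure.isProbabilityMeasure_map hmq.aemeasurable
  have hA : (0 : ℝ) ≤ A * b := by positivity
  have hK : (0 : ℝ) ≤ X.K * (c * (3 * X.K) + c) * n := by positivity
  have hM : (0 : ℝ) ≤ M₁ * (Q + 1) * b := by positivity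
  have le1 : (fun _ => (A * n : ℝ)) ≤ X.gl i ((A + 2 + X.K * (c * (3 * X.K) + c) : ℕ) * n)
      ((M₁ * (Q + 1) + A : ℕ) * b) := fun j => by
    have := mul_le_mul_of_nonneg_left hb (Nat.cast_nonneg A : (0 : ℝ) ≤ A)
    simp only [gl]
    push_cast
    split_ifs <;> linarith
  have le2 : X.gl i ((A + 2) * n) (M₁ * (Q * b + b)) ≤
      X.gl i ((A + 2 + X.K * (c * (3 * X.K) + c) : ℕ) * n) ((M₁ * (Q + 1) + A : ℕ) * b) :=
    fun j => by
      simp only [gl]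
      push_cast
      split_ifs <;> linarith
  have b1 := hψ.pl ζ hζ (h₁.mono le1 le_rfl)
  have b2 := hψ.pl _ hζ' (h₂.mono le1 le_rfl)
  rw [map_measureReal_apply hmq (s := {z | ¬ ∃ w, X.Lb Wp ψ n δ z w})
    (meas_ex_lb hψ.step).compl] at b2
  have b3 : ∀ p ∈ P, ζ.real {z | X.Lb Wp ψ n δ z p.1 ∧ X.Lb Wp ψ n δ (z * q) p.2} ≤
      θ / (2 * (P.card + 1)) := fun p hp => by
    simp only [hP, Finset.mem_filter, Finset.mem_product, Set.Finite.mem_toFinset,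
      Set.mem_ofPred_eq] at hp
    obtain ⟨j, v, hv, hiv, hj⟩ := hw i p.1 p.2 hp.1.1 hp.1.2 hp.2
    by_contra hc
    have hRn : (0 : ℝ) ≤ R * n := by positivity
    have hQR := mul_le_mul_of_nonneg_left hbR (Nat.cast_nonneg Q : (0 : ℝ) ≤ Q)
    have hQR' : (0 : ℝ) ≤ Q * (R * n) := by positivity
    have h3 := H i b (Q * b) v ζ q p.1 p.2 j hζ hb (by push_cast; linarith) hQb
      (by push_cast; linarith) hv hiv hq (h₁.mono le2 le_rfl) (h₂.mono le2 le_rfl) (not_le.1 hc).le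
    have h4 := mul_le_mul_of_nonneg_left hj hQb
    have h5 := mul_le_mul_of_nonneg_right hQ (zero_le_one.trans hb1)
    linarith
  have hsub : {z | ¬ X.Rel Wp ψ n δ ((A + 2 + X.K * (c * (3 * X.K) + c) : ℕ) * b) 0 z (z * q)} ⊆
      ({z | ¬ ∃ w, X.Lb Wp ψ n δ z w} ∪ (fun x => x * q) ⁻¹' {z | ¬ ∃ w, X.Lb Wp ψ n δ z w}) ∪
        ⋃ p ∈ P, {z | X.Lb Wp ψ n δ z p.1 ∧ X.Lb Wp ψ n δ (z * q) p.2} := by
    intro z hz
    by_contra hc
    obtain ⟨w, hw1⟩ : ∃ w, X.Lb Wp ψ n δ z w := by_contra fun h3 => hc (Or.inl (Or.inl h3))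
    obtain ⟨w', hw2⟩ : ∃ w, X.Lb Wp ψ n δ (z * q) w :=
      by_contra fun h3 => hc (Or.inl (Or.inr h3))
    have e : w = w' := by
      by_contra hne
      refine hc (Or.inr (Set.mem_iUnion₂.2 ⟨(w, w'), ?_, hw1, hw2⟩))
      simp only [hP, Finset.mem_filter, Finset.mem_product, Set.Finite.mem_toFinset,
        Set.mem_ofPred_eq]
      exact ⟨⟨hψ.sub _ hw1.1, hψ.sub _ hw2.1⟩, hne⟩
    subst e
    refine hz ⟨w, hw1, hw2, ?_⟩
    have h4 := X.ht_lip hψ.qi (x := z) (y := z * q) (by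
      rw [inv_mul_cancel_left]
      exact X.RB_ball' hq)
    rw [map_zero, sub_zero]
    refine h4.trans ?_
    have h5 : (⌈b⌉₊ : ℝ) ≤ 2 * b := by linarith [Nat.ceil_lt_add_one (zero_le_one.trans hb1)]
    have hK0 : (0 : ℝ) ≤ X.K := Nat.cast_nonneg _
    have hc0 : (0 : ℝ) ≤ c := Nat.cast_nonneg _
    have h6 : (X.K : ℝ) * ⌈b⌉₊ + X.K ≤ 3 * X.K * b := by nlinarith
    have h7 : (c : ℝ) * (X.K * ⌈b⌉₊ + X.K) + c ≤ (c * (3 * X.K) + c) * b := by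
      nlinarith [mul_le_mul_of_nonneg_left h6 hc0]
    have h8 := mul_le_mul_of_nonneg_left h7 hK0
    push_cast
    linarith
  have h9 := (measureReal_biUnion_finset_le (μ := ζ) P fun p =>
    {z | X.Lb Wp ψ n δ z p.1 ∧ X.Lb Wp ψ n δ (z * q) p.2}).trans (Finset.sum_le_card_nsmul _ _ _ b3)
  have h10 : P.card • (θ / (2 * (P.card + 1))) ≤ θ / 2 := by
    rw [nsmul_eq_mul, ← mul_div_assoc, div_le_div_iff₀ (by positivity) two_pos]
    nlinarith
  refine (measureReal_mono hsub).trans ((measureReal_union_le _ _).trans ?_)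
  linarith [measureReal_union_le (μ := ζ) {z | ¬ ∃ w, X.Lb Wp ψ n δ z w}
    ((fun x => x * q) ⁻¹' {z | ¬ ∃ w, X.Lb Wp ψ n δ z w})]

/-- `stair` to `s = v + τ u i`, `τ = ρ - (K₈ + 1) n`, end point `d`; `path_prob` for `ζ` and `ζ q`,
`Inv.flat`, `GapS` for `ζ d` and `d⁻¹ q d` (`RB_conj`), `PG.rel`, `Rel.trans`; `M₃ κ ≥ 1` (`u_gap`) -/
theorem rebase : ∃ M₃ : ℕ, ∀ (Wp : En k → Prop) (c A K₈ R : ℕ) (θ : ℝ), A + 1 ≤ K₈ → 0 < θ →
    X.EVC Wp c A fun δ η n ψ => ∀ η' T ρ g ρ₁ E θ' : ℝ, η' ≤ 2 * η → T ≤ R * n → ρ ≤ R * n →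
      (K₈ + 1) * n ≤ ρ → M₃ * (ρ₁ + n) ≤ ρ →
      X.GapS Wp ψ n δ η' (K₈ * n) ρ₁ (g + (K₈ + 2) * n) E θ' →
      X.LetS Wp ψ n δ η' T ρ g (E + 2 * n) (θ' + θ) := by
  obtain ⟨κ, hκ0, hκ1, hκ⟩ := X.u_gap
  obtain ⟨Bu, hu1, hu⟩ := X.u_bound
  obtain ⟨B, hB1, hB⟩ := X.χ_bound
  obtain ⟨K₂, hst⟩ := X.stair
  obtain ⟨M₃, hM₃⟩ := exists_nat_ge (1 / κ)
  rw [div_le_iff₀ hκ0] at hM₃
  refine ⟨M₃, fun Wp c A K₈ R θ hA hθ => ?_⟩
  obtain ⟨R', hR'⟩ := exists_nat_ge ((K₂ : ℝ) * (R + Bu * R + 1))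
  have hK0 : (0 : ℝ) < X.K := by exact_mod_cast X.one_le_K
  refine (((X.path_prob Wp c A R' (half_pos hθ)).and (X.evc_uq Wp c A)).and_ev
    (((EV.lg R' (κ := 1 / (2 * X.K)) (by positivity)).and (EV.large fun _ _ => 2 * (B * K₂))).and
      (EV.large fun _ _ => 1))).mono ?_
  rintro δ η n ψ hx ⟨⟨hpp, hU⟩, ⟨hlg, hBK⟩, hn⟩ η' T ρ g ρ₁ E θ' hη hT hρ hρ' hρ₁ hgap i v a ζ hζ
    hv ha ha' q hq hI hI'
  obtain ⟨τ, hτ⟩ : ∃ τ : ℝ, τ = ρ - (K₈ + 1) * n := ⟨_, rfl⟩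
  have hτ0 : 0 ≤ τ := by linarith
  have hK8 : (0 : ℝ) ≤ (K₈ + 1) * n := by positivity
  obtain ⟨m, p, hm, hp0, hp, hpm, hpj⟩ := hst (v + τ • X.u i)
  have hfp : X.FP p m := ⟨hp0, fun j _ => hp j⟩
  have hmR : m ≤ R' * n := by
    have h1 : ‖v + τ • X.u i‖ ≤ R * n + Bu * (R * n) := by
      refine (norm_add_le _ _).trans (add_le_add (hv.trans hT) ?_)
      rw [norm_smul, Real.norm_of_nonneg hτ0, mul_comm]
      exact mul_le_mul (hu i) (by linarith) hτ0 (by linarith)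
    have h2 : (K₂ : ℝ) * (‖v + τ • X.u i‖ + 1) ≤ K₂ * (R + Bu * R + 1) * n := by
      rw [mul_assoc]
      exact mul_le_mul_of_nonneg_left (by linarith) (Nat.cast_nonneg _)
    have h3 := mul_le_mul_of_nonneg_right hR' (zero_le_one.trans hn)
    exact_mod_cast (hm.trans (h2.trans h3))
  have hlgm : X.K * lg m ≤ n / 2 := by
    have := mul_le_mul_of_nonneg_left ((lg_mono hmR).trans hlg) hK0.le
    rwa [show (X.K : ℝ) * (1 / (2 * X.K) * n) = n / 2 by field_simp] at this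
  have hlg0 : 0 ≤ X.K * lg m := mul_nonneg hK0.le (zero_le_one.trans (one_le_lg m))
  have hcl : ∀ j (x y : Fin k → ℝ), ‖x - y‖ ≤ K₂ → |X.χ j x - X.χ j y| ≤ n / 2 := fun j x y h => by
    rw [← map_sub]
    linarith [hB j (x - y), mul_le_mul_of_nonneg_left h (zero_le_one.trans hB1)]
  have hs : ∀ j, X.χ j (v + τ • X.u i) = X.χ j v + τ * X.χ j (X.u i) := fun j => by
    rw [map_add, map_smul, smul_eq_mul]
  have hlev : ∀ j ≤ m, ∀ l, X.χ l (X.π (p j)) + (A + 1) * n ≤ a l := by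
    intro j hj l
    obtain ⟨t, t0, t1, ht⟩ := hpj j hj
    have h1 := (abs_le.1 (hcl l _ _ ht)).2
    rw [map_smul, smul_eq_mul, hs] at h1
    have h2 : τ * X.χ l (X.u i) ≤ τ * 1 := mul_le_mul_of_nonneg_left (X.χ_u_le i l) hτ0
    have h3 : t * (X.χ l v + τ * X.χ l (X.u i)) ≤ a l - (K₈ + 1) * n := by
      rcases le_total (X.χ l v + τ * X.χ l (X.u i)) 0 with h | h
      · have := mul_nonpos_of_nonneg_of_nonpos t0 h
        linarith [ha l]
      · have := mul_le_of_le_one_left h t1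
        linarith [ha' l]
    have h4 : ((A : ℝ) + 1) * n ≤ K₈ * n :=
      mul_le_mul_of_nonneg_right (by exact_mod_cast hA) (by linarith)
    linarith
  have hd := hfp.mem le_rfl
  have hgl : X.gl i (K₈ * n) ρ₁ ≤ fun j => a j - X.χ j (X.π (p m)) - X.K * lg m := by
    intro j
    have h1 := (abs_le.1 (hcl j _ _ hpm)).2
    rw [hs] at h1
    unfold gl
    split_ifs with hj
    · subst hj
      rw [X.u_self] at h1
      linarith [ha' j]
    · have h2 : τ * X.χ j (X.u i) ≤ ρ * (1 - κ) :=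
        (mul_le_mul_of_nonneg_left (hκ i j hj) hτ0).trans
          (mul_le_mul_of_nonneg_right (by linarith) (by linarith))
      have h3 : ρ₁ + n ≤ ρ * κ := by
        rcases le_total (ρ₁ + n) 0 with h | h
        · exact h.trans (mul_nonneg (by linarith) hκ0.le)
        · nlinarith [mul_le_mul_of_nonneg_right hρ₁ hκ0.le, mul_le_mul_of_nonneg_left hM₃ h]
      change ρ₁ ≤ _
      linarith [ha' j]
  have hq' : (p m)⁻¹ * q * p m ∈ X.RB i (g + (K₈ + 2) * n) := by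
    have h1 := X.RB_conj i _ m _ (Ball.inv_mem hd) q hq
    rw [inv_inv, X.π_hom.inv, map_neg] at h1
    refine X.RB_mono i _ _ ?_ h1
    have h2 := (abs_le.1 (hcl i _ _ hpm)).1
    rw [hs, X.u_self] at h2
    linarith
  have hmq := measurable_mul_const (M := G) q
  have hmd := measurable_mul_const (M := G) (p m)
  have hζq : IsProbabilityMeasure (ζ.map fun x => x * q) :=
    Measure.isProbabilityMeasure_map hmq.aemeasurable
  have h1 := hgap i (ζ.map fun x => x * p m) (Measure.isProbabilityMeasure_map hmd.aemeasurable) _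
    hq' ((hI.flat hd).mono hgl le_rfl) (by
      have := (hI'.flat hd).mono hgl le_rfl
      rw [Measure.map_map hmd hmq] at this
      rw [Measure.map_map (measurable_mul_const _) hmd]
      convert this using 2
      funext x
      simp only [Function.comp_apply]
      group)
  have mr : MeasurableSet {y | ¬ X.Rel Wp ψ n δ E 0 y (y * ((p m)⁻¹ * q * p m))} :=
    ((measurable_id.prodMk (measurable_mul_const _)) (meas_rel hx.step E 0)).compl
  have mp : MeasurableSet {z | ¬ ∃ w, X.PG Wp ψ n δ p m z w} := (meas_pg hx.step p m).compl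
  rw [map_measureReal_apply hmd mr] at h1
  have h2 := hpp p m a ζ hζ hfp hmR (hI.mono le_rfl hη) hlev
  have h3 := hpp p m a _ hζq hfp hmR (hI'.mono le_rfl hη) hlev
  rw [map_measureReal_apply hmq mp] at h3
  have hsub : {z | ¬ X.Rel Wp ψ n δ (E + 2 * n) 0 z (z * q)} ⊆
      (fun x => x * p m) ⁻¹' {y | ¬ X.Rel Wp ψ n δ E 0 y (y * ((p m)⁻¹ * q * p m))} ∪
        ({z | ¬ ∃ w, X.PG Wp ψ n δ p m z w} ∪
          (fun x => x * q) ⁻¹' {z | ¬ ∃ w, X.PG Wp ψ n δ p m z w}) := by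
    intro z hz
    by_contra hc
    have e1 : X.Rel Wp ψ n δ E 0 (z * p m) (z * p m * ((p m)⁻¹ * q * p m)) :=
      by_contra fun h => hc (Or.inl h)
    obtain ⟨w, e2⟩ : ∃ w, X.PG Wp ψ n δ p m z w := by_contra fun h => hc (Or.inr (Or.inl h))
    obtain ⟨w', e3⟩ : ∃ w, X.PG Wp ψ n δ p m (z * q) w :=
      by_contra fun h => hc (Or.inr (Or.inr h))
    rw [show z * p m * ((p m)⁻¹ * q * p m) = z * q * p m by group] at e1
    have e4 := (e2.rel.trans hU e1).trans hU e3.rel.symm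
    rw [add_zero, add_neg_cancel] at e4
    exact hz (e4.mono (by linarith))
  refine (measureReal_mono hsub).trans ((measureReal_union_le _ _).trans ?_)
  linarith [measureReal_union_le (μ := ζ) {z | ¬ ∃ w, X.PG Wp ψ n δ p m z w}
    ((fun x => x * q) ⁻¹' {z | ¬ ∃ w, X.PG Wp ψ n δ p m z w})]

/-- `box_list` (`g = 4 n`), `glab` and `rebase` (`ρ = (ρ₀ - 5 K₆) n`, `g = (5 K₆ + 5) n`, `v` a maximiser
from `exists_lev`) give equal labels, `tour`, `gd_prob` (or `path_prob`) at all prefixes, `evc_uq`, `jlist` -/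
theorem boxjoin (c A : ℕ) : ∃ ρ₀ K₉ : ℕ, ∀ (Wp : En k → Prop) (N₀ R : ℕ) (θ : ℝ), 0 < θ →
    ∃ M : ℕ, X.EVC Wp c A fun δ η n ψ => ∀ (F : Set (Fin k → ℝ)) (ζ : Measure G),
      IsProbabilityMeasure ζ → Fam N₀ F (R * n) →
      X.Inv ζ (fun i => lev X.χ F i + ρ₀ * n) (2 * η) →
      ∀ m ∈ X.Box fun i => lev X.χ F i + (ρ₀ + 4) * n,
        ζ.real {z | ¬ X.JE Wp ψ n δ F (K₉ * n) (M * n) z (z * m)} ≤ θ := by
  obtain ⟨K₆, hbl⟩ := X.box_list
  obtain ⟨M₃, hrb⟩ := X.rebase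
  obtain ⟨K₈, M₂, hA, hgl⟩ := X.glab c A
  obtain ⟨K₃, hj⟩ := X.jlist c
  obtain ⟨B, hB⟩ : ∃ B : ℕ, B = 5 * K₆ + 5 + (K₈ + 2) := ⟨_, rfl⟩
  obtain ⟨ρ₁, hρ₁⟩ : ∃ ρ₁ : ℕ, ρ₁ = K₈ + 1 + M₃ * (M₂ * B + 1) := ⟨_, rfl⟩
  refine ⟨ρ₁ + 5 * K₆, K₃ * (1 + (ρ₁ + 5 * K₆ + 5)), fun Wp N₀ R θ hθ => ?_⟩
  obtain ⟨K₇, htour⟩ := X.tour N₀
  refine ⟨K₃ * (K₇ * (R + 1) + 1 + (ρ₁ + 5 * K₆ + 5)), ?_⟩
  have hK : (1 : ℝ) ≤ X.K := by exact_mod_cast X.one_le_K
  have hθ' : 0 < θ / (3 * (X.K + 1)) := by positivity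
  refine ((((((hgl Wp B _ hθ').and (hrb Wp c A K₈ (R + ρ₁) _ (by omega) hθ')).and
    (X.gd_prob Wp c A (K₇ * (R + 1)) K₇ hθ')).and (X.evc_uq Wp c A)).and_ev
    (EV.large fun _ _ => 1 + X.K + K₇)).and_ev (EV.lg (K₇ * (R + 1)) one_pos)).mono ?_
  rintro δ η n ψ hc ⟨⟨⟨⟨⟨hgap, hreb⟩, hgd⟩, hU⟩, hn⟩, hl1⟩ F ζ hζ hF hinv m hm
  have hB' : (B : ℝ) = 5 * K₆ + 5 + (K₈ + 2) := by rw [hB]; push_cast; ring
  have hρ' : (ρ₁ : ℝ) = K₈ + 1 + M₃ * (M₂ * B + 1) := by rw [hρ₁]; push_cast; ring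
  have hA' : (A : ℝ) + 2 ≤ K₈ := by exact_mod_cast hA
  have p6 : (0 : ℝ) ≤ K₆ := Nat.cast_nonneg _
  have p7 : (0 : ℝ) ≤ K₇ := Nat.cast_nonneg _
  have p8 : (0 : ℝ) ≤ K₈ := Nat.cast_nonneg _
  have pR : (0 : ℝ) ≤ R := Nat.cast_nonneg _
  have pρ : (0 : ℝ) ≤ ρ₁ := Nat.cast_nonneg _
  have hn1 : (1 : ℝ) ≤ n := by linarith
  have e3 : (0 : ℝ) ≤ M₃ * (M₂ * B + 1) := by positivity
  have hne : F.Nonempty := ⟨0, hF.2.1⟩
  have hlev0 : ∀ i, 0 ≤ lev X.χ F i := fun i => by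
    have := le_lev (χ := X.χ) hF.1 hF.2.1 i
    rwa [map_zero] at this
  obtain ⟨p, N, tp, hN, ht⟩ := htour F _ hF
  have hN' : N ≤ K₇ * (R + 1) * n := by
    have : (N : ℝ) ≤ K₇ * (R + 1) * n := by nlinarith
    exact_mod_cast this
  have hlgN : lg N ≤ n := by
    have := (lg_mono hN').trans hl1
    rwa [one_mul] at this
  have hgb := hgap ((5 * K₆ + 5) * n + (K₈ + 2) * n) (by nlinarith) (le_of_eq (by rw [hB']; ring))
  have hlet := hreb (2 * η) (R * n) (ρ₁ * n) ((5 * K₆ + 5) * n) _ _ _ le_rfl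
    (by push_cast; nlinarith) (by push_cast; nlinarith) (by nlinarith) (by
      have e : (M₃ : ℝ) * (M₂ * ((5 * K₆ + 5) * n + (K₈ + 2) * n) + n) =
          M₃ * (M₂ * B + 1) * n := by rw [hB']; ring
      rw [e]
      nlinarith) hgb
  obtain ⟨l, hl, rfl, hl3, hl4⟩ := hbl (lev X.χ F) (Adm.lev hF.1 hne)
    (((ρ₁ + 5 * K₆ : ℕ) : ℝ) * n) (4 * n) (by positivity) (by push_cast; nlinarith) ζ (2 * η) hinv m
    (X.box_mono _ _ (fun i => le_of_eq (by ring)) hm)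
  have hl5 : ∀ j, X.Inv (ζ.map fun x => x * (l.take j).prod)
      (fun i => lev X.χ F i + ρ₁ * n) (2 * η) := fun j =>
    (hl4 j).mono (fun i => by push_cast; nlinarith) le_rfl
  have hlet' : ∀ x ∈ l, ∃ i, x ∈ X.RB i (lev X.χ F i + ((ρ₁ + 5 * K₆ + 5 : ℕ) : ℝ) * n) :=
    fun x hx => by
      obtain ⟨i, hi⟩ := hl3 x hx
      exact ⟨i, X.RB_mono i _ _ (by push_cast; linarith) hi⟩
  obtain ⟨E, hE⟩ : ∃ E : ℝ, E = K₈ * ((5 * K₆ + 5) * n + (K₈ + 2) * n) + 2 * n := ⟨_, rfl⟩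
  rw [← hE] at hlet
  have hsub : {z | ¬ X.JE Wp ψ n δ F (((K₃ * (1 + (ρ₁ + 5 * K₆ + 5)) : ℕ) : ℝ) * n)
      (K₃ * (K₇ * (R + 1) + 1 + (ρ₁ + 5 * K₆ + 5)) * n) z (z * l.prod)} ⊆
      ⋃ j ∈ Finset.range (X.K + 1),
        ((fun x => x * (l.take j).prod) ⁻¹' {z | ¬ ∃ w, X.Gd Wp ψ n δ p N tp z w} ∪
          {z | ∃ h : j < l.length, z ∈ (fun x => x * (l.take j).prod) ⁻¹'
            {z | ¬ X.Rel Wp ψ n δ E 0 z (z * l[j])}}) := by
    intro z hz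
    by_contra hcon
    apply hz
    simp only [Set.mem_iUnion, Finset.mem_range, Set.mem_ofPred_eq, not_exists, Set.mem_union,
      Set.mem_preimage, not_or, not_not, not_forall] at hcon
    have hall : ∀ j, ∃ w, j ≤ l.length → X.Gd Wp ψ n δ p N tp (z * (l.take j).prod) w := by
      intro j
      by_cases h : j ≤ l.length
      · obtain ⟨w, hw⟩ := (hcon j (by omega)).1
        exact ⟨w, fun _ => hw⟩
      · exact ⟨1, fun h' => absurd h' h⟩
    choose w hw using hall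
    have heq : ∀ j ≤ l.length, w j = w 0 := by
      refine h82_chain w _ fun j hj => ?_
      obtain ⟨w', l1, l2, -⟩ := (hcon j (by omega)).2 hj
      rw [mul_assoc, ← List.prod_take_succ _ _ hj] at l2
      rw [hU _ _ _ (hw j hj.le).1.1 l1, hU _ _ _ (hw (j + 1) hj).1.1 l2]
    have h0 := hw 0 (Nat.zero_le _)
    refine (hj Wp ψ n δ (((ρ₁ + 5 * K₆ + 5 : ℕ) : ℝ) * n) K₇ F p N tp z (w 0) l hc.qi
      (hc.sub _ h0.1.1.1) hF.1 hF.2.1 ht
      (by exact_mod_cast (show (K₇ : ℝ) ≤ n by linarith)) hlgN (by positivity) hl hlet'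
      fun j => ?_).mono (le_of_eq (by push_cast; ring)) ?_
    · rcases le_total j l.length with h | h
      · exact heq j h ▸ (hw j h).1
      · have := heq _ le_rfl ▸ (hw _ le_rfl).1
        rwa [List.take_of_length_le h, ← List.take_of_length_le (le_refl l.length)]
    · rw [← Nat.cast_mul, Nat.ceil_natCast, mul_assoc]
      exact Nat.mul_le_mul_left _ (by nlinarith)
  refine (measureReal_mono hsub (measure_ne_top _ _)).trans
    ((measureReal_biUnion_finset_le _ _).trans ?_)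
  have hb : ∀ j ∈ Finset.range (X.K + 1), ζ.real
      ((fun x => x * (l.take j).prod) ⁻¹' {z | ¬ ∃ w, X.Gd Wp ψ n δ p N tp z w} ∪
          {z | ∃ h : j < l.length, z ∈ (fun x => x * (l.take j).prod) ⁻¹'
            {z | ¬ X.Rel Wp ψ n δ E 0 z (z * l[j])}}) ≤ θ / (X.K + 1) := by
    intro j _
    have hP : IsProbabilityMeasure (ζ.map fun x => x * (l.take j).prod) :=
      Measure.isProbabilityMeasure_map (measurable_mul_const _).aemeasurable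
    have h1 := hgd F p N tp _ _ hP hF.1 hF.2.1 ht hN' (hl5 j) (fun i => by nlinarith)
    have hm : MeasurableSet {z | ¬ ∃ w, X.Gd Wp ψ n δ p N tp z w} := (meas_gd hc.step p N tp).compl
    rw [map_measureReal_apply (measurable_mul_const _) hm] at h1
    have h2 : ζ.real {z | ∃ h : j < l.length, z ∈ (fun x => x * (l.take j).prod) ⁻¹'
        {z | ¬ X.Rel Wp ψ n δ E 0 z (z * l[j])}} ≤ θ / (3 * (X.K + 1)) + θ / (3 * (X.K + 1)) := by
      by_cases hj' : j < l.length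
      · obtain ⟨i, hi⟩ := hlet' _ (List.getElem_mem hj')
        obtain ⟨v, hv, hv'⟩ := exists_lev (χ := X.χ) hF.1 hne i
        have h3 := hlet i v _ _ hP (hF.2.2.2 v hv) (fun j => by linarith [hlev0 j])
          (fun j => by linarith [le_lev (χ := X.χ) hF.1 hv j]) l[j]
          (X.RB_mono i _ _ (by push_cast; linarith) hi) (hl5 j) (by
            rw [Measure.map_map (measurable_mul_const _) (measurable_mul_const _)]
            have := hl5 (j + 1)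
            rw [List.prod_take_succ _ _ hj'] at this
            simpa only [Function.comp_def, mul_assoc] using this)
        have hm' : MeasurableSet {z | ¬ X.Rel Wp ψ n δ E 0 z (z * l[j])} :=
          ((measurable_id.prodMk (measurable_mul_const l[j])) (meas_rel hc.step E 0)).compl
        rw [map_measureReal_apply (measurable_mul_const _) hm'] at h3
        exact (measureReal_mono (fun z hz => hz.2) (measure_ne_top _ _)).trans h3
      · have : {z | ∃ h : j < l.length, z ∈ (fun x => x * (l.take j).prod) ⁻¹'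
            {z | ¬ X.Rel Wp ψ n δ E 0 z (z * l[j])}} = ∅ :=
          Set.eq_empty_of_forall_notMem fun z hz => hj' hz.1
        rw [this, measureReal_empty]
        positivity
    refine (measureReal_union_le _ _).trans ((add_le_add h1 h2).trans (le_of_eq ?_))
    field_simp
    ring
  refine (Finset.sum_le_card_nsmul _ _ _ hb).trans (le_of_eq ?_)
  rw [Finset.card_range, nsmul_eq_mul]
  push_cast
  field_simp

end Geo

end Crest.Agent.R182
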