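import Crest.Agent.R182.MTApi

/-! Row 182, block M4: flat paths, tours and joins. -/

set_option autoImplicit false
set_option linter.dupNamespace false
set_option linter.unusedSectionVars false

namespace Crest.Agent.R182

open Crest.GroupTheory MeasureTheory Filter Topology

namespace Geo

variable {G : Type} [Group G] [MeasurableSpace G] [MeasurableMul₂ G] [MeasurableInv G] {k : ℕ}
  (X : Geo G k)

theorem h28_loop : ∃ K₂ : ℕ, ∀ (T : ℝ) (s : Finset (Fin k → ℝ)), (∀ v ∈ s, ‖v‖ ≤ T) →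
    ∃ (p : ℕ → G) (N : ℕ), (N : ℝ) ≤ s.card * (2 * (K₂ * (T + 1))) ∧ p 0 = 1 ∧
      (∀ j, (p j)⁻¹ * p (j + 1) ∈ Ball (X.SC : Set G) 1) ∧
      (∀ v ∈ s, ∃ j ≤ N, ‖X.π (p j) - v‖ ≤ K₂) ∧
      ∀ j ≤ N, ∃ v, (v = 0 ∨ v ∈ s) ∧ ∃ t : ℝ, 0 ≤ t ∧ t ≤ 1 ∧ ‖X.π (p j) - t • v‖ ≤ K₂ := by
  classical
  obtain ⟨K₂, hK⟩ := X.stair
  have hK0 : (0 : ℝ) ≤ K₂ := Nat.cast_nonneg _
  refine ⟨K₂, fun T s => ?_⟩
  induction s using Finset.induction_on with
  | empty =>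
    refine fun _ => ⟨fun _ => 1, 0, by simp, rfl, fun _ => ?_, by simp, fun j _ =>
      ⟨0, Or.inl rfl, 0, le_rfl, zero_le_one, by simp [X.π_hom.one]⟩⟩
    rw [inv_mul_cancel]; exact Ball.one_mem _ _
  | insert v s hv ih =>
    intro hT
    obtain ⟨p, N, hN, p0, p1, p2, p3⟩ := ih fun u hu => hT u (Finset.mem_insert_of_mem hu)
    obtain ⟨m, q, hm, q0, q1, q2, q3⟩ := hK v
    have e1 : ∀ j ≤ 2 * m, q (min j (2 * m - j)) * p (j - 2 * m) = q (min j (2 * m - j)) :=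
      fun j hj => by rw [Nat.sub_eq_zero_of_le hj, p0, mul_one]
    have e2 : ∀ j, 2 * m ≤ j → q (min j (2 * m - j)) * p (j - 2 * m) = p (j - 2 * m) :=
      fun j hj => by rw [Nat.sub_eq_zero_of_le hj, Nat.min_zero, q0, one_mul]
    refine ⟨fun j => q (min j (2 * m - j)) * p (j - 2 * m), 2 * m + N, ?_, by simp [p0, q0],
      fun j => ?_, fun u hu => ?_, fun j hj => ?_⟩
    · have := mul_le_mul_of_nonneg_left (add_le_add_left (hT v (Finset.mem_insert_self _ _)) 1) hK0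
      rw [Finset.card_insert_of_notMem hv]
      push_cast
      linarith
    · beta_reduce
      rcases lt_or_ge j m with h | h
      · rw [e1 j (by omega), e1 (j + 1) (by omega), min_eq_left (by omega), min_eq_left (by omega)]
        exact q1 j
      rcases lt_or_ge j (2 * m) with h' | h'
      · rw [e1 j (by omega), e1 (j + 1) (by omega), min_eq_right (by omega),
          min_eq_right (by omega), show 2 * m - j = 2 * m - (j + 1) + 1 by omega]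
        simpa using Ball.inv_mem (q1 (2 * m - (j + 1)))
      · rw [e2 j h', e2 (j + 1) (by omega), show j + 1 - 2 * m = j - 2 * m + 1 by omega]
        exact p1 _
    · rcases Finset.mem_insert.1 hu with rfl | hu
      · refine ⟨m, by omega, ?_⟩
        beta_reduce
        rwa [e1 m (by omega), min_eq_left (by omega)]
      · obtain ⟨j, hj, h⟩ := p2 u hu
        refine ⟨2 * m + j, by omega, ?_⟩
        beta_reduce
        rwa [e2 _ (by omega), Nat.add_sub_cancel_left]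
    · beta_reduce
      rcases le_total j (2 * m) with h | h
      · rw [e1 j h]
        exact ⟨v, Or.inr (Finset.mem_insert_self _ _), q3 _ (by omega)⟩
      · rw [e2 j h]
        obtain ⟨u, hu, h⟩ := p3 (j - 2 * m) (by omega)
        exact ⟨u, hu.imp_right Finset.mem_insert_of_mem, h⟩

/-- concatenate `stair` paths, each followed by its reversal -/
theorem tour (N₀ : ℕ) : ∃ K₇ : ℕ, ∀ F T, Fam N₀ F T → ∃ (p : ℕ → G) (N : ℕ) (tp : X.ι → ℕ),
    (N : ℝ) ≤ K₇ * (T + 1) ∧ X.Tour K₇ F p N tp := by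
  obtain ⟨K₂, hK⟩ := X.h28_loop
  obtain ⟨B, hB1, hB⟩ := X.χ_bound
  refine ⟨⌈B⌉₊ * K₂ + K₂ + N₀ * (2 * K₂), fun F T ⟨hF, h0, hc, hT⟩ => ?_⟩
  obtain ⟨p, N, hN, p0, p1, p2, p3⟩ := hK T hF.toFinset fun v hv => hT v (hF.mem_toFinset.1 hv)
  have hK0 : (0 : ℝ) ≤ K₂ := Nat.cast_nonneg _
  have hT0 : 0 ≤ T := by simpa using hT 0 h0
  have h1 : (0 : ℝ) ≤ ⌈B⌉₊ * K₂ := by positivity
  have h2 : (0 : ℝ) ≤ N₀ * (2 * K₂) := by positivity
  have ht : ∀ i, ∃ j ≤ N, lev X.χ F i - B * K₂ ≤ X.χ i (X.π (p j)) := fun i => by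
    obtain ⟨v, hv, e⟩ := exists_lev (χ := X.χ) hF ⟨0, h0⟩ i
    obtain ⟨j, hj, h⟩ := p2 v (hF.mem_toFinset.2 hv)
    have h3 := (abs_le.1 ((hB i _).trans (mul_le_mul_of_nonneg_left h (by linarith)))).1
    rw [map_sub] at h3
    exact ⟨j, hj, by linarith⟩
  choose tp ht1 ht2 using ht
  refine ⟨p, N, tp, hN.trans ?_, ⟨p0, fun j _ => p1 j⟩, ht1, fun i => ?_, fun j hj => ?_⟩
  · rw [← Set.ncard_eq_toFinset_card F hF]
    have h3 : (F.ncard : ℝ) ≤ N₀ := by exact_mod_cast hc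
    have h4 := mul_le_mul_of_nonneg_right h3 (show 0 ≤ 2 * (K₂ * (T + 1)) by positivity)
    have h5 : 0 ≤ (⌈B⌉₊ * K₂ + K₂) * (T + 1) := by positivity
    push_cast
    linarith
  · have := mul_le_mul_of_nonneg_right (Nat.le_ceil B) hK0
    push_cast
    linarith [ht2 i]
  · obtain ⟨v, hv, t, t0, t1, h⟩ := p3 j hj
    refine ⟨v, hv.elim (fun e => e ▸ h0) hF.mem_toFinset.1, t, t0, t1, h.trans ?_⟩
    push_cast
    linarith

/-- labels at the times `0, h, 2h, …` and `N`, `h = n / 2`, agree (`lab_overlap`, `Lab.mono`) and the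
window errors add up -/
theorem path_lab : ∃ ε₀ : ℝ, 0 < ε₀ ∧ ∀ (Wp : En k → Prop) (ψ : G → G) (n : ℕ) (δ : ℝ)
    (p : ℕ → G) (N : ℕ) (x : G), 2 ≤ n → 0 ≤ δ → δ ≤ ε₀ → (∀ w, Wp w → X.IsW w) → X.FP p N →
      ((N / (n / 2) : ℕ) + 1) * δ ≤ 1 →
      (∀ j ≤ N, n / 2 ∣ j ∨ j = N → ∃ w, X.Lb Wp ψ n δ (x * p j) w) →
      ∃ w, X.PG Wp ψ n δ p N x w := by
  obtain ⟨ε₀, hε₀, hov⟩ := X.lab_overlap
  refine ⟨ε₀, hε₀, fun Wp ψ n δ p N x hn hδ0 hδ hW hp hN hl => ?_⟩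
  have hh : 0 < n / 2 := by omega
  obtain ⟨w, hw⟩ := hl 0 (Nat.zero_le _) (Or.inl (dvd_zero _))
  have hstep : ∀ a b, a ≤ b → b ≤ N → b - a ≤ n / 2 → X.Lb Wp ψ n δ (x * p a) w →
      ‖X.π (ψ (x * p b)) - X.π (ψ (x * p a)) - w (X.π (p b) - X.π (p a))‖ ≤ δ * n ∧
        ∀ w', X.Lb Wp ψ n δ (x * p b) w' → X.Lb Wp ψ n δ (x * p b) w := by
    intro a b hab hb hd ha
    have hc : (p a)⁻¹ * p b ∈ Ball (X.SC : Set G) (n / 2) :=
      Ball.mono subset_rfl hd (hp.mem_sub hab hb)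
    have he : x * p a * ((p a)⁻¹ * p b) = x * p b := by group
    refine ⟨?_, fun w' hw' => ?_⟩
    · have := ha.2 _ (Ball.mono subset_rfl (Nat.div_le_self _ _) hc)
      rwa [he, X.π_hom.inv_mul] at this
    · have := hov ψ n (x * p a) _ w w' hn (hW _ ha.1) (hW _ hw'.1) hc (ha.2.mono hδ)
        (by rw [he]; exact hw'.2.mono hδ)
      rw [this]
      exact hw'
  have hq : ∀ q, q * (n / 2) ≤ N → X.Lb Wp ψ n δ (x * p (q * (n / 2))) w ∧
      ‖X.π (ψ (x * p (q * (n / 2)))) - X.π (ψ x) - w (X.π (p (q * (n / 2))))‖ ≤ q * (δ * n) := by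
    intro q
    induction q with
    | zero =>
      intro _
      rw [zero_mul]
      refine ⟨hw, ?_⟩
      simp [hp.1, X.π_hom.one]
    | succ q ih =>
      intro hq
      have h1 : (q + 1) * (n / 2) = q * (n / 2) + n / 2 := by ring
      obtain ⟨i1, i2⟩ := ih (by omega)
      obtain ⟨j1, j2⟩ := hstep (q * (n / 2)) ((q + 1) * (n / 2)) (by omega) hq (by omega) i1
      obtain ⟨w', hw'⟩ := hl _ hq (Or.inl (Dvd.intro_left _ rfl))
      refine ⟨j2 w' hw', ?_⟩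
      have := norm_add_le_of_le j1 i2
      rw [map_sub] at this
      refine le_trans (le_of_eq ?_) (this.trans (le_of_eq ?_))
      · congr 1
        abel
      · push_cast
        ring
  have hj : ∀ j ≤ N, (∀ w', X.Lb Wp ψ n δ (x * p j) w' → X.Lb Wp ψ n δ (x * p j) w) ∧
      ‖X.π (ψ (x * p j)) - X.π (ψ x) - w (X.π (p j))‖ ≤ n := by
    intro j hj
    have h1 := Nat.div_mul_le_self j (n / 2)
    have h2 := Nat.lt_div_mul_add (a := j) hh
    obtain ⟨i1, i2⟩ := hq (j / (n / 2)) (by omega)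
    obtain ⟨j1, j2⟩ := hstep _ j h1 hj (by omega) i1
    refine ⟨j2, ?_⟩
    have h3 := norm_add_le_of_le j1 i2
    rw [map_sub] at h3
    have h4 : ((j / (n / 2) : ℕ) : ℝ) ≤ (N / (n / 2) : ℕ) := by
      exact_mod_cast Nat.div_le_div_right hj
    have hn0 : (0 : ℝ) ≤ n := Nat.cast_nonneg _
    have h5 : δ * n + (j / (n / 2) : ℕ) * (δ * n) ≤ n := by
      have : (((j / (n / 2) : ℕ) : ℝ) + 1) * δ ≤ 1 :=
        le_trans (mul_le_mul_of_nonneg_right (by linarith) hδ0) hN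
      nlinarith
    refine le_trans (le_of_eq ?_) (h3.trans h5)
    congr 1
    abel
  obtain ⟨w', hw'⟩ := hl N le_rfl (Or.inr rfl)
  exact ⟨w, by simpa [hp.1] using hw, (hj N le_rfl).1 w' hw', fun j h => (hj j h).2⟩

/-- union bound over the `≤ 4 R + 2` special times; `Inv.flat`, `Cx.pl`, `path_lab` -/
theorem path_prob (Wp : En k → Prop) (c A R : ℕ) {θ : ℝ} (hθ : 0 < θ) :
    X.EVC Wp c A fun δ η n ψ => ∀ (p : ℕ → G) (N : ℕ) (a : X.ι → ℝ) (ζ : Measure G),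
      IsProbabilityMeasure ζ → X.FP p N → N ≤ R * n → X.Inv ζ a (2 * η) →
      (∀ j ≤ N, ∀ i, X.χ i (X.π (p j)) + (A + 1) * n ≤ a i) →
      ζ.real {z | ¬ ∃ w, X.PG Wp ψ n δ p N z w} ≤ θ := by
  obtain ⟨ε₀, hε₀, hpl⟩ := X.path_lab
  have hK : (1 : ℝ) ≤ X.K := by exact_mod_cast X.one_le_K
  refine (X.evc_of_ev Wp c A (((EV.small (a := min ε₀ (min 1 θ / (3 * R + 2)))
    (by positivity)).and (EV.large fun _ _ => 2)).and
    (EV.lg R (κ := 1 / X.K) (by positivity)))).mono ?_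
  rintro δ η n ψ hc ⟨⟨⟨hδ0, hδ, -, -⟩, hn⟩, hlg⟩ p N a ζ hζ hp hN hinv ha
  have hn2 : 2 ≤ n := by exact_mod_cast hn
  have hh : 0 < n / 2 := by omega
  have hδ1 : δ * (3 * R + 2) ≤ min 1 θ := by
    rw [← le_div_iff₀ (by positivity)]
    exact hδ.trans (min_le_right _ _)
  have hNq : N / (n / 2) ≤ 3 * R := by
    refine Nat.div_le_of_le_mul (hN.trans ?_)
    have : n ≤ 3 * (n / 2) := by omega
    nlinarith
  have hm : MeasurableSet {z | ¬ ∃ w, X.Lb Wp ψ n δ z w} := (meas_ex_lb hc.step).compl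
  have hsub : {z | ¬ ∃ w, X.PG Wp ψ n δ p N z w} ⊆ ⋃ q ∈ Finset.range (3 * R + 2),
      (fun z => z * p (min (q * (n / 2)) N)) ⁻¹' {z | ¬ ∃ w, X.Lb Wp ψ n δ z w} := by
    intro z hz
    by_contra hcon
    refine hz (hpl Wp ψ n δ p N z hn2 hδ0.le (hδ.trans (min_le_left _ _)) hc.sub hp ?_ ?_)
    · have h1 : ((N / (n / 2) : ℕ) : ℝ) ≤ 3 * R := by exact_mod_cast hNq
      have h2 := hδ1.trans (min_le_left _ _)
      nlinarith
    · intro j hj hd
      by_contra hno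
      apply hcon
      simp only [Set.mem_iUnion, Finset.mem_range]
      rcases hd with ⟨q, rfl⟩ | rfl
      · have hq : q ≤ 3 * R := by
          refine le_trans ?_ hNq
          rw [Nat.le_div_iff_mul_le hh, mul_comm]
          exact hj
        refine ⟨q, by omega, ?_⟩
        rw [mul_comm q, min_eq_left hj]
        exact hno
      · refine ⟨3 * R + 1, by omega, ?_⟩
        have h2 := Nat.lt_div_mul_add (a := j) hh
        have h3 : j / (n / 2) * (n / 2) ≤ 3 * R * (n / 2) := Nat.mul_le_mul_right _ hNq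
        rw [min_eq_right (by nlinarith)]
        exact hno
  refine (measureReal_mono hsub (measure_ne_top _ _)).trans
    ((measureReal_biUnion_finset_le _ _).trans ?_)
  have hb : ∀ q ∈ Finset.range (3 * R + 2), ζ.real
      ((fun z => z * p (min (q * (n / 2)) N)) ⁻¹' {z | ¬ ∃ w, X.Lb Wp ψ n δ z w}) ≤ δ := by
    intro q _
    have hj : min (q * (n / 2)) N ≤ N := min_le_right _ _
    rw [← map_measureReal_apply (measurable_mul_const _) hm]
    have hpb : p (min (q * (n / 2)) N) ∈ Ball (X.SC : Set G) (R * n) := by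
      have := hp.mem_sub (Nat.zero_le _) hj
      rw [hp.1, inv_one, one_mul] at this
      exact Ball.mono subset_rfl (by omega) this
    refine hc.pl _ (Measure.isProbabilityMeasure_map (measurable_mul_const _).aemeasurable)
      ((hinv.flat hpb).mono (fun i => ?_) le_rfl)
    have h1 := ha _ hj i
    have h2 : X.K * lg (R * n) ≤ n := by
      have := mul_le_mul_of_nonneg_left hlg (show (0 : ℝ) ≤ X.K by linarith)
      rwa [← mul_assoc, mul_one_div_cancel (by positivity), one_mul] at this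
    beta_reduce
    linarith
  refine (Finset.sum_le_card_nsmul _ _ _ hb).trans ?_
  rw [Finset.card_range, nsmul_eq_mul]
  push_cast
  have := hδ1.trans (min_le_right _ _)
  linarith

/-- `path_prob` for `N` and for every `tp i`, `evc_uq` -/
theorem gd_prob (Wp : En k → Prop) (c A R K₇ : ℕ) {θ : ℝ} (hθ : 0 < θ) :
    X.EVC Wp c A fun δ η n ψ => ∀ (F : Set (Fin k → ℝ)) (p : ℕ → G) (N : ℕ) (tp : X.ι → ℕ)
      (a : X.ι → ℝ) (ζ : Measure G), IsProbabilityMeasure ζ → F.Finite → 0 ∈ F →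
      X.Tour K₇ F p N tp → N ≤ R * n → X.Inv ζ a (2 * η) →
      (∀ i, lev X.χ F i + (A + 2) * n ≤ a i) →
      ζ.real {z | ¬ ∃ w, X.Gd Wp ψ n δ p N tp z w} ≤ θ := by
  obtain ⟨B, hB1, hB⟩ := X.χ_bound
  refine (((X.path_prob Wp c A R (θ := θ / (Fintype.card X.ι + 1)) (by positivity)).and
    (X.evc_uq Wp c A)).and_ev (EV.large fun _ _ => B * K₇)).mono ?_
  rintro δ η n ψ hc ⟨⟨hpp, hU⟩, hn⟩ F p N tp a ζ hζ hF h0 ht hN hinv ha
  have hlev : ∀ j ≤ N, ∀ i, X.χ i (X.π (p j)) + (A + 1) * n ≤ a i := by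
    intro j hj i
    obtain ⟨v, hv, t, ht0, ht1, hd⟩ := ht.near j hj
    have h1 := le_lev (χ := X.χ) hF hv i
    have h2 := le_lev (χ := X.χ) hF h0 i
    rw [map_zero] at h2
    have h3 := (le_abs_self _).trans (hB i (X.π (p j) - t • v))
    rw [map_sub, map_smul, smul_eq_mul] at h3
    have h4 : B * ‖X.π (p j) - t • v‖ ≤ B * K₇ := mul_le_mul_of_nonneg_left hd (by linarith)
    have h5 : t * X.χ i v ≤ lev X.χ F i := by nlinarith
    have h6 := ha i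
    linarith
  have h1 := hpp p N a ζ hζ ht.fp hN hinv hlev
  have h2 : ∀ i, ζ.real {z | ¬ ∃ w, X.PG Wp ψ n δ p (tp i) z w} ≤ θ / (Fintype.card X.ι + 1) :=
    fun i => hpp p (tp i) a ζ hζ (ht.fp.mono (ht.le i)) ((ht.le i).trans hN) hinv
      fun j hj => hlev j (hj.trans (ht.le i))
  have hsub : {z | ¬ ∃ w, X.Gd Wp ψ n δ p N tp z w} ⊆ {z | ¬ ∃ w, X.PG Wp ψ n δ p N z w} ∪
      ⋃ i, {z | ¬ ∃ w, X.PG Wp ψ n δ p (tp i) z w} := by
    intro z hz
    by_contra hcon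
    obtain ⟨w, hw⟩ : ∃ w, X.PG Wp ψ n δ p N z w := by
      by_contra h
      exact hcon (Or.inl h)
    refine hz ⟨w, hw, fun i => ?_⟩
    obtain ⟨w', hw'⟩ : ∃ w, X.PG Wp ψ n δ p (tp i) z w := by
      by_contra h
      exact hcon (Or.inr (Set.mem_iUnion.2 ⟨i, h⟩))
    rw [hU z w w' hw.1 hw'.1]
    exact hw'.2.1
  refine (measureReal_mono hsub (measure_ne_top _ _)).trans ((measureReal_union_le _ _).trans ?_)
  have h3 := (measureReal_iUnion_fintype_le (μ := ζ) _).trans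
    (Finset.sum_le_card_nsmul Finset.univ _ _ fun i _ => h2 i)
  rw [Finset.card_univ, nsmul_eq_mul] at h3
  have h4 : θ / (Fintype.card X.ι + 1) + Fintype.card X.ι * (θ / (Fintype.card X.ι + 1)) = θ := by
    field_simp
    ring
  linarith

/-- test on `s ^ (± n)`, `π s = Pi.single l 1`, the sign chosen with `χ i ≥ 0`; `RB_conj`, `RB_ball'`,
`ht_lip`, `isW_sep` -/
theorem nl0 (c : ℕ) : ∃ κ₀ : ℝ, 0 < κ₀ ∧ ∀ (ψ : G → G) (n : ℕ) (δ r : ℝ) (x y : G) (w w' : En k)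
    (i : X.ι), QI X.Sg X.Sg ψ c → X.IsW w → X.IsW w' → δ ≤ κ₀ → 0 ≤ r → r + lg n ≤ κ₀ * n →
      X.Lab ψ n δ x w → X.Lab ψ n δ y w' → x⁻¹ * y ∈ X.RB i r → w = w' := by
  obtain ⟨ε₀, h₀, hsep⟩ := X.isW_sep
  have hK : (1 : ℝ) ≤ X.K := by exact_mod_cast X.one_le_K
  have hc0 : (0 : ℝ) ≤ c := Nat.cast_nonneg _
  obtain ⟨Q, hQ⟩ : ∃ Q : ℝ, Q = X.K * c * (X.K + 1) ^ 2 := ⟨_, rfl⟩
  have hQ0 : 0 ≤ Q := by rw [hQ]; positivity
  refine ⟨ε₀ / (2 + 2 * Q), by positivity,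
    fun ψ n δ r x y w w' i hψ hw hw' hδ hr hn hl hl' hg => hsep w w' hw hw' fun l => ?_⟩
  obtain ⟨κ, hκ⟩ : ∃ κ : ℝ, κ = ε₀ / (2 + 2 * Q) := ⟨_, rfl⟩
  rw [← hκ] at hδ hn
  have hκε : κ * (2 + 2 * Q) = ε₀ := by rw [hκ]; field_simp
  have hlg := one_le_lg n
  have hn0 : (0 : ℝ) < n := by
    rcases Nat.eq_zero_or_pos n with h | h
    · rw [h] at hn hlg
      simp only [Nat.cast_zero, mul_zero] at hn
      linarith
    · exact_mod_cast h
  obtain ⟨s, hs, hπ⟩ := X.SC_surj l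
  have hsm : s ^ n ∈ Ball (X.SC : Set G) n := by
    simpa using Ball.pow_mem (Ball.mem_of_mem (T := (X.SC : Set G)) (Finset.mem_coe.2 hs)) n
  obtain ⟨t, ht, ht0, htπ⟩ : ∃ t ∈ Ball (X.SC : Set G) n, 0 ≤ X.χ i (X.π t) ∧
      ‖w (X.π t) - w' (X.π t)‖ = n * ‖w (Pi.single l 1) - w' (Pi.single l 1)‖ := by
    have e : ‖w (X.π (s ^ n)) - w' (X.π (s ^ n))‖ =
        n * ‖w (Pi.single l 1) - w' (Pi.single l 1)‖ := by
      rw [X.π_hom.pow, hπ, map_smul, map_smul, ← smul_sub, norm_smul, Real.norm_natCast]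
    rcases le_total 0 (X.χ i (X.π (s ^ n))) with h | h
    · exact ⟨_, hsm, h, e⟩
    · refine ⟨_, Ball.inv_mem hsm, by rw [X.π_hom.inv, map_neg]; linarith, ?_⟩
      rw [← e, X.π_hom.inv, map_neg, map_neg, neg_sub_neg, norm_sub_rev]
  have hKl : 0 ≤ X.K * lg n := by positivity
  have h1 : t⁻¹ * (x⁻¹ * y) * t⁻¹⁻¹ ∈ X.RB i (r + X.K * lg n) := by
    refine X.RB_mono i _ _ ?_ (X.RB_conj i _ n _ (Ball.inv_mem ht) _ hg)
    rw [X.π_hom.inv, map_neg]
    linarith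
  have h2 := X.ht_lip hψ (x := x * t) (y := y * t) (by
    have := X.RB_ball' h1
    rwa [show t⁻¹ * (x⁻¹ * y) * t⁻¹⁻¹ = (x * t)⁻¹ * (y * t) by group] at this)
  have h3 := X.ht_lip hψ (X.RB_ball' (X.RB_mono i _ (r + X.K * lg n) (by linarith) hg))
  have h4 := hl t ht
  have h5 := hl' t ht
  have h6 : ((X.K * ⌈r + X.K * lg n⌉₊ + X.K : ℕ) : ℝ) + 1 ≤ (X.K + 1) ^ 2 * (κ * n) := by
    have a1 : (⌈r + X.K * lg n⌉₊ : ℝ) ≤ r + X.K * lg n + 1 :=
      (Nat.ceil_lt_add_one (by positivity)).le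
    have a2 : r + X.K * lg n ≤ X.K * (κ * n) := by nlinarith
    have a3 : 1 ≤ κ * n := by linarith
    have a4 : (X.K : ℝ) * ⌈r + X.K * lg n⌉₊ ≤ X.K * (X.K * (κ * n) + 1) :=
      mul_le_mul_of_nonneg_left (by linarith) (by linarith)
    push_cast
    nlinarith
  have h7 : (X.K : ℝ) * (c * ((X.K * ⌈r + X.K * lg n⌉₊ + X.K : ℕ) : ℝ) + c) ≤ Q * (κ * n) := by
    have := mul_le_mul_of_nonneg_left h6 (show (0 : ℝ) ≤ X.K * c by positivity)
    rw [hQ]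
    linarith
  have e : w (X.π t) - w' (X.π t) =
      (X.π (ψ (y * t)) - X.π (ψ y) - w' (X.π t)) - (X.π (ψ (x * t)) - X.π (ψ x) - w (X.π t)) -
        (X.π (ψ (y * t)) - X.π (ψ (x * t))) + (X.π (ψ y) - X.π (ψ x)) := by abel
  have h8 : ‖w (X.π t) - w' (X.π t)‖ ≤ δ * n + δ * n + Q * (κ * n) + Q * (κ * n) := by
    rw [e]
    refine (norm_add_le _ _).trans (add_le_add ((norm_sub_le _ _).trans
      (add_le_add ((norm_sub_le _ _).trans (add_le_add h5 h4)) (h2.trans h7))) (h3.trans h7))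
  rw [htπ] at h8
  refine le_of_mul_le_mul_left (h8.trans ?_) hn0
  have h9 : δ * n ≤ κ * n := mul_le_mul_of_nonneg_right hδ hn0.le
  rw [← hκε]
  nlinarith

/-- go along `ψ (x * p ·)` to `tp i`, jump (`RB_conj`, `RB_ball'`), come back along `ψ (y * p ·)`;
cf. `mv_reach_letter`; `isW_bound`, `le_lev` -/
theorem j1 (c : ℕ) : ∃ K₃ : ℕ, ∀ (Wp : En k → Prop) (ψ : G → G) (n : ℕ) (δ r : ℝ) (K₇ : ℕ)
    (F : Set (Fin k → ℝ)) (p : ℕ → G) (N : ℕ) (tp : X.ι → ℕ) (x y : G) (w : En k) (i : X.ι),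
    QI X.Sg X.Sg ψ c → X.IsW w → F.Finite → 0 ∈ F → X.Tour K₇ F p N tp → K₇ ≤ n → lg N ≤ n →
      0 ≤ r → X.PG Wp ψ n δ p N x w → X.PG Wp ψ n δ p N y w →
      x⁻¹ * y ∈ X.RB i (lev X.χ F i + r) →
      X.Jn ψ (lev X.χ (w '' F)) (K₃ * (n + r)) (K₃ * (N + n + ⌈r⌉₊)) x y := by
  obtain ⟨B, hB1, hB⟩ := X.isW_bound
  obtain ⟨D₀, hD₀⟩ : ∃ D₀ : ℕ, D₀ = X.K * c * (X.K * X.K + 4 * X.K + 1) := ⟨_, rfl⟩
  refine ⟨⌈B⌉₊ + 3 + 2 * D₀ + 2 * (c * X.K + c) + c * (X.K * X.K + 2 * X.K + 1),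
    fun Wp ψ n δ r K₇ F p N tp x y w i hψ hw hF h0 ht hK₇ hlg hr hx hy hg => ?_⟩
  have hK : (1 : ℝ) ≤ X.K := by exact_mod_cast X.one_le_K
  have hc0 : (0 : ℝ) ≤ c := Nat.cast_nonneg _
  have hn1 : (1 : ℝ) ≤ n := (one_le_lg N).trans hlg
  have hn1' : 1 ≤ n := by exact_mod_cast hn1
  have hK₇' : (K₇ : ℝ) ≤ n := by exact_mod_cast hK₇
  have hp : p (tp i) ∈ Ball (X.SC : Set G) N := by
    have := ht.fp.mem_sub (Nat.zero_le _) (ht.le i)
    rw [ht.fp.1, inv_one, one_mul] at this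
    exact Ball.mono subset_rfl (by have := ht.le i; omega) this
  obtain ⟨m, hm⟩ : ∃ m : ℕ, m = X.K * (⌈r⌉₊ + (X.K + 1) * n) + X.K := ⟨_, rfl⟩
  have hjump : (x * p (tp i))⁻¹ * (y * p (tp i)) ∈ Ball X.Sg m := by
    have h1 := X.RB_conj i _ N _ (Ball.inv_mem hp) _ hg
    rw [show (p (tp i))⁻¹ * (x⁻¹ * y) * (p (tp i))⁻¹⁻¹ = (x * p (tp i))⁻¹ * (y * p (tp i)) by group]
      at h1
    rw [hm]
    refine X.RB_ball i _ (X.RB_mono i _ _ ?_ h1)
    rw [X.π_hom.inv, map_neg]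
    have a1 := ht.top i
    have a2 := Nat.le_ceil r
    have a3 : X.K * lg N ≤ X.K * n := mul_le_mul_of_nonneg_left hlg (by linarith)
    push_cast
    linarith
  obtain ⟨D, hD⟩ : ∃ D : ℝ, D = X.K * (c * (X.K + m : ℕ) + c) := ⟨_, rfl⟩
  have hDle : D ≤ D₀ * (n + r) := by
    have a1 : (⌈r⌉₊ : ℝ) ≤ r + 1 := (Nat.ceil_lt_add_one hr).le
    have a2 : (X.K : ℝ) * ⌈r⌉₊ ≤ X.K * (r + 1) := mul_le_mul_of_nonneg_left a1 (by linarith)
    have a3 : ((X.K + m : ℕ) : ℝ) + 1 ≤ (X.K * X.K + 4 * X.K + 1) * (n + r) := by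
      rw [hm]
      push_cast
      have b1 : (0 : ℝ) ≤ X.K * X.K * r := by positivity
      have b2 : (0 : ℝ) ≤ X.K * r := by positivity
      have b3 : (X.K : ℝ) * 1 ≤ X.K * n := mul_le_mul_of_nonneg_left hn1 (by linarith)
      nlinarith
    have a4 := mul_le_mul_of_nonneg_left a3 (show (0 : ℝ) ≤ X.K * c by positivity)
    rw [hD, hD₀]
    push_cast at a4 ⊢
    linarith
  have hD' : ∀ m' : ℕ, m' ≤ X.K + m → (X.K : ℝ) * (c * m' + c) ≤ D := fun m' h => by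
    have : (m' : ℝ) ≤ (X.K + m : ℕ) := by exact_mod_cast h
    rw [hD]
    gcongr
  have hxy : ‖X.π (ψ y) - X.π (ψ x)‖ ≤ 2 * n + D := by
    have h1 := (X.ht_lip hψ hjump).trans (hD' m (Nat.le_add_left _ _))
    have h2 := hx.2.2 _ (ht.le i)
    have h3 := hy.2.2 _ (ht.le i)
    have e : X.π (ψ y) - X.π (ψ x) =
        (X.π (ψ (x * p (tp i))) - X.π (ψ x) - w (X.π (p (tp i)))) -
          (X.π (ψ (y * p (tp i))) - X.π (ψ y) - w (X.π (p (tp i)))) +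
          (X.π (ψ (y * p (tp i))) - X.π (ψ (x * p (tp i)))) := by abel
    rw [e]
    refine (norm_add_le _ _).trans ?_
    linarith [norm_sub_le (X.π (ψ (x * p (tp i))) - X.π (ψ x) - w (X.π (p (tp i))))
      (X.π (ψ (y * p (tp i))) - X.π (ψ y) - w (X.π (p (tp i))))]
  have hD0 : 0 ≤ D := by rw [hD]; positivity
  obtain ⟨E, hE⟩ : ∃ E : ℝ, E = ((⌈B⌉₊ + 3 + 2 * D₀ + 2 * (c * X.K + c) +
    c * (X.K * X.K + 2 * X.K + 1) : ℕ) : ℝ) * (n + r) := ⟨_, rfl⟩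
  have hEle : (3 + B) * n + 2 * D ≤ E := by
    have a1 := Nat.le_ceil B
    have a2 : B * n ≤ ⌈B⌉₊ * (n + r) := mul_le_mul a1 (by linarith) (by linarith) (by linarith)
    have a3 : (0 : ℝ) ≤ (2 * (c * X.K + c) + c * (X.K * X.K + 2 * X.K + 1)) * (n + r) := by
      positivity
    rw [hE]
    push_cast
    nlinarith
  rw [← hE]
  have hBn : 0 ≤ B * n := by positivity
  refine ⟨by linarith, ?_⟩
  have hfin : (w '' F).Finite := hF.image _
  -- points near the images of the tours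
  have hnear : ∀ (z : G), ‖X.π (ψ z) - X.π (ψ x)‖ ≤ 2 * n + D → X.PG Wp ψ n δ p N z w →
      ∀ j ≤ N, ∀ u : G, ‖X.π u - X.π (ψ (z * p j))‖ ≤ D →
        ∃ v, ‖v‖ ≤ E ∧ ∀ i, X.χ i (X.π u - X.π (ψ x) - v) ≤ lev X.χ (w '' F) i := by
    intro z hz hpg j hj u hu
    obtain ⟨v, hv, t, ht0, ht1, hn⟩ := ht.near j hj
    refine ⟨X.π u - X.π (ψ x) - t • w v, ?_, fun i => ?_⟩
    · have e : X.π u - X.π (ψ x) - t • w v = (X.π u - X.π (ψ (z * p j))) +
          (X.π (ψ (z * p j)) - X.π (ψ z) - w (X.π (p j))) + w (X.π (p j) - t • v) +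
          (X.π (ψ z) - X.π (ψ x)) := by
        rw [map_sub, map_smul]; abel
      have a1 := hpg.2.2 j hj
      have a2 := (hB w hw _).trans (mul_le_mul_of_nonneg_left (hn.trans hK₇') (by linarith))
      rw [e]
      refine (norm_add_le _ _).trans ((add_le_add ((norm_add_le _ _).trans
        (add_le_add ((norm_add_le _ _).trans (add_le_add hu a1)) a2)) hz).trans ?_)
      linarith
    · rw [sub_sub_cancel, map_smul, smul_eq_mul]
      have a1 : X.χ i (w v) ≤ lev X.χ (w '' F) i := le_lev hfin ⟨v, hv, rfl⟩ i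
      have a2 : X.χ i (w 0) ≤ lev X.χ (w '' F) i := le_lev hfin ⟨0, h0, rfl⟩ i
      rw [map_zero, map_zero] at a2
      nlinarith
  have hstep : ∀ (z : G), ‖X.π (ψ z) - X.π (ψ x)‖ ≤ 2 * n + D → X.PG Wp ψ n δ p N z w →
      ∀ j ≤ N, ∀ (y' : G) (m' : ℕ), m' ≤ X.K + m → (z * p j)⁻¹ * y' ∈ Ball X.Sg m' →
        Reach X.Sg {u | ∃ v, ‖v‖ ≤ E ∧ ∀ i, X.χ i (X.π u - X.π (ψ x) - v) ≤ lev X.χ (w '' F) i}
          (ψ (z * p j)) (c * m' + c) (ψ y') := by
    intro z hz hpg j hj y' m' hm' hy'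
    refine (X.π_lip.reach (hψ.up _ _ _ hy')).mono fun u hu => hnear z hz hpg j hj u ?_
    have h3 : ‖X.π u - X.π (ψ (z * p j))‖ ≤ X.K * (c * m' + c : ℕ) := hu
    push_cast at h3
    exact h3.trans (hD' m' hm')
  have hgo : ∀ (z : G), ‖X.π (ψ z) - X.π (ψ x)‖ ≤ 2 * n + D → X.PG Wp ψ n δ p N z w →
      Reach X.Sg {u | ∃ v, ‖v‖ ≤ E ∧ ∀ i, X.χ i (X.π u - X.π (ψ x) - v) ≤ lev X.χ (w '' F) i}
        (ψ z) ((c * X.K + c) * N) (ψ (z * p (tp i))) := by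
    intro z hz hpg
    have h3 := Reach.chain (T := X.Sg) (fun j => ψ (z * p j)) (c * X.K + c) (tp i)
      (hnear z hz hpg 0 (Nat.zero_le _) _ (by rw [sub_self, norm_zero]; exact hD0)) fun j hj => by
        have hi := ht.le i
        refine hstep z hz hpg j (by omega) _ X.K (Nat.le_add_right _ _) ?_
        have := X.flat_ball (ht.fp.2 j (by omega))
        rwa [mul_one, show (p j)⁻¹ * p (j + 1) = (z * p j)⁻¹ * (z * p (j + 1)) by group] at this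
    have h4 := h3.of_le (Nat.mul_le_mul_left (c * X.K + c) (ht.le i))
    rwa [ht.fp.1, mul_one] at h4
  have hxx : ‖X.π (ψ x) - X.π (ψ x)‖ ≤ 2 * n + D := by
    rw [sub_self, norm_zero]; positivity
  refine (((hgo x hxx hx).trans (hstep x hxx hx _ (ht.le i) _ m (Nat.le_add_left _ _) hjump)).trans
    (hgo y hxy hy).symm).of_le ?_
  have a1 : c * m + c ≤ c * (X.K * X.K + 2 * X.K + 1) * (n + ⌈r⌉₊) := by
    have b1 : m + 1 ≤ (X.K * X.K + 2 * X.K + 1) * (n + ⌈r⌉₊) := by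
      rw [hm]
      have := Nat.mul_le_mul_left X.K hn1'
      nlinarith [Nat.zero_le (X.K * X.K * ⌈r⌉₊), Nat.zero_le (X.K * ⌈r⌉₊)]
    rw [mul_assoc]
    exact (Nat.mul_le_mul_left c b1).trans' (le_of_eq (by ring))
  generalize c * (X.K * X.K + 2 * X.K + 1) = a at a1 ⊢
  generalize c * X.K + c = b
  generalize ⌈B⌉₊ + 3 + 2 * D₀ = e
  generalize c * m + c = f at a1 ⊢
  nlinarith [Nat.zero_le (e * (N + n + ⌈r⌉₊)), Nat.zero_le (a * N), Nat.zero_le (b * (n + ⌈r⌉₊))]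

/-- induction on the list with `j1`, `Jn.trans`, `Jn.refl` -/
theorem jlist (c : ℕ) : ∃ K₃ : ℕ, ∀ (Wp : En k → Prop) (ψ : G → G) (n : ℕ) (δ r : ℝ) (K₇ : ℕ)
    (F : Set (Fin k → ℝ)) (p : ℕ → G) (N : ℕ) (tp : X.ι → ℕ) (x : G) (w : En k) (l : List G),
    QI X.Sg X.Sg ψ c → X.IsW w → F.Finite → 0 ∈ F → X.Tour K₇ F p N tp → K₇ ≤ n → lg N ≤ n →
      0 ≤ r → l.length ≤ X.K → (∀ g ∈ l, ∃ i, g ∈ X.RB i (lev X.χ F i + r)) →
      (∀ j, X.PG Wp ψ n δ p N (x * (l.take j).prod) w) →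
      X.JE Wp ψ n δ F (K₃ * (n + r)) (K₃ * (N + n + ⌈r⌉₊)) x (x * l.prod) := by
  obtain ⟨K₃, h⟩ := X.j1 c
  refine ⟨X.K * K₃, fun Wp ψ n δ r K₇ F p N tp x w l hψ hw hF h0 ht hK₇ hlg hr hl hlet hpg => ?_⟩
  have ha : 0 ≤ lev X.χ (w '' F) := fun i => by
    have a2 : X.χ i (w 0) ≤ lev X.χ (w '' F) i := le_lev (hF.image _) ⟨0, h0, rfl⟩ i
    rwa [map_zero, map_zero] at a2
  have key : ∀ j ≤ l.length, X.Jn ψ (lev X.χ (w '' F)) (j * (K₃ * (n + r)))
      (j * (K₃ * (N + n + ⌈r⌉₊))) x (x * (l.take j).prod) := by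
    intro j
    induction j with
    | zero =>
      intro _
      simpa using Jn.refl (ψ := ψ) ha x
    | succ j ih =>
      intro hj
      obtain ⟨i, hi⟩ := hlet l[j] (List.getElem_mem hj)
      have h1 := h Wp ψ n δ r K₇ F p N tp _ _ w i hψ hw hF h0 ht hK₇ hlg hr (hpg j) (hpg (j + 1))
        (by rwa [List.prod_take_succ l j hj, ← mul_assoc x, inv_mul_cancel_left])
      refine ((ih (by omega)).trans h1).mono le_rfl (le_of_eq ?_) (le_of_eq ?_)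
      · push_cast; ring
      · ring
  have h1 := (hpg 0).1
  have h2 := (hpg l.length).1
  have h3 := key l.length le_rfl
  rw [List.take_length] at h2 h3
  rw [List.take_zero, List.prod_nil, mul_one] at h1
  refine ⟨w, h1, h2, h3.mono le_rfl ?_ ?_⟩
  · have : (l.length : ℝ) ≤ X.K := by exact_mod_cast hl
    push_cast
    rw [mul_assoc]
    exact mul_le_mul_of_nonneg_right this (by positivity)
  · rw [mul_assoc]
    exact Nat.mul_le_mul_right _ hl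

theorem h82_chain {α : Type*} (w : ℕ → α) (m : ℕ) (h : ∀ j < m, w j = w (j + 1)) :
    ∀ j ≤ m, w j = w 0 := by
  intro j
  induction j with
  | zero => intro _; rfl
  | succ j ih => intro hj; rw [← h j (by omega), ih (by omega)]

/-- natural box elements: `box_gen`, `Inv.rb`, `TVr.prod`, `gd_prob` at all prefixes, equal labels by
`nl0` at the times `tp i`, `jlist` -/
theorem natjoin (c : ℕ) : ∃ K₉ : ℕ, ∀ (Wp : En k → Prop) (A N₀ R : ℕ) (r₀ θ : ℝ), 0 < θ →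
    ∃ M : ℕ, X.EVC Wp c A fun δ η n ψ => ∀ (F : Set (Fin k → ℝ)) (a : X.ι → ℝ) (ζ : Measure G),
      IsProbabilityMeasure ζ → Fam N₀ F (R * n) → X.Inv ζ a (2 * η) →
      (∀ i, lev X.χ F i + (A + 2) * n ≤ a i) → ∀ g ∈ X.Box fun i => lev X.χ F i + r₀,
        ζ.real {z | ¬ X.JE Wp ψ n δ F (K₉ * n) (M * n) z (z * g)} ≤ θ := by
  obtain ⟨K₃, hj⟩ := X.jlist c
  obtain ⟨κ₀, hκ₀, hnl⟩ := X.nl0 c
  refine ⟨2 * K₃, fun Wp A N₀ R r₀ θ hθ => ?_⟩
  obtain ⟨K₇, htour⟩ := X.tour N₀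
  have hK : (1 : ℝ) ≤ X.K := by exact_mod_cast X.one_le_K
  obtain ⟨r, hr0, hr1⟩ : ∃ r : ℝ, 0 ≤ r ∧ r₀ + X.K ≤ r := ⟨max (r₀ + X.K) 0, le_max_right _ _,
    le_max_left _ _⟩
  obtain ⟨κ, hκ, hκ1, hκ2⟩ : ∃ κ : ℝ, 0 < κ ∧ κ ≤ 1 ∧ κ * (X.K + 2) ≤ κ₀ :=
    ⟨min 1 (κ₀ / (X.K + 2)), by positivity, min_le_left _ _, by
      rw [← le_div_iff₀ (by positivity)]; exact min_le_right _ _⟩
  refine ⟨K₃ * (K₇ * (R + 1) + 2), ?_⟩
  refine (((((X.gd_prob Wp c A (K₇ * (R + 1)) K₇ (θ := θ / (2 * (X.K + 1))) (by positivity)).and_ev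
    (EV.small (a := min κ₀ (θ / (4 * X.K * (X.K + 1)))) (by positivity))).and_ev
    (EV.large fun _ _ => 1 + r + X.K + K₇ + (r + K₇) / κ)).and_ev
    (EV.lg (K₇ * (R + 1)) hκ)).and_ev (EV.lg 1 hκ)).mono ?_
  rintro δ η n ψ hc ⟨⟨⟨⟨hgd, hδ0, hδ, hη0, hη⟩, hn⟩, hl1⟩, hl2⟩ F a ζ hζ hF hinv ha g hg
  rw [one_mul] at hl2
  have hK7 : (0 : ℝ) ≤ K₇ := Nat.cast_nonneg _
  have hq : 0 ≤ (r + K₇) / κ := by positivity
  have hn1 : (1 : ℝ) ≤ n := by linarith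
  have hnκ : r + K₇ ≤ κ * n := by
    have : (r + K₇) / κ ≤ n := by linarith
    rwa [div_le_iff₀' hκ] at this
  obtain ⟨p, N, tp, hN, ht⟩ := htour F _ hF
  have hN' : N ≤ K₇ * (R + 1) * n := by
    have : (N : ℝ) ≤ K₇ * (R + 1) * n := by nlinarith
    exact_mod_cast this
  have hlgN : lg N ≤ κ * n := (lg_mono hN').trans hl1
  have hB := hgd F p N tp a ζ hζ hF.1 hF.2.1 ht hN' hinv ha
  obtain ⟨l, hl, hlet, rfl⟩ := X.box_gen _ g hg
  have hlet' : ∀ x ∈ l, ∃ i, x ∈ X.RB i (lev X.χ F i + r) := fun x hx => by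
    obtain ⟨i, hi⟩ := hlet x hx
    exact ⟨i, X.RB_mono i _ _ (by linarith) hi⟩
  have hne : F.Nonempty := ⟨0, hF.2.1⟩
  have htv : ∀ x ∈ l, TVr ζ x (2 * η) := fun x hx => by
    obtain ⟨i, hi⟩ := hlet' x hx
    refine hinv.rb (a' := fun i => lev X.χ F i + r) (X.adm_add_const (Adm.lev hF.1 hne) hr0)
      (fun j => ?_) hi
    have h1 := ha j
    have h2 : (0 : ℝ) ≤ A * n := by positivity
    linarith
  have hm : MeasurableSet {z | ¬ ∃ w, X.Gd Wp ψ n δ p N tp z w} := (meas_gd hc.step p N tp).compl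
  have hsub : {z | ¬ X.JE Wp ψ n δ F (((2 * K₃ : ℕ) : ℝ) * n) (K₃ * (K₇ * (R + 1) + 2) * n) z
      (z * l.prod)} ⊆ ⋃ j ∈ Finset.range (X.K + 1),
        {z | z * (l.take j).prod ∈ {z | ¬ ∃ w, X.Gd Wp ψ n δ p N tp z w}} := by
    intro z hz
    by_contra hcon
    apply hz
    simp only [Set.mem_iUnion, Finset.mem_range, Set.mem_setOf_eq, not_exists, not_forall,
      not_not] at hcon
    have hall : ∀ j, ∃ w, j ≤ l.length → X.Gd Wp ψ n δ p N tp (z * (l.take j).prod) w := by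
      intro j
      by_cases h : j ≤ l.length
      · obtain ⟨w, hw⟩ := hcon j (by omega)
        exact ⟨w, fun _ => hw⟩
      · exact ⟨1, fun h' => absurd h' h⟩
    choose w hw using hall
    have heq : ∀ j ≤ l.length, w j = w 0 := by
      refine h82_chain w _ fun j hj => ?_
      obtain ⟨i, hi⟩ := hlet' l[j] (List.getElem_mem hj)
      have h1 := (hw j hj.le).2 i
      have h2 := (hw (j + 1) hj).2 i
      have hp : p (tp i) ∈ Ball (X.SC : Set G) N := by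
        have := ht.fp.mem_sub (Nat.zero_le _) (ht.le i)
        rw [ht.fp.1, inv_one, one_mul] at this
        exact Ball.mono subset_rfl (by have := ht.le i; omega) this
      have h3 := X.RB_conj i _ N _ (Ball.inv_mem hp) _ hi
      have hlg := one_le_lg N
      refine hnl ψ n δ (r + K₇ + X.K * lg N) _ _ _ _ i hc.qi (hc.sub _ h1.1) (hc.sub _ h2.1)
        (hδ.trans (min_le_left _ _)) (by positivity) ?_ h1.2 h2.2 ?_
      · have e1 : X.K * lg N ≤ X.K * (κ * n) := mul_le_mul_of_nonneg_left hlgN (by linarith)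
        have e2 : κ * (X.K + 2) * n ≤ κ₀ * n := mul_le_mul_of_nonneg_right hκ2 (by linarith)
        linarith
      · rw [List.prod_take_succ _ _ hj, show (z * (l.take j).prod * p (tp i))⁻¹ *
          (z * ((l.take j).prod * l[j]) * p (tp i)) = (p (tp i))⁻¹ * l[j] * (p (tp i))⁻¹⁻¹ by group]
        refine X.RB_mono i _ _ ?_ h3
        rw [X.π_hom.inv, map_neg]
        linarith [ht.top i]
    have h0 := hw 0 (Nat.zero_le _)
    have hκn : κ * n ≤ n := by nlinarith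
    refine (hj Wp ψ n δ r K₇ F p N tp z (w 0) l hc.qi (hc.sub _ h0.1.1.1) hF.1 hF.2.1 ht
      (by exact_mod_cast (show (K₇ : ℝ) ≤ n by linarith)) (by linarith) hr0 hl hlet'
      fun j => ?_).mono ?_ ?_
    · rcases le_total j l.length with h | h
      · exact heq j h ▸ (hw j h).1
      · have := heq _ le_rfl ▸ (hw _ le_rfl).1
        rwa [List.take_of_length_le h, ← List.take_of_length_le (le_refl l.length)]
    · push_cast
      have : (K₃ : ℝ) * r ≤ K₃ * n := mul_le_mul_of_nonneg_left (by linarith) (Nat.cast_nonneg _)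
      linarith
    · have h1 : ⌈r⌉₊ ≤ n := Nat.ceil_le.2 (by linarith)
      rw [mul_assoc]
      exact Nat.mul_le_mul_left _ (by nlinarith)
  refine (measureReal_mono hsub (measure_ne_top _ _)).trans
    ((measureReal_biUnion_finset_le _ _).trans ?_)
  have hb : ∀ j ∈ Finset.range (X.K + 1), ζ.real
      {z | z * (l.take j).prod ∈ {z | ¬ ∃ w, X.Gd Wp ψ n δ p N tp z w}} ≤ θ / (X.K + 1) := by
    intro j _
    have h1 := (TVr.prod (by positivity) (l.take j)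
      fun x hx => htv x (List.mem_of_mem_take hx)).le hm
    have h2 : ((l.take j).length : ℝ) ≤ X.K := by
      exact_mod_cast (List.length_take_le' _ _).trans hl
    have h3 : ((l.take j).length : ℝ) * (2 * η) ≤ X.K * (2 * (θ / (4 * X.K * (X.K + 1)))) :=
      mul_le_mul h2 (by linarith [hη.trans (min_le_right _ _)]) (by positivity) (by positivity)
    have h4 : θ / (2 * (X.K + 1)) + X.K * (2 * (θ / (4 * X.K * (X.K + 1)))) = θ / (X.K + 1) := by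
      field_simp; ring
    linarith
  refine (Finset.sum_le_card_nsmul _ _ _ hb).trans (le_of_eq ?_)
  rw [Finset.card_range, nsmul_eq_mul]
  push_cast
  field_simp

end Geo

end Crest.Agent.R182
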