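import Crest.Agent.R182.MBasic
import Crest.Agent.R182.EQI

/-! Row 182, block M5: definitions and small tools. -/

set_option autoImplicit false
set_option linter.dupNamespace false

namespace Crest.Agent.R182

open Crest.GroupTheory

/-- iterated centrality with respect to `C` -/
def Zc {G : Type*} [Group G] (C : Subgroup G) : ℕ → G → Prop
  | 0, q => q = 1
  | j + 1, q => ∀ c ∈ C, Zc C j (q⁻¹ * c * q * c⁻¹)

/-- `upperCentralSeries`, `mem_upperCentralSeries_succ_iff` in the group `C` -/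
theorem zc_of_nil {G : Type*} [Group G] (C : Subgroup G) (h : Group.IsNilpotent C) :
    ∃ s, ∀ q ∈ C, Zc C s q := by
  obtain ⟨s, hs⟩ := h.nilpotent'
  have key : ∀ j, ∀ q : C, q ∈ Subgroup.upperCentralSeries C j → Zc C j (q : G) := by
    intro j
    induction j with
    | zero =>
      intro q hq
      rw [Subgroup.upperCentralSeries_zero, Subgroup.mem_bot] at hq
      rw [hq]; rfl
    | succ j ih =>
      intro q hq c hc
      have h1 := Subgroup.mem_upperCentralSeries_succ_iff.1 (inv_mem hq) ⟨c, hc⟩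
      have h2 := ih _ h1
      simpa [commutatorElement_def] using h2
  exact ⟨s, fun q hq => key s ⟨q, hq⟩ (hs ▸ Subgroup.mem_top _)⟩

theorem lg_add_le (a b : ℕ) : lg (a + b) ≤ lg a + lg b := by
  have ha : (0 : ℝ) ≤ a := a.cast_nonneg
  have hb : (0 : ℝ) ≤ b := b.cast_nonneg
  have h1 : Real.log (1 + (a + b : ℕ)) ≤ Real.log (1 + a) + Real.log (1 + b) := by
    rw [← Real.log_mul (by positivity) (by positivity)]
    refine Real.log_le_log (by positivity) ?_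
    push_cast
    nlinarith [mul_nonneg ha hb]
  unfold lg
  linarith

theorem lg_le_self (n : ℕ) : lg n ≤ n + 1 := by
  have hn : (0 : ℝ) ≤ n := n.cast_nonneg
  have h1 := Real.log_le_sub_one_of_pos (x := 1 + (n : ℝ)) (by positivity)
  unfold lg
  linarith

theorem lg_le_of_poly (A d : ℕ) : ∃ C : ℝ, 0 ≤ C ∧ ∀ m r : ℕ, m ≤ A * (r + 1) ^ d →
    lg m ≤ C * lg r := by
  refine ⟨lg A + d, by have := one_le_lg A; positivity, fun m r hm => ?_⟩
  have hA : (0 : ℝ) ≤ A := A.cast_nonneg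
  have hr : (0 : ℝ) ≤ r := r.cast_nonneg
  have hm' : (m : ℝ) ≤ A * (1 + r) ^ d := by
    rw [add_comm]; exact_mod_cast hm
  have hp : (1 : ℝ) ≤ (1 + r) ^ d := one_le_pow₀ (by linarith)
  have h1 : Real.log (1 + m) ≤ Real.log (1 + A) + d * Real.log (1 + r) := by
    rw [← Real.log_pow, ← Real.log_mul (by positivity) (by positivity)]
    refine Real.log_le_log (by positivity) ?_
    nlinarith
  have h2 : 0 ≤ Real.log (1 + A) := Real.log_nonneg (by linarith)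
  have h3 : 0 ≤ Real.log (1 + r) := Real.log_nonneg (by linarith)
  have hd : (0 : ℝ) ≤ d := d.cast_nonneg
  unfold lg
  nlinarith [mul_nonneg h2 h3]

namespace Geo

variable {G : Type} [Group G] [MeasurableSpace G] {k : ℕ} (X : Geo G k)

/-- `χ_ne_zero`, `SC_surj` -/
theorem mu_dir (i : X.ι) : ∃ t ∈ Ball (X.SC : Set G) 1, X.χ i (X.π t) < 0 := by
  obtain ⟨l, hl⟩ : ∃ l, X.χ i (Pi.single l 1) ≠ 0 := by
    by_contra h
    refine X.χ_ne_zero i ((Pi.basisFun ℝ (Fin k)).ext fun l => ?_)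
    rw [Pi.basisFun_apply, LinearMap.zero_apply]
    by_contra h'
    exact h ⟨l, h'⟩
  obtain ⟨c, hc, hπ⟩ := X.SC_surj l
  have hc1 : c ∈ Ball (X.SC : Set G) 1 := Ball.mem_of_mem hc
  rcases lt_or_gt_of_ne hl with h | h
  · exact ⟨c, hc1, by rwa [hπ]⟩
  · exact ⟨c⁻¹, Ball.inv_mem hc1, by rw [X.π_hom.inv, hπ, map_neg]; linarith⟩

/-- `sl` with `a` the support function (`Adm.lev`) of the finite set of relative heights -/
theorem mu_half : ∃ K' : ℕ, ∀ (i : X.ι) (s : ℝ) (x y : G) (m : ℕ),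
    Reach X.Sg {z | X.χ i (X.π z - X.π x) ≤ s} x m y →
      ∃ a, Adm X.χ a ∧ 0 ≤ a i ∧ a i ≤ s + K' * lg m ∧ ∃ e ∈ X.Box a,
        ∃ c ∈ Ball (X.SC : Set G) (K' * m), ∃ b ∈ Ball X.Sg X.K, x⁻¹ * y = e * c * b := by
  obtain ⟨K₁, -, hK⟩ := X.sl
  refine ⟨K₁, fun i s x y m h => ?_⟩
  obtain ⟨p, p0, p1, p2, p3⟩ := h
  have hfin : ((fun j => X.π (p j) - X.π x) '' Set.Iic m).Finite := (Set.finite_Iic m).image _
  have h0 : (0 : Fin k → ℝ) ∈ (fun j => X.π (p j) - X.π x) '' Set.Iic m :=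
    ⟨0, Nat.zero_le m, by simp only [p0, sub_self]⟩
  have hr : 0 ≤ (K₁ : ℝ) * lg m := mul_nonneg (Nat.cast_nonneg _) (zero_le_one.trans (one_le_lg m))
  obtain ⟨e, he, c, hc, b, hb, hxy, -⟩ := hK (lev X.χ ((fun j => X.π (p j) - X.π x) '' Set.Iic m))
    x y m ⟨p, p0, p1, p2, fun j hj i' => le_lev hfin ⟨j, hj, rfl⟩ i'⟩
  refine ⟨_, X.adm_add_const (Adm.lev hfin ⟨0, h0⟩) hr, ?_, ?_, e, he, c, hc, b,
    Ball.mono subset_rfl X.one_le_K hb, hxy⟩
  · have h1 := le_lev (χ := X.χ) hfin h0 i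
    rw [map_zero] at h1
    exact add_nonneg h1 hr
  · refine add_le_add (lev_le ⟨0, h0⟩ ?_) le_rfl
    rintro _ ⟨j, hj, rfl⟩
    exact p3 j hj

/-- `Lip.reach` -/
theorem mu_reach_half {L : ℝ} (hL : ∀ i v, |X.χ i v| ≤ L * ‖v‖) (hL0 : 0 ≤ L) (i : X.ι)
    (v : Fin k → ℝ) {s : ℝ} {x y : G} {n : ℕ} (h : x⁻¹ * y ∈ Ball X.Sg n)
    (hs : X.χ i (X.π x - v) + L * (X.K * n) ≤ s) :
    Reach X.Sg {z | X.χ i (X.π z - v) ≤ s} x n y := by
  refine (X.π_lip.reach h).mono fun z hz => ?_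
  have h1 : ‖X.π z - X.π x‖ ≤ X.K * n := hz
  have h2 := (le_abs_self _).trans
    ((hL i (X.π z - X.π x)).trans (mul_le_mul_of_nonneg_left h1 hL0))
  have e : X.π z - v = (X.π x - v) + (X.π z - X.π x) := by abel
  show X.χ i (X.π z - v) ≤ s
  rw [e, map_add]
  linarith

end Geo

end Crest.Agent.R182
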