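import Crest.Agent.R182.MUTr

/-! Row 182, block M5: the transplanted line in the target. -/

set_option autoImplicit false
set_option linter.dupNamespace false

namespace Crest.Agent.R182

open Crest.GroupTheory

/-- logarithmically comparable to the argument -/
def H64LB (f : ℕ → ℕ) : Prop := ∃ C : ℝ, 0 ≤ C ∧ ∀ r, lg (f r) ≤ C * lg r

theorem h64_lg_mul (a b : ℕ) : lg (a * b) ≤ lg a + lg b := by
  have ha : (0 : ℝ) ≤ a := a.cast_nonneg
  have hb : (0 : ℝ) ≤ b := b.cast_nonneg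
  have h : Real.log (1 + (a * b : ℕ)) ≤ Real.log (1 + a) + Real.log (1 + b) := by
    rw [← Real.log_mul (by positivity) (by positivity)]
    refine Real.log_le_log (by positivity) ?_
    push_cast
    nlinarith
  unfold lg
  linarith

theorem H64LB.const (a : ℕ) : H64LB fun _ => a :=
  ⟨lg a, by linarith [one_le_lg a], fun r => by nlinarith [one_le_lg a, one_le_lg r]⟩

theorem H64LB.id : H64LB fun r => r := ⟨1, zero_le_one, fun r => by rw [one_mul]⟩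

theorem H64LB.add {f g : ℕ → ℕ} (hf : H64LB f) (hg : H64LB g) : H64LB fun r => f r + g r := by
  obtain ⟨C, hC, h⟩ := hf
  obtain ⟨C', hC', h'⟩ := hg
  exact ⟨C + C', by positivity, fun r => by linarith [lg_add_le (f r) (g r), h r, h' r]⟩

theorem H64LB.mul {f g : ℕ → ℕ} (hf : H64LB f) (hg : H64LB g) : H64LB fun r => f r * g r := by
  obtain ⟨C, hC, h⟩ := hf
  obtain ⟨C', hC', h'⟩ := hg
  exact ⟨C + C', by positivity, fun r => by linarith [h64_lg_mul (f r) (g r), h r, h' r]⟩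

theorem H64LB.ceil {f : ℕ → ℕ} (hf : H64LB f) : H64LB fun r => ⌈lg (f r)⌉₊ := by
  obtain ⟨C, hC, h⟩ := hf.add (H64LB.const 1)
  refine ⟨C, hC, fun r => le_trans (lg_mono (Nat.ceil_le.2 ?_)) (h r)⟩
  push_cast
  exact lg_le_self _

namespace Geo

variable {G : Type} [Group G] [MeasurableSpace G] {k : ℕ} (X : Geo G k)

/-- `UL` with small `ε` for both pairs; the linear terms cancel -/
theorem mu_ht (hU : X.UL) (c C : ℕ) (i : X.ι) {δ : ℝ} (hδ : 0 < δ) : ∃ C' : ℝ, 0 ≤ C' ∧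
    ∀ ψ ψ' : G → G, X.QP c ψ ψ' → ∀ (x₀ x₁ y₀ y₁ E t : G) (l N : ℕ), 1 ≤ N →
      X.π x₀ = X.π y₀ → X.π x₁ = X.π y₁ → x₀⁻¹ * x₁ ∈ Ball X.Sg (C * l + C * N) →
      y₀⁻¹ * y₁ ∈ Ball X.Sg (C * l + C * N) → X.π E = 0 → X.χ i (X.π t) ≤ -δ →
      (ψ y₁)⁻¹ * (ψ y₀ * E * t ^ l) ∈ Ball X.Sg C →
      X.χ i (X.π (ψ x₁) - X.π (ψ x₀)) ≤ -(l * δ / 2) + C' * N := by
  obtain ⟨B, hB, hχ⟩ := X.χ_bound
  have hC : (0 : ℝ) ≤ C := C.cast_nonneg
  have hK : (0 : ℝ) ≤ X.K := X.K.cast_nonneg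
  have hB0 : 0 < B := by linarith
  obtain ⟨C₀, hC₀⟩ := hU c (δ / (4 * B * (C + 1))) (by positivity)
  refine ⟨B * (X.K * C) + δ / 2 + 2 * B * |C₀|, by positivity, ?_⟩
  intro ψ ψ' hq x₀ x₁ y₀ y₁ E t l N hN h0 h1 hx hy hE ht hψ
  obtain ⟨w, -, hw⟩ := hC₀ ψ ψ' hq
  have e1 := hw _ _ _ hx
  have e2 := hw _ _ _ hy
  have e3 := X.π_ball hψ
  rw [X.π_hom.inv_mul, X.π_hom, X.π_hom, hE, add_zero, X.π_hom.pow] at e3
  rw [h0, h1] at e1
  have f1 := (le_abs_self _).trans ((hχ i _).trans (mul_le_mul_of_nonneg_left e1 hB0.le))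
  have f2 := (neg_le_abs _).trans ((hχ i _).trans (mul_le_mul_of_nonneg_left e2 hB0.le))
  have f3 := (neg_le_abs _).trans ((hχ i _).trans (mul_le_mul_of_nonneg_left e3 hB0.le))
  simp only [map_sub, map_add, map_smul, smul_eq_mul] at f1 f2 f3 ⊢
  have hl : (0 : ℝ) ≤ l := l.cast_nonneg
  have hN' : (1 : ℝ) ≤ N := by exact_mod_cast hN
  have g1 : B * (δ / (4 * B * (C + 1)) * ((C * l + C * N : ℕ) : ℝ)) ≤ δ / 4 * (l + N) := by
    have g2 : B * (δ / (4 * B * (C + 1)) * ((C * l + C * N : ℕ) : ℝ)) =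
        δ / 4 * (l + N) * (C / (C + 1)) := by
      push_cast
      field_simp
    have g3 : (C : ℝ) / (C + 1) ≤ 1 := by
      rw [div_le_one (by positivity)]
      linarith
    rw [g2]
    exact mul_le_of_le_one_right (by positivity) g3
  have g4 : B * C₀ ≤ B * |C₀| := mul_le_mul_of_nonneg_left (le_abs_self _) hB0.le
  have g5 : (l : ℝ) * X.χ i (X.π t) ≤ l * -δ := mul_le_mul_of_nonneg_left ht hl
  have g6 : B * (X.K * C) + 2 * B * |C₀| ≤ (B * (X.K * C) + 2 * B * |C₀|) * N :=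
    le_mul_of_one_le_right (by positivity) hN'
  rw [mul_add] at f1 f2
  nlinarith

/-- `UL` with small `ε` -/
theorem mu_ht0 (hU : X.UL) (c C : ℕ) (i : X.ι) {δ : ℝ} (hδ : 0 < δ) : ∃ C' : ℝ, 0 ≤ C' ∧
    ∀ ψ ψ' : G → G, X.QP c ψ ψ' → ∀ (x₀ y₀ : G) (T : ℕ), X.π x₀ = X.π y₀ →
      y₀⁻¹ * x₀ ∈ Ball X.Sg (C * T) → -(T * δ) - C' ≤ X.χ i (X.π (ψ x₀) - X.π (ψ y₀)) := by
  obtain ⟨B, hB, hχ⟩ := X.χ_bound
  have hC : (0 : ℝ) ≤ C := C.cast_nonneg
  have hB0 : 0 < B := by linarith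
  obtain ⟨C₀, hC₀⟩ := hU c (δ / (B * (C + 1))) (by positivity)
  refine ⟨B * |C₀|, by positivity, ?_⟩
  intro ψ ψ' hq x₀ y₀ T h0 hx
  obtain ⟨w, -, hw⟩ := hC₀ ψ ψ' hq
  have e1 := hw _ _ _ hx
  rw [h0, sub_self, map_zero, sub_zero] at e1
  have f1 := (neg_le_abs _).trans ((hχ i _).trans (mul_le_mul_of_nonneg_left e1 hB0.le))
  have hT : (0 : ℝ) ≤ T := T.cast_nonneg
  have g1 : B * (δ / (B * (C + 1)) * ((C * T : ℕ) : ℝ)) ≤ T * δ := by
    have g2 : B * (δ / (B * (C + 1)) * ((C * T : ℕ) : ℝ)) = T * δ * (C / (C + 1)) := by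
      push_cast
      field_simp
    have g3 : (C : ℝ) / (C + 1) ≤ 1 := by
      rw [div_le_one (by positivity)]
      linarith
    rw [g2]
    exact mul_le_of_le_one_right (by positivity) g3
  have g4 : B * C₀ ≤ B * |C₀| := mul_le_mul_of_nonneg_left (le_abs_self _) hB0.le
  rw [mul_add] at f1
  linarith

set_option maxHeartbeats 1000000 in
/-- `t` from `mu_dir`, `δ = -χ i (π t)`, `T = M * (r + 1)` with `M * δ / 2 ≥ L * K * c * K`,
`N = ⌈lg (r + T)⌉₊`, `cT = t ^ T`; `mu_pull`, `mu_ht`, `mu_ht0`; join the points `ψ (x l)` by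
`mu_reach_half` and `Reach.chain`, then jump from `ψ (x T) = ψ (y T * q)` to the end point -/
theorem mu_line (hU : X.UL) (c : ℕ) (i : X.ι) : ∃ C : ℝ, 0 ≤ C ∧ ∀ r : ℕ, ∃ (cT : G) (m : ℕ),
    lg m ≤ C * lg r ∧ cT ∈ Ball (X.SC : Set G) m ∧ ∀ ψ ψ' : G → G, X.QP c ψ ψ' →
      ∀ z q E : G, q ∈ Ball (X.SC : Set G) r → X.π q = 0 → E ∈ X.RB i 0 →
        ∃ g ∈ Ball (X.SC : Set G) m, (ψ z)⁻¹ * ψ (z * (g * q * g⁻¹)) ∈ Ball X.Sg m ∧
          X.χ i (X.π cT) ≤ X.χ i (X.π (ψ (z * (g * q * g⁻¹))) - X.π (ψ z)) + C * lg r ∧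
          Reach X.Sg {w | X.χ i (X.π w - X.π (ψ (z * (g * q * g⁻¹)))) ≤ C * lg r}
            (ψ (z * (g * q * g⁻¹))) m (ψ z * E * cT) := by
  obtain ⟨t, ht, hneg⟩ := X.mu_dir i
  obtain ⟨L, hL1, hL⟩ := X.χ_bound
  obtain ⟨δ, hδ⟩ : ∃ δ, δ = -X.χ i (X.π t) := ⟨_, rfl⟩
  have hδ0 : 0 < δ := by linarith
  obtain ⟨C₀, hpull⟩ := X.mu_pull c
  obtain ⟨C₁, hC₁, hht⟩ := X.mu_ht hU c C₀ i hδ0
  obtain ⟨C₂, hC₂, hht0⟩ := X.mu_ht0 hU c (X.K * (2 * C₀ + 1)) i hδ0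
  obtain ⟨M, hM⟩ := exists_nat_ge (2 * (L * (X.K * (c * X.K))) / δ)
  rw [div_le_iff₀ hδ0] at hM
  have bT : H64LB fun r => (M + 1) * (r + 1) := (H64LB.const _).mul (H64LB.id.add (H64LB.const 1))
  have bN := (H64LB.id.add bT).ceil
  obtain ⟨C₃, hC₃, hlgT⟩ := H64LB.id.add bT
  obtain ⟨C₄, hC₄, hlgm⟩ :=
    ((((((H64LB.const c).mul (((H64LB.const C₀).mul (H64LB.const 1)).add
      ((H64LB.const C₀).mul bN))).add (H64LB.const c)).mul bT).add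
      ((((H64LB.const c).mul ((H64LB.const X.K).mul H64LB.id)).add (H64LB.const c)).add
        (H64LB.const C₀))).add
      ((((H64LB.const c).mul ((H64LB.const (X.K * (2 * C₀ + 1))).mul bT)).add
        (H64LB.const c)).add (((H64LB.const C₀).mul bT).add bT)))
  obtain ⟨D, hD⟩ : ∃ D : ℝ, D = C₁ + L * (X.K * (2 * c * C₀ + c)) + L * (X.K * (c + C₀)) :=
    ⟨_, rfl⟩
  have hL0 : 0 ≤ L := by linarith
  have hD0 : 0 ≤ D := by rw [hD]; positivity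
  refine ⟨C₄ + D * (C₃ + 1) + C₂, by positivity, fun r => ?_⟩
  have hlgT := hlgT r
  have hlgm := hlgm r
  obtain ⟨T, hT⟩ : ∃ T, T = (M + 1) * (r + 1) := ⟨_, rfl⟩
  simp only [← hT] at hlgT hlgm
  obtain ⟨N, hN⟩ : ∃ N, N = ⌈lg (r + T)⌉₊ := ⟨_, rfl⟩
  simp only [← hN] at hlgm
  have hr1 := one_le_lg r
  have hN1 : lg (r + T) ≤ N := hN ▸ Nat.le_ceil _
  have hN2 : (N : ℝ) ≤ (C₃ + 1) * lg r := by
    have := Nat.ceil_lt_add_one (a := lg (r + T)) (by linarith [one_le_lg (r + T)])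
    rw [← hN] at this
    linarith
  have hN3 : (1 : ℝ) ≤ N := (one_le_lg _).trans hN1
  have hN4 : 1 ≤ N := by exact_mod_cast hN3
  have hrT : r ≤ T := by rw [hT]; nlinarith
  have hs : D * N ≤ (C₄ + D * (C₃ + 1) + C₂) * lg r := by
    nlinarith [mul_le_mul_of_nonneg_left hN2 hD0, mul_nonneg hC₄ (le_trans zero_le_one hr1),
      mul_nonneg hC₂ (le_trans zero_le_one hr1)]
  refine ⟨t ^ T, _, hlgm.trans ?_, ?_, fun ψ ψ' hψ z q E hq hq0 hE => ?_⟩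
  · have : 0 ≤ (D * (C₃ + 1) + C₂) * lg r := by positivity
    linarith
  · exact Ball.mono le_rfl (by omega) (Ball.pow_mem ht T)
  have hEb : E ∈ Ball X.Sg X.K := by
    have := X.RB_ball i 0 (by simpa using hE)
    simpa using this
  obtain ⟨x, y, g, hg, hy0, hx0, hxT, hπ, hcl, hd⟩ := hpull t ht T r N hN1 ψ ψ' hψ z q E hq hq0 hEb
  have hzx : (y 0)⁻¹ * x 0 ∈ Ball X.Sg (X.K * (2 * C₀ + 1) * T) := by
    rw [hy0, hx0, inv_mul_cancel_left]
    refine Ball.mono le_rfl ?_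
      (X.flat_ball (Ball.mul_mem (Ball.mul_mem hg hq) (Ball.inv_mem hg)))
    rw [mul_assoc]
    exact Nat.mul_le_mul_left _ (by nlinarith)
  have hH : ∀ l ≤ T, X.χ i (X.π (ψ (x l)) - X.π (ψ (x 0))) ≤ -(l * δ / 2) + C₁ * N := by
    intro l hl
    have h1 := hd 0 l (by omega)
    rw [zero_add] at h1
    exact hht ψ ψ' hψ (x 0) (x l) (y 0) (y l) E t l N hN4 (hπ 0) (hπ l) h1.1 h1.2 (X.RB_π hE)
      (by linarith) (hy0 ▸ hcl l)
  refine ⟨g, Ball.mono le_rfl (by omega) hg, ?_, ?_, ?_⟩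
  · rw [← hx0, ← hy0]
    exact Ball.mono le_rfl (by omega) (hψ.qi.up _ _ _ hzx)
  · have h1 := hht0 ψ ψ' hψ (x 0) (y 0) T (hπ 0) hzx
    rw [← hx0, ← hy0, X.π_hom.pow, map_smul, smul_eq_mul]
    have h2 : (T : ℝ) * X.χ i (X.π t) = -(T * δ) := by rw [hδ]; ring
    have h3 : 0 ≤ (C₄ + D * (C₃ + 1)) * lg r := by positivity
    nlinarith
  · rw [← hx0]
    have hK0 : (0 : ℝ) ≤ X.K := Nat.cast_nonneg _
    have hc0 : (0 : ℝ) ≤ c := Nat.cast_nonneg _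
    have hC0 : (0 : ℝ) ≤ C₀ := Nat.cast_nonneg _
    have h1 := Reach.chain (T := X.Sg)
      (A := {w | X.χ i (X.π w - X.π (ψ (x 0))) ≤ (C₄ + D * (C₃ + 1) + C₂) * lg r})
      (fun l => ψ (x l)) (c * (C₀ * 1 + C₀ * N) + c) T
      (by simp only [Set.mem_ofPred_eq, sub_self, map_zero]; positivity) fun l hl => by
        refine X.mu_reach_half hL hL0 i _ (hψ.qi.up _ _ _ (hd l 1 (by omega)).1) ?_
        refine le_trans ?_ hs
        have h2 := hH l hl.le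
        have h3 : 0 ≤ (l : ℝ) * δ / 2 := by positivity
        have h4 : ((c * (C₀ * 1 + C₀ * N) + c : ℕ) : ℝ) ≤ (2 * c * C₀ + c) * N := by
          push_cast
          nlinarith [mul_nonneg (mul_nonneg hc0 hC0) (sub_nonneg.2 hN3),
            mul_nonneg hc0 (sub_nonneg.2 hN3)]
        have h5 := mul_le_mul_of_nonneg_left (mul_le_mul_of_nonneg_left h4 hK0) hL0
        have h6 : 0 ≤ L * (X.K * (c + C₀)) * N := by positivity
        rw [hD]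
        linarith
    have h2 : (ψ (x T))⁻¹ * (ψ z * E * t ^ T) ∈ Ball X.Sg (c * (X.K * r) + c + C₀) := by
      have h3 : (x T)⁻¹ * y T ∈ Ball X.Sg (X.K * r) := by
        rw [hxT, mul_inv_rev, inv_mul_cancel_right]
        exact Ball.inv_mem (X.flat_ball hq)
      have := Ball.mul_mem (hψ.qi.up _ _ _ h3) (hcl T)
      rwa [mul_assoc, mul_inv_cancel_left] at this
    refine (h1.trans (X.mu_reach_half hL hL0 i _ h2 ?_)).of_le (by omega)
    refine le_trans ?_ hs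
    have h3 := hH T le_rfl
    have h4 : L * (X.K * (c * X.K)) * r ≤ T * δ / 2 := by
      have h5 : (T : ℝ) = (M + 1) * (r + 1) := by rw [hT]; push_cast; ring
      have h6 : (0 : ℝ) ≤ r := Nat.cast_nonneg _
      have h7 : (0 : ℝ) ≤ M := Nat.cast_nonneg _
      rw [h5]
      nlinarith [mul_le_mul_of_nonneg_right hM h6, mul_nonneg h7 hδ0.le, mul_nonneg h6 hδ0.le]
    have h5 : L * (X.K * (c + C₀)) * 1 ≤ L * (X.K * (c + C₀)) * N :=
      mul_le_mul_of_nonneg_left hN3 (by positivity)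
    have h6 : 0 ≤ L * (X.K * (2 * c * C₀ + c)) * N := by positivity
    rw [hD]
    push_cast
    linarith

end Geo

end Crest.Agent.R182
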