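import Crest.Agent.R182.MULine

/-! Row 182, block M5: the neutral lemma and `UL → US`. -/

set_option autoImplicit false
set_option linter.dupNamespace false

namespace Crest.Agent.R182

open Crest.GroupTheory

namespace Geo

variable {G : Type} [Group G] [MeasurableSpace G] {k : ℕ} (X : Geo G k)

/-- `mu_half` with the last factor in the ball of radius one -/
theorem h74_half : ∃ K' : ℕ, ∀ (i : X.ι) (s : ℝ) (x y : G) (m : ℕ),
    Reach X.Sg {z | X.χ i (X.π z - X.π x) ≤ s} x m y →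
      ∃ a, Adm X.χ a ∧ 0 ≤ a i ∧ a i ≤ s + K' * lg m ∧ ∃ e ∈ X.Box a,
        ∃ c ∈ Ball (X.SC : Set G) (K' * m), ∃ b ∈ Ball X.Sg 1, x⁻¹ * y = e * c * b := by
  obtain ⟨K₁, -, H⟩ := X.sl
  refine ⟨K₁, fun i s x y m ⟨p, p0, p1, p2, p3⟩ => ?_⟩
  set S : Set (Fin k → ℝ) := (fun j => X.π (p j) - X.π x) '' Set.Iic m with hS
  have hf : S.Finite := (Set.finite_Iic m).image _
  have h0 : (0 : Fin k → ℝ) ∈ S := ⟨0, Nat.zero_le m, by simp [p0]⟩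
  have hl : (0 : ℝ) ≤ K₁ * lg m := by have := one_le_lg m; positivity
  obtain ⟨e, he, c, hc, b, hb, hxy, -⟩ := H (lev X.χ S) x y m
    ⟨p, p0, p1, p2, fun j hj i' => le_lev hf ⟨j, hj, rfl⟩ i'⟩
  refine ⟨_, X.adm_add_const (Adm.lev hf ⟨0, h0⟩) hl, ?_, ?_, e, he, c, hc, b, hb, hxy⟩
  · have := le_lev (χ := X.χ) hf h0 i
    rw [map_zero] at this
    exact add_nonneg this hl
  · have : lev X.χ S i ≤ s := lev_le ⟨0, h0⟩ (by rintro _ ⟨j, hj, rfl⟩; exact p3 j hj)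
    exact add_le_add this le_rfl

/-- `mu_line` for `E (s / N)`, `s = 0, …, N`, `N` the size of the flat ball of radius `2 m + r`;
two values of `s` give the same conjugate `g * q * g⁻¹`; `mu_half`, `abel` -/
theorem mu_neu_step (hN : NilGrow G) (hU : X.UL) (c : ℕ) (i : X.ι) : ∃ C : ℝ, 0 ≤ C ∧
    ∀ r : ℕ, ∃ m : ℕ, lg m ≤ C * lg r ∧ ∀ ψ ψ' : G → G, X.QP c ψ ψ' →
      ∀ z q : G, q ∈ Ball (X.SC : Set G) r → X.π q = 0 → ∃ g ∈ Ball (X.SC : Set G) m,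
        -(C * lg r) ≤ X.χ i (X.π (ψ (z * (g * q * g⁻¹))) - X.π (ψ z)) := by
  classical
  obtain ⟨C₀, hC₀, hline⟩ := X.mu_line hU c i
  obtain ⟨E, κ, hκ, hE, habel⟩ := X.abel i
  obtain ⟨K', hhalf⟩ := X.h74_half
  obtain ⟨A, d, hA⟩ := hN X.SC X.nil
  obtain ⟨C₁, hC₁, h₁⟩ := lg_le_of_poly (K' + 1) 1
  obtain ⟨C₂, hC₂, h₂⟩ := lg_le_of_poly A d
  have hK' : (0 : ℝ) ≤ K' := K'.cast_nonneg
  have hK : (0 : ℝ) ≤ X.K := X.K.cast_nonneg
  have hB : 0 ≤ (X.K * (C₁ * C₀) + C₂ * (2 * C₀ + 1)) / κ := by positivity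
  refine ⟨C₀ + K' * C₀ + (X.K * (C₁ * C₀) + C₂ * (2 * C₀ + 1)) / κ, by positivity, fun r => ?_⟩
  obtain ⟨cT, m, hm, hcT, H⟩ := hline r
  have hlr := one_le_lg r
  have hlm := one_le_lg m
  refine ⟨m, hm.trans (mul_le_mul_of_nonneg_right (by nlinarith [mul_nonneg hK' hC₀]) (by linarith)),
    fun ψ ψ' hψ z q hq hq0 => ?_⟩
  have hfin : (Ball (X.SC : Set G) (2 * m + r)).Finite := Ball.finite X.SC.finite_toSet _
  set N : ℕ := (Ball (X.SC : Set G) (2 * m + r)).ncard with hNdef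
  have hN1 : 1 ≤ N := (Set.ncard_pos hfin).2 ⟨1, Ball.one_mem _ _⟩
  have hN0 : (0 : ℝ) < N := by exact_mod_cast hN1
  have hτ : ∀ s : Fin (N + 1), |((s : ℕ) : ℝ) / N| ≤ 1 := by
    intro s
    rw [abs_of_nonneg (by positivity), div_le_one hN0]
    exact_mod_cast Nat.lt_succ_iff.1 s.2
  choose g hg hg1 hg2 hg3 using fun s : Fin (N + 1) =>
    H ψ ψ' hψ z q (E (((s : ℕ) : ℝ) / N)) hq hq0 (hE _ (hτ s))
  have hmem : ∀ s, g s * q * (g s)⁻¹ ∈ hfin.toFinset := by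
    intro s
    rw [Set.Finite.mem_toFinset]
    have := Ball.mul_mem (Ball.mul_mem (hg s) hq) (Ball.inv_mem (hg s))
    rwa [show m + r + m = 2 * m + r by ring] at this
  obtain ⟨s, -, s', -, hne, heq⟩ := Finset.exists_ne_map_eq_of_card_lt_of_maps_to
    (s := (Finset.univ : Finset (Fin (N + 1)))) (t := hfin.toFinset)
    (f := fun s => g s * q * (g s)⁻¹)
    (by rw [Finset.card_univ, Fintype.card_fin, ← Set.ncard_eq_toFinset_card _ hfin]; omega)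
    (fun s _ => hmem s)
  refine ⟨g s, hg s, ?_⟩
  have heq' : g s' * q * (g s')⁻¹ = g s * q * (g s)⁻¹ := heq.symm
  set x : G := ψ (z * (g s * q * (g s)⁻¹)) with hx
  set Δ : ℝ := X.χ i (X.π x - X.π (ψ z)) with hΔ
  have hπ : X.π ((ψ z)⁻¹ * x) = X.π x - X.π (ψ z) := X.π_hom.inv_mul _ _
  have key : ∀ τ : ℝ, Reach X.Sg {w | X.χ i (X.π w - X.π x) ≤ C₀ * lg r} x m (ψ z * E τ * cT) →
      ∃ c ∈ Ball (X.SC : Set G) (K' * m + m), X.χ i (X.π c) ≤ -(-(Δ + C₀ * lg r + K' * lg m)) ∧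
        ∃ a', Adm X.χ a' ∧ 0 ≤ a' i ∧
          a' i + X.χ i (X.π ((ψ z)⁻¹ * x)) ≤ -(-(Δ + C₀ * lg r + K' * lg m)) ∧
          ∃ e' ∈ X.Box a', ∃ c' ∈ Ball (X.SC : Set G) (K' * m + m),
            ∃ b' ∈ Ball X.Sg 1, E τ * c = (ψ z)⁻¹ * x * e' * c' * b' := by
    intro τ hR
    obtain ⟨a, ha, ha0, ha1, e, he, c', hc', b, hb, hxy⟩ := hhalf i _ _ _ _ hR
    refine ⟨cT, Ball.mono subset_rfl (by omega) hcT, ?_, a, ha, ha0, ?_, e, he, c',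
      Ball.mono subset_rfl (by omega) hc', b, hb, ?_⟩
    · have := hg2 s
      have h0 : (0 : ℝ) ≤ K' * lg m := by positivity
      linarith
    · rw [hπ]; linarith
    · calc E τ * cT = (ψ z)⁻¹ * x * (x⁻¹ * (ψ z * E τ * cT)) := by group
        _ = _ := by rw [hxy]; group
  have hab := habel (K' * m + m) (-(Δ + C₀ * lg r + K' * lg m)) ((ψ z)⁻¹ * x)
    ![((s : ℕ) : ℝ) / N, ((s' : ℕ) : ℝ) / N] (Ball.mono subset_rfl (by omega) (hg1 s)) (by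
      intro l
      fin_cases l
      · exact key _ (hg3 s)
      · have := hg3 s'
        rw [heq'] at this
        exact key _ this)
  have hsep : 1 / (N : ℝ) ≤ |((s : ℕ) : ℝ) / N - ((s' : ℕ) : ℝ) / N| := by
    rw [← sub_div, abs_div, abs_of_pos hN0]
    refine div_le_div_of_nonneg_right ?_ hN0.le
    have hne' : ((s : ℕ) : ℤ) - ((s' : ℕ) : ℤ) ≠ 0 := by
      intro h
      exact hne (Fin.ext (by omega))
    have := Int.one_le_abs hne'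
    exact_mod_cast this
  have hlog : -Real.log N ≤ -(κ * -(Δ + C₀ * lg r + K' * lg m)) + X.K * lg (K' * m + m) := by
    have h := hsep.trans hab
    have h' := Real.log_le_log (by positivity) h
    rwa [Real.log_exp, one_div, Real.log_inv] at h'
  have b1 : lg (K' * m + m) ≤ C₁ * (C₀ * lg r) :=
    (h₁ _ m (by rw [pow_one]; nlinarith)).trans (mul_le_mul_of_nonneg_left hm hC₁)
  have b2 : Real.log N ≤ C₂ * ((2 * C₀ + 1) * lg r) := by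
    have e1 : Real.log N ≤ lg N := by
      have : Real.log N ≤ Real.log (1 + N) := Real.log_le_log hN0 (by linarith)
      unfold lg; linarith
    have e2 : lg (2 * m + r) ≤ (2 * C₀ + 1) * lg r := by
      have f1 := lg_add_le (m + m) r
      have f2 := lg_add_le m m
      rw [two_mul]
      linarith
    exact e1.trans ((h₂ _ _ (hA _)).trans (mul_le_mul_of_nonneg_left e2 hC₂))
  have b3 : K' * lg m ≤ K' * (C₀ * lg r) := mul_le_mul_of_nonneg_left hm hK'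
  have b4 : X.K * lg (K' * m + m) ≤ X.K * (C₁ * (C₀ * lg r)) := mul_le_mul_of_nonneg_left b1 hK
  have b5 : -(Δ + C₀ * lg r + K' * lg m) ≤
      (X.K * (C₁ * C₀) + C₂ * (2 * C₀ + 1)) / κ * lg r := by
    rw [div_mul_eq_mul_div, le_div_iff₀ hκ]
    nlinarith
  nlinarith

/-- induction on `j`: `z * (g * q * g⁻¹) = (z * q) * (q⁻¹ * g * q * g⁻¹)`; `norm_le_of_χ` -/
theorem mu_neu (hN : NilGrow G) (hU : X.UL) (c j : ℕ) : ∃ C : ℝ, 0 ≤ C ∧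
    ∀ ψ ψ' : G → G, X.QP c ψ ψ' → ∀ (z q : G) (r : ℕ),
      Zc (Subgroup.closure (X.SC : Set G)) j q → q ∈ Ball (X.SC : Set G) r → X.π q = 0 →
        ‖X.π (ψ (z * q)) - X.π (ψ z)‖ ≤ C * lg r := by
  induction j with
  | zero =>
    refine ⟨0, le_rfl, fun ψ ψ' _ z q r hq _ _ => ?_⟩
    have hq1 : q = 1 := hq
    subst hq1
    simp
  | succ j ih =>
    obtain ⟨Cj, hCj, hj⟩ := ih
    choose C hC hstep using fun i => X.mu_neu_step hN hU c i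
    obtain ⟨B, hB, hnorm⟩ := X.norm_le_of_χ
    obtain ⟨L, hL, hχ⟩ := X.χ_bound
    set S : ℝ := ∑ i, C i with hS
    have hS0 : 0 ≤ S := Finset.sum_nonneg fun i _ => hC i
    have hCS : ∀ i, C i ≤ S := fun i =>
      Finset.single_le_sum (f := C) (fun i _ => hC i) (Finset.mem_univ i)
    refine ⟨B * (S + L * (Cj * (2 + 2 * S))), by positivity, fun ψ ψ' hψ z q r hq hr hπ => ?_⟩
    have hlr : 0 ≤ lg r := zero_le_one.trans (one_le_lg r)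
    rw [mul_assoc]
    refine hnorm _ _ (by positivity) fun i => ?_
    obtain ⟨m, hm, hm'⟩ := hstep i r
    obtain ⟨g, hg, hlow⟩ := hm' ψ ψ' hψ z q hr hπ
    have hZ : Zc (Subgroup.closure (X.SC : Set G)) j (q⁻¹ * g * q * g⁻¹) :=
      hq g (Ball.mem_closure hg)
    have hB' : q⁻¹ * g * q * g⁻¹ ∈ Ball (X.SC : Set G) (r + m + r + m) :=
      Ball.mul_mem (Ball.mul_mem (Ball.mul_mem (Ball.inv_mem hr) hg) hr) (Ball.inv_mem hg)
    have hπ' : X.π (q⁻¹ * g * q * g⁻¹) = 0 := by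
      rw [X.π_hom, X.π_hom, X.π_hom, X.π_hom.inv, X.π_hom.inv, hπ]; abel
    have h1 := hj ψ ψ' hψ (z * q) _ _ hZ hB' hπ'
    have he : z * q * (q⁻¹ * g * q * g⁻¹) = z * (g * q * g⁻¹) := by group
    rw [he] at h1
    have h2 : lg (r + m + r + m) ≤ (2 + 2 * S) * lg r := by
      have a1 := lg_add_le (r + m + r) m
      have a2 := lg_add_le (r + m) r
      have a3 := lg_add_le r m
      have a4 : C i * lg r ≤ S * lg r := mul_le_mul_of_nonneg_right (hCS i) hlr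
      linarith
    have h3 : ‖X.π (ψ (z * (g * q * g⁻¹))) - X.π (ψ (z * q))‖ ≤ Cj * ((2 + 2 * S) * lg r) :=
      h1.trans (mul_le_mul_of_nonneg_left h2 hCj)
    have h4 := (abs_le.1 (hχ i (X.π (ψ (z * (g * q * g⁻¹))) - X.π (ψ (z * q))))).2
    have h5 : L * ‖X.π (ψ (z * (g * q * g⁻¹))) - X.π (ψ (z * q))‖ ≤
        L * (Cj * ((2 + 2 * S) * lg r)) := mul_le_mul_of_nonneg_left h3 (zero_le_one.trans hL)
    have h6 : X.χ i (X.π (ψ (z * q)) - X.π (ψ z)) =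
        X.χ i (X.π (ψ (z * (g * q * g⁻¹))) - X.π (ψ z)) -
          X.χ i (X.π (ψ (z * (g * q * g⁻¹))) - X.π (ψ (z * q))) := by
      rw [← map_sub]; congr 1; abel
    have a4 : C i * lg r ≤ S * lg r := mul_le_mul_of_nonneg_right (hCS i) hlr
    rw [h6]
    nlinarith

/-- `sl` with the constant level `B * ρ`, `box_ball`, `flat_lift` (the height of `c` is at most
`min (ρ + K₁) (K * K * K₁ * n)`) -/
theorem mu_slab : ∃ C : ℕ, ∀ (x y : G) (n : ℕ) (ρ : ℝ), Reach X.Sg (Slab X.π x ρ) x n y →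
    ∃ (e q d : G) (n₁ n₂ : ℕ), x⁻¹ * y = e * q * d ∧ X.π e = 0 ∧ e ∈ Ball X.Sg n₁ ∧
      (n₁ : ℝ) ≤ C * (ρ + lg n) ∧ q ∈ Ball (X.SC : Set G) (C * n + C) ∧ X.π q = 0 ∧
      d ∈ Ball X.Sg n₂ ∧ (n₂ : ℝ) ≤ C * (ρ + 1) := by
  obtain ⟨K₁, hK₁, hsl⟩ := X.sl
  obtain ⟨B, hB1, hB⟩ := X.χ_bound
  obtain ⟨K₂, hK₂⟩ := X.flat_lift
  refine ⟨⌈X.K * B⌉₊ + X.K * K₁ + 2 * X.K + K₁ + K₂ * (X.K * (X.K * K₁)) +
    X.K * K₂ * (K₁ + 1) + 1, fun x y n ρ h => ?_⟩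
  set C : ℕ := ⌈X.K * B⌉₊ + X.K * K₁ + 2 * X.K + K₁ + K₂ * (X.K * (X.K * K₁)) +
    X.K * K₂ * (K₁ + 1) + 1 with hC
  obtain ⟨p, hp0, hpn, hstep, hin⟩ := h
  have hρ : 0 ≤ ρ := (norm_nonneg _).trans (hin 0 (Nat.zero_le _))
  have hy : ‖X.π y - X.π x‖ ≤ ρ := hpn ▸ hin n le_rfl
  have hB0 : 0 ≤ B := by linarith
  obtain ⟨e, he, c, hc, b, hb, hxy, hπc⟩ := hsl (fun _ => B * ρ) x y n
    ⟨p, hp0, hpn, hstep, fun i hi j => (le_abs_self _).trans ((hB j _).trans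
      (mul_le_mul_of_nonneg_left (hin i hi) hB0))⟩
  have hl := one_le_lg n
  have hK0 : (0 : ℝ) ≤ X.K := Nat.cast_nonneg _
  have hK10 : (0 : ℝ) ≤ K₁ := Nat.cast_nonneg _
  have hK20 : (0 : ℝ) ≤ K₂ := Nat.cast_nonneg _
  have hr0 : 0 ≤ B * ρ + K₁ * lg n := by positivity
  have he' : e ∈ Ball X.Sg (X.K * ⌈B * ρ + K₁ * lg n⌉₊ + X.K) :=
    X.box_ball _ (X.box_mono _ _ (fun _ => Nat.le_ceil _) he)
  have hc1 : ‖X.π c‖ ≤ ρ + K₁ := by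
    have := norm_add_le (X.π c - (X.π y - X.π x)) (X.π y - X.π x)
    rw [sub_add_cancel] at this
    linarith
  have hc2 : ‖X.π c‖ ≤ (X.K * (X.K * (K₁ * n)) : ℕ) := by
    have := X.π_ball (X.flat_ball hc)
    push_cast at this ⊢
    exact this
  obtain ⟨c', hc', hπ'⟩ := hK₂ c (min ⌈ρ + K₁⌉₊ (X.K * (X.K * (K₁ * n)))) (by
    rw [Nat.cast_min]
    exact le_min (hc1.trans (Nat.le_ceil _)) hc2)
  have hKB : (X.K : ℝ) * B ≤ ⌈X.K * B⌉₊ := Nat.le_ceil _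
  have hC1 : (X.K : ℝ) * B ≤ C := by
    rw [hC]; push_cast
    have : (0 : ℝ) ≤ X.K * K₁ + 2 * X.K + K₁ + K₂ * (X.K * (X.K * K₁)) +
      X.K * K₂ * (K₁ + 1) + 1 := by positivity
    linarith
  have hC2 : (X.K : ℝ) * K₁ + 2 * X.K ≤ C := by
    rw [hC]; push_cast
    have : (0 : ℝ) ≤ (⌈X.K * B⌉₊ : ℝ) + K₁ + K₂ * (X.K * (X.K * K₁)) +
      X.K * K₂ * (K₁ + 1) + 1 := by positivity
    linarith
  have hC3 : (X.K : ℝ) * K₂ * (K₁ + 1) + 1 ≤ C := by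
    rw [hC]; push_cast
    have : (0 : ℝ) ≤ (⌈X.K * B⌉₊ : ℝ) + X.K * K₁ + 2 * X.K + K₁ + K₂ * (X.K * (X.K * K₁)) := by
      positivity
    linarith
  have hC4 : K₁ + K₂ * (X.K * (X.K * K₁)) ≤ C := by rw [hC]; omega
  refine ⟨e, c * c'⁻¹, c' * b, _, _, by rw [hxy]; group, X.box_π _ _ he, he', ?_, ?_, ?_,
    Ball.mul_mem (X.flat_ball hc') hb, ?_⟩
  · have h1 := (Nat.ceil_lt_add_one hr0).le
    push_cast
    have h2 : (X.K : ℝ) * ⌈B * ρ + K₁ * lg n⌉₊ ≤ X.K * (B * ρ + K₁ * lg n + 1) :=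
      mul_le_mul_of_nonneg_left h1 hK0
    have h3 : (X.K : ℝ) * B * ρ ≤ C * ρ := mul_le_mul_of_nonneg_right hC1 hρ
    have h4 : ((X.K : ℝ) * K₁ + 2 * X.K) * lg n ≤ C * lg n :=
      mul_le_mul_of_nonneg_right hC2 (by linarith)
    have h5 : (X.K : ℝ) * 1 ≤ X.K * lg n := mul_le_mul_of_nonneg_left hl hK0
    nlinarith
  · refine Ball.mono subset_rfl ?_ (Ball.mul_mem hc (Ball.inv_mem hc'))
    have h1 : K₂ * min ⌈ρ + K₁⌉₊ (X.K * (X.K * (K₁ * n))) ≤ K₂ * (X.K * (X.K * (K₁ * n))) :=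
      Nat.mul_le_mul_left _ (min_le_right _ _)
    have h2 : (K₁ + K₂ * (X.K * (X.K * K₁))) * n ≤ C * n := Nat.mul_le_mul_right _ hC4
    have h3 : (K₁ + K₂ * (X.K * (X.K * K₁))) * n = K₁ * n + K₂ * (X.K * (X.K * (K₁ * n))) := by
      ring
    omega
  · rw [X.π_hom, X.π_hom.inv, hπ', add_neg_cancel]
  · have h1 : ((min ⌈ρ + K₁⌉₊ (X.K * (X.K * (K₁ * n))) : ℕ) : ℝ) ≤ ρ + K₁ + 1 :=
      (Nat.cast_le.2 (min_le_left _ _)).trans (Nat.ceil_lt_add_one (by positivity)).le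
    have h2 : (X.K : ℝ) * K₂ * ((min ⌈ρ + K₁⌉₊ (X.K * (X.K * (K₁ * n))) : ℕ) : ℝ) ≤
        X.K * K₂ * (ρ + K₁ + 1) := mul_le_mul_of_nonneg_left h1 (by positivity)
    have h3 : ((X.K : ℝ) * K₂ * (K₁ + 1) + 1) * (ρ + 1) ≤ C * (ρ + 1) :=
      mul_le_mul_of_nonneg_right hC3 (by linarith)
    have h4 : 0 ≤ (X.K : ℝ) * K₂ * K₁ * ρ := by positivity
    rw [Nat.cast_add, Nat.cast_mul, Nat.cast_mul, Nat.cast_one]
    nlinarith

/-- block M5 -/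
theorem us_of (hN : NilGrow G) (hU : X.UL) : X.US := by
  intro c ε hε
  obtain ⟨C₁, h₁⟩ := X.mu_slab
  obtain ⟨s, hs⟩ := zc_of_nil _ X.nil
  obtain ⟨C₂, hC₂, h₂⟩ := X.mu_neu hN hU c s
  have hC₁ : (0 : ℝ) ≤ C₁ := C₁.cast_nonneg
  obtain ⟨δ, hδ, hδε⟩ : ∃ δ : ℝ, 0 < δ ∧ 2 * (δ * C₁) ≤ ε := by
    refine ⟨ε / (2 * C₁ + 1), by positivity, ?_⟩
    rw [div_mul_eq_mul_div, ← mul_div_assoc, div_le_iff₀ (by positivity)]
    nlinarith
  obtain ⟨C₃, h₃⟩ := hU c δ hδ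
  refine ⟨2 * (δ * C₁) + 2 * |C₃| + C₂ * lg C₁, fun ψ ψ' hψ => ?_⟩
  obtain ⟨w, hw, h₃⟩ := h₃ ψ ψ' hψ
  refine ⟨w, hw, fun x y n ρ hxy => ?_⟩
  obtain ⟨e, q, d, n₁, n₂, hdec, he, he', hn₁, hq, hq0, hd, hn₂⟩ := h₁ x y n ρ hxy
  have t1 := h₃ x (x * e) n₁ (by rwa [inv_mul_cancel_left])
  have t2 := h₂ ψ ψ' hψ (x * e) q _ (hs q (Ball.mem_closure hq)) hq hq0
  have t3 := h₃ (x * e * q) y n₂ (by
    rwa [show (x * e * q)⁻¹ * y = (e * q)⁻¹ * (x⁻¹ * y) by group, hdec, inv_mul_cancel_left])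
  rw [X.π_hom x e, he, add_zero, sub_self, map_zero, sub_zero] at t1
  rw [X.π_hom (x * e) q, X.π_hom x e, he, hq0, add_zero, add_zero] at t3
  have e1 : X.π (ψ y) - X.π (ψ x) - w (X.π y - X.π x) =
      (X.π (ψ (x * e)) - X.π (ψ x)) + (X.π (ψ (x * e * q)) - X.π (ψ (x * e))) +
        (X.π (ψ y) - X.π (ψ (x * e * q)) - w (X.π y - X.π x)) := by abel
  rw [e1]
  refine (norm_add₃_le).trans ?_
  have hρ := hxy.nonneg
  have hl := one_le_lg n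
  have a1 := mul_le_mul_of_nonneg_left hn₁ hδ.le
  have a2 := mul_le_mul_of_nonneg_left hn₂ hδ.le
  have a3 := mul_le_mul_of_nonneg_left (lg_mul_le C₁ n) hC₂
  have a4 := mul_le_mul_of_nonneg_right hδε hρ
  have a5 := le_mul_of_one_le_right (abs_nonneg C₃) hl
  have a6 := le_mul_of_one_le_right (mul_nonneg hδ.le hC₁) hl
  have a7 := le_abs_self C₃
  linarith

end Geo

end Crest.Agent.R182
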