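import Crest.Agent.R182.MUDefs

/-! Row 182, block M5: greedy paths and their transplants. -/

set_option autoImplicit false
set_option linter.dupNamespace false

namespace Crest.Agent.R182

open Crest.GroupTheory

namespace Geo

variable {G : Type} [Group G] [MeasurableSpace G] {k : ℕ} (X : Geo G k)

/-- recursion with `ball_dec (2 * R + K)` -/
theorem mu_greedy (R : ℕ) : ∃ KR : ℕ, ∀ (z : G) (p : ℕ → G), z⁻¹ * p 0 ∈ Ball X.Sg R →
    (∀ l, (p l)⁻¹ * p (l + 1) ∈ Ball X.Sg R) → ∃ y e c : ℕ → G, y 0 = z ∧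
      (∀ l, e l ∈ X.Box (fun _ => KR) ∧ c l ∈ Ball (X.SC : Set G) KR ∧
        y (l + 1) = y l * e l * c l) ∧ ∀ l, (y l)⁻¹ * p l ∈ Ball X.Sg (R + X.K) := by
  obtain ⟨KR, h⟩ := X.ball_dec (R + X.K + R)
  choose! e he c hc b hb hg using h
  refine ⟨KR, fun z p h0 hp => ?_⟩
  obtain ⟨y, y0, ys⟩ : ∃ y : ℕ → G, y 0 = z ∧ ∀ l,
      y (l + 1) = y l * e ((y l)⁻¹ * p (l + 1)) * c ((y l)⁻¹ * p (l + 1)) :=
    ⟨fun l => Nat.rec z (fun l w => w * e (w⁻¹ * p (l + 1)) * c (w⁻¹ * p (l + 1))) l, rfl,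
      fun _ => rfl⟩
  have step : ∀ l, (y l)⁻¹ * p l ∈ Ball X.Sg (R + X.K) →
      (y l)⁻¹ * p (l + 1) ∈ Ball X.Sg (R + X.K + R) := fun l hl => by
    have := Ball.mul_mem hl (hp l)
    rwa [mul_assoc, mul_inv_cancel_left] at this
  have inv : ∀ l, (y l)⁻¹ * p l ∈ Ball X.Sg (R + X.K) := by
    intro l
    induction l with
    | zero => rw [y0]; exact Ball.mono subset_rfl (Nat.le_add_right _ _) h0
    | succ l ih =>
      have h1 := step l ih
      have h2 : (y (l + 1))⁻¹ * p (l + 1) = b ((y l)⁻¹ * p (l + 1)) := by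
        rw [ys, mul_assoc, mul_inv_rev, mul_assoc, inv_mul_eq_iff_eq_mul]
        exact hg _ h1
      rw [h2]
      exact Ball.mono subset_rfl (X.one_le_K.trans (Nat.le_add_left _ _)) (hb _ h1)
  exact ⟨y, fun l => e ((y l)⁻¹ * p (l + 1)), fun l => c ((y l)⁻¹ * p (l + 1)), y0,
    fun l => ⟨he _ (step l (inv l)), hc _ (step l (inv l)), ys l⟩, inv⟩

/-- induction on `d`: the new box element is `E * (g * e * g⁻¹)` (`box_conj`, `box_prod`) -/
theorem mu_seg (KR : ℕ) : ∃ C : ℕ, ∀ y e c : ℕ → G,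
    (∀ l, e l ∈ X.Box (fun _ => KR) ∧ c l ∈ Ball (X.SC : Set G) KR ∧
      y (l + 1) = y l * e l * c l) → ∀ l d : ℕ, ∃ E ∈ X.Box (fun _ => ((C * d + C : ℕ) : ℝ)),
        (y l)⁻¹ * y (l + d) = E * ((List.range' l d).map c).prod := by
  obtain ⟨B, hB1, hB⟩ := X.χ_bound
  have hK : (0 : ℝ) ≤ X.K := Nat.cast_nonneg _
  have hR : (0 : ℝ) ≤ KR := Nat.cast_nonneg _
  obtain ⟨C, h1, h2⟩ : ∃ C : ℕ, B * (X.K * (X.K * KR)) + X.K * KR ≤ C ∧
      (KR : ℝ) + 3 * X.K ≤ C := by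
    have h0 : 0 ≤ B * (X.K * (X.K * KR)) + X.K * KR := by positivity
    obtain ⟨C, hC⟩ := exists_nat_ge (B * (X.K * (X.K * KR)) + X.K * KR + (KR + 3 * X.K))
    exact ⟨C, by linarith, by linarith⟩
  refine ⟨C, fun y e c h l d => ?_⟩
  have hg : ∀ d, ((List.range' l d).map c).prod ∈ Ball (X.SC : Set G) (KR * d) := by
    intro d
    induction d with
    | zero => exact Ball.one_mem _ _
    | succ d ih =>
      rw [List.range'_concat, List.map_append, List.prod_append, List.map_singleton,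
        List.prod_singleton]
      exact Ball.mul_mem ih (h _).2.1
  induction d with
  | zero => exact ⟨1, X.box_one _, by simp⟩
  | succ d ih =>
    obtain ⟨E, hE, hy⟩ := ih
    have hd : (0 : ℝ) ≤ d := Nat.cast_nonneg _
    have h3 := X.box_conj _ (X.adm_const hR) _ _ (hg d) _ (h (l + d)).1
    have h4 := X.π_ball (X.flat_ball (hg d))
    have h5 : lg (KR * d) ≤ KR * d + 1 := by exact_mod_cast lg_le_self (KR * d)
    have h6 := mul_le_mul_of_nonneg_left h5 hK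
    have h7 := mul_le_mul_of_nonneg_right h1 hd
    push_cast at h4
    refine ⟨_, X.box_mono _ _ (fun i => ?_) (X.box_mul hE (X.box_mono _ _ (fun i => ?_) h3)), ?_⟩
    · change ((C * d + C : ℕ) : ℝ) + 3 * X.K ≤ ((C * (d + 1) + C : ℕ) : ℝ)
      push_cast
      linarith
    · have h8 := (le_abs_self _).trans ((hB i _).trans
        (mul_le_mul_of_nonneg_left h4 (zero_le_one.trans hB1)))
      change (KR : ℝ) + X.χ i (X.π _) + X.K * lg (KR * d) ≤ ((C * d + C : ℕ) : ℝ)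
      push_cast
      linarith
    · rw [List.range'_concat, List.map_append, List.prod_append, List.map_singleton,
        List.prod_singleton, one_mul, ← add_assoc, (h (l + d)).2.2, ← mul_assoc, ← mul_assoc, hy]
      group

/-- `x l = y l * (g l * q * (g l)⁻¹)` with `g l = c l * ⋯ * c (T - 1)`; then
`(x l)⁻¹ * x (l + d) = (q_l⁻¹ * E * q_l) * (c l * ⋯ * c (l + d - 1))` with `E` from `mu_seg` -/
theorem mu_transplant (KR : ℕ) : ∃ C : ℕ, ∀ y e c : ℕ → G,
    (∀ l, e l ∈ X.Box (fun _ => KR) ∧ c l ∈ Ball (X.SC : Set G) KR ∧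
      y (l + 1) = y l * e l * c l) → ∀ (T r N : ℕ) (q : G), lg (r + T) ≤ N →
      q ∈ Ball (X.SC : Set G) r → X.π q = 0 → ∃ x : ℕ → G, ∃ g ∈ Ball (X.SC : Set G) (C * T),
        x 0 = y 0 * (g * q * g⁻¹) ∧ x T = y T * q ∧ (∀ l, X.π (x l) = X.π (y l)) ∧
        ∀ l d, l + d ≤ T → (x l)⁻¹ * x (l + d) ∈ Ball X.Sg (C * d + C * N) ∧
          (y l)⁻¹ * y (l + d) ∈ Ball X.Sg (C * d + C * N) := by
  obtain ⟨C₁, hC₁⟩ := X.mu_seg KR
  refine ⟨X.K * C₁ + X.K * KR + X.K * (X.K * (2 * KR + 2)) + X.K + KR,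
    fun y e c h T r N q hN hq hq0 => ?_⟩
  have hP : ∀ d l, ((List.range' l d).map c).prod ∈ Ball (X.SC : Set G) (d * KR) := by
    intro d
    induction d with
    | zero => intro l; exact Ball.one_mem _ _
    | succ d ih =>
      intro l
      rw [List.range'_succ, List.map_cons, List.prod_cons, Nat.succ_mul, add_comm]
      exact Ball.mul_mem (h l).2.1 (ih _)
  set g : ℕ → G := fun l => ((List.range' l (T - l)).map c).prod with hg
  have hgb : ∀ l, g l ∈ Ball (X.SC : Set G) (T * KR) := fun l =>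
    Ball.mono subset_rfl (Nat.mul_le_mul_right _ (Nat.sub_le _ _)) (hP _ l)
  have hN1 : 1 ≤ N := by exact_mod_cast (one_le_lg _).trans hN
  refine ⟨fun l => y l * (g l * q * (g l)⁻¹), g 0, Ball.mono subset_rfl (by
      rw [mul_comm T]; exact Nat.mul_le_mul_right _ (Nat.le_add_left _ _)) (hgb 0), rfl,
    by simp [hg], fun l => by rw [X.π_hom, X.π_hom.conj, hq0, add_zero], fun l d hld => ?_⟩
  obtain ⟨E, hE, hy⟩ := hC₁ y e c h l d
  have hsplit : g l = ((List.range' l d).map c).prod * g (l + d) := by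
    simp only [hg]
    rw [← List.prod_append, ← List.map_append, List.range'_append_1]
    congr 3
    omega
  have hPS := X.flat_ball (hP d l)
  have hql : (g l * q * (g l)⁻¹)⁻¹ ∈ Ball (X.SC : Set G) (T * KR + r + T * KR) :=
    Ball.inv_mem (Ball.mul_mem (Ball.mul_mem (hgb l) hq) (Ball.inv_mem (hgb l)))
  have h1 := X.box_conj _ (X.adm_const (by positivity)) _ _ hql E hE
  rw [X.π_hom.inv, X.π_hom.conj, hq0, neg_zero, inv_inv] at h1
  have h2 : lg (T * KR + r + T * KR) ≤ (2 * KR + 2) * N := by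
    have h3 : T * KR + r + T * KR ≤ (2 * KR + 1) * (r + T) + (2 * KR + 1) := by nlinarith
    have h4 := lg_le_self (2 * KR + 1)
    have h5 := one_le_lg (r + T)
    calc lg (T * KR + r + T * KR) ≤ lg (2 * KR + 1) * lg (r + T) :=
          (lg_mono h3).trans (lg_mul_le _ _)
      _ ≤ (2 * KR + 2) * N := by
        refine mul_le_mul (h4.trans (le_of_eq ?_)) hN (by linarith) (by positivity)
        push_cast; ring
  have h6 := X.box_ball (C₁ * d + C₁ * N + X.K * (2 * KR + 2) * N) (X.box_mono _ _ (fun i => by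
    have h7 : (C₁ : ℝ) ≤ C₁ * N := le_mul_of_one_le_right (by positivity) (by exact_mod_cast hN1)
    have h8 : (X.K : ℝ) * lg (T * KR + r + T * KR) ≤ X.K * ((2 * KR + 2) * N) := by gcongr
    simp only [map_zero]
    push_cast
    linarith) h1)
  have h9 := X.box_ball _ hE
  constructor
  · have h10 := Ball.mul_mem h6 hPS
    have e1 : (y l * (g l * q * (g l)⁻¹))⁻¹ * (y (l + d) * (g (l + d) * q * (g (l + d))⁻¹)) =
        (g l * q * (g l)⁻¹)⁻¹ * E * (g l * q * (g l)⁻¹) * ((List.range' l d).map c).prod := by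
      have e2 : y (l + d) = y l * (E * ((List.range' l d).map c).prod) := by
        rw [← hy, mul_inv_cancel_left]
      rw [e2, hsplit]; group
    simp only
    rw [e1]
    refine Ball.mono subset_rfl ?_ h10
    nlinarith [Nat.zero_le (X.K * C₁ * N), Nat.zero_le (X.K * KR * N), Nat.zero_le (KR * N),
      Nat.zero_le (X.K * (X.K * (2 * KR + 2)) * d), Nat.zero_le (X.K * d), Nat.zero_le (KR * d),
      Nat.mul_le_mul_left X.K hN1]
  · rw [hy]
    refine Ball.mono subset_rfl ?_ (Ball.mul_mem h9 hPS)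
    nlinarith [Nat.zero_le (X.K * KR * N), Nat.zero_le (KR * N),
      Nat.zero_le (X.K * (X.K * (2 * KR + 2)) * N),
      Nat.zero_le (X.K * (X.K * (2 * KR + 2)) * d), Nat.zero_le (X.K * d), Nat.zero_le (KR * d),
      Nat.mul_le_mul_left X.K hN1, Nat.mul_le_mul_left (X.K * C₁) hN1]
/-- pull back the line `ψ z * E * t ^ l` by `ψ'`, `mu_greedy`, `mu_transplant` -/
theorem mu_pull (c : ℕ) : ∃ C : ℕ, ∀ t ∈ Ball (X.SC : Set G) 1, ∀ (T r N : ℕ), lg (r + T) ≤ N →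
    ∀ ψ ψ' : G → G, X.QP c ψ ψ' → ∀ z q E : G, q ∈ Ball (X.SC : Set G) r → X.π q = 0 →
      E ∈ Ball X.Sg X.K → ∃ x y : ℕ → G, ∃ g ∈ Ball (X.SC : Set G) (C * T),
        y 0 = z ∧ x 0 = z * (g * q * g⁻¹) ∧ x T = y T * q ∧ (∀ l, X.π (x l) = X.π (y l)) ∧
        (∀ l, (ψ (y l))⁻¹ * (ψ z * E * t ^ l) ∈ Ball X.Sg C) ∧
        ∀ l d, l + d ≤ T → (x l)⁻¹ * x (l + d) ∈ Ball X.Sg (C * d + C * N) ∧
          (y l)⁻¹ * y (l + d) ∈ Ball X.Sg (C * d + C * N) := by
  obtain ⟨KR, hg⟩ := X.mu_greedy (c + (c * X.K + c))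
  obtain ⟨C, hC⟩ := X.mu_transplant KR
  refine ⟨C + (c * (c + (c * X.K + c) + X.K) + c + c), ?_⟩
  intro t ht T r N hN ψ ψ' hψ z q E hq hq0 hE
  have ht' : t ∈ Ball X.Sg X.K := by simpa using X.flat_ball ht
  obtain ⟨y, e, c', hy0, hy, hp⟩ := hg z (fun l => ψ' (ψ z * E * t ^ l)) (by
      have h1 := hψ.qi'.up (ψ z) (ψ z * E * t ^ 0) X.K (by simpa [mul_assoc] using hE)
      have h2 := Ball.mul_mem (hψ.left z) h1
      simpa [mul_assoc] using h2) (fun l => by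
      have h1 := hψ.qi'.up (ψ z * E * t ^ l) (ψ z * E * t ^ (l + 1)) X.K (by
        rwa [show (ψ z * E * t ^ l)⁻¹ * (ψ z * E * t ^ (l + 1)) = t by rw [pow_succ]; group])
      exact Ball.mono subset_rfl (Nat.le_add_left _ _) h1)
  obtain ⟨x, g, hg, hx0, hxT, hπ, hb⟩ := hC y e c' hy T r N q hN hq hq0
  have hle : ∀ d, C * d + C * N ≤ (C + (c * (c + (c * X.K + c) + X.K) + c + c)) * d +
      (C + (c * (c + (c * X.K + c) + X.K) + c + c)) * N := fun d =>
    Nat.add_le_add (Nat.mul_le_mul_right _ (Nat.le_add_right _ _))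
      (Nat.mul_le_mul_right _ (Nat.le_add_right _ _))
  refine ⟨x, y, g, Ball.mono subset_rfl (Nat.mul_le_mul_right _ (Nat.le_add_right _ _)) hg, hy0,
    hy0 ▸ hx0, hxT, hπ, fun l => ?_, fun l d h => ⟨Ball.mono subset_rfl (hle d) (hb l d h).1,
      Ball.mono subset_rfl (hle d) (hb l d h).2⟩⟩
  have h1 := hψ.qi.up _ _ _ (hp l)
  have h2 := Ball.mul_mem h1 (Ball.inv_mem (hψ.right (ψ z * E * t ^ l)))
  rw [show (ψ (y l))⁻¹ * ψ (ψ' (ψ z * E * t ^ l)) *
    ((ψ z * E * t ^ l)⁻¹ * ψ (ψ' (ψ z * E * t ^ l)))⁻¹ = (ψ (y l))⁻¹ * (ψ z * E * t ^ l) by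
      group] at h2
  exact Ball.mono subset_rfl (Nat.le_add_left _ _) h2

end Geo

end Crest.Agent.R182
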