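import Crest.Agent.R182.MB2

/-! Row 182, block M2: random words; a set of positive measure contains many zigzags. -/

set_option autoImplicit false
set_option linter.dupNamespace false

namespace Crest.Agent.R182

open MeasureTheory

namespace Sch

variable {G : Type} [Group G]

theorem one_le_size (Z : Sch G) : 1 ≤ Z.size := by
  induction Z with
  | one => exact le_rfl
  | fam g J => exact le_rfl
  | conj X Y hX hY => rw [size]; omega
  | mul X Y hX hY => rw [size]; omega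

theorem length_winv (u : List G) : (winv u).length = u.length := by simp [winv]

/-- the letters of a word of the scheme -/
theorem Mem.letter {Z : Sch G} {p : G → Prop} (hp : ∀ g, p g → p g⁻¹) (hZ : Z.Let p) {w : List G}
    (h : Z.Mem w) : ∀ g ∈ w, p g := by
  induction Z generalizing w with
  | one => rw [show w = [] from h]; simp
  | fam g J =>
    obtain ⟨i, hi, rfl⟩ := h
    intro x hx
    rw [List.mem_singleton.1 hx]; exact hZ i hi
  | conj X Y hX hY =>
    obtain ⟨u, v, hu, hv, rfl⟩ := h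
    intro x hx
    simp only [List.mem_append, winv, List.mem_reverse, List.mem_map] at hx
    rcases hx with (hx | hx) | ⟨y, hy, rfl⟩
    · exact hX hZ.1 hu x hx
    · exact hY hZ.2 hv x hx
    · exact hp _ (hX hZ.1 hu y hy)
  | mul X Y hX hY =>
    obtain ⟨u, v, hu, hv, rfl⟩ := h
    intro x hx
    rcases List.mem_append.1 hx with hx | hx
    · exact hX hZ.1 hu x hx
    · exact hY hZ.2 hv x hx

/-- the expectation is a finite convex combination -/
theorem exists_rep (Z : Sch G) : ∃ (I : Type) (_ : Fintype I) (p : I → ℝ) (ω : I → List G),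
    (∀ i, 0 ≤ p i) ∧ ∑ i, p i = 1 ∧ (∀ i, Z.Mem (ω i)) ∧ ∀ f, Z.avg f = ∑ i, p i * f (ω i) := by
  induction Z with
  | one => exact ⟨Unit, inferInstance, fun _ => 1, fun _ => [], fun _ => zero_le_one, by simp,
      fun _ => rfl, fun f => by simp [avg]⟩
  | fam g J =>
    have hJ : (0 : ℝ) < 2 * J + 1 := by positivity
    refine ⟨Finset.Icc (-(J : ℤ)) J, inferInstance, fun _ => 1 / (2 * J + 1), fun i => [g ^ i.1],
      fun _ => by positivity, ?_, fun i => ⟨i.1, abs_le.2 (Finset.mem_Icc.1 i.2), rfl⟩, fun f => ?_⟩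
    · rw [Finset.sum_const, Finset.card_univ, Fintype.card_coe, Int.card_Icc, nsmul_eq_mul,
        show ((J : ℤ) + 1 - -(J : ℤ)).toNat = 2 * J + 1 by omega]
      push_cast
      field_simp
    · rw [avg, ← Finset.mul_sum, Finset.sum_coe_sort _ fun i => f [g ^ i]]
      ring
  | conj X Y hX hY =>
    obtain ⟨I, _, p, ω, h1, h2, h3, h4⟩ := hX
    obtain ⟨I', _, p', ω', h1', h2', h3', h4'⟩ := hY
    refine ⟨I × I', inferInstance, fun i => p i.1 * p' i.2, fun i => ω i.1 ++ ω' i.2 ++ winv (ω i.1),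
      fun i => mul_nonneg (h1 _) (h1' _), ?_, fun i => ⟨_, _, h3 _, h3' _, rfl⟩, fun f => ?_⟩
    · rw [Fintype.sum_prod_type, ← Finset.sum_mul_sum, h2, h2', one_mul]
    · rw [avg, h4, Fintype.sum_prod_type]
      simp only [h4', Finset.mul_sum, mul_assoc]
  | mul X Y hX hY =>
    obtain ⟨I, _, p, ω, h1, h2, h3, h4⟩ := hX
    obtain ⟨I', _, p', ω', h1', h2', h3', h4'⟩ := hY
    refine ⟨I × I', inferInstance, fun i => p i.1 * p' i.2, fun i => ω i.1 ++ ω' i.2,
      fun i => mul_nonneg (h1 _) (h1' _), ?_, fun i => ⟨_, _, h3 _, h3' _, rfl⟩, fun f => ?_⟩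
    · rw [Fintype.sum_prod_type, ← Finset.sum_mul_sum, h2, h2', one_mul]
    · rw [avg, h4, Fintype.sum_prod_type]
      simp only [h4', Finset.mul_sum, mul_assoc]

theorem avg_affine (Z : Sch G) (f : List G → ℝ) (a b : ℝ) :
    Z.avg (fun w => a * f w + b) = a * Z.avg f + b := by
  obtain ⟨I, _, p, ω, -, h2, -, h4⟩ := Z.exists_rep
  rw [h4, h4, Finset.mul_sum]
  simp only [mul_add, Finset.sum_add_distrib, ← Finset.sum_mul, h2, one_mul, mul_left_comm]

variable {X : Type*} [MeasurableSpace X]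

theorem measurable_avg (Z : Sch G) {f : List G → X → ℝ} (hf : ∀ w, Measurable (f w)) :
    Measurable fun x => Z.avg fun w => f w x := by
  obtain ⟨I, _, p, ω, -, -, -, h4⟩ := Z.exists_rep
  simp only [h4]
  exact Finset.measurable_sum _ fun i _ => (hf _).const_mul _

/-- Fubini -/
theorem avg_integral (Z : Sch G) (ζ : Measure X) {f : List G → X → ℝ}
    (hf : ∀ w, Integrable (f w) ζ) : (Integrable (fun x => Z.avg fun w => f w x) ζ) ∧
      ∫ x, Z.avg (fun w => f w x) ∂ζ = Z.avg fun w => ∫ x, f w x ∂ζ := by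
  obtain ⟨I, _, p, ω, -, -, -, h4⟩ := Z.exists_rep
  simp only [h4]
  refine ⟨integrable_finset_sum _ fun i _ => (hf _).const_mul _, ?_⟩
  rw [integral_finset_sum _ fun i _ => (hf _).const_mul _]
  simp only [integral_const_mul]

/-- Fubini for events, restricted to a set -/
theorem avg_real_inter (Z : Sch G) (ζ : Measure X) [IsFiniteMeasure ζ] {A : Set X}
    {B : List G → Set X} (hB : ∀ w, MeasurableSet (B w)) :
    Z.avg (fun w => ζ.real (B w ∩ A)) =
      ∫ x in A, Z.avg (fun w => (B w).indicator 1 x) ∂ζ := by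
  rw [(Z.avg_integral (ζ.restrict A) (f := fun w x => (B w).indicator (1 : X → ℝ) x)
    fun w => (integrable_const (1 : ℝ)).indicator (hB w)).2]
  congr 1
  funext w
  rw [show (fun x => (B w).indicator (1 : X → ℝ) x) = (B w).indicator 1 from rfl,
    integral_indicator_one (hB w), measureReal_restrict_apply (hB w)]

/-- some point sees the average -/
theorem exists_point (Z : Sch G) (ζ : Measure X) [IsProbabilityMeasure ζ] {B : List G → Set X}
    (hB : ∀ w, MeasurableSet (B w)) {τ : ℝ} (h : τ ≤ Z.avg fun w => ζ.real (B w)) :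
    ∃ x, τ ≤ Z.avg ({w | x ∈ B w}.indicator 1) := by
  have h1 := Z.avg_integral ζ (f := fun w x => (B w).indicator (1 : X → ℝ) x)
    fun w => (integrable_const (1 : ℝ)).indicator (hB w)
  obtain ⟨x, hx⟩ := exists_integral_le h1.1
  refine ⟨x, h.trans (le_trans (le_of_eq ?_) (hx.trans (le_of_eq ?_)))⟩
  · rw [h1.2]
    congr 1
    funext w
    exact (integral_indicator_one (hB w)).symm
  · congr 1

end Sch

section pz

variable {G : Type} [Group G] [MeasurableSpace G] [MeasurableMul₂ G]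

/-- start and end in `G₀`, all prefixes in `Gs` -/
def Ev (G₀ Gs : Set G) (w : List G) : Set G :=
  {x | x ∈ G₀ ∧ x * w.prod ∈ G₀ ∧ ∀ j, x * (w.take j).prod ∈ Gs}

theorem Ev.meas {G₀ Gs : Set G} (h₀ : MeasurableSet G₀) (hs : MeasurableSet Gs) (w : List G) :
    MeasurableSet (Ev G₀ Gs w) := by
  have e : Ev G₀ Gs w = G₀ ∩ ((fun x => x * w.prod) ⁻¹' G₀ ∩
      ⋂ j, (fun x => x * (w.take j).prod) ⁻¹' Gs) := by
    ext x
    simp only [Ev, Set.mem_ofPred_eq, Set.mem_inter_iff, Set.mem_preimage, Set.mem_iInter]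
  rw [e]
  exact h₀.inter ((measurable_mul_const _ h₀).inter
    (MeasurableSet.iInter fun j => measurable_mul_const _ hs))

theorem mv_tvr_prod {ζ : Measure G} {η : ℝ} (w : List G) (h : ∀ g ∈ w, TVr ζ g η) :
    TVr ζ w.prod (w.length * η) := by
  induction w with
  | nil => intro A _; simp
  | cons g w ih =>
    intro A hA
    have h1 := ih (fun x hx => h x (List.mem_cons_of_mem _ hx)) A hA
    have h2 := h g List.mem_cons_self _ (measurable_mul_const w.prod hA)
    have e : (fun x => x * (g :: w).prod) ⁻¹' A =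
        (fun x => x * g) ⁻¹' ((fun x => x * w.prod) ⁻¹' A) := by
      ext x; simp [mul_assoc]
    rw [e, List.length_cons]
    push_cast
    have := abs_sub_le (ζ.real ((fun x => x * g) ⁻¹' ((fun x => x * w.prod) ⁻¹' A)))
      (ζ.real ((fun x => x * w.prod) ⁻¹' A)) (ζ.real A)
    linarith

theorem mv_tvr_inv {ζ : Measure G} {η : ℝ} {g : G} (h : TVr ζ g η) : TVr ζ g⁻¹ η := by
  intro A hA
  have := h _ (measurable_mul_const g⁻¹ hA)
  rw [show (fun x => x * g) ⁻¹' ((fun x => x * g⁻¹) ⁻¹' A) = A by ext x; simp, abs_sub_comm] at this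
  exact this

/-- the zigzag property with constants `δ, τ, η` -/
def PZ (Z : Sch G) (δ τ η : ℝ) : Prop :=
  ∀ ζ : Measure G, IsProbabilityMeasure ζ → Z.Let (fun g => TVr ζ g η) → ∀ G₀ Gs : Set G,
    MeasurableSet G₀ → MeasurableSet Gs → G₀ ⊆ Gs → δ ≤ ζ.real G₀ →
      τ ≤ Z.avg fun w => ζ.real (Ev G₀ Gs w)

theorem PZ.mono {Z : Sch G} {δ τ η τ' η' : ℝ} (h : PZ Z δ τ η) (hτ : τ' ≤ τ) (hη : η' ≤ η) :
    PZ Z δ τ' η' := fun ζ hζ hl G₀ Gs h0 hs hsub hδ =>
  hτ.trans (h ζ hζ (hl.mono fun _ hg A hA => (hg A hA).trans hη) G₀ Gs h0 hs hsub hδ)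

theorem PZ.one (δ η : ℝ) : PZ (Sch.one : Sch G) δ δ η := by
  intro ζ _ _ G₀ Gs _ _ hsub hδ
  refine hδ.trans (le_of_eq ?_)
  rw [Sch.avg]
  congr 1
  ext x
  simp only [Ev, List.prod_nil, mul_one, List.take_nil, Set.mem_ofPred_eq]
  exact ⟨fun h => ⟨h, h, fun _ => hsub h⟩, fun h => h.1⟩

theorem h97_sq_le {X ι : Type*} [MeasurableSpace X] (ζ : Measure X) [IsProbabilityMeasure ζ]
    (I : Finset ι) (A : ι → Set X) (hA : ∀ i, MeasurableSet (A i)) (c : ℝ) :
    2 * c * ∑ i ∈ I, ζ.real (A i) - c ^ 2 ≤ ∑ i ∈ I, ∑ j ∈ I, ζ.real (A i ∩ A j) := by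
  have hi : ∀ B : Set X, MeasurableSet B → Integrable (B.indicator (1 : X → ℝ)) ζ :=
    fun B hB => (integrable_const (1 : ℝ)).indicator hB
  have i1 : Integrable (fun x => ∑ i ∈ I, (A i).indicator (1 : X → ℝ) x) ζ :=
    integrable_finsetSum _ fun i _ => hi _ (hA i)
  have i2 : ∀ i, Integrable (fun x => ∑ j ∈ I, (A i ∩ A j).indicator (1 : X → ℝ) x) ζ :=
    fun i => integrable_finsetSum _ fun j _ => hi _ ((hA i).inter (hA j))
  have e1 : ∫ x, (2 * c * ∑ i ∈ I, (A i).indicator (1 : X → ℝ) x - c ^ 2) ∂ζ =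
      2 * c * ∑ i ∈ I, ζ.real (A i) - c ^ 2 := by
    rw [integral_sub (i1.const_mul _) (integrable_const _), integral_const_mul,
      integral_finsetSum _ fun i _ => hi _ (hA i)]
    simp only [integral_indicator_one (hA _), integral_const, probReal_univ, one_smul]
  have e2 : ∫ x, (∑ i ∈ I, ∑ j ∈ I, (A i ∩ A j).indicator (1 : X → ℝ) x) ∂ζ =
      ∑ i ∈ I, ∑ j ∈ I, ζ.real (A i ∩ A j) := by
    rw [integral_finsetSum _ fun i _ => i2 i]
    refine Finset.sum_congr rfl fun i _ => ?_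
    rw [integral_finsetSum _ fun j _ => hi _ ((hA i).inter (hA j))]
    exact Finset.sum_congr rfl fun j _ => integral_indicator_one ((hA i).inter (hA j))
  rw [← e1, ← e2]
  refine integral_mono ((i1.const_mul _).sub (integrable_const _))
    (integrable_finsetSum _ fun i _ => i2 i) fun x => ?_
  have e3 : ∑ i ∈ I, ∑ j ∈ I, (A i ∩ A j).indicator (1 : X → ℝ) x =
      (∑ i ∈ I, (A i).indicator (1 : X → ℝ) x) ^ 2 := by
    rw [sq, Finset.sum_mul_sum]
    refine Finset.sum_congr rfl fun i _ => Finset.sum_congr rfl fun j _ => ?_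
    rw [Set.inter_indicator_one]; rfl
  change 2 * c * ∑ i ∈ I, (A i).indicator (1 : X → ℝ) x - c ^ 2 ≤
    ∑ i ∈ I, ∑ j ∈ I, (A i ∩ A j).indicator (1 : X → ℝ) x
  rw [e3]
  nlinarith [sq_nonneg (∑ i ∈ I, (A i).indicator (1 : X → ℝ) x - c)]

/-- Cauchy–Schwarz for `F x = (J + 1)⁻¹ ∑_{0 ≤ i ≤ J} 1_{G₀} (x * g ^ i)`: `∫ F ≥ δ - η`, and
`∫ F² = avg_{i, i'} ζ {x g^i ∈ G₀, x g^i' ∈ G₀} ≤ η + avg_{i, i'} h (i' - i) ≤ η + 2 avg_{|d| ≤ J} h d`,
`h d = ζ {y ∈ G₀, y g^d ∈ G₀} = ζ (Ev G₀ Gs [g ^ d])` -/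
theorem PZ.fam {δ η : ℝ} (hδ : 0 < δ) (h1 : η ≤ δ / 2) (h2 : η ≤ δ ^ 2 / 8) (g : G) (J : ℕ) :
    PZ (Sch.fam g J) δ (δ ^ 2 / 16) η := by
  intro ζ hζ hl G₀ Gs h0 hs hsub hδ'
  set I : Finset ℤ := Finset.Icc 0 (J : ℤ) with hI
  set h : ℤ → ℝ := fun d => ζ.real (Ev G₀ Gs [g ^ d]) with hh
  set S : ℝ := ∑ d ∈ Finset.Icc (-(J : ℤ)) J, h d with hS
  set A : ℤ → Set G := fun i => (fun x => x * g ^ i) ⁻¹' G₀ with hA
  have hAm : ∀ i, MeasurableSet (A i) := fun i => measurable_mul_const _ h0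
  have hcard : (I.card : ℝ) = J + 1 := by
    rw [hI, Int.card_Icc, show ((J : ℤ) + 1 - 0).toNat = J + 1 by omega]; push_cast; rfl
  have hIl : ∀ i ∈ I, TVr ζ (g ^ i) η := fun i hi => by
    have := Finset.mem_Icc.1 hi
    exact hl i (abs_le.2 ⟨by omega, this.2⟩)
  have hN : (0 : ℝ) < J + 1 := by positivity
  have a1 : (J + 1) * (δ / 2) ≤ ∑ i ∈ I, ζ.real (A i) := by
    rw [← hcard, ← nsmul_eq_mul, ← Finset.sum_const]
    refine Finset.sum_le_sum fun i hi => ?_
    have := (abs_le.1 (hIl i hi G₀ h0)).1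
    change δ / 2 ≤ ζ.real ((fun x => x * g ^ i) ⁻¹' G₀)
    linarith
  have a2 : ∀ i ∈ I, ∀ j ∈ I, ζ.real (A i ∩ A j) ≤ h (j - i) + η := by
    intro i hi j _
    have h3 := (abs_le.1 (hIl i hi _ (Ev.meas h0 hs [g ^ (j - i)]))).2
    have h4 : A i ∩ A j ⊆ (fun x => x * g ^ i) ⁻¹' Ev G₀ Gs [g ^ (j - i)] := by
      rintro x ⟨hx1, hx2⟩
      have e : x * g ^ i * g ^ (j - i) = x * g ^ j := by rw [mul_assoc, ← zpow_add]; simp
      refine ⟨hx1, by rw [List.prod_singleton, e]; exact hx2, fun l => ?_⟩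
      cases l with
      | zero => simpa using hsub hx1
      | succ l =>
        rw [List.take_succ_cons, List.take_nil, List.prod_singleton, e]
        exact hsub hx2
    have h5 := measureReal_mono (μ := ζ) h4
    change _ ≤ ζ.real (Ev G₀ Gs [g ^ (j - i)]) + η
    linarith
  have a3 : ∀ i ∈ I, ∑ j ∈ I, h (j - i) ≤ S := by
    intro i hi
    have hi' := Finset.mem_Icc.1 hi
    rw [← Finset.sum_image (s := I) (g := fun j => j - i) (f := h)
      (fun a _ b _ hab => sub_left_injective hab)]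
    refine Finset.sum_le_sum_of_subset_of_nonneg (fun d hd => ?_) fun d _ _ => measureReal_nonneg
    obtain ⟨j, hj, rfl⟩ := Finset.mem_image.1 hd
    have hj' := Finset.mem_Icc.1 hj
    exact Finset.mem_Icc.2 ⟨by omega, by omega⟩
  have a4 : ∑ i ∈ I, ∑ j ∈ I, ζ.real (A i ∩ A j) ≤ (J + 1) * (S + (J + 1) * η) := by
    rw [← hcard, ← nsmul_eq_mul, ← Finset.sum_const]
    refine Finset.sum_le_sum fun i hi => ?_
    refine (Finset.sum_le_sum fun j hj => a2 i hi j hj).trans ?_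
    rw [Finset.sum_add_distrib, Finset.sum_const, nsmul_eq_mul]
    linarith [a3 i hi]
  have a5 := h97_sq_le ζ I A hAm ((J + 1) * (δ / 2))
  have a6 : (J + 1) * ((J + 1) * (δ ^ 2 / 4)) ≤ (J + 1) * (S + (J + 1) * η) := by
    have := mul_le_mul_of_nonneg_left a1 (show (0 : ℝ) ≤ 2 * ((J + 1) * (δ / 2)) by positivity)
    nlinarith
  have a7 := le_of_mul_le_mul_left a6 hN
  have a8 := mul_le_mul_of_nonneg_left h2 hN.le
  change δ ^ 2 / 16 ≤ S / (2 * J + 1)
  rw [le_div_iff₀ (by positivity)]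
  nlinarith [sq_nonneg δ]

omit [MeasurableSpace G] [MeasurableMul₂ G] in
theorem h62_take_winv (u : List G) (j : ℕ) :
    ((Sch.winv u).take j).prod = u.prod⁻¹ * (u.take (u.length - j)).prod := by
  have e : (Sch.winv u).take j = Sch.winv (u.drop (u.length - j)) := by
    simp only [Sch.winv, List.take_reverse, List.length_map, List.map_drop]
  rw [e, Sch.prod_winv, ← List.prod_take_mul_prod_drop u (u.length - j)]
  rw [mul_inv_rev, inv_mul_cancel_right]

omit [MeasurableSpace G] [MeasurableMul₂ G] in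
theorem h62_ev_conj (G₀ Gs : Set G) (u v : List G) :
    (fun x => x * u.prod) ⁻¹' Ev ((fun x => x * u.prod⁻¹) ⁻¹' Ev G₀ Gs u) Gs v ⊆
      Ev G₀ Gs (u ++ v ++ Sch.winv u) := by
  rintro x ⟨h1, h2, h3⟩
  simp only [Set.mem_preimage, mul_inv_cancel_right] at h1 h2 h3
  refine ⟨h1.1, ?_, fun j => ?_⟩
  · have := h2.1
    simpa only [List.prod_append, Sch.prod_winv, mul_assoc] using this
  · rw [List.take_append, List.take_append, List.prod_append, List.prod_append, List.length_append]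
    by_cases c1 : j ≤ u.length
    · rw [show j - u.length = 0 by omega, show j - (u.length + v.length) = 0 by omega]
      simpa using h1.2.2 j
    · rw [List.take_of_length_le (show u.length ≤ j by omega)]
      by_cases c2 : j ≤ u.length + v.length
      · rw [show j - (u.length + v.length) = 0 by omega]
        simpa [mul_assoc] using h3 (j - u.length)
      · rw [List.take_of_length_le (show v.length ≤ j - u.length by omega), h62_take_winv]
        simpa only [mul_assoc] using h2.2.2 (u.length - (j - (u.length + v.length)))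

/-- for `u ∈ X` put `E = Ev G₀ Gs u`, `Gu = (· * u.prod⁻¹) ⁻¹' E ⊆ G₀ ⊆ Gs`; if `τX / 2 ≤ ζ E` then
`τX / 4 ≤ ζ Gu` (`mv_tvr_prod`, `mv_tvr_inv`, `Mem.letter`, `Mem.length_le`), apply `hY` to `Gu ⊆ Gs`;
`(· * u.prod) ⁻¹' Ev Gu Gs v ⊆ Ev G₀ Gs (u ++ v ++ winv u)`; so the inner average is at least
`τY / 2 * (ζ E - τX / 2)` in all cases; `avg_mono`, `avg_affine` -/
theorem PZ.conj {X Y : Sch G} {δ τX τY η : ℝ} (hX : PZ X δ τX η) (hY : PZ Y (τX / 4) τY η)
    (hη : 0 ≤ η) (hτY : 0 < τY) (h1 : X.size * η ≤ τX / 4) (h2 : X.size * η ≤ τY / 2) :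
    PZ (Sch.conj X Y) δ (τX * τY / 4) η := by
  intro ζ hζ hl G₀ Gs h0 hs hsub hδ
  have hX' := hX ζ hζ hl.1 G₀ Gs h0 hs hsub hδ
  rw [Sch.avg]
  have key : ∀ u, X.Mem u → τY / 2 * ζ.real (Ev G₀ Gs u) + -(τY / 2 * (τX / 2)) ≤
      Y.avg fun v => ζ.real (Ev G₀ Gs (u ++ v ++ Sch.winv u)) := by
    intro u hu
    have hE1 : ζ.real (Ev G₀ Gs u) ≤ 1 := measureReal_le_one
    have hnn : (0 : ℝ) ≤ Y.avg fun v => ζ.real (Ev G₀ Gs (u ++ v ++ Sch.winv u)) := by
      have := Y.avg_mono (f := fun _ => (0 : ℝ))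
        (g := fun v => ζ.real (Ev G₀ Gs (u ++ v ++ Sch.winv u))) fun _ _ => measureReal_nonneg
      rwa [Sch.avg_const] at this
    by_cases hE : τX / 2 ≤ ζ.real (Ev G₀ Gs u)
    swap
    · push Not at hE
      nlinarith
    have hT : TVr ζ u.prod (u.length * η) :=
      mv_tvr_prod u (hu.letter (p := fun g => TVr ζ g η) (fun g hg => mv_tvr_inv (g := g) hg) hl.1)
    have hlen : (u.length : ℝ) * η ≤ X.size * η :=
      mul_le_mul_of_nonneg_right (by exact_mod_cast hu.length_le) hη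
    have hEm := Ev.meas h0 hs u
    have hGm : MeasurableSet ((fun x => x * u.prod⁻¹) ⁻¹' Ev G₀ Gs u) :=
      measurable_mul_const _ hEm
    have hG : τX / 4 ≤ ζ.real ((fun x => x * u.prod⁻¹) ⁻¹' Ev G₀ Gs u) := by
      have := (abs_le.1 (mv_tvr_inv hT _ hEm)).1
      linarith
    have hGs : (fun x => x * u.prod⁻¹) ⁻¹' Ev G₀ Gs u ⊆ Gs := by
      intro x hx
      have := hx.2.1
      simp only [inv_mul_cancel_right] at this
      exact hsub this
    have hY' := hY ζ hζ hl.2 _ Gs hGm hs hGs hG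
    have hm := Y.avg_mono
      (f := fun v => 1 * ζ.real (Ev ((fun x => x * u.prod⁻¹) ⁻¹' Ev G₀ Gs u) Gs v) + -(τY / 2))
      (g := fun v => ζ.real (Ev G₀ Gs (u ++ v ++ Sch.winv u))) fun v _ => by
        have a1 := (abs_le.1 (hT _ (Ev.meas hGm hs v))).1
        have a2 := measureReal_mono (μ := ζ) (h62_ev_conj G₀ Gs u v)
        linarith
    rw [Sch.avg_affine] at hm
    have hτX : τX ≤ 1 := by
      have := X.avg_mono (f := fun w => ζ.real (Ev G₀ Gs w)) (g := fun _ => (1 : ℝ))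
        fun _ _ => measureReal_le_one
      rw [Sch.avg_const] at this
      linarith
    have hτX0 : 0 ≤ τX := by
      have : (0 : ℝ) ≤ X.size * η := by positivity
      linarith
    nlinarith
  have hm := X.avg_mono key
  rw [Sch.avg_affine] at hm
  nlinarith

/-- `G₁ = {y ∈ G₀ | τY / 2 ≤ Y.avg (fun v => (Ev G₀ Gs v).indicator 1 y)}` (`measurable_avg`);
`ζ (G₀ \ G₁) < δ / 2` by `hY` and `avg_real_inter` (`Ev (G₀ \ G₁) Gs v ⊆ Ev G₀ Gs v ∩ (G₀ \ G₁)`); apply `hX`
to `G₁`; for `u ∈ X`, `Gu = (· * u.prod⁻¹) ⁻¹' Ev G₁ Gs u ⊆ G₁` and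
`(· * u.prod) ⁻¹' (Ev G₀ Gs v ∩ Gu) ⊆ Ev G₀ Gs (u ++ v)` -/
theorem PZ.mul {X Y : Sch G} {δ τX τY η : ℝ} (hX : PZ X (δ / 2) τX η) (hY : PZ Y (δ / 2) τY η)
    (hη : 0 ≤ η) (hτY : 0 < τY) (hτY1 : τY ≤ 1) (h1 : X.size * η ≤ τX * τY / 8) :
    PZ (Sch.mul X Y) δ (τX * τY / 4) η := by
  intro ζ hζ hl G₀ Gs h0 hs hsub hδ
  obtain ⟨F, hF⟩ : ∃ F : G → ℝ, F = fun y => Y.avg fun v => (Ev G₀ Gs v).indicator 1 y := ⟨_, rfl⟩
  have hFm : Measurable F := hF ▸ Y.measurable_avg (f := fun v y => (Ev G₀ Gs v).indicator 1 y)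
    fun v => measurable_one.indicator (Ev.meas h0 hs v)
  have hFi : Integrable F ζ := hF ▸ (Y.avg_integral ζ
    (f := fun v y => (Ev G₀ Gs v).indicator (1 : G → ℝ) y)
    fun v => (integrable_const (1 : ℝ)).indicator (Ev.meas h0 hs v)).1
  have hint : ∀ A : Set G, Y.avg (fun v => ζ.real (Ev G₀ Gs v ∩ A)) = ∫ x in A, F x ∂ζ := by
    intro A
    rw [Y.avg_real_inter ζ fun v => Ev.meas h0 hs v, hF]
  obtain ⟨G₁, hG₁⟩ : ∃ G₁ : Set G, G₁ = G₀ ∩ {y | τY / 2 ≤ F y} := ⟨_, rfl⟩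
  have h1m : MeasurableSet G₁ := hG₁ ▸ h0.inter (measurableSet_le measurable_const hFm)
  have h10 : G₁ ⊆ G₀ := hG₁ ▸ Set.inter_subset_left
  have hδ1 : δ / 2 ≤ ζ.real G₁ := by
    by_contra hlt
    have hD : δ / 2 ≤ ζ.real (G₀ \ G₁) := by
      have := measureReal_sdiff (μ := ζ) h10 h1m
      rw [this]
      linarith [not_le.1 hlt]
    have a1 := hY ζ hζ hl.2 (G₀ \ G₁) Gs (h0.diff h1m) hs (Set.sdiff_subset.trans hsub) hD
    have a2 : Y.avg (fun v => ζ.real (Ev (G₀ \ G₁) Gs v)) ≤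
        Y.avg (fun v => ζ.real (Ev G₀ Gs v ∩ (G₀ \ G₁))) :=
      Y.avg_mono fun v _ => measureReal_mono fun x hx => ⟨⟨hx.1.1, hx.2.1.1, hx.2.2⟩, hx.1⟩
    have a3 : ∫ x in G₀ \ G₁, F x ∂ζ ≤ ∫ _ in G₀ \ G₁, τY / 2 ∂ζ := by
      refine setIntegral_mono_on hFi.integrableOn (integrable_const _).integrableOn
        (h0.diff h1m) fun x hx => ?_
      by_contra h
      exact hx.2 (hG₁ ▸ ⟨hx.1, (not_le.1 h).le⟩)
    rw [setIntegral_const, smul_eq_mul] at a3
    rw [hint] at a2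
    have a4 : ζ.real (G₀ \ G₁) ≤ 1 := measureReal_le_one
    nlinarith
  have b1 := hX ζ hζ hl.1 G₁ Gs h1m hs (h10.trans hsub) hδ1
  have b2 : ∀ u, X.Mem u → τY / 2 * ζ.real (Ev G₁ Gs u) + -(3 / 2 * (X.size * η)) ≤
      Y.avg fun v => ζ.real (Ev G₀ Gs (u ++ v)) := by
    intro u hu
    have hlen : (u.length : ℝ) * η ≤ X.size * η :=
      mul_le_mul_of_nonneg_right (by exact_mod_cast hu.length_le) hη
    have htv : TVr ζ u.prod (u.length * η) :=
      mv_tvr_prod u (hu.letter (p := fun g => TVr ζ g η) (fun _ hg => mv_tvr_inv hg) hl.1)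
    obtain ⟨Gu, hGu⟩ : ∃ Gu : Set G, Gu = (fun x => x * u.prod⁻¹) ⁻¹' Ev G₁ Gs u := ⟨_, rfl⟩
    have hGm : MeasurableSet Gu := by
      rw [hGu]; exact measurable_mul_const u.prod⁻¹ (Ev.meas h1m hs u)
    have c1 : ζ.real (Ev G₁ Gs u) - u.length * η ≤ ζ.real Gu := by
      have := (abs_le.1 (mv_tvr_inv htv _ (Ev.meas h1m hs u))).1
      rw [hGu]
      linarith
    have c2 : ∫ _ in Gu, τY / 2 ∂ζ ≤ ∫ x in Gu, F x ∂ζ := by
      refine setIntegral_mono_on (integrable_const _).integrableOn hFi.integrableOn hGm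
        fun x hx => ?_
      rw [hGu] at hx
      have := hx.2.1
      rw [inv_mul_cancel_right, hG₁] at this
      exact this.2
    rw [setIntegral_const, smul_eq_mul, ← hint] at c2
    have c3 : Y.avg (fun v => 1 * ζ.real (Ev G₀ Gs v ∩ Gu) + -(u.length * η)) ≤
        Y.avg fun v => ζ.real (Ev G₀ Gs (u ++ v)) := by
      refine Y.avg_mono fun v _ => ?_
      have d1 := (abs_le.1 (htv _ ((Ev.meas h0 hs v).inter hGm))).1
      have d2 : ζ.real ((fun x => x * u.prod) ⁻¹' (Ev G₀ Gs v ∩ Gu)) ≤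
          ζ.real (Ev G₀ Gs (u ++ v)) := by
        refine measureReal_mono fun x hx => ?_
        obtain ⟨⟨_, e2, e3⟩, e4⟩ := hx
        rw [hGu] at e4
        have e5 : x ∈ Ev G₁ Gs u := by simpa using e4
        refine ⟨h10 e5.1, by rwa [List.prod_append, ← mul_assoc], fun j => ?_⟩
        rw [List.take_append, List.prod_append, ← mul_assoc]
        rcases le_total j u.length with hj | hj
        · rw [Nat.sub_eq_zero_of_le hj, List.take_zero, List.prod_nil, mul_one]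
          exact e5.2.2 j
        · rw [List.take_of_length_le hj]
          exact e3 _
      linarith
    rw [Y.avg_affine] at c3
    have c4 : 0 ≤ (u.length : ℝ) * η := by positivity
    nlinarith
  have b3 := X.avg_mono b2
  rw [X.avg_affine] at b3
  have b4 : 0 ≤ (X.size : ℝ) * η := by positivity
  rw [Sch.avg]
  nlinarith

/-- THE ZIGZAG LEMMA -/
theorem exists_pz (s : ℕ) : ∀ δ : ℝ, 0 < δ → ∃ τ η : ℝ, 0 < τ ∧ τ ≤ 1 ∧ 0 < η ∧
    ∀ Z : Sch G, Z.size ≤ s → PZ Z δ τ η := by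
  induction s with
  | zero =>
    intro δ _
    exact ⟨1, 1, one_pos, le_rfl, one_pos, fun Z hZ => absurd (Z.one_le_size.trans hZ) (by omega)⟩
  | succ s ih =>
    intro δ hδ
    obtain ⟨τ₁, η₁, a1, a2, a3, a4⟩ := ih δ hδ
    obtain ⟨τ₂, η₂, b1, b2, b3, b4⟩ := ih (τ₁ / 4) (by positivity)
    obtain ⟨τ₃, η₃, c1, c2, c3, c4⟩ := ih (δ / 2) (by positivity)
    have hs : (0 : ℝ) < s + 1 := by positivity
    set η : ℝ := min (min (min η₁ η₂) (min η₃ (min (δ / 2) (δ ^ 2 / 8))))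
      (min (τ₁ * τ₂ / 4) (τ₃ * τ₃ / 8) / (s + 1)) with hη
    have e0 : 0 < η := by positivity
    have e1 : η ≤ η₁ := (min_le_left _ _).trans ((min_le_left _ _).trans (min_le_left _ _))
    have e2 : η ≤ η₂ := (min_le_left _ _).trans ((min_le_left _ _).trans (min_le_right _ _))
    have e3 : η ≤ η₃ := (min_le_left _ _).trans ((min_le_right _ _).trans (min_le_left _ _))
    have e4 : η ≤ δ / 2 := (min_le_left _ _).trans ((min_le_right _ _).trans
      ((min_le_right _ _).trans (min_le_left _ _)))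
    have e5 : η ≤ δ ^ 2 / 8 := (min_le_left _ _).trans ((min_le_right _ _).trans
      ((min_le_right _ _).trans (min_le_right _ _)))
    have e6 : ∀ X : Sch G, X.size ≤ s → X.size * η ≤ min (τ₁ * τ₂ / 4) (τ₃ * τ₃ / 8) := by
      intro X hX
      have h1 : η * (s + 1) ≤ min (τ₁ * τ₂ / 4) (τ₃ * τ₃ / 8) :=
        (le_div_iff₀ hs).1 (min_le_right _ _)
      have h2 : (X.size : ℝ) ≤ s := by exact_mod_cast hX
      nlinarith
    refine ⟨min (min (min δ (δ ^ 2 / 16)) (min (τ₁ * τ₂ / 4) (τ₃ * τ₃ / 4))) 1, η, by positivity,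
      min_le_right _ _, e0, fun Z hZ => ?_⟩
    cases Z with
    | one => exact (PZ.one δ η).mono ((min_le_left _ _).trans ((min_le_left _ _).trans
        (min_le_left _ _))) le_rfl
    | fam g J => exact (PZ.fam hδ e4 e5 g J).mono ((min_le_left _ _).trans ((min_le_left _ _).trans
        (min_le_right _ _))) le_rfl
    | conj X Y =>
      have h1 := X.one_le_size
      have h2 := Y.one_le_size
      rw [Sch.size] at hZ
      have h3 := (e6 X (by omega)).trans (min_le_left _ _)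
      exact (PZ.conj ((a4 X (by omega)).mono le_rfl e1) ((b4 Y (by omega)).mono le_rfl e2) e0.le b1
        (by nlinarith) (by nlinarith)).mono ((min_le_left _ _).trans ((min_le_right _ _).trans
        (min_le_left _ _))) le_rfl
    | mul X Y =>
      have h1 := X.one_le_size
      have h2 := Y.one_le_size
      rw [Sch.size] at hZ
      exact (PZ.mul ((c4 X (by omega)).mono le_rfl e3) ((c4 Y (by omega)).mono le_rfl e3) e0.le c1 c2
        ((e6 X (by omega)).trans (min_le_right _ _))).mono ((min_le_left _ _).trans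
        ((min_le_right _ _).trans (min_le_right _ _))) le_rfl

end pz

end Crest.Agent.R182
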