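import Crest.Agent.R182.NilW

/-! Row 182, block NIL: the ball-box theorem for finitely generated nilpotent groups. -/

set_option autoImplicit false
set_option linter.dupNamespace false

namespace Crest.Agent.R182.Nil

variable {G : Type*} [Group G] {T : Set G}

/-- products of at most `C` powers of generators with exponents at most `C * r` -/
def PB (T : Set G) (C r : ℕ) : Set G :=
  {g | ∃ l : List (G × ℤ), l.length ≤ C ∧ (∀ p ∈ l, p.1 ∈ T ∧ |p.2| ≤ C * r) ∧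
    (l.map fun p => p.1 ^ p.2).prod = g}

theorem PB.one_mem (C r : ℕ) : (1 : G) ∈ PB T C r :=
  ⟨[], Nat.zero_le _, fun _ h => absurd h List.not_mem_nil, rfl⟩

theorem PB.mono {C C' r : ℕ} {g : G} (hg : g ∈ PB T C r) (h : C ≤ C') : g ∈ PB T C' r := by
  obtain ⟨l, h1, h2, h3⟩ := hg
  refine ⟨l, h1.trans h, fun p hp => ⟨(h2 p hp).1, (h2 p hp).2.trans ?_⟩, h3⟩
  have : (C : ℤ) ≤ C' := by exact_mod_cast h
  gcongr

theorem PB.mul_mem {C C' r : ℕ} {g h : G} (hg : g ∈ PB T C r) (hh : h ∈ PB T C' r) :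
    g * h ∈ PB T (C + C') r := by
  obtain ⟨l, h1, -, -⟩ := id hg
  obtain ⟨l, h1, h2, rfl⟩ := hg
  obtain ⟨l', h1', h2', rfl⟩ := hh
  refine ⟨l ++ l', by rw [List.length_append]; omega, fun p hp => ?_, by
    rw [List.map_append, List.prod_append]⟩
  have h0 : (0 : ℤ) ≤ (C : ℤ) * r := by positivity
  have h0' : (0 : ℤ) ≤ (C' : ℤ) * r := by positivity
  rcases List.mem_append.1 hp with hp | hp
  · exact ⟨(h2 p hp).1, (h2 p hp).2.trans (by push_cast; linarith)⟩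
  · exact ⟨(h2' p hp).1, (h2' p hp).2.trans (by push_cast; linarith)⟩

theorem PB.inv_mem {C r : ℕ} {g : G} (hg : g ∈ PB T C r) : g⁻¹ ∈ PB T C r := by
  obtain ⟨l, h1, h2, rfl⟩ := hg
  refine ⟨(l.map fun p => (p.1, -p.2)).reverse, by rwa [List.length_reverse, List.length_map],
    fun p hp => ?_, ?_⟩
  · obtain ⟨p', hp', rfl⟩ := List.mem_map.1 (List.mem_reverse.1 hp)
    exact ⟨(h2 p' hp').1, by simpa using (h2 p' hp').2⟩
  · rw [List.prod_inv_reverse, List.map_reverse, List.map_map, List.map_map]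
    congr 2
    refine List.map_congr_left fun p _ => ?_
    simp

theorem zpow_mem_ball {t : G} (ht : t ∈ T) {a : ℤ} {n : ℕ} (ha : |a| ≤ n) : t ^ a ∈ Ball T n := by
  have h1 : t ^ a.natAbs ∈ Ball T n := by
    have := Ball.pow_mem (Ball.mem_of_mem ht) a.natAbs
    refine Ball.mono subset_rfl ?_ this
    rw [mul_one]
    have h2 : ((a.natAbs : ℕ) : ℤ) ≤ n := by rwa [Int.natCast_natAbs]
    exact_mod_cast h2
  rcases Int.natAbs_eq a with h | h
  · rw [h, zpow_natCast]; exact h1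
  · rw [h, zpow_neg, zpow_natCast]; exact Ball.inv_mem h1

theorem PB.mem_ball {C r : ℕ} {g : G} (hg : g ∈ PB T C r) : g ∈ Ball T (C * (C * r)) := by
  obtain ⟨l, h1, h2, rfl⟩ := hg
  refine Ball.mono subset_rfl (Nat.mul_le_mul_right (C * r) h1) ?_
  clear h1
  induction l with
  | nil => exact Ball.one_mem _ _
  | cons p l ih =>
    rw [List.map_cons, List.prod_cons, List.length_cons, Nat.succ_mul, add_comm]
    refine Ball.mul_mem (zpow_mem_ball (h2 p List.mem_cons_self).1 ?_)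
      (ih fun q hq => h2 q (List.mem_cons_of_mem _ hq))
    exact_mod_cast (h2 p List.mem_cons_self).2

theorem PB.pow_mem {t : G} (ht : t ∈ T ∨ t⁻¹ ∈ T) {C r a : ℕ} (hC : 1 ≤ C) (ha : a ≤ C * r) :
    t ^ a ∈ PB T C r := by
  have h1 : ∀ s ∈ T, s ^ a ∈ PB T C r := fun s hs =>
    ⟨[(s, a)], hC, fun p hp => by
      rw [List.mem_singleton.1 hp]
      exact ⟨hs, by rw [Nat.abs_cast]; exact_mod_cast ha⟩, by simp⟩
  rcases ht with ht | ht
  · exact h1 t ht
  · have := PB.inv_mem (h1 _ ht)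
    rwa [inv_pow, inv_inv] at this

section Fam

variable {ι : Type*} (T) (x : ι → ℝ)

/-- families of words of weight `≥ m` and size `O(x ^ j)` -/
def SW (m j : ℕ) : Subgroup (ι → G) where
  carrier := {g | ∃ K, 0 ≤ K ∧ ∀ i, Wd (L T m) |x i| (K * |x i| ^ j) (g i)}
  one_mem' := ⟨0, le_rfl, fun _ => Wd.nil (by simp)⟩
  mul_mem' := by
    rintro g h ⟨K, hK, hg⟩ ⟨K', hK', hh⟩
    exact ⟨K + K', by positivity, fun i => by rw [add_mul]; exact (hg i).mul (hh i)⟩
  inv_mem' := by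
    rintro g ⟨K, hK, hg⟩
    exact ⟨K, hK, fun i => (hg i).invL⟩

/-- families of exponents of size `O(x ^ (-m))` -/
def Pw (m : ℕ) (a : ι → ℕ) : Prop := ∃ K, 0 ≤ K ∧ ∀ i, a i * |x i| ^ m ≤ K

variable {T x}

theorem SW.anti {m m' j : ℕ} {g : ι → G} (hg : g ∈ SW T x m j) (h : m' ≤ m) :
    g ∈ SW T x m' j := by
  obtain ⟨K, hK, hg⟩ := hg
  exact ⟨K, hK, fun i => (hg i).anti h⟩

theorem SW.const {m : ℕ} {t : G} (ht : Let T m t) : (fun _ => t) ∈ SW T x m m :=
  ⟨1, zero_le_one, fun i => by rw [one_mul]; exact Wd.single ⟨ht, le_rfl⟩⟩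

theorem small (hx : ∀ i, |x i| ≤ 1) {K : ℝ} (hK : 0 ≤ K) (i : ι) (j : ℕ) :
    K * |x i| ^ j ≤ K :=
  mul_le_of_le_one_right hK (pow_le_one₀ (abs_nonneg _) (hx i))

theorem SW.conj (hx : ∀ i, |x i| ≤ 1) {m j m' j' : ℕ} {g h : ι → G} (hh : h ∈ SW T x m' j')
    (hg : g ∈ SW T x m j) : h⁻¹ * g * h ∈ SW T x m j := by
  obtain ⟨K, hK, hg⟩ := hg
  obtain ⟨K', hK', hh⟩ := hh
  refine ⟨Real.exp K' * K, by positivity, fun i => ?_⟩
  rw [mul_assoc (Real.exp K')]
  exact Wd.conj (cl_L T m) (abs_nonneg _) ((hh i).mono (small hx hK' i j')) (hg i)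

theorem SW.cm (hx : ∀ i, |x i| ≤ 1) {m j m' j' : ℕ} {g h : ι → G} (hg : g ∈ SW T x m j)
    (hh : h ∈ SW T x m' j') : cm g h ∈ SW T x (m + m') (j + j') := by
  obtain ⟨K, hK, hg⟩ := hg
  obtain ⟨K', hK', hh⟩ := hh
  refine ⟨K * K' * Real.exp (K + K'), by positivity, fun i => ?_⟩
  refine (Wd.cm (abs_nonneg _) (hg i) (hh i)).mono ?_
  have h1 := small hx hK i j
  have h2 := small hx hK' i j'
  calc K * |x i| ^ j * (K' * |x i| ^ j') * Real.exp (K * |x i| ^ j + K' * |x i| ^ j')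
      ≤ K * |x i| ^ j * (K' * |x i| ^ j') * Real.exp (K + K') := by gcongr
    _ = _ := by ring

theorem SW.pow {m j j' : ℕ} {g : ι → G} {a : ι → ℕ} (hg : g ∈ SW T x m (j + j'))
    (ha : Pw x j a) : (fun i => g i ^ a i) ∈ SW T x m j' := by
  obtain ⟨K, hK, hg⟩ := hg
  obtain ⟨K', hK', ha⟩ := ha
  refine ⟨K * K', by positivity, fun i => ((hg i).pow (a i)).mono ?_⟩
  have := ha i
  calc a i * (K * |x i| ^ (j + j')) = K * (a i * |x i| ^ j) * |x i| ^ j' := by ring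
    _ ≤ _ := by gcongr

theorem SW.mul_pow {m m' j : ℕ} {t e : ι → G} {a : ι → ℕ} (ht : t ∈ SW T x m' j)
    (he : e ∈ SW T x m j) (ha : Pw x j a) :
    (fun i => (t i ^ a i)⁻¹ * (t i * e i) ^ a i) ∈ SW T x m 0 := by
  obtain ⟨K, hK, ht⟩ := ht
  obtain ⟨K', hK', he⟩ := he
  obtain ⟨A, hA, ha⟩ := ha
  refine ⟨K' * A * Real.exp (K * A), by positivity, fun i =>
    (Wd.mul_pow (abs_nonneg _) (ht i) (he i) (a i)).mono ?_⟩
  have := ha i
  calc a i * (K' * |x i| ^ j) * Real.exp (a i * (K * |x i| ^ j))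
      = K' * (a i * |x i| ^ j) * Real.exp (K * (a i * |x i| ^ j)) := by ring_nf
    _ ≤ K' * A * Real.exp (K * A) := by gcongr
    _ = _ := by ring

theorem SW.cm_pow (hx : ∀ i, |x i| ≤ 1) {k m j j' : ℕ} {u v : ι → G} {a : ι → ℕ}
    (hu : u ∈ SW T x k j) (hs : Nil.cm u v ∈ SW T x m (j + j')) (ha : Pw x j a) :
    (fun i => (Nil.cm (u i) (v i) ^ a i)⁻¹ * Nil.cm (u i ^ a i) (v i)) ∈ SW T x (m + k) j' := by
  obtain ⟨K, hK, hu⟩ := hu
  obtain ⟨K', hK', hs⟩ := hs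
  obtain ⟨A, hA, ha⟩ := ha
  refine ⟨K' * A * (K * A) * Real.exp (2 * (K' * A) + K * A), by positivity, fun i =>
    (Wd.cm_pow (abs_nonneg _) (hu i) (hs i) (a i)).mono ?_⟩
  have h0 := ha i
  have h1 : a i * (K * |x i| ^ j) ≤ K * A := by
    calc a i * (K * |x i| ^ j) = K * (a i * |x i| ^ j) := by ring
      _ ≤ _ := by gcongr
  have h2 : a i * (K' * |x i| ^ (j + j')) ≤ K' * A * |x i| ^ j' := by
    calc a i * (K' * |x i| ^ (j + j')) = K' * (a i * |x i| ^ j) * |x i| ^ j' := by ring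
      _ ≤ _ := by gcongr
  have h3 := h2.trans (small hx (by positivity) i j')
  calc a i * (K' * |x i| ^ (j + j')) * (a i * (K * |x i| ^ j)) *
        Real.exp (2 * (a i * (K' * |x i| ^ (j + j'))) + a i * (K * |x i| ^ j))
      ≤ K' * A * |x i| ^ j' * (K * A) * Real.exp (2 * (K' * A) + K * A) := by gcongr
    _ = _ := by ring

/-- bilinearity of commutators modulo heavier words -/
theorem bilin (hx : ∀ i, |x i| ≤ 1) {k j : ℕ} {u v : G} (hu : Let T k u) (hv : Let T j v)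
    {p q : ι → ℕ} (hp : Pw x k p) (hq : Pw x j q) :
    (cm (fun i => u ^ p i) fun i => v ^ q i)⁻¹ * (fun i => cm u v ^ (p i * q i)) ∈
      SW T x (k + j + 1) 0 := by
  have hk := hu.pos
  have hj := hv.pos
  have hU : (fun _ : ι => u) ∈ SW T x k k := SW.const hu
  have hV : (fun _ : ι => v) ∈ SW T x j j := SW.const hv
  have ht : (fun _ : ι => cm u v) ∈ SW T x (k + j) (k + j) := SW.const (hu.cm hv)
  have hup : (fun i => u ^ p i) ∈ SW T x k 0 := SW.pow (j' := 0) hU hp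
  have htp : (fun i => cm u v ^ p i) ∈ SW T x (k + j) j := SW.pow ht hp
  have htpq := SW.pow (j' := 0) htp hq
  have hE := SW.cm_pow hx (v := fun _ => v) hU ht hp
  have hE' := SW.cm_pow hx (j' := 0) (v := fun i => u ^ p i) hV (SW.cm hx hV hup) hq
  have hE'' := SW.mul_pow htp hE hq
  have h1 := mul_mem (inv_mem (SW.anti hE'' (m' := k + j + 1) (by omega)))
    (SW.conj hx htpq (SW.anti hE' (m' := k + j + 1) (by omega)))
  convert h1 using 1
  funext i
  simp only [Pi.mul_apply, Pi.inv_apply, mul_inv_cancel_left, pow_mul]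
  have e1 : cm (fun i => u ^ p i) (fun i => v ^ q i) i = cm (u ^ p i) (v ^ q i) := rfl
  rw [e1, ← cm_inv (u ^ p i) v, ← cm_inv (u ^ p i) (v ^ q i), inv_pow]
  group

variable (T) (r : ι → ℕ)

/-- families of bounded products of powers of generators -/
def SP : Subgroup (ι → G) where
  carrier := {g | ∃ C, ∀ i, g i ∈ PB T C (r i)}
  one_mem' := ⟨0, fun _ => PB.one_mem _ _⟩
  mul_mem' := by
    rintro g h ⟨K, hg⟩ ⟨K', hh⟩
    exact ⟨K + K', fun i => PB.mul_mem (hg i) (hh i)⟩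
  inv_mem' := by
    rintro g ⟨K, hg⟩
    exact ⟨K, fun i => PB.inv_mem (hg i)⟩

variable {T r}

theorem inv_le (hr : ∀ i, 1 ≤ r i) (i : ι) : |((r i : ℝ))⁻¹| ≤ 1 := by
  rw [abs_of_nonneg (by positivity)]
  exact inv_le_one_of_one_le₀ (by exact_mod_cast hr i)

theorem SP.le_SW (hr : ∀ i, 1 ≤ r i) {y : ι → G} (hy : y ∈ SP T r) :
    y ∈ SW T (fun i => (r i : ℝ)⁻¹) 1 0 := by
  obtain ⟨C, hy⟩ := hy
  refine ⟨C * C, by positivity, fun i =>
    (Wd.of_ball (abs_nonneg _) (PB.mem_ball (hy i))).mono (le_of_eq ?_)⟩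
  have : (r i : ℝ) ≠ 0 := by have := hr i; positivity
  rw [abs_of_nonneg (by positivity)]
  push_cast
  field_simp

/-- distortion: powers of a letter of weight `m` with exponents `O(r ^ m)` -/
theorem dist (hr : ∀ i, 1 ≤ r i) {m : ℕ} {t : G} (ht : Let T m t) :
    ∀ {a : ι → ℕ}, Pw (fun i => (r i : ℝ)⁻¹) m a →
      ∃ y ∈ SP T r, y⁻¹ * (fun i => t ^ a i) ∈ SW T (fun i => (r i : ℝ)⁻¹) (m + 1) 0 := by
  have hx := inv_le hr
  have hr0 : ∀ i, (0 : ℝ) < r i := fun i => by have := hr i; positivity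
  induction ht with
  | @base t ht =>
    rintro a ⟨K, hK, ha⟩
    refine ⟨fun i => t ^ a i, ⟨⌈K⌉₊ + 1, fun i => PB.pow_mem ht (Nat.le_add_left _ _) ?_⟩, by
      rw [inv_mul_cancel]; exact one_mem _⟩
    have h1 := ha i
    rw [pow_one, abs_of_nonneg (by positivity), ← div_eq_mul_inv, div_le_iff₀ (hr0 i)] at h1
    have h2 : (a i : ℝ) ≤ ((⌈K⌉₊ + 1) * r i : ℕ) := by
      push_cast
      exact h1.trans (by have := Nat.le_ceil K; have := hr0 i; gcongr; linarith)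
    exact_mod_cast h2
  | @cm k j u v hu hv ihu ihv =>
    have hk := hu.pos
    have hj := hv.pos
    have key : ∀ {p q : ι → ℕ}, Pw (fun i => (r i : ℝ)⁻¹) k p → Pw (fun i => (r i : ℝ)⁻¹) j q →
        ∃ y ∈ SP T r, y⁻¹ * (fun i => cm u v ^ (p i * q i)) ∈
          SW T (fun i => (r i : ℝ)⁻¹) (k + j + 1) 0 := by
      intro p q hp hq
      obtain ⟨y, hy, he⟩ := ihu hp
      obtain ⟨z, hz, hf⟩ := ihv hq
      have hup := SW.pow (j' := 0) (SW.const (x := fun i => (r i : ℝ)⁻¹) hu) hp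
      have hvq := SW.pow (j' := 0) (SW.const (x := fun i => (r i : ℝ)⁻¹) hv) hq
      have hb := bilin hx hu hv hp hq
      generalize (fun i => cm u v ^ (p i * q i)) = w at hb ⊢
      generalize (fun i => u ^ p i) = a at he hup hb
      generalize (fun i => v ^ q i) = b at hf hvq hb
      obtain ⟨e, rfl⟩ : ∃ e, a = y * e := ⟨y⁻¹ * a, by group⟩
      obtain ⟨f, rfl⟩ : ∃ f, b = z * f := ⟨z⁻¹ * b, by group⟩
      rw [inv_mul_cancel_left] at he hf
      have hy' : y ∈ SW T (fun i => (r i : ℝ)⁻¹) k 0 := by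
        have := mul_mem hup (inv_mem (SW.anti he (Nat.le_succ k)))
        rwa [mul_inv_cancel_right] at this
      have hz' : z ∈ SW T (fun i => (r i : ℝ)⁻¹) j 0 := by
        have := mul_mem hvq (inv_mem (SW.anti hf (Nat.le_succ j)))
        rwa [mul_inv_cancel_right] at this
      have hs := SW.cm hx hy' hz'
      have hs' := SW.cm hx hy' hvq
      refine ⟨cm y z, mul_mem (mul_mem (mul_mem (inv_mem hy) (inv_mem hz)) hy) hz, ?_⟩
      have h1 := SW.conj hx hs (SW.anti (SW.cm hx hy' hf) (m' := k + j + 1) (by omega))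
      have h2 := SW.anti (SW.cm hx hs hf) (m' := k + j + 1) (by omega)
      have h3 := SW.anti (SW.cm hx hs' he) (m' := k + j + 1) (by omega)
      have h4 := SW.anti (SW.cm hx he hvq) (m' := k + j + 1) (by omega)
      have h5 := mul_mem (mul_mem (mul_mem (mul_mem h1 h2) h3) h4) hb
      convert h5 using 1
      simp only [cm]; group
    rintro a ⟨K, hK, ha⟩
    have hp : Pw (fun i => (r i : ℝ)⁻¹) k fun i => a i / r i ^ j := by
      refine ⟨K, hK, fun i => le_trans ?_ (ha i)⟩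
      have h1 : ((a i / r i ^ j : ℕ) : ℝ) ≤ a i / (r i : ℝ) ^ j := by
        have := Nat.cast_div_le (α := ℝ) (m := a i) (n := r i ^ j)
        rwa [Nat.cast_pow] at this
      calc ((a i / r i ^ j : ℕ) : ℝ) * |(r i : ℝ)⁻¹| ^ k
          ≤ a i / (r i : ℝ) ^ j * |(r i : ℝ)⁻¹| ^ k := by gcongr
        _ = _ := by
          rw [abs_of_nonneg (by positivity), pow_add, div_eq_mul_inv, inv_pow, inv_pow]; ring
    have hq : Pw (fun i => (r i : ℝ)⁻¹) j fun i => r i ^ j := by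
      refine ⟨1, zero_le_one, fun i => le_of_eq ?_⟩
      have := hr0 i
      rw [abs_of_nonneg (by positivity), Nat.cast_pow, ← mul_pow, mul_inv_cancel₀ this.ne',
        one_pow]
    have hp' : Pw (fun i => (r i : ℝ)⁻¹) k fun _ => 1 :=
      ⟨1, zero_le_one, fun i => by simpa using small hx zero_le_one i k⟩
    have hq' : Pw (fun i => (r i : ℝ)⁻¹) j fun i => a i % r i ^ j := by
      obtain ⟨K', hK', h⟩ := hq
      refine ⟨K', hK', fun i => le_trans ?_ (h i)⟩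
      have h1 : a i % r i ^ j ≤ r i ^ j := (Nat.mod_lt _ (pow_pos (hr i) j)).le
      have h2 : ((a i % r i ^ j : ℕ) : ℝ) ≤ ((r i ^ j : ℕ) : ℝ) := by exact_mod_cast h1
      gcongr
    obtain ⟨y, hy, he⟩ := key hp hq
    obtain ⟨z, hz, hf⟩ := key hp' hq'
    refine ⟨y * z, mul_mem hy hz, ?_⟩
    have h1 := mul_mem (SW.conj hx (SP.le_SW hr hz) he) hf
    convert h1 using 1
    funext i
    simp only [Pi.mul_apply, Pi.inv_apply, one_mul]
    conv_lhs => rw [← Nat.div_add_mod' (a i) (r i ^ j), pow_add]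
    group

end Fam

/-- uniform form of `dist` -/
theorem dist_unif {m : ℕ} {t : G} (ht : Let T m t) (K : ℝ) : ∃ (C : ℕ) (K' : ℝ), ∀ r : ℕ, 1 ≤ r →
    ∀ a : ℕ, a * (r : ℝ)⁻¹ ^ m ≤ K →
      ∃ y ∈ PB T C r, Wd (L T (m + 1)) (r : ℝ)⁻¹ K' (y⁻¹ * t ^ a) := by
  obtain ⟨y, ⟨C, hy⟩, K', -, he⟩ := dist
    (ι := {p : ℕ × ℕ // 1 ≤ p.1 ∧ p.2 * (p.1 : ℝ)⁻¹ ^ m ≤ K}) (r := fun p => p.1.1)
    (fun p => p.2.1) ht (a := fun p => p.1.2) ⟨max K 0, le_max_right _ _, fun p => by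
      rw [abs_of_nonneg (by positivity)]; exact p.2.2.trans (le_max_left _ _)⟩
  refine ⟨C, K', fun r hr a ha => ⟨y ⟨(r, a), hr, ha⟩, hy ⟨(r, a), hr, ha⟩, ?_⟩⟩
  have := he ⟨(r, a), hr, ha⟩
  rw [abs_of_nonneg (by positivity), pow_zero, mul_one] at this
  exact this

/-- the ball-box theorem -/
theorem ball_box (hT : T.Finite) {N : ℕ} (hN : ∀ k t, Let T k t → N < k → t = 1) (d : ℕ) :
    ∀ m, m + d = N + 1 → ∀ K : ℝ, ∃ C : ℕ, ∀ r : ℕ, 1 ≤ r → ∀ g,
      Wd (L T m) (r : ℝ)⁻¹ K g → g ∈ PB T C r := by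
  induction d with
  | zero =>
    intro m hm K
    refine ⟨0, fun r _ g hg => ?_⟩
    have : g = 1 := by
      induction hg with
      | nil _ => rfl
      | snoc _ hs ih => rw [ih, hN _ _ hs.1 (by have := hs.2; omega), mul_one]
    rw [this]; exact PB.one_mem _ _
  | succ d ih =>
    intro m hm
    have ih' := ih (m + 1) (by omega)
    have key : ∀ A : List G, (∀ t ∈ A, Let T m t) → ∀ K : ℝ, ∃ C : ℕ, ∀ r : ℕ, 1 ≤ r → ∀ g,
        Wd (LA T m A) (r : ℝ)⁻¹ K g → g ∈ PB T C r := by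
      intro A
      induction A with
      | nil =>
        intro _ K
        obtain ⟨C, hC⟩ := ih' K
        refine ⟨C, fun r hr g hg => hC r hr g (hg.imp fun k s hs => ⟨hs.1, ?_⟩)⟩
        rcases hs.2 with h | h
        · exact h
        · exact absurd h.2 List.not_mem_nil
      | cons t A ihA =>
        intro hA K
        have ht := hA t List.mem_cons_self
        obtain ⟨C₁, h₁⟩ := ihA (fun s hs => hA s (List.mem_cons_of_mem _ hs)) (Real.exp K * K)
        obtain ⟨C₂, K', h₂⟩ := dist_unif ht K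
        obtain ⟨C₃, h₃⟩ := ih' K'
        refine ⟨C₂ + C₃ + C₁, fun r hr g hg => ?_⟩
        obtain ⟨a, ha, hg'⟩ := hg.collect ht (by positivity)
        obtain ⟨y, hy, he⟩ := h₂ r hr a ha
        have := PB.mul_mem (PB.mul_mem hy (h₃ r hr _ he)) (h₁ r hr _ hg')
        rwa [mul_inv_cancel_left, mul_inv_cancel_left] at this
    intro K
    obtain ⟨C, hC⟩ := key (Let.finite hT m).toFinset.toList
      (fun t ht => by simpa using ht) K
    refine ⟨C, fun r hr g hg => hC r hr g (hg.imp fun k s hs => ⟨hs.1, ?_⟩)⟩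
    rcases hs.2.lt_or_eq with h | h
    · exact Or.inl h
    · subst h
      exact Or.inr ⟨rfl, by simpa using hs.1⟩

/-- words of bounded size at scale `r` are bounded products of powers of generators -/
theorem exists_pb (hT : T.Finite) (h : Group.IsNilpotent (Subgroup.closure T)) (K : ℝ) :
    ∃ C : ℕ, ∀ r : ℕ, 1 ≤ r → ∀ g, Wd (L T 1) (r : ℝ)⁻¹ K g → g ∈ PB T C r := by
  obtain ⟨N, -, hN⟩ := exists_triv h
  exact ball_box hT hN N 1 (add_comm _ _) K

end Crest.Agent.R182.Nil
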