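import Crest.Agent.R182.GBDefs

/-! Row 182, block NIL: weighted words in iterated commutators (commutator collection). -/

set_option autoImplicit false
set_option linter.dupNamespace false

namespace Crest.Agent.R182.Nil

variable {G : Type*} [Group G]

/-- the commutator `a⁻¹ b⁻¹ a b` -/
def cm (a b : G) : G := a⁻¹ * b⁻¹ * a * b

theorem cm_inv (a b : G) : (cm a b)⁻¹ = cm b a := by
  simp only [cm, mul_inv_rev, inv_inv, mul_assoc]

/-- letters of weight `k`: iterated commutators of `k` elements of `T ∪ T⁻¹` -/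
inductive Let (T : Set G) : ℕ → G → Prop
  | base {t : G} : (t ∈ T ∨ t⁻¹ ∈ T) → Let T 1 t
  | cm {i j : ℕ} {u v : G} : Let T i u → Let T j v → Let T (i + j) (cm u v)

theorem Let.pos {T : Set G} {k : ℕ} {t : G} (h : Let T k t) : 1 ≤ k := by
  induction h with
  | base _ => exact le_rfl
  | cm _ _ h1 h2 => omega

theorem Let.inv {T : Set G} {k : ℕ} {t : G} (h : Let T k t) : Let T k t⁻¹ := by
  cases h with
  | base h => exact Let.base (by rw [inv_inv]; exact h.symm)
  | cm h1 h2 => rw [cm_inv, add_comm]; exact Let.cm h2 h1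

theorem Let.mem_closure {T : Set G} {k : ℕ} {t : G} (h : Let T k t) :
    t ∈ Subgroup.closure T := by
  induction h with
  | base h =>
    rcases h with h | h
    · exact Subgroup.subset_closure h
    · exact (Subgroup.inv_mem_iff _).1 (Subgroup.subset_closure h)
  | cm _ _ h1 h2 =>
    exact mul_mem (mul_mem (mul_mem (inv_mem h1) (inv_mem h2)) h1) h2

theorem Let.finite {T : Set G} (hT : T.Finite) (k : ℕ) : {t | Let T k t}.Finite := by
  induction k using Nat.strong_induction_on with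
  | _ k ih =>
    have h1 : (⋃ i : Fin k, ⋃ j : Fin k,
        Set.image2 Nil.cm {t | Let T i t} {t | Let T j t}).Finite :=
      Set.finite_iUnion fun i => Set.finite_iUnion fun j =>
        (ih i i.2).image2 _ (ih j j.2)
    refine ((hT.union hT.inv).union h1).subset fun t ht => ?_
    have ht' : Let T k t := ht
    cases ht' with
    | base h => exact Or.inl h
    | @cm i j u v h2 h3 =>
      have := h2.pos
      have := h3.pos
      exact Or.inr (Set.mem_iUnion.2 ⟨⟨i, by omega⟩, Set.mem_iUnion.2 ⟨⟨j, by omega⟩,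
        u, h2, v, h3, rfl⟩⟩)

theorem Let.mem_lcs {T : Set G} (d : ℕ) : ∀ {k : ℕ} {t : G}, Let T k t → 2 ^ d ≤ k →
    t ∈ (Subgroup.closure T).lowerCentralSeries d := by
  induction d with
  | zero => intro k t h _; exact h.mem_closure
  | succ d ih =>
    intro k t h hk
    cases h with
    | base h =>
      have : 1 ≤ 2 ^ d := Nat.one_le_two_pow
      omega
    | @cm i j u v h1 h2 =>
      rw [Subgroup.lowerCentralSeries_succ]
      rcases le_or_gt (2 ^ d) i with hi | hi
      · have := Subgroup.commutator_mem_commutator (inv_mem (ih h1 hi)) (inv_mem h2.mem_closure)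
        simpa only [commutatorElement_def, inv_inv, Nil.cm] using this
      · have hj : 2 ^ d ≤ j := by omega
        have := inv_mem (Subgroup.commutator_mem_commutator (inv_mem (ih h2 hj))
          (inv_mem h1.mem_closure))
        simpa only [commutatorElement_def, inv_inv, Nil.cm, mul_inv_rev, mul_assoc] using this

/-- heavy letters are trivial -/
theorem exists_triv {T : Set G} (h : Group.IsNilpotent (Subgroup.closure T)) :
    ∃ N, 1 ≤ N ∧ ∀ k t, Let T k t → N < k → t = 1 := by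
  obtain ⟨n, hn⟩ := (Subgroup.isNilpotent_iff_lowerCentralSeries _).1 h
  refine ⟨2 ^ n, Nat.one_le_two_pow, fun k t ht hk => ?_⟩
  have := ht.mem_lcs n hk.le
  rwa [hn, Subgroup.mem_bot] at this

/-- products of letters allowed by `P`, of total size `∑ x ^ weight ≤ K` -/
inductive Wd (P : ℕ → G → Prop) (x : ℝ) : ℝ → G → Prop
  | nil {K : ℝ} : 0 ≤ K → Wd P x K 1
  | snoc {K : ℝ} {g s : G} {k : ℕ} : Wd P x K g → P k s → Wd P x (K + x ^ k) (g * s)

variable {P P' : ℕ → G → Prop} {x K K' : ℝ} {g h : G} {T : Set G}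

theorem Wd.nonneg (hx : 0 ≤ x) (hg : Wd P x K g) : 0 ≤ K := by
  induction hg with
  | nil h => exact h
  | snoc _ _ ih => positivity

theorem Wd.mono (hg : Wd P x K g) (hK : K ≤ K') : Wd P x K' g := by
  induction hg generalizing K' with
  | nil h => exact Wd.nil (h.trans hK)
  | @snoc K g s k _ hs ih =>
    have := Wd.snoc (ih (K' := K' - x ^ k) (by linarith)) hs
    rwa [sub_add_cancel] at this

theorem Wd.imp (hg : Wd P x K g) (hP : ∀ k s, P k s → P' k s) : Wd P' x K g := by
  induction hg with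
  | nil h => exact Wd.nil h
  | snoc _ hs ih => exact Wd.snoc ih (hP _ _ hs)

theorem Wd.single {k : ℕ} {s : G} (hs : P k s) : Wd P x (x ^ k) s := by
  have := Wd.snoc (x := x) (Wd.nil (P := P) le_rfl) hs
  rwa [zero_add, one_mul] at this

theorem Wd.mul (hg : Wd P x K g) (hh : Wd P x K' h) : Wd P x (K + K') (g * h) := by
  induction hh with
  | nil h => rw [mul_one]; exact hg.mono (by linarith)
  | snoc _ hs ih => rw [← add_assoc, ← mul_assoc]; exact Wd.snoc ih hs

theorem Wd.inv (hP : ∀ k s, P k s → P k s⁻¹) (hg : Wd P x K g) : Wd P x K g⁻¹ := by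
  induction hg with
  | nil h => rw [inv_one]; exact Wd.nil h
  | snoc _ hs ih => rw [mul_inv_rev, add_comm]; exact (Wd.single (hP _ _ hs)).mul ih

theorem Wd.pow (hg : Wd P x K g) (n : ℕ) : Wd P x (n * K) (g ^ n) := by
  induction n with
  | zero => rw [pow_zero]; exact Wd.nil (by simp)
  | succ n ih => rw [pow_succ, Nat.cast_succ, add_mul, one_mul]; exact ih.mul hg

theorem Wd.conj_letter {j : ℕ} {t : G} (hP : ∀ k s, P k s → P (k + j) (cm s t))
    (hx : 0 ≤ x) (hg : Wd P x K g) : Wd P x ((1 + x ^ j) * K) (t⁻¹ * g * t) := by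
  induction hg with
  | nil h => rw [mul_one, inv_mul_cancel]; exact Wd.nil (by positivity)
  | @snoc K g s k _ hs ih =>
    have h1 := Wd.snoc (Wd.snoc ih hs) (hP _ _ hs)
    have e1 : t⁻¹ * g * t * s * cm s t = t⁻¹ * (g * s) * t := by
      simp only [cm]; group
    have e2 : (1 + x ^ j) * K + x ^ k + x ^ (k + j) = (1 + x ^ j) * (K + x ^ k) := by ring
    rwa [e1, e2] at h1

/-- `P` is stable under commutators with letters -/
def Cl (T : Set G) (P : ℕ → G → Prop) : Prop :=
  ∀ k s j t, P k s → Let T j t → P (k + j) (cm s t)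

/-- letters of weight at least `m` -/
def L (T : Set G) (m : ℕ) (k : ℕ) (s : G) : Prop := Let T k s ∧ m ≤ k

theorem cl_L (T : Set G) (m : ℕ) : Cl T (L T m) :=
  fun _ _ _ _ hs ht => ⟨hs.1.cm ht, hs.2.trans (Nat.le_add_right _ _)⟩

theorem Wd.invL {m : ℕ} (hg : Wd (L T m) x K g) : Wd (L T m) x K g⁻¹ :=
  hg.inv fun _ _ h => ⟨h.1.inv, h.2⟩

theorem Wd.anti {m m' : ℕ} (hg : Wd (L T m) x K g) (h : m' ≤ m) : Wd (L T m') x K g :=
  hg.imp fun _ _ hs => ⟨hs.1, h.trans hs.2⟩

theorem Wd.conj {m : ℕ} (hP : Cl T P) (hx : 0 ≤ x) (hh : Wd (L T m) x K' h) (hg : Wd P x K g) :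
    Wd P x (Real.exp K' * K) (h⁻¹ * g * h) := by
  have hK := hg.nonneg hx
  induction hh with
  | nil h0 =>
    rw [inv_one, one_mul, mul_one]
    exact hg.mono (le_mul_of_one_le_left hK (Real.one_le_exp h0))
  | @snoc K' h t j _ ht ih =>
    have h1 := ih.conj_letter (j := j) (t := t) (fun k s hs => hP k s j t hs ht.1) hx
    have e1 : t⁻¹ * (h⁻¹ * g * h) * t = (h * t)⁻¹ * g * (h * t) := by group
    rw [e1] at h1
    refine h1.mono ?_
    rw [Real.exp_add, ← mul_assoc, mul_comm (Real.exp K')]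
    have h2 : 1 + x ^ j ≤ Real.exp (x ^ j) := by linarith [Real.add_one_le_exp (x ^ j)]
    gcongr

theorem Wd.cm_letter {m j : ℕ} {t : G} (hx : 0 ≤ x) (ht : Let T j t) (hg : Wd (L T m) x K g) :
    Wd (L T (m + j)) x (x ^ j * K * Real.exp K) (cm g t) := by
  induction hg with
  | nil h0 =>
    have e : cm (1 : G) t = 1 := by simp [cm]
    rw [e]; exact Wd.nil (by positivity)
  | @snoc K g s k hg hs ih =>
    -- `cm (g s) t = s⁻¹ (cm g t) s * cm s t`
    have hK := hg.nonneg hx
    have h1 := Wd.conj (cl_L T (m + j)) hx (Wd.single (P := L T 0) (x := x) ⟨hs.1, Nat.zero_le _⟩) ih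
    have h2 := Wd.snoc h1 (k := k + j) (s := cm s t) ⟨hs.1.cm ht, Nat.add_le_add_right hs.2 _⟩
    have e1 : s⁻¹ * cm g t * s * cm s t = cm (g * s) t := by simp only [cm]; group
    rw [e1] at h2
    refine h2.mono ?_
    have h3 : 1 ≤ Real.exp (K + x ^ k) := Real.one_le_exp (by positivity)
    have h4 : 0 ≤ x ^ j * x ^ k := by positivity
    calc Real.exp (x ^ k) * (x ^ j * K * Real.exp K) + x ^ (k + j)
        = x ^ j * K * Real.exp (K + x ^ k) + x ^ j * x ^ k * 1 := by rw [Real.exp_add]; ring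
      _ ≤ x ^ j * K * Real.exp (K + x ^ k) + x ^ j * x ^ k * Real.exp (K + x ^ k) := by gcongr
      _ = _ := by ring

theorem Wd.cm {m j : ℕ} (hx : 0 ≤ x) (hg : Wd (L T m) x K g) (hh : Wd (L T j) x K' h) :
    Wd (L T (m + j)) x (K * K' * Real.exp (K + K')) (cm g h) := by
  have hK := hg.nonneg hx
  induction hh with
  | nil h0 =>
    have e : Nil.cm g (1 : G) = 1 := by simp [Nil.cm]
    rw [e]; exact Wd.nil (by positivity)
  | @snoc K' h t k hh ht ih =>
    have hK' := hh.nonneg hx
    have h1 := Wd.conj (cl_L T (m + j)) hx (Wd.single (P := L T 0) (x := x) ⟨ht.1, Nat.zero_le _⟩) ih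
    have h2 := ((hg.cm_letter hx ht.1).anti (Nat.add_le_add_left ht.2 m)).mul h1
    have e1 : Nil.cm g t * (t⁻¹ * Nil.cm g h * t) = Nil.cm g (h * t) := by
      simp only [Nil.cm]; group
    rw [e1] at h2
    refine h2.mono ?_
    have h3 : Real.exp K ≤ Real.exp (K + (K' + x ^ k)) :=
      Real.exp_le_exp.2 (by have : 0 ≤ x ^ k := by positivity
                            linarith)
    calc x ^ k * K * Real.exp K + Real.exp (x ^ k) * (K * K' * Real.exp (K + K'))
        = x ^ k * K * Real.exp K + K * K' * Real.exp (K + (K' + x ^ k)) := by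
          rw [← add_assoc, Real.exp_add (K + K')]; ring
      _ ≤ x ^ k * K * Real.exp (K + (K' + x ^ k)) + K * K' * Real.exp (K + (K' + x ^ k)) := by
          gcongr
      _ = _ := by ring

/-- `(t e) ^ n = t ^ n * small` -/
theorem Wd.mul_pow {m j : ℕ} {δ ε : ℝ} {t e : G} (hx : 0 ≤ x) (ht : Wd (L T j) x δ t)
    (he : Wd (L T m) x ε e) (n : ℕ) :
    Wd (L T m) x (n * ε * Real.exp (n * δ)) ((t ^ n)⁻¹ * (t * e) ^ n) := by
  have hδ := ht.nonneg hx
  have hε := he.nonneg hx
  induction n with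
  | zero => simpa using Wd.nil (P := L T m) (x := x) le_rfl
  | succ n ih =>
    have h1 := (Wd.conj (cl_L T m) hx ht ih).mul he
    have e1 : t⁻¹ * ((t ^ n)⁻¹ * (t * e) ^ n) * t * e = (t ^ (n + 1))⁻¹ * (t * e) ^ (n + 1) := by
      rw [pow_succ, pow_succ, mul_inv_rev]; simp only [mul_assoc]
    rw [e1] at h1
    refine h1.mono ?_
    have h3 : 1 ≤ Real.exp ((n + 1 : ℕ) * δ) := Real.one_le_exp (by positivity)
    calc Real.exp δ * (n * ε * Real.exp (n * δ)) + ε
        = n * ε * Real.exp ((n + 1 : ℕ) * δ) + ε * 1 := by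
          rw [Nat.cast_succ, add_mul, one_mul, Real.exp_add]; ring
      _ ≤ n * ε * Real.exp ((n + 1 : ℕ) * δ) + ε * Real.exp ((n + 1 : ℕ) * δ) := by gcongr
      _ = _ := by push_cast; ring

/-- `cm (a ^ p) b = (cm a b) ^ p * small` -/
theorem Wd.cm_pow {i m : ℕ} {α σ : ℝ} {a b : G} (hx : 0 ≤ x) (ha : Wd (L T i) x α a)
    (hs : Wd (L T m) x σ (Nil.cm a b)) (n : ℕ) :
    Wd (L T (m + i)) x (n * σ * (n * α) * Real.exp (2 * (n * σ) + n * α))
      ((Nil.cm a b ^ n)⁻¹ * Nil.cm (a ^ n) b) := by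
  have hα := ha.nonneg hx
  have hσ := hs.nonneg hx
  induction n with
  | zero =>
    have e : Nil.cm (1 : G) b = 1 := by simp [Nil.cm]
    simpa [e] using Wd.nil (P := L T (m + i)) (x := x) le_rfl
  | succ n ih =>
    have h1 := (Wd.conj (cl_L T (m + i)) hx (hs.pow n) (hs.cm hx (ha.pow n))).mul ih
    have e1 : (Nil.cm a b ^ n)⁻¹ * Nil.cm (Nil.cm a b) (a ^ n) * Nil.cm a b ^ n *
        ((Nil.cm a b ^ n)⁻¹ * Nil.cm (a ^ n) b) =
        (Nil.cm a b ^ (n + 1))⁻¹ * Nil.cm (a ^ (n + 1)) b := by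
      rw [pow_succ' (Nil.cm a b), pow_succ' a]
      generalize Nil.cm a b ^ n = z
      generalize a ^ n = w
      simp only [Nil.cm]; group
    rw [e1] at h1
    refine h1.mono ?_
    have hn : (0 : ℝ) ≤ n := Nat.cast_nonneg n
    set E := Real.exp (2 * ((n + 1 : ℕ) * σ) + (n + 1 : ℕ) * α) with hE
    have h3 : Real.exp (n * σ) * Real.exp (σ + n * α) ≤ E := by
      rw [← Real.exp_add]; apply Real.exp_le_exp.2; push_cast; nlinarith
    have h4 : Real.exp (2 * (n * σ) + n * α) ≤ E := by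
      apply Real.exp_le_exp.2; push_cast; nlinarith
    have hE0 : 0 ≤ E := (Real.exp_pos _).le
    calc Real.exp (n * σ) * (σ * (n * α) * Real.exp (σ + n * α)) +
          n * σ * (n * α) * Real.exp (2 * (n * σ) + n * α)
        = σ * (n * α) * (Real.exp (n * σ) * Real.exp (σ + n * α)) +
          n * σ * (n * α) * Real.exp (2 * (n * σ) + n * α) := by ring
      _ ≤ σ * (n * α) * E + n * σ * (n * α) * E := by gcongr
      _ = ((n + 1 : ℕ) * σ) * (n * α) * E := by push_cast; ring
      _ ≤ ((n + 1 : ℕ) * σ) * ((n + 1 : ℕ) * α) * E := by gcongr; exact Nat.le_succ n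

/-- heavy letters can be dropped, light ones rescaled -/
theorem Wd.rescale {N m : ℕ} (hN : ∀ k t, Let T k t → N < k → t = 1) {c : ℝ} (hc : 1 ≤ c)
    (hx : 0 ≤ x) (hg : Wd (L T m) x K g) : Wd (L T m) (c * x) (c ^ N * K) g := by
  have hc0 : 0 ≤ c := by linarith
  induction hg with
  | nil h0 => exact Wd.nil (by positivity)
  | @snoc K g s k hg hs ih =>
    rcases le_or_gt k N with hk | hk
    · refine (Wd.snoc ih hs).mono ?_
      rw [mul_add, _root_.mul_pow]
      gcongr
    · rw [hN k s hs.1 hk, mul_one]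
      refine ih.mono ?_
      have : 0 ≤ x ^ k := by positivity
      gcongr
      linarith

theorem Wd.of_ball {r : ℕ} (hx : 0 ≤ x) (hg : g ∈ Ball T r) : Wd (L T 1) x (r * x) g := by
  induction r generalizing g with
  | zero =>
    rw [h31_ball_zero] at hg
    rw [Set.mem_singleton_iff.1 hg]; exact Wd.nil (by simp)
  | succ r ih =>
    rcases h31_ball_succ hg with rfl | ⟨y, hy, b, hb, rfl⟩
    · exact Wd.nil (by positivity)
    · have := (Wd.single (P := L T 1) (x := x) ⟨Let.base hy, le_rfl⟩).mul (ih hb)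
      refine this.mono (le_of_eq ?_)
      push_cast; ring

/-- letters of weight `> m`, or of weight `m` and in `A` -/
def LA (T : Set G) (m : ℕ) (A : List G) (k : ℕ) (s : G) : Prop :=
  Let T k s ∧ (m + 1 ≤ k ∨ (k = m ∧ s ∈ A))

theorem cl_LA (T : Set G) (m : ℕ) (A : List G) : Cl T (LA T m A) := by
  intro k s j t hs ht
  refine ⟨hs.1.cm ht, Or.inl ?_⟩
  have := ht.pos
  rcases hs.2 with h | h <;> omega

/-- collect the letter `t` on the left -/
theorem Wd.collect {m : ℕ} {A : List G} {t : G} (ht : Let T m t) (hx : 0 ≤ x)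
    (hg : Wd (LA T m (t :: A)) x K g) :
    ∃ a : ℕ, a * x ^ m ≤ K ∧ Wd (LA T m A) x (Real.exp K * K) ((t ^ a)⁻¹ * g) := by
  induction hg with
  | nil h0 => exact ⟨0, by simpa using h0, by simpa using Wd.nil (by positivity)⟩
  | @snoc K g s k hg hs ih =>
    obtain ⟨a, ha, ih⟩ := ih
    have hK := hg.nonneg hx
    have hk : 0 ≤ x ^ k := by positivity
    have h3 : 1 + x ^ k ≤ Real.exp (x ^ k) := by linarith [Real.add_one_le_exp (x ^ k)]
    have h4 : 1 ≤ Real.exp K := Real.one_le_exp hK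
    have h5 : 0 ≤ Real.exp K * K := by positivity
    by_cases hs' : LA T m A k s
    · refine ⟨a, by linarith, ?_⟩
      have h1 := Wd.snoc ih hs'
      rw [mul_assoc] at h1
      refine h1.mono ?_
      rw [Real.exp_add]
      calc Real.exp K * K + x ^ k = Real.exp K * 1 * K + 1 * 1 * x ^ k := by ring
        _ ≤ Real.exp K * Real.exp (x ^ k) * K + Real.exp K * Real.exp (x ^ k) * x ^ k := by
          gcongr <;> linarith
        _ = _ := by ring
    · obtain ⟨rfl, rfl⟩ : k = m ∧ s = t := by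
        rcases hs.2 with h | ⟨h1, h2⟩
        · exact absurd ⟨hs.1, Or.inl h⟩ hs'
        · rcases List.mem_cons.1 h2 with h2 | h2
          · exact ⟨h1, h2⟩
          · exact absurd ⟨hs.1, Or.inr ⟨h1, h2⟩⟩ hs'
      refine ⟨a + 1, by push_cast; linarith, ?_⟩
      have h1 := ih.conj_letter (j := k) (t := s) (fun k' s' h => cl_LA T k A k' s' k s h ht) hx
      have e1 : s⁻¹ * ((s ^ a)⁻¹ * g) * s = (s ^ (a + 1))⁻¹ * (g * s) := by
        rw [pow_succ, mul_inv_rev]; simp only [mul_assoc]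
      rw [e1] at h1
      refine h1.mono ?_
      rw [Real.exp_add]
      calc (1 + x ^ k) * (Real.exp K * K) ≤ Real.exp (x ^ k) * (Real.exp K * (K + x ^ k)) := by
            gcongr; linarith
        _ = _ := by ring

end Crest.Agent.R182.Nil
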