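import Crest.Agent.R182.GBDefs
import Crest.Prelude.Def_QuasiIsometry

/-! Row 182, block S: the layered model of a polycyclic group (no Lie algebra). -/

set_option autoImplicit false
set_option linter.dupNamespace false

namespace Crest.Agent.R182

open Crest.GroupTheory

/-- A group with heights `ht : P → ℤ^k ⊆ ℝ^k` and a normal series `ker ht = Q 0 ≥ Q 1 ≥ ⋯ ≥ Q r = ⊥`
whose factors are (up to finite groups) lattices in coordinate subspaces of `ℝ^m`, on which `g`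
acts blockwise like `exp (wt j (ht g))`. -/
structure Tower (P : Type*) [Group P] where
  /-- generators -/
  S : Finset P
  gen : Subgroup.closure (S : Set P) = ⊤
  /-- rank of the height lattice -/
  k : ℕ
  /-- heights -/
  ht : P → Fin k → ℝ
  ht_mul : ∀ g h, ht (g * h) = ht g + ht h
  ht_int : ∀ g a, ∃ z : ℤ, ht g a = z
  ht_surj : ∀ z : Fin k → ℤ, ∃ g, ∀ a, ht g a = z a
  /-- number of layers -/
  r : ℕ
  /-- the series -/
  Q : ℕ → Subgroup P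
  normal : ∀ i, (Q i).Normal
  anti : ∀ i, Q (i + 1) ≤ Q i
  mem_zero : ∀ g, g ∈ Q 0 ↔ ht g = 0
  bot : Q r = ⊥
  comm : ∀ i, ∀ x ∈ Q i, ∀ y ∈ Q i, x * y * x⁻¹ * y⁻¹ ∈ Q (i + 1)
  /-- number of coordinates -/
  m : ℕ
  /-- layer of a coordinate -/
  lay : Fin m → ℕ
  lay_lt : ∀ j, lay j < r
  /-- weight of a coordinate -/
  wt : Fin m → (Fin k → ℝ) →ₗ[ℝ] ℝ
  span : ∀ v, (∀ j, wt j v = 0) → v = 0
  unimod : ∀ i v, ∑ j with lay j = i, wt j v = 0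
  /-- coordinates on the layer `Q i / Q (i + 1)` -/
  ι : ℕ → P → Fin m → ℝ
  /-- the action on the coordinates -/
  ρ : P →* Module.End ℝ (Fin m → ℝ)
  /-- the constant -/
  C : ℝ
  one_le_C : 1 ≤ C
  ι_mul : ∀ i, ∀ x ∈ Q i, ∀ y ∈ Q i, ι i (x * y) = ι i x + ι i y
  ι_supp : ∀ i, ∀ x ∈ Q i, ∀ j, lay j ≠ i → ι i x j = 0
  ι_zero : ∀ i, ∀ x ∈ Q (i + 1), ι i x = 0
  ι_conj : ∀ i, ∀ x ∈ Q i, ∀ g, ι i (g * x * g⁻¹) = ρ g (ι i x)
  ρ_le : ∀ (g : P) (y : Fin m → ℝ) (j : Fin m) (B : ℝ),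
    (∀ j', lay j' = lay j → wt j' = wt j → |y j'| ≤ B) → |ρ g y j| ≤ C * Real.exp (wt j (ht g)) * B
  dense : ∀ i (y : Fin m → ℝ), (∀ j, lay j ≠ i → y j = 0) → ∃ x ∈ Q i, ‖ι i x - y‖ ≤ C
  proper : ∀ i, ∃ T : Finset P, (∀ t ∈ T, t ∈ Q i) ∧
    ∀ x ∈ Q i, ‖ι i x‖ ≤ 1 → ∃ t ∈ T, t⁻¹ * x ∈ Q (i + 1)

namespace Tower

variable {P : Type*} [Group P] (W : Tower P)

/-- the entropy norm on heights -/
noncomputable def h (v : Fin W.k → ℝ) : ℝ := ∑ j, max (W.wt j v) 0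

/-- log-size at most `R`: endpoints of paths from `1` of length `≤ exp R` with heights `≤ R` -/
def Gam (R : ℝ) : Set P :=
  {x | ∃ (n : ℕ) (g : ℕ → P), (n : ℝ) ≤ Real.exp R ∧ g 0 = 1 ∧ g n = x ∧
    (∀ a < n, (g a)⁻¹ * g (a + 1) ∈ Ball (W.S : Set P) 1) ∧ ∀ a ≤ n, ‖W.ht (g a)‖ ≤ R}

/-- `g 0, …, g L` has jumps of log-size at most `R` -/
def Chain (R : ℝ) (L : ℕ) (g : ℕ → P) : Prop := ∀ a < L, (g a)⁻¹ * g (a + 1) ∈ W.Gam R

/-- the heights of `g` follow the profile `v` -/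
def Trk (R : ℝ) (L : ℕ) (g : ℕ → P) (v : ℕ → Fin W.k → ℝ) : Prop :=
  ∀ a ≤ L, ‖W.ht (g a) - v a‖ ≤ R

/-- the profile `v` has no valley deeper than `R` for the weight of `j` -/
def NoVal (R : ℝ) (L : ℕ) (v : ℕ → Fin W.k → ℝ) (j : Fin W.m) : Prop :=
  ∀ a ≤ L, (∀ b ≤ a, W.wt j (v b) ≤ W.wt j (v a) + R) ∨
    ∀ b, a ≤ b → b ≤ L → W.wt j (v b) ≤ W.wt j (v a) + R

/-- endpoints of the `R`-chains from `p` that follow the profile `v` -/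
def Ends (R : ℝ) (L : ℕ) (p : P) (v : ℕ → Fin W.k → ℝ) : Set P :=
  {x | ∃ g : ℕ → P, g 0 = p ∧ g L = x ∧ W.Chain R L g ∧ W.Trk R L g v}

/-- `x` is of log-size `R` modulo `Q i` -/
def GamQ (i : ℕ) (R : ℝ) : Set P := {x | ∃ y ∈ W.Gam R, y⁻¹ * x ∈ W.Q i}

end Tower

/-- existence of the model (block S1) -/
def TowerStmt (P : Type*) [Group P] : Prop :=
  IsVirtuallyPolycyclic P → ∃ P₀ : Subgroup P, P₀.FiniteIndex ∧ Nonempty (Tower P₀)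

end Crest.Agent.R182
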