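import Crest.Agent.R182.SDefs

/-! Row 182, block S1: quasi-isometry to a finite-index subgroup. -/

set_option autoImplicit false
set_option linter.dupNamespace false

namespace Crest.Agent.R182

open Crest.GroupTheory Crest.Geometry

variable {P : Type*} [Group P]

/-- constants `K * K'` and `K' * C + 2 * C'` -/
theorem qi_comp {X Y Z : Type*} {dX : X → X → ℝ} {dY : Y → Y → ℝ} {dZ : Z → Z → ℝ}
    (tri : ∀ a b c, dZ a c ≤ dZ a b + dZ b c) {F : X → Y} {F' : Y → Z}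
    (hF : IsQuasiIsometry dX dY F) (hF' : IsQuasiIsometry dY dZ F') :
    IsQuasiIsometry dX dZ (F' ∘ F) := by
  obtain ⟨K, C, hK, hC, h, hd⟩ := hF
  obtain ⟨K', C', hK', hC', h', hd'⟩ := hF'
  have hi0 : 0 ≤ K'⁻¹ := by positivity
  have hi1 : K'⁻¹ ≤ K' := (inv_le_one_of_one_le₀ hK').trans hK'
  refine ⟨K * K', K' * C + 2 * C', one_le_mul_of_one_le_of_one_le hK hK', by positivity,
    fun x x' => ⟨?_, ?_⟩, fun z => ?_⟩
  · have h1 := mul_le_mul_of_nonneg_left (h x x').1 hi0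
    have h2 := (h' (F x) (F x')).1
    have h3 := mul_le_mul_of_nonneg_right hi1 hC
    rw [mul_inv]
    simp only [Function.comp_apply]
    nlinarith
  · have h1 := mul_le_mul_of_nonneg_left (h x x').2 (show 0 ≤ K' by positivity)
    have h2 := (h' (F x) (F x')).2
    simp only [Function.comp_apply]
    nlinarith
  · obtain ⟨y, hy⟩ := hd' z
    obtain ⟨x, hx⟩ := hd y
    refine ⟨x, (tri z (F' y) _).trans ?_⟩
    have h1 := mul_le_mul_of_nonneg_left hx (show 0 ≤ K' by positivity)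
    have h2 := (h' y (F x)).2
    simp only [Function.comp_apply]
    linarith

/-- `Ball.eq_wordDist`, `Ball.mul_mem` (note `wordDist S a b = wordDist S 1 (a⁻¹ * b)`) -/
theorem wordDist_tri {S : Set P} (hS : Subgroup.closure S = ⊤) (a b c : P) :
    wordDist S a c ≤ wordDist S a b + wordDist S b c := by
  have key : ∀ (g : P) (r : ℕ), g ∈ Ball S r ↔ wordLength S g ≤ r := fun g r => by
    rw [Ball.eq_wordDist hS]
    simp [wordDist]
  have h := (key _ _).1 (Ball.mul_mem ((key (a⁻¹ * b) _).2 le_rfl) ((key (b⁻¹ * c) _).2 le_rfl))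
  rw [mul_assoc, mul_inv_cancel_left] at h
  unfold wordDist
  exact_mod_cast h

theorem h85_mem_ball {G : Type*} [Group G] {T : Set G} (hT : Subgroup.closure T = ⊤) (r : ℕ)
    (g : G) : g ∈ Ball T r ↔ wordLength T g ≤ r := by
  rw [Ball.eq_wordDist hT]
  simp only [Set.mem_ofPred_eq, GroupTheory.wordDist, inv_one, one_mul, Nat.cast_le]

theorem h85_fin_ball {G : Type*} [Group G] {T : Set G} (hT : Subgroup.closure T = ⊤) {A : Set G}
    (hA : A.Finite) : ∃ K : ℕ, ∀ a ∈ A, a ∈ Ball T K := by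
  obtain ⟨K, hK⟩ := (hA.image (wordLength T)).bddAbove
  exact ⟨K, fun a ha => (h85_mem_ball hT K a).mpr (hK ⟨a, ha, rfl⟩)⟩

/-- Choose `t : P → P` with finite range and `p * (t p)⁻¹ ∈ P₀` (`t p = (Quotient.out (p⁻¹ : P ⧸ P₀))⁻¹`),
`r p = p * (t p)⁻¹`.  Upper bound: for `s ∈ S ∪ S⁻¹`, `(r p)⁻¹ * r (p * s) = t p * s * (t (p * s))⁻¹` ranges in a
finite subset of `P₀`, so it lies in `Ball S₀ K`; induct on the length of a word for `p⁻¹ * q`
(`h31_ball_succ`, `Ball.mul_mem`, `Ball.eq_wordDist`).  Lower bound: `S₀` maps into `Ball S K'`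
(`Ball.subset_of`, `Ball.image`), the range of `t` lies in `Ball S D`, and
`p⁻¹ * q = (t p)⁻¹ * ((r p)⁻¹ * r q) * t q`.  Density: for `y ∈ P₀`, `y⁻¹ * r y = (t y)⁻¹` ranges in a finite subset of
`P₀`. -/
theorem qi_retract (S : Finset P) (hS : Subgroup.closure (S : Set P) = ⊤) (P₀ : Subgroup P)
    [P₀.FiniteIndex] (S₀ : Finset P₀) (hS₀ : Subgroup.closure (S₀ : Set P₀) = ⊤) :
    ∃ r : P → P₀, IsQuasiIsometry (wordDist (S : Set P)) (wordDist (S₀ : Set P₀)) r := by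
  obtain ⟨u, hu, hfin⟩ : ∃ u : P → P, (∀ p, p * u p ∈ P₀) ∧ (Set.range u).Finite := by
    refine ⟨fun p => (QuotientGroup.mk p⁻¹ : P ⧸ P₀).out, fun p => ?_, ?_⟩
    · have h := QuotientGroup.eq.mp (QuotientGroup.out_eq' (QuotientGroup.mk p⁻¹ : P ⧸ P₀)).symm
      rwa [inv_inv] at h
    · refine (Set.finite_range fun c : P ⧸ P₀ => c.out).subset ?_
      rintro _ ⟨p, rfl⟩
      exact ⟨_, rfl⟩
  obtain ⟨D, hD⟩ := h85_fin_ball hS hfin
  have hD' : ∀ p, u p ∈ Ball (S : Set P) D := fun p => hD _ ⟨p, rfl⟩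
  obtain ⟨K, hK⟩ := h85_fin_ball hS₀ (A := Subtype.val ⁻¹' Ball (S : Set P) (D + 1 + D))
    ((Ball.finite S.finite_toSet _).preimage Subtype.val_injective.injOn)
  obtain ⟨K', hK'⟩ := h85_fin_ball hS (S₀.finite_toSet.image P₀.subtype)
  obtain ⟨r, hr⟩ : ∃ r : P → P₀, ∀ p, (r p : P) = p * u p := ⟨fun p => ⟨_, hu p⟩, fun _ => rfl⟩
  have hup : ∀ (m : ℕ) (p g : P), g ∈ Ball (S : Set P) m →
      (r p)⁻¹ * r (p * g) ∈ Ball (S₀ : Set P₀) (m * K) := by
    intro m
    induction m with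
    | zero =>
      intro p g hg
      rw [h31_ball_zero, Set.mem_singleton_iff] at hg
      rw [hg, mul_one, inv_mul_cancel]
      exact Ball.one_mem _ _
    | succ m ih =>
      intro p g hg
      rcases h31_ball_succ hg with rfl | ⟨x, hx, b, hb, rfl⟩
      · rw [mul_one, inv_mul_cancel]
        exact Ball.one_mem _ _
      · have hx1 : x ∈ Ball (S : Set P) 1 := by
          rcases hx with hx | hx
          · exact Ball.mem_of_mem hx
          · exact inv_inv x ▸ Ball.inv_mem (Ball.mem_of_mem hx)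
        have h1 : (r p)⁻¹ * r (p * x) ∈ Ball (S₀ : Set P₀) K := by
          refine hK _ ?_
          have e : (((r p)⁻¹ * r (p * x) : P₀) : P) = (u p)⁻¹ * x * u (p * x) := by
            rw [Subgroup.coe_mul, Subgroup.coe_inv, hr, hr]; group
          rw [Set.mem_preimage, e]
          exact Ball.mul_mem (Ball.mul_mem (Ball.inv_mem (hD' p)) hx1) (hD' _)
        have h2 := Ball.mul_mem h1 (ih (p * x) b hb)
        rwa [mul_assoc, mul_inv_cancel_left, mul_assoc, add_comm, ← Nat.succ_mul] at h2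
  have hK0 : (0 : ℝ) ≤ K := Nat.cast_nonneg _
  have hK0' : (0 : ℝ) ≤ K' := Nat.cast_nonneg _
  have hD0 : (0 : ℝ) ≤ D := Nat.cast_nonneg _
  refine ⟨r, K + K' + 1, 2 * D + K, by linarith, by linarith, fun p q => ⟨?_, ?_⟩, fun y => ⟨y, ?_⟩⟩
  · have h1 := (h85_mem_ball hS₀ _ ((r p)⁻¹ * r q)).mpr le_rfl
    have h2 := Set.mem_image_of_mem P₀.subtype h1
    rw [Ball.image] at h2
    have h3 := Ball.mul_mem (Ball.mul_mem (hD' p) (Ball.subset_of hK' _ h2)) (Ball.inv_mem (hD' q))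
    have e : u p * P₀.subtype ((r p)⁻¹ * r q) * (u q)⁻¹ = p⁻¹ * q := by
      rw [Subgroup.subtype_apply, Subgroup.coe_mul, Subgroup.coe_inv, hr, hr]; group
    rw [e, h85_mem_ball hS] at h3
    have h4 : (wordLength (S : Set P) (p⁻¹ * q) : ℝ) ≤
        D + wordLength (S₀ : Set P₀) ((r p)⁻¹ * r q) * K' + D := by exact_mod_cast h3
    have h5 : (0 : ℝ) ≤ wordLength (S₀ : Set P₀) ((r p)⁻¹ * r q) := Nat.cast_nonneg _
    rw [GroupTheory.wordDist, GroupTheory.wordDist, sub_le_iff_le_add,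
      inv_mul_le_iff₀ (by linarith)]
    nlinarith [mul_nonneg hK0 h5, mul_nonneg hK0 hD0, mul_nonneg hK0' hD0, mul_nonneg hK0 hK0,
      mul_nonneg hK0 hK0']
  · have h1 := hup _ p _ ((h85_mem_ball hS _ (p⁻¹ * q)).mpr le_rfl)
    rw [mul_inv_cancel_left, h85_mem_ball hS₀] at h1
    have h2 : (wordLength (S₀ : Set P₀) ((r p)⁻¹ * r q) : ℝ) ≤
        wordLength (S : Set P) (p⁻¹ * q) * K := by exact_mod_cast h1
    have h3 : (0 : ℝ) ≤ wordLength (S : Set P) (p⁻¹ * q) := Nat.cast_nonneg _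
    rw [GroupTheory.wordDist, GroupTheory.wordDist]
    nlinarith [mul_nonneg hK0' h3]
  · have h1 : y⁻¹ * r y ∈ Ball (S₀ : Set P₀) K := by
      refine hK _ ?_
      have e : ((y⁻¹ * r y : P₀) : P) = u y := by
        rw [Subgroup.coe_mul, Subgroup.coe_inv, hr]; group
      rw [Set.mem_preimage, e]
      exact Ball.mono subset_rfl (by omega) (hD' _)
    rw [h85_mem_ball hS₀] at h1
    have h2 : (wordLength (S₀ : Set P₀) (y⁻¹ * r y) : ℝ) ≤ K := by exact_mod_cast h1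
    rw [GroupTheory.wordDist]
    linarith

end Crest.Agent.R182
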