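import Crest.Agent.R182.SESer
import Crest.Agent.R182.SELay
import Crest.Agent.R182.SEQI

/-! Row 182, block S1: every virtually polycyclic group has a finite-index subgroup with a tower. -/

set_option autoImplicit false
set_option linter.dupNamespace false

namespace Crest.Agent.R182

open Crest.GroupTheory Crest.Geometry

theorem tower_of_series {P : Type*} [Group P] (hP : PC (⊤ : Subgroup P)) (r : ℕ)
    (Q : ℕ → Subgroup P) (ℓ χ : ℕ → P → QB) (h0 : Q 0 = ⊤) (hr : Q r = ⊥)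
    (hQ : ∀ i, EStep ⊤ (Q i) (Q (i + 1)) (ℓ i) (χ i)) : Nonempty (Tower P) := by
  choose c hc hc' using fun i => (hQ i).units
  let N : Subgroup P :=
    { carrier := {g | ∀ i, ∀ σ : QB →+* ℂ, ‖σ (c i g)‖ = 1}
      one_mem' := fun i σ => by simp
      mul_mem' := fun {a b} ha hb i σ => by
        rw [map_mul, Units.val_mul, map_mul, norm_mul, ha i σ, hb i σ, one_mul]
      inv_mem' := fun {a} ha i σ => by
        rw [map_inv, Units.val_inv_eq_inv_val, map_inv₀, norm_inv, ha i σ, inv_one] }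
  have hcomm : ∀ a b : P, a * b * a⁻¹ * b⁻¹ ∈ N := fun a b i σ => by
    have : c i (a * b * a⁻¹ * b⁻¹) = 1 := by
      rw [map_mul, map_mul, map_mul, map_inv, map_inv, mul_inv_cancel_comm, mul_inv_cancel]
    rw [this]; simp
  have hN : N.Normal := ⟨fun x hx g => by
    have := N.mul_mem (hcomm g x) hx
    rwa [inv_mul_cancel_right] at this⟩
  choose L hL1 hL2 using fun i =>
    exists_layer (hP.of_le (le_top : Q i ⊓ N ≤ ⊤)).fg (ℓ i) (c i) ((hc i).inf N)
  have hQn : ∀ i, (Q i).Normal := fun i => ⟨fun x hx g => (hQ i).norm g trivial x hx⟩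
  refine tower_of_layers (Group.fg_def.2 hP.fg) r (fun i => Q i ⊓ N)
    (fun i => Subgroup.normal_inf_normal _ _) (fun i => ((hc i).inf N).le) (by simp [hr])
    (fun i => ((hc i).inf N).comm) L fun g => ⟨fun hg i _ j => ?_, fun hg => ⟨?_, fun i σ => ?_⟩⟩
  · obtain ⟨σ, hσ⟩ := hL1 i j
    rw [hσ, hg.2 i σ, Real.log_one]
  · rw [h0]; trivial
  · by_cases hx : ∃ x ∈ Q i ⊓ N, ℓ i x ≠ 0
    · have hi : i < r := by
        by_contra hi
        obtain ⟨x, hx, hx0⟩ := hx
        have hle : Q i ≤ Q r := antitone_nat_of_succ_le (fun n => (hQ n).le) (not_lt.1 hi)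
        have : x = 1 := by simpa [hr] using hle hx.1
        exact hx0 (this ▸ (hQ i).one)
      obtain ⟨j, hj⟩ := hL2 i hx σ
      have h1 := hg i hi j
      rw [hj] at h1
      have h2 : 0 < ‖σ (c i g)‖ := norm_pos_iff.2 ((map_ne_zero σ).2 (c i g).ne_zero)
      rw [← Real.exp_log h2, h1, Real.exp_zero]
    · push Not at hx
      rcases hc' i with h1 | ⟨x, hxQ, hx0⟩
      · rw [h1]; simp
      · have h1 := hx (g * x * g⁻¹ * x⁻¹) ⟨(Q i).mul_mem ((hc i).norm g trivial x hxQ)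
          ((Q i).inv_mem hxQ), hcomm g x⟩
        rw [(hc i).add _ ((hc i).norm g trivial x hxQ) _ ((Q i).inv_mem hxQ),
          (hc i).conj g trivial x hxQ, (hc i).inv hxQ] at h1
        have h2 : (c i g : QB) = 1 := mul_right_cancel₀ hx0 (by linear_combination h1)
        rw [h2]; simp

theorem towerStmt (P : Type*) [Group P] : TowerStmt P := by
  rintro ⟨P₁, hi, hP₁⟩
  have hpc := (pc_iff P₁).2 hP₁
  obtain ⟨P₀, hle, hi0, hes⟩ := exists_es hpc
  obtain ⟨r, Q, ℓ, χ, h0, hr, hQ⟩ := hes.series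
  refine ⟨P₀, ⟨?_⟩, tower_of_series (isPolycyclic_iff.1 ((pc_iff P₀).1 (hpc.of_le hle))) r
    (fun i => (Q i).comap P₀.subtype) _ _ ?_ ?_ fun i => (hQ i).comap P₀.subtype fun x => x.2⟩
  · rw [← Subgroup.relIndex_mul_index hle]
    exact mul_ne_zero hi0 hi.index_ne_zero
  · rw [eq_top_iff]
    intro x _
    simp only [h0]
    exact hle x.2
  · simp only [hr]
    rw [MonoidHom.comap_bot, (MonoidHom.ker_eq_bot_iff _).2 P₀.subtype_injective]

theorem exists_model {P H : Type*} [Group P] [Group H] (S : Finset P)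
    (hS : Subgroup.closure (S : Set P) = ⊤) (T : Finset H) (hP : IsVirtuallyPolycyclic P)
    (F : H → P) (hF : IsQuasiIsometry (wordDist (T : Set H)) (wordDist (S : Set P)) F) :
    ∃ (P₀ : Subgroup P) (W : Tower P₀) (F₀ : H → P₀),
      IsQuasiIsometry (wordDist (T : Set H)) (wordDist (W.S : Set P₀)) F₀ := by
  obtain ⟨P₀, hi, ⟨W⟩⟩ := towerStmt P hP
  obtain ⟨r, hr⟩ := qi_retract S hS P₀ W.S W.gen
  exact ⟨P₀, W, r ∘ F, qi_comp (wordDist_tri W.gen) hF hr⟩

end Crest.Agent.R182
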