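import Crest.Agent.R182.SDefs
import Crest.Agent.R182.GBPoly

/-! Row 182, block S1 (existence of a `Tower`): eigen-series and layers. -/

set_option autoImplicit false
set_option linter.dupNamespace false

namespace Crest.Agent.R182

open Crest.GroupTheory

/-- the algebraic numbers -/
abbrev QB : Type := AlgebraicClosure ℚ

variable {G H : Type*} [Group G] [Group H]

/-- One step `B ≤ A` of a series normalised by `P`: `ℓ` embeds `A / B` modulo torsion into the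
algebraic numbers, and `g ∈ P` acts as multiplication by `χ g`. -/
structure EStep (P A B : Subgroup G) (ℓ χ : G → QB) : Prop where
  le : B ≤ A
  norm : ∀ g ∈ P, ∀ x ∈ A, g * x * g⁻¹ ∈ A
  comm : ∀ x ∈ A, ∀ y ∈ A, x * y * x⁻¹ * y⁻¹ ∈ B
  add : ∀ x ∈ A, ∀ y ∈ A, ℓ (x * y) = ℓ x + ℓ y
  zero : ∀ x ∈ B, ℓ x = 0
  conj : ∀ g ∈ P, ∀ x ∈ A, ℓ (g * x * g⁻¹) = χ g * ℓ x
  tors : ∀ x ∈ A, ℓ x = 0 → ∃ n : ℕ, 0 < n ∧ x ^ n ∈ B

/-- `A` has a series down to `⊥` with steps `EStep P` -/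
inductive ES (P : Subgroup G) : Subgroup G → Prop
  | bot : ES P ⊥
  | step (A B : Subgroup G) (ℓ χ : G → QB) : ES P B → EStep P A B ℓ χ → ES P A

theorem EStep.mono {P P' A B : Subgroup G} {ℓ χ : G → QB} (h : EStep P A B ℓ χ) (hP : P' ≤ P) :
    EStep P' A B ℓ χ :=
  ⟨h.le, fun g hg => h.norm g (hP hg), h.comm, h.add, h.zero, fun g hg => h.conj g (hP hg), h.tors⟩

theorem ES.mono {P P' A : Subgroup G} (h : ES P A) (hP : P' ≤ P) : ES P' A := by
  induction h with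
  | bot => exact ES.bot
  | step A B ℓ χ _ hs ih => exact ES.step A B ℓ χ ih (hs.mono hP)

theorem ES.series {P A : Subgroup G} (h : ES P A) :
    ∃ (r : ℕ) (Q : ℕ → Subgroup G) (ℓ χ : ℕ → G → QB), Q 0 = A ∧ Q r = ⊥ ∧
      ∀ i, EStep P (Q i) (Q (i + 1)) (ℓ i) (χ i) := by
  induction h with
  | bot =>
    refine ⟨0, fun _ => ⊥, fun _ _ => 0, fun _ _ => 0, rfl, rfl, fun _ => ⟨le_rfl, ?_, ?_, ?_, ?_,
      ?_, ?_⟩⟩
    · intro g _ x hx
      rw [Subgroup.mem_bot.1 hx]; simp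
    · intro x hx y hy
      rw [Subgroup.mem_bot.1 hx, Subgroup.mem_bot.1 hy]; simp
    · intro _ _ _ _; simp
    · intro _ _; rfl
    · intro _ _ _ _; simp
    · intro x hx _
      exact ⟨1, one_pos, by simpa using hx⟩
  | step A B ℓ χ _ hs ih =>
    obtain ⟨r, Q, l, c, h0, hr, hQ⟩ := ih
    refine ⟨r + 1, fun i => Nat.casesOn i A Q, fun i => Nat.casesOn i ℓ l,
      fun i => Nat.casesOn i χ c, rfl, hr, fun i => ?_⟩
    cases i with
    | zero => simpa [h0] using hs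
    | succ i => exact hQ i

theorem EStep.comap {P A B : Subgroup G} {ℓ χ : G → QB} (h : EStep P A B ℓ χ) (f : H →* G)
    (hf : ∀ x, f x ∈ P) :
    EStep ⊤ (A.comap f) (B.comap f) (fun x => ℓ (f x)) (fun x => χ (f x)) where
  le := Subgroup.comap_mono h.le
  norm g _ x hx := by simpa using h.norm _ (hf g) _ hx
  comm x hx y hy := by simpa using h.comm _ hx _ hy
  add x hx y hy := by simpa using h.add _ hx _ hy
  zero x hx := h.zero _ hx
  conj g _ x hx := by simpa using h.conj _ (hf g) _ hx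
  tors x hx h0 := by simpa using h.tors _ hx h0

theorem EStep.inf {A B : Subgroup G} {ℓ χ : G → QB} (h : EStep ⊤ A B ℓ χ) (N : Subgroup G)
    [hN : N.Normal] : EStep ⊤ (A ⊓ N) (B ⊓ N) ℓ χ where
  le := inf_le_inf_right N h.le
  norm g hg x hx := ⟨h.norm g hg x hx.1, hN.conj_mem x hx.2 g⟩
  comm x hx y hy := ⟨h.comm x hx.1 y hy.1,
    N.mul_mem (N.mul_mem (N.mul_mem hx.2 hy.2) (N.inv_mem hx.2)) (N.inv_mem hy.2)⟩
  add x hx y hy := h.add x hx.1 y hy.1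
  zero x hx := h.zero x hx.1
  conj g hg x hx := h.conj g hg x hx.1
  tors x hx h0 := by
    obtain ⟨n, hn, hx'⟩ := h.tors x hx.1 h0
    exact ⟨n, hn, hx', N.pow_mem hx.2 n⟩

theorem EStep.one {P A B : Subgroup G} {ℓ χ : G → QB} (h : EStep P A B ℓ χ) : ℓ 1 = 0 :=
  h.zero 1 B.one_mem

theorem EStep.inv {P A B : Subgroup G} {ℓ χ : G → QB} (h : EStep P A B ℓ χ) {x : G} (hx : x ∈ A) :
    ℓ x⁻¹ = -ℓ x := by
  have := h.add x hx x⁻¹ (A.inv_mem hx)
  rw [mul_inv_cancel, h.one] at this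
  linear_combination -this

/-- the character can be taken multiplicative, and trivial when `ℓ` vanishes on `A` -/
theorem EStep.units {A B : Subgroup G} {ℓ χ : G → QB} (h : EStep ⊤ A B ℓ χ) :
    ∃ χ' : G →* QBˣ, EStep ⊤ A B ℓ (fun g => χ' g) ∧ (χ' = 1 ∨ ∃ x ∈ A, ℓ x ≠ 0) := by
  by_cases hx : ∃ x ∈ A, ℓ x ≠ 0
  · obtain ⟨x, hxA, hx0⟩ := hx
    have h1 : χ 1 = 1 := by
      have := h.conj 1 trivial x hxA
      rw [one_mul, inv_one, mul_one] at this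
      exact mul_right_cancel₀ hx0 (by rw [← this, one_mul])
    have hm : ∀ g g', χ (g * g') = χ g * χ g' := by
      intro g g'
      have e1 := h.conj (g * g') trivial x hxA
      have e2 := h.conj g trivial _ (h.norm g' trivial x hxA)
      rw [h.conj g' trivial x hxA] at e2
      have e3 : g * g' * x * (g * g')⁻¹ = g * (g' * x * g'⁻¹) * g⁻¹ := by group
      rw [e3, e2, ← mul_assoc] at e1
      exact (mul_right_cancel₀ hx0 e1).symm
    let c : G →* QB := ⟨⟨χ, h1⟩, hm⟩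
    exact ⟨c.toHomUnits, h, Or.inr ⟨x, hxA, hx0⟩⟩
  · push Not at hx
    refine ⟨1, ⟨h.le, h.norm, h.comm, h.add, h.zero, fun g hg x hxA => ?_, h.tors⟩, Or.inl rfl⟩
    rw [hx x hxA, hx _ (h.norm g hg x hxA), mul_zero]

/-- real coordinates on one layer `A / B` -/
structure Layer {P : Type*} [Group P] (A B : Subgroup P) where
  /-- rank -/
  d : ℕ
  /-- weights -/
  lam : Fin d → P → ℝ
  lam_mul : ∀ j g h, lam j (g * h) = lam j g + lam j h
  unimod : ∀ g, ∑ j, lam j g = 0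
  disc : {v : Fin d → ℝ | (∃ g, v = fun j => lam j g) ∧ ‖v‖ ≤ 1}.Finite
  /-- coordinates -/
  y : P → Fin d → ℝ
  /-- action -/
  R : P →* Module.End ℝ (Fin d → ℝ)
  /-- constant -/
  C : ℝ
  y_mul : ∀ x ∈ A, ∀ x' ∈ A, y (x * x') = y x + y x'
  y_zero : ∀ x ∈ B, y x = 0
  y_conj : ∀ x ∈ A, ∀ g, y (g * x * g⁻¹) = R g (y x)
  R_le : ∀ (g : P) (v : Fin d → ℝ) (j : Fin d) (b : ℝ),
    (∀ j', lam j' = lam j → |v j'| ≤ b) → |R g v j| ≤ C * Real.exp (lam j g) * b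
  dense : ∀ v, ∃ x ∈ A, ‖y x - v‖ ≤ C
  proper : ∃ T : Finset P, (∀ t ∈ T, t ∈ A) ∧ ∀ x ∈ A, ‖y x‖ ≤ 1 → ∃ t ∈ T, t⁻¹ * x ∈ B

end Crest.Agent.R182
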