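import Crest.Agent.R182.SENum

/-! Row 182, block S1: the action on a lattice of algebraic numbers in real coordinates. -/

set_option autoImplicit false
set_option linter.dupNamespace false

namespace Crest.Agent.R182

variable {P : Type*} [Group P]

/-- round the coordinates of `Y.symm v`; `C = ‖Y‖` (`LinearMap.toContinuousLinearMap`) -/
theorem lattice_dense {d : ℕ} (Y : (Fin d → ℝ) ≃ₗ[ℝ] (Fin d → ℝ)) :
    ∃ C : ℝ, ∀ v, ∃ w : Fin d → ℤ, ‖Y (fun b => (w b : ℝ)) - v‖ ≤ C := by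
  obtain ⟨L, hL⟩ : ∃ L : (Fin d → ℝ) →L[ℝ] (Fin d → ℝ), ∀ v, L v = Y v :=
    ⟨LinearMap.toContinuousLinearMap Y.toLinearMap, fun _ => rfl⟩
  refine ⟨‖L‖, fun v => ⟨fun b => round (Y.symm v b), ?_⟩⟩
  have e : Y (fun b => ((round (Y.symm v b) : ℤ) : ℝ)) - v =
      L ((fun b => ((round (Y.symm v b) : ℤ) : ℝ)) - Y.symm v) := by
    rw [hL, map_sub, LinearEquiv.apply_symm_apply]
  rw [e]
  refine (L.le_opNorm _).trans (mul_le_of_le_one_right (norm_nonneg _) ?_)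
  refine (pi_norm_le_iff_of_nonneg zero_le_one).2 fun b => ?_
  rw [Pi.sub_apply, Real.norm_eq_abs, abs_sub_comm]
  exact (abs_sub_round _).trans (by norm_num)

/-- `‖w‖ ≤ ‖Y.symm‖ ρ`; `Set.Finite.pi`, `Set.finite_Icc` -/
theorem lattice_finite {d : ℕ} (Y : (Fin d → ℝ) ≃ₗ[ℝ] (Fin d → ℝ)) (ρ : ℝ) :
    {w : Fin d → ℤ | ‖Y (fun b => (w b : ℝ))‖ ≤ ρ}.Finite := by
  obtain ⟨L, hL⟩ : ∃ L : (Fin d → ℝ) →L[ℝ] (Fin d → ℝ), ∀ v, L v = Y.symm v :=
    ⟨LinearMap.toContinuousLinearMap Y.symm.toLinearMap, fun _ => rfl⟩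
  obtain ⟨N, hN⟩ := exists_nat_ge (‖L‖ * ρ)
  refine (Set.Finite.pi' (fun _ : Fin d => Set.finite_Icc (-(N : ℤ)) N)).subset fun w hw b => ?_
  have h1 := L.le_opNorm (Y fun b => (w b : ℝ))
  rw [hL, LinearEquiv.symm_apply_apply] at h1
  have h2 := norm_le_pi_norm (fun b => (w b : ℝ)) b
  have h3 : |(w b : ℝ)| ≤ N :=
    h2.trans (h1.trans ((mul_le_mul_of_nonneg_left hw (norm_nonneg _)).trans hN))
  have h4 : |w b| ≤ (N : ℤ) := by exact_mod_cast h3
  exact abs_le.1 h4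

/-- `Y.symm ∘ R g ∘ Y` has an integer matrix `T` (columns: images of `Pi.single b 1`), the same
determinant as `R g` (`LinearMap.det_conj`), and `det (R g) * det (R g⁻¹) = 1`; a nonzero integer has
absolute value `≥ 1` (`Int.cast_det` / `RingHom.map_det`). -/
theorem one_le_det {d : ℕ} (Y : (Fin d → ℝ) ≃ₗ[ℝ] (Fin d → ℝ))
    (R : P →* Module.End ℝ (Fin d → ℝ))
    (hR : ∀ g (w : Fin d → ℤ), ∃ w' : Fin d → ℤ,
      R g (Y fun b => (w b : ℝ)) = Y fun b => (w' b : ℝ)) (g : P) :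
    1 ≤ |LinearMap.det (R g)| := by
  have hint : ∀ g, ∃ n : ℤ, LinearMap.det (R g) = n := by
    intro g
    choose T hT using fun b : Fin d => hR g (Pi.single b 1)
    refine ⟨(Matrix.of fun i j => T j i).det, ?_⟩
    rw [← LinearMap.det_conj (R g) Y.symm, ← LinearMap.det_toMatrix', Int.cast_det]
    congr 1
    ext i j
    have e : (Pi.single j (1 : ℝ) : Fin d → ℝ) = fun b => (((Pi.single j 1 : Fin d → ℤ) b : ℤ) : ℝ) := by
      funext b
      by_cases h : b = j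
      · subst h; simp
      · simp [Pi.single_eq_of_ne h]
    rw [LinearMap.toMatrix'_apply, e]
    simp only [LinearMap.comp_apply, LinearEquiv.coe_coe, LinearEquiv.symm_symm, hT,
      LinearEquiv.symm_apply_apply, Matrix.map_apply, Matrix.of_apply]
  obtain ⟨n, hn⟩ := hint g
  have h1 : LinearMap.det (R g) * LinearMap.det (R g⁻¹) = 1 := by
    rw [← map_mul, ← map_mul, mul_inv_cancel, map_one, map_one]
  have h2 : n ≠ 0 := by
    rintro rfl
    rw [hn] at h1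
    simp at h1
  rw [hn]
  exact_mod_cast Int.one_le_abs h2

/-- The matrix of `R g` has `j`-th row bounded by `C * ω j g` (test on `Pi.single`), so
`1 ≤ |det (R g)| ≤ d ! * C ^ d * ∏ j, ω j g` (`Matrix.det_mul_column`/`det_mul_row` to divide out the rows,
`Matrix.det_le`; or `Matrix.det_apply` directly).  With `q = ∏ j, ω j g > 0`, `g ↦ q` is multiplicative, so
`q ^ n` and `q⁻¹ ^ n` are bounded below for all `n`, whence `q = 1`
(`exists_pow_lt_of_lt_one`). -/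
theorem prod_eq_one {d : ℕ} (R : P →* Module.End ℝ (Fin d → ℝ)) (ω : Fin d → P →* ℝ)
    (hω : ∀ j g, 0 < ω j g) (C : ℝ) (hR : ∀ g v j, |R g v j| ≤ C * ω j g * ‖v‖)
    (hdet : ∀ g, 1 ≤ |LinearMap.det (R g)|) (g : P) : ∏ j, ω j g = 1 := by
  obtain ⟨K, hK⟩ : ∃ K : ℝ, ∀ g, 1 ≤ K * ∏ j, ω j g := by
    refine ⟨∑ _σ : Equiv.Perm (Fin d), |C| ^ d, fun g => (hdet g).trans ?_⟩
    rw [← LinearMap.det_toMatrix', Matrix.det_apply, Finset.sum_mul]
    refine (Finset.abs_sum_le_sum_abs _ _).trans (Finset.sum_le_sum fun σ _ => ?_)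
    have h1 : |Equiv.Perm.sign σ • ∏ i, LinearMap.toMatrix' (R g) (σ i) i| =
        ∏ i, |LinearMap.toMatrix' (R g) (σ i) i| := by
      rw [← Finset.abs_prod]
      rcases Int.units_eq_one_or (Equiv.Perm.sign σ) with h | h <;> simp [h]
    have h2 : |C| ^ d * ∏ j, ω j g = ∏ i, |C| * ω (σ i) g := by
      rw [Finset.prod_mul_distrib, Finset.prod_const, Finset.card_univ, Fintype.card_fin,
        Equiv.prod_comp σ (fun j => ω j g)]
    rw [h1, h2]
    refine Finset.prod_le_prod (fun i _ => abs_nonneg _) fun i _ => ?_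
    rw [LinearMap.toMatrix'_apply]
    refine (hR g _ _).trans ?_
    rw [Pi.norm_single, norm_one, mul_one]
    exact mul_le_mul_of_nonneg_right (le_abs_self C) (hω _ _).le
  have hpos : ∀ g, 0 < ∏ j, ω j g := fun g => Finset.prod_pos fun j _ => hω j g
  have hK0 : 0 < K := by
    by_contra h
    have h1 := mul_nonpos_of_nonpos_of_nonneg (not_lt.1 h) (hpos g).le
    linarith [hK g]
  have hge : ∀ g, 1 ≤ ∏ j, ω j g := by
    intro g
    by_contra h
    obtain ⟨n, hn⟩ := exists_pow_lt_of_lt_one (inv_pos.2 hK0) (not_le.1 h)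
    have h1 := hK (g ^ n)
    simp only [map_pow, Finset.prod_pow] at h1
    have h2 := mul_lt_mul_of_pos_left hn hK0
    rw [mul_inv_cancel₀ hK0.ne'] at h2
    linarith
  have h1 : (∏ j, ω j g) * ∏ j, ω j g⁻¹ = 1 := by
    rw [← Finset.prod_mul_distrib]
    simp only [← map_mul, mul_inv_cancel, map_one, Finset.prod_const_one]
  refine le_antisymm ?_ (hge g)
  have h2 := mul_le_mul_of_nonneg_left (hge g⁻¹) (hpos g).le
  linarith

/-- Take the data of `exists_coords`, `y x j = (θ j * σ j x).re`.  For each `j` let `c¹ j`, `c² j` be the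
coefficient vectors for `(σ j, 1)` and `(σ j, -I)` (real and imaginary part of `σ j x`).  With
`s = θ j * σ j (χ g)`: `y (χ g * x) j = s.re * (σ j x).re - s.im * (σ j x).im`, so define `R g` by the matrix
`s.re * c¹ j j' - s.im * c² j j'`; `C ≥ ∑ j j', ‖θ j‖ * (|c¹ j j'| + |c² j j'|)`.  `R` is multiplicative because
`y '' Λ ⊇ {Y (Pi.single b 1)}` spans (`Y` of the standard basis is a basis, `Basis.ext`).  Density and
finiteness: `lattice_dense`, `lattice_finite`; product: `one_le_det`, `prod_eq_one` with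
`ω j g = ‖σ j (χ g)‖`.  Last item: if `x ∈ Λ`, `x ≠ 0`, take `t = conj (τ x)`, then
`(t * τ x).re ≠ 0`, so some `c j ≠ 0`. -/
theorem exists_latlayer (Λ : Submodule ℤ QB) (hΛ : Λ.FG) (χ : P →* QBˣ)
    (hχ : ∀ g, ∀ x ∈ Λ, (χ g : QB) * x ∈ Λ) :
    ∃ (d : ℕ) (σ : Fin d → QB →+* ℂ) (y : QB → Fin d → ℝ) (R : P →* Module.End ℝ (Fin d → ℝ))
      (C : ℝ), (∀ x x', y (x + x') = y x + y x') ∧
      (∀ g, ∀ x ∈ Λ, y ((χ g : QB) * x) = R g (y x)) ∧
      (∀ (g : P) (v : Fin d → ℝ) (j : Fin d) (b : ℝ),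
        (∀ j', (∀ h, ‖σ j' (χ h)‖ = ‖σ j (χ h)‖) → |v j'| ≤ b) →
          |R g v j| ≤ C * ‖σ j (χ g)‖ * b) ∧
      (∀ v, ∃ x ∈ Λ, ‖y x - v‖ ≤ C) ∧ (∀ ρ : ℝ, {x | x ∈ Λ ∧ ‖y x‖ ≤ ρ}.Finite) ∧
      (∀ g, ∏ j, ‖σ j (χ g)‖ = 1) ∧
      (Λ ≠ ⊥ → ∀ τ : QB →+* ℂ, ∃ j, ∀ g, ‖σ j (χ g)‖ = ‖τ (χ g)‖) := by
  classical
  obtain ⟨d, σ, θ, Y, z, hY, hinj, hsurj, hc⟩ := exists_coords Λ hΛ χ hχ
  choose c1 hc1 hc1' using fun j => hc (σ j) 1
  choose c2 hc2 hc2' using fun j => hc (σ j) (-Complex.I)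
  obtain ⟨y, hy⟩ : ∃ y : QB → Fin d → ℝ, ∀ x j, y x j = (θ j * σ j x).re := ⟨_, fun _ _ => rfl⟩
  have hyY : ∀ x ∈ Λ, y x = Y (fun b => (z x b : ℝ)) := fun x hx => funext fun j => by
    rw [hy, hY x hx]
  obtain ⟨R0, hR0⟩ : ∃ R0 : P → Module.End ℝ (Fin d → ℝ), ∀ g v j, R0 g v j =
      ∑ j', ((θ j * σ j (χ g)).re * c1 j j' - (θ j * σ j (χ g)).im * c2 j j') * v j' :=
    ⟨fun g => Matrix.toLin' (Matrix.of fun j j' =>
      (θ j * σ j (χ g)).re * c1 j j' - (θ j * σ j (χ g)).im * c2 j j'), fun _ _ _ => rfl⟩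
  have hyR : ∀ g, ∀ x ∈ Λ, y ((χ g : QB) * x) = R0 g (y x) := by
    intro g x hx
    funext j
    have h1 := hc1' j x hx
    have h2 := hc2' j x hx
    simp only [← hy] at h1 h2
    rw [one_mul] at h1
    have h3 : (-Complex.I * σ j x).re = (σ j x).im := by simp
    rw [h3] at h2
    rw [hR0, hy, map_mul, ← mul_assoc, Complex.mul_re, h1, h2, Finset.mul_sum, Finset.mul_sum,
      ← Finset.sum_sub_distrib]
    exact Finset.sum_congr rfl fun j' _ => by ring
  have hext : ∀ f f' : Module.End ℝ (Fin d → ℝ), (∀ x ∈ Λ, f (y x) = f' (y x)) → f = f' := by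
    intro f f' h
    have h1 : f ∘ₗ Y.toLinearMap = f' ∘ₗ Y.toLinearMap := by
      refine (Pi.basisFun ℝ (Fin d)).ext fun b => ?_
      obtain ⟨x, hx, hzx⟩ := hsurj (Pi.single b 1)
      have e : (Pi.basisFun ℝ (Fin d)) b = fun b' => (z x b' : ℝ) := by
        funext b'
        rw [hzx, Pi.basisFun_apply]
        by_cases hb : b' = b
        · subst hb; simp
        · simp [Pi.single_eq_of_ne hb]
      have h2 := h x hx
      rw [hyY x hx] at h2
      rw [e]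
      exact h2
    refine LinearMap.ext fun v => ?_
    have h2 := LinearMap.congr_fun h1 (Y.symm v)
    simpa using h2
  have hR1 : R0 1 = 1 := hext _ _ fun x hx => by
    rw [← hyR 1 x hx]; simp
  have hRm : ∀ g g', R0 (g * g') = R0 g * R0 g' := fun g g' => hext _ _ fun x hx => by
    rw [← hyR _ x hx, Module.End.mul_apply, ← hyR g' x hx, ← hyR g _ (hχ g' x hx), map_mul,
      Units.val_mul, mul_assoc]
  obtain ⟨Cd, hCd⟩ := lattice_dense Y
  obtain ⟨C, hC1, hC2⟩ : ∃ C : ℝ, Cd ≤ C ∧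
      ∀ j, ∑ j', ‖θ j‖ * (|c1 j j'| + |c2 j j'|) ≤ C := by
    refine ⟨max Cd (∑ j, ∑ j', ‖θ j‖ * (|c1 j j'| + |c2 j j'|)), le_max_left _ _, fun j => ?_⟩
    refine le_trans ?_ (le_max_right _ _)
    exact Finset.single_le_sum (f := fun j => ∑ j', ‖θ j‖ * (|c1 j j'| + |c2 j j'|))
      (fun j _ => Finset.sum_nonneg fun j' _ => by positivity) (Finset.mem_univ j)
  have hRle : ∀ (g : P) (v : Fin d → ℝ) (j : Fin d) (b : ℝ),
      (∀ j', (∀ h, ‖σ j' (χ h)‖ = ‖σ j (χ h)‖) → |v j'| ≤ b) →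
        |R0 g v j| ≤ C * ‖σ j (χ g)‖ * b := by
    intro g v j b hb
    have hb0 : 0 ≤ b := (abs_nonneg _).trans (hb j fun _ => rfl)
    rw [hR0]
    refine (Finset.abs_sum_le_sum_abs _ _).trans ?_
    have h1 : ∑ j', |((θ j * σ j (χ g)).re * c1 j j' - (θ j * σ j (χ g)).im * c2 j j') * v j'| ≤
        ∑ j', ‖θ j‖ * (|c1 j j'| + |c2 j j'|) * (‖σ j (χ g)‖ * b) := by
      refine Finset.sum_le_sum fun j' _ => ?_
      by_cases h0 : c1 j j' = 0 ∧ c2 j j' = 0
      · simp [h0.1, h0.2]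
      · have hv : |v j'| ≤ b := by
          refine hb j' ?_
          by_cases h1 : c1 j j' = 0
          · exact hc2 j j' fun h2 => h0 ⟨h1, h2⟩
          · exact hc1 j j' h1
        have hre := Complex.abs_re_le_norm (θ j * σ j (χ g))
        have him := Complex.abs_im_le_norm (θ j * σ j (χ g))
        rw [norm_mul] at hre him
        have h2 : |(θ j * σ j (χ g)).re * c1 j j' - (θ j * σ j (χ g)).im * c2 j j'| ≤
            ‖θ j‖ * ‖σ j (χ g)‖ * (|c1 j j'| + |c2 j j'|) := by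
          refine (abs_sub _ _).trans ?_
          rw [abs_mul, abs_mul, mul_add]
          exact add_le_add (mul_le_mul_of_nonneg_right hre (abs_nonneg _))
            (mul_le_mul_of_nonneg_right him (abs_nonneg _))
        rw [abs_mul]
        refine (mul_le_mul h2 hv (abs_nonneg _) (by positivity)).trans (le_of_eq (by ring))
    refine h1.trans ?_
    rw [← Finset.sum_mul, mul_assoc]
    exact mul_le_mul_of_nonneg_right (hC2 j) (by positivity)
  let R : P →* Module.End ℝ (Fin d → ℝ) := ⟨⟨R0, hR1⟩, hRm⟩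
  refine ⟨d, σ, y, R, C, fun x x' => ?_, hyR, hRle, fun v => ?_, fun ρ => ?_, fun g => ?_,
    fun hne τ => ?_⟩
  · funext j
    simp only [hy, Pi.add_apply, map_add, mul_add, Complex.add_re]
  · obtain ⟨w, hw⟩ := hCd v
    obtain ⟨x, hx, hzx⟩ := hsurj w
    exact ⟨x, hx, by rw [hyY x hx, hzx]; exact hw.trans hC1⟩
  · refine Set.Finite.of_finite_image (f := z) ((lattice_finite Y ρ).subset ?_) ?_
    · rintro _ ⟨x, hx, rfl⟩
      have h1 := hx.2
      rw [hyY x hx.1] at h1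
      exact h1
    · intro x hx x' hx' h
      exact hinj x hx.1 x' hx'.1 h
  · let ω : Fin d → P →* ℝ := fun j =>
      ⟨⟨fun g => ‖σ j (χ g)‖, by simp⟩, fun g g' => by simp⟩
    refine prod_eq_one R ω (fun j g => ?_) C (fun g v j => ?_) (one_le_det Y R fun g w => ?_) g
    · exact norm_pos_iff.2 ((map_ne_zero (σ j)).2 (χ g).ne_zero)
    · exact hRle g v j ‖v‖ fun j' _ => norm_le_pi_norm v j'
    · obtain ⟨x, hx, rfl⟩ := hsurj w
      refine ⟨z ((χ g : QB) * x), ?_⟩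
      rw [← hyY x hx, ← hyY _ (hχ g x hx), hyR g x hx]
      rfl
  · obtain ⟨x, hx, hx0⟩ := (Submodule.ne_bot_iff Λ).1 hne
    obtain ⟨c, hc0, hcx⟩ := hc τ (starRingEnd ℂ (τ x))
    by_contra hno
    have h1 : ∀ j, c j = 0 := fun j => by
      by_contra h
      exact hno ⟨j, hc0 j h⟩
    have h2 := hcx x hx
    simp only [h1, zero_mul, Finset.sum_const_zero] at h2
    rw [← Complex.normSq_eq_conj_mul_self, Complex.ofReal_re, Complex.normSq_eq_zero] at h2
    exact hx0 ((map_eq_zero τ).1 h2)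

end Crest.Agent.R182
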