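import Crest.Agent.R182.SEDefs

/-! Row 182, block S1: real coordinates on a lattice of algebraic numbers. -/

set_option autoImplicit false
set_option linter.dupNamespace false

namespace Crest.Agent.R182

variable {P : Type*} [Group P]

private theorem helper47_emb {F L : Type*} [Field F] [CharZero F] [Field L] [Algebra F L]
    [Algebra F ℂ] [Algebra.IsAlgebraic F L] {d : ℕ} (a : Fin d → L) (ha : LinearIndependent F a) (c : Fin d → ℂ)
    (hc : ∀ σ : L →+* ℂ, ∑ b, c b * σ (a b) = 0) : c = 0 := by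
  classical
  let K : IntermediateField F L := IntermediateField.adjoin F (Set.range a)
  have : FiniteDimensional F K :=
    IntermediateField.finiteDimensional_adjoin fun x _ => Algebra.IsIntegral.isIntegral x
  let a' : Fin d → K := fun b => ⟨a b, IntermediateField.subset_adjoin F _ ⟨b, rfl⟩⟩
  have ha' : LinearIndependent F a' := LinearIndependent.of_comp K.val.toLinearMap ha
  obtain ⟨g, hg⟩ := (Fintype.linearCombination F a').exists_leftInverse_of_injective
    (LinearMap.ker_eq_bot.2 ha'.fintypeLinearCombination_injective)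
  have hga : ∀ b, g (a' b) = Pi.single b 1 := by
    intro b
    have := LinearMap.congr_fun hg (Pi.single b 1)
    simpa [Fintype.linearCombination_apply_single] using this
  have hcK : ∀ σ : K →ₐ[F] ℂ, ∑ b, c b * σ (a' b) = 0 := by
    intro σ
    obtain ⟨τ, rfl⟩ := IsAlgClosed.surjective_domRestrict_of_isAlgebraic
      (K := F) (L := K) (M := ℂ) (E := L) σ
    exact hc τ.toRingHom
  funext b₀
  obtain ⟨y, hy⟩ := ((Algebra.traceForm F K).toDual (traceForm_nondegenerate F K)).surjective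
    ((LinearMap.proj b₀ : (Fin d → F) →ₗ[F] F) ∘ₗ g)
  have hT : ∀ b, ∑ σ : K →ₐ[F] ℂ, σ y * σ (a' b) = if b = b₀ then 1 else 0 := by
    intro b
    have h1 : Algebra.trace F K (y * a' b) = (Pi.single b 1 : Fin d → F) b₀ := by
      have := LinearMap.congr_fun hy (a' b)
      rw [LinearMap.BilinForm.toDual_def, Algebra.traceForm_apply] at this
      rw [this, LinearMap.comp_apply, hga, LinearMap.proj_apply]
    have h2 := trace_eq_sum_embeddings ℂ (K := F) (x := y * a' b)
    simp only [map_mul] at h2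
    rw [← h2, h1, Pi.single_apply]
    by_cases h : b = b₀
    · simp [h]
    · simp [h, Ne.symm h]
  calc c b₀ = ∑ b, c b * ∑ σ : K →ₐ[F] ℂ, σ y * σ (a' b) := by
        simp [hT]
    _ = ∑ σ : K →ₐ[F] ℂ, σ y * ∑ b, c b * σ (a' b) := by
        simp only [Finset.mul_sum]
        rw [Finset.sum_comm]
        refine Finset.sum_congr rfl fun σ _ => Finset.sum_congr rfl fun b _ => by ring
    _ = 0 := by simp [hcK]

/-- The embeddings separate.  Proof 1: `K = IntermediateField.adjoin ℚ (range a)` is finite over `ℚ`;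
the `ℚ`-algebra maps `K →ₐ[ℚ] ℂ` are `ℂ`-independent in `K →ₗ[ℚ] ℂ`
(`linearIndependent_algHom_toLinearMap`) and there are `finrank ℚ K = finrank ℂ (K →ₗ[ℚ] ℂ)` of them
(`AlgHom.card`, `Module.finrank_linearMap_self`), so they span; each extends to `QB`
(`IsAlgClosed.surjective_restrictDomain_of_isAlgebraic` or `IsAlgClosed.lift`); the `a b` are `ℚ`-independent
(`LinearIndependent.iff_fractionRing ℤ ℚ`), so for each `b₀` some `ℚ`-linear `φ : K → ℂ` has
`φ (a b) = δ_{b b₀}`; writing `φ = ∑ β σ • σ` gives `c b₀ = ∑ β σ * ∑ b, c b * σ (a b) = 0`. -/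
theorem emb_span {d : ℕ} (a : Fin d → QB) (ha : LinearIndependent ℤ a) (c : Fin d → ℂ)
    (hc : ∀ σ : QB →+* ℂ, ∑ b, c b * σ (a b) = 0) : c = 0 := by
  have : Algebra.IsAlgebraic ℚ QB := AlgebraicClosure.isAlgebraic ℚ
  exact helper47_emb (F := ℚ) a ((LinearIndependent.iff_fractionRing ℤ ℚ).1 ha) c hc

/-- Independence of common eigenvectors.  Strong induction on `s.card` (for all `v`).  Put
`u = ∑ i ∈ s with p (χ i), v i = -∑ i ∈ s with ¬ p (χ i), v i`; if one part is empty we are done.  Otherwise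
take `i₀`, `i₁ ∈ s` with `p (χ i₀)`, `¬ p (χ i₁)` and `g` with `χ i₀ g ≠ χ i₁ g`.  For `i* = i₀` and
`i* = i₁` the vectors `v' i = (χ i g - χ i* g) • v i` on `s.erase i*` are again eigenvectors with sum
`(f g - χ i* g) (∑ v i) = 0`, so by induction `f g u = χ i* g • u`.  Hence `u = 0`. -/
theorem ind_eig {V ι κ : Type*} [AddCommGroup V] [Module ℂ V] (f : κ → V →ₗ[ℂ] V)
    (χ : ι → κ → ℂ) (p : (κ → ℂ) → Prop) [DecidablePred p] (s : Finset ι) (v : ι → V)
    (hv : ∀ i ∈ s, ∀ g, f g (v i) = χ i g • v i) (h0 : ∑ i ∈ s, v i = 0) :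
    ∑ i ∈ s with p (χ i), v i = 0 := by
  classical
  induction s using Finset.strongInduction generalizing v with
  | H s ih =>
    by_cases h1 : ∃ i ∈ s, ¬ p (χ i)
    swap
    · push Not at h1
      rw [Finset.filter_true_of_mem h1, h0]
    by_cases h2 : ∃ i ∈ s, p (χ i)
    swap
    · push Not at h2
      rw [Finset.filter_false_of_mem h2, Finset.sum_empty]
    obtain ⟨i₁, hi₁, hp₁⟩ := h1
    obtain ⟨i₀, hi₀, hp₀⟩ := h2
    obtain ⟨g, hg⟩ : ∃ g, χ i₀ g ≠ χ i₁ g := by
      by_contra hc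
      push Not at hc
      exact hp₁ (funext hc ▸ hp₀)
    have key : ∀ j ∈ s, ∑ i ∈ s with p (χ i), χ i g • v i = χ j g • ∑ i ∈ s with p (χ i), v i := by
      intro j hj
      have hz : (χ j g - χ j g) • v j = 0 := by rw [sub_self, zero_smul]
      have hsum : ∑ i ∈ s.erase j, (χ i g - χ j g) • v i = 0 := by
        rw [Finset.sum_erase (f := fun i => (χ i g - χ j g) • v i) s hz]
        simp only [sub_smul]
        rw [Finset.sum_sub_distrib, ← Finset.smul_sum, h0, smul_zero, sub_zero,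
          ← Finset.sum_congr rfl fun i hi => hv i hi g, ← map_sum, h0, map_zero]
      have := ih (s.erase j) (Finset.erase_ssubset hj) (fun i => (χ i g - χ j g) • v i)
        (fun i hi g' => by
          rw [map_smul, hv i (Finset.mem_of_mem_erase hi) g', smul_comm]) hsum
      rw [Finset.filter_erase, Finset.sum_erase (f := fun i => (χ i g - χ j g) • v i) _ hz] at this
      simp only [sub_smul] at this
      rw [Finset.sum_sub_distrib, ← Finset.smul_sum, sub_eq_zero] at this
      exact this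
    have e := (key i₀ hi₀).symm.trans (key i₁ hi₁)
    rw [← sub_eq_zero, ← sub_smul] at e
    exact (smul_eq_zero.1 e).resolve_left (sub_ne_zero.2 hg)

open Classical in
/-- Real form.  Apply `ind_eig` in `V = (Λ → ℂ)`, `f g = LinearMap.funLeft ℂ ℂ (x ↦ χ g * x)`, to the family
indexed by `ι ⊕ ι` (or `ι × Bool`): `x ↦ t i * τ i x` with character `g ↦ τ i (χ g)` and its complex
conjugate with the conjugate character, `p c = ∀ g, ‖c g‖ = μ g`; `z + conj z = 2 re z`
(`Complex.add_conj`). -/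
theorem ind_re {ι : Type*} [Fintype ι] (Λ : Submodule ℤ QB) (χ : P →* QBˣ)
    (hχ : ∀ g, ∀ x ∈ Λ, (χ g : QB) * x ∈ Λ) (t : ι → ℂ) (τ : ι → QB →+* ℂ)
    (h0 : ∀ x ∈ Λ, ∑ i, (t i * τ i x).re = 0) (μ : P → ℝ) :
    ∀ x ∈ Λ, ∑ i with (∀ g, ‖τ i (χ g)‖ = μ g), (t i * τ i x).re = 0 := by
  intro x hx
  let f : P → (Λ → ℂ) →ₗ[ℂ] (Λ → ℂ) := fun g =>
    LinearMap.funLeft ℂ ℂ fun y : Λ => (⟨(χ g : QB) * y, hχ g y y.2⟩ : Λ)
  let c : ι ⊕ ι → P → ℂ := Sum.elim (fun i g => τ i (χ g)) fun i g => starRingEnd ℂ (τ i (χ g))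
  let v : ι ⊕ ι → Λ → ℂ := Sum.elim (fun i y => t i * τ i y)
    fun i y => starRingEnd ℂ (t i * τ i y)
  have hv : ∀ i ∈ (Finset.univ : Finset (ι ⊕ ι)), ∀ g, f g (v i) = c i g • v i := by
    rintro (i | i) - g
    · funext y
      simp only [f, c, v, LinearMap.funLeft_apply, Sum.elim_inl, Pi.smul_apply, smul_eq_mul, map_mul]
      ring
    · funext y
      simp only [f, c, v, LinearMap.funLeft_apply, Sum.elim_inr, Pi.smul_apply, smul_eq_mul, map_mul]
      ring
  have hs : ∑ i, v i = 0 := by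
    funext y
    rw [Finset.sum_apply, Fintype.sum_sum_type, ← Finset.sum_add_distrib]
    simp only [v, Sum.elim_inl, Sum.elim_inr, Complex.add_conj, Pi.zero_apply]
    rw [← Complex.ofReal_sum, ← Finset.mul_sum, h0 y y.2, mul_zero, Complex.ofReal_zero]
  have h := congrFun (ind_eig f c (fun d => ∀ g, ‖d g‖ = μ g) Finset.univ v hv hs) ⟨x, hx⟩
  rw [Finset.sum_apply, Finset.sum_filter, Fintype.sum_sum_type, ← Finset.sum_add_distrib] at h
  have h2 : ∑ i, (((2 * if (∀ g, ‖τ i (χ g)‖ = μ g) then (t i * τ i x).re else 0 : ℝ)) : ℂ) = 0 := by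
    refine Eq.trans (Finset.sum_congr rfl fun i _ => ?_) h
    simp only [c, v, Sum.elim_inl, Sum.elim_inr, Complex.norm_conj]
    split_ifs
    · rw [Complex.add_conj]
    · simp
  rw [← Complex.ofReal_sum, Complex.ofReal_eq_zero, ← Finset.mul_sum] at h2
  rw [Finset.sum_filter]
  linarith

/-- `Λ` is free of finite rank (`Module.Finite.iff_fg`, `Module.free_of_finite_type_torsion_free'`,
`Module.finBasis` or `Module.Free.chooseBasis`); let `a` be a basis, `z x` the coordinates.  The vectors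
`v (σ, t) = fun b => (t * σ (a b)).re` span `Fin d → ℝ`: a real `c` orthogonal to all of them has
`∑ c b * σ (a b) = 0` (`t = 1`, `t = -I`), so `c = 0` by `emb_span` (a proper subspace lies in the kernel of
a nonzero functional, `Submodule.exists_le_ker_of_lt_top`, and functionals on `Fin d → ℝ` are dot products,
`LinearMap.pi_apply_eq_sum_univ`).  Extract a basis `v (σ j, θ j)`, `j : Fin d`
(`exists_linearIndependent'`/`Module.Basis.ofSpan`, `exists_linearIndependent` + cardinality
`Module.finrank_eq_card_basis`); `Y` is the invertible matrix with these rows.  For `(τ, t)` expand `v (τ, t)` in the basis,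
`c = repr`; the identity holds on `Λ` by `ℤ`-linearity.  If `σ j₀` and `τ` have different moduli, `ind_re`
(index `Option (Fin d)`, coefficients `c j * θ j` and `-t`, `μ g = ‖σ j₀ (χ g)‖`, evaluated at `x = a b`)
gives a vanishing partial sum of the `c j • v (σ j, θ j)` containing `j₀`, so `c j₀ = 0`. -/
theorem exists_coords (Λ : Submodule ℤ QB) (hΛ : Λ.FG) (χ : P →* QBˣ)
    (hχ : ∀ g, ∀ x ∈ Λ, (χ g : QB) * x ∈ Λ) :
    ∃ (d : ℕ) (σ : Fin d → QB →+* ℂ) (θ : Fin d → ℂ) (Y : (Fin d → ℝ) ≃ₗ[ℝ] (Fin d → ℝ))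
      (z : QB → Fin d → ℤ),
      (∀ x ∈ Λ, ∀ j, (θ j * σ j x).re = Y (fun b => (z x b : ℝ)) j) ∧
      (∀ x ∈ Λ, ∀ x' ∈ Λ, z x = z x' → x = x') ∧ (∀ w : Fin d → ℤ, ∃ x ∈ Λ, z x = w) ∧
      ∀ (τ : QB →+* ℂ) (t : ℂ), ∃ c : Fin d → ℝ,
        (∀ j, c j ≠ 0 → ∀ g, ‖σ j (χ g)‖ = ‖τ (χ g)‖) ∧
        ∀ x ∈ Λ, (t * τ x).re = ∑ j, c j * (θ j * σ j x).re := by
  classical
  have : Module.Finite ℤ Λ := Module.Finite.iff_fg.2 hΛ
  set d := Module.finrank ℤ Λ
  let B : Module.Basis (Fin d) ℤ Λ := Module.finBasis ℤ Λ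
  let a : Fin d → QB := fun b => B b
  have ha : LinearIndependent ℤ a := B.linearIndependent.map' Λ.subtype (Submodule.ker_subtype _)
  let z : QB → Fin d → ℤ := fun x => if h : x ∈ Λ then fun b => B.repr ⟨x, h⟩ b else 0
  have hz : ∀ x ∈ Λ, x = ∑ b, (z x b : QB) * a b := by
    intro x hx
    have h := congrArg Λ.subtype (B.sum_repr ⟨x, hx⟩)
    simp only [map_sum, map_zsmul, Submodule.subtype_apply, zsmul_eq_mul] at h
    simp only [z, dif_pos hx]
    exact h.symm
  let v : (QB →+* ℂ) × ℂ → Fin d → ℝ := fun p b => (p.2 * p.1 (a b)).re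
  have hv : ∀ (p : (QB →+* ℂ) × ℂ), ∀ x ∈ Λ, (p.2 * p.1 x).re = ∑ b, v p b * (z x b : ℝ) := by
    intro p x hx
    conv_lhs => rw [hz x hx]
    rw [map_sum, Finset.mul_sum, Complex.re_sum]
    refine Finset.sum_congr rfl fun b _ => ?_
    rw [map_mul, map_intCast, mul_left_comm, ← Complex.ofReal_intCast, Complex.re_ofReal_mul,
      mul_comm]
  have hspan : Submodule.span ℝ (Set.range v) = ⊤ := by
    by_contra hne
    obtain ⟨f, hf0, hf⟩ := Submodule.exists_le_ker_of_lt_top _ (lt_top_iff_ne_top.2 hne)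
    let c : Fin d → ℝ := fun b => f (Pi.single b 1)
    have hfc : ∀ u : Fin d → ℝ, f u = ∑ b, u b * c b := by
      intro u
      rw [LinearMap.pi_apply_eq_sum_univ]
      refine Finset.sum_congr rfl fun b _ => ?_
      simp only [c, smul_eq_mul]
      congr 2
      funext j
      simp [Pi.single_apply, eq_comm]
    have h0 : ∀ p, ∑ b, v p b * c b = 0 := fun p => by
      rw [← hfc]; exact hf (Submodule.subset_span ⟨p, rfl⟩)
    have hc := emb_span a ha (fun b => (c b : ℂ)) fun σ => by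
      apply Complex.ext
      · have := h0 (σ, 1)
        rw [Complex.re_sum, Complex.zero_re, ← this]
        refine Finset.sum_congr rfl fun b _ => ?_
        simp [v, mul_comm]
      · have := h0 (σ, -Complex.I)
        rw [Complex.im_sum, Complex.zero_im, ← this]
        refine Finset.sum_congr rfl fun b _ => ?_
        simp [v, mul_comm]
    refine hf0 (LinearMap.ext fun u => ?_)
    rw [hfc]
    refine Finset.sum_eq_zero fun b _ => ?_
    have : c b = 0 := Complex.ofReal_eq_zero.1 (congrFun hc b)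
    rw [this, mul_zero]
  obtain ⟨κ, e, -, hsp, hli⟩ := exists_linearIndependent' ℝ v
  let bκ : Module.Basis κ ℝ (Fin d → ℝ) := Module.Basis.mk hli (by rw [hsp, hspan])
  let ε : κ ≃ Fin d := bκ.indexEquiv (Pi.basisFun ℝ (Fin d))
  let b2 : Module.Basis (Fin d) ℝ (Fin d → ℝ) := bκ.reindex ε
  let q : Fin d → (QB →+* ℂ) × ℂ := fun j => e (ε.symm j)
  have hb2 : ∀ j, b2 j = v (q j) := fun j => by simp [b2, bκ, q]
  let M : Matrix (Fin d) (Fin d) ℝ := Matrix.of fun j => b2 j
  have hM : IsUnit M := Matrix.linearIndependent_rows_iff_isUnit.1 b2.linearIndependent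
  have hinj : Function.Injective (Matrix.toLin' M) := Matrix.mulVec_injective_iff_isUnit.2 hM
  refine ⟨d, fun j => (q j).1, fun j => (q j).2, LinearEquiv.ofInjectiveEndo _ hinj, z,
    fun x hx j => ?_, fun x hx x' hx' h => ?_, fun w => ?_, fun τ t => ?_⟩
  · rw [hv (q j) x hx, ← hb2]
    rfl
  · rw [hz x hx, hz x' hx', h]
  · refine ⟨B.equivFun.symm w, Subtype.prop _, ?_⟩
    funext b
    simp only [z, dif_pos (Subtype.prop (B.equivFun.symm w)), Subtype.coe_eta]
    exact congrFun (B.equivFun.apply_symm_apply w) b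
  · let c : Fin d → ℝ := fun j => b2.repr (v (τ, t)) j
    have hc : ∀ x ∈ Λ, (t * τ x).re = ∑ j, c j * ((q j).2 * (q j).1 x).re := by
      intro x hx
      rw [hv (τ, t) x hx, ← b2.sum_repr (v (τ, t))]
      simp only [Finset.sum_apply, Pi.smul_apply, smul_eq_mul, Finset.sum_mul]
      rw [Finset.sum_comm]
      refine Finset.sum_congr rfl fun j _ => ?_
      rw [hv (q j) x hx, Finset.mul_sum, hb2]
      exact Finset.sum_congr rfl fun b _ => mul_assoc _ _ _
    refine ⟨c, fun j₀ hj₀ => ?_, hc⟩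
    by_contra hne
    have h1 := ind_re (ι := Option (Fin d)) Λ χ hχ
      (fun o => o.elim (-t) fun j => (c j : ℂ) * (q j).2) (fun o => o.elim τ fun j => (q j).1)
      (fun x hx => by
        rw [Fintype.sum_option]
        simp only [Option.elim, neg_mul, Complex.neg_re, mul_assoc, Complex.re_ofReal_mul]
        rw [hc x hx, neg_add_cancel]) (fun g => ‖(q j₀).1 (χ g)‖)
    have h2 : ∑ j, (if ∀ g, ‖(q j).1 (χ g)‖ = ‖(q j₀).1 (χ g)‖ then c j else 0) • b2 j = 0 := by
      funext b
      have h3 := h1 (a b) (B b).2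
      rw [Finset.sum_filter, Fintype.sum_option, if_neg fun h => hne fun g => (h g).symm,
        zero_add] at h3
      rw [Finset.sum_apply, Pi.zero_apply]
      refine Eq.trans (Finset.sum_congr rfl fun j _ => ?_) h3
      by_cases hj : ∀ g, ‖(q j).1 (χ g)‖ = ‖(q j₀).1 (χ g)‖
      · rw [if_pos hj, if_pos (by exact hj), Pi.smul_apply, smul_eq_mul, hb2]
        simp only [Option.elim]
        rw [mul_assoc, Complex.re_ofReal_mul]
      · rw [if_neg hj, if_neg (by exact hj)]
        simp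
    have h4 := Fintype.linearIndependent_iff.1 b2.linearIndependent _ h2 j₀
    rw [if_pos fun _ => rfl] at h4
    exact hj₀ h4

end Crest.Agent.R182
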