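import Crest.Agent.R182.SELK

/-! Row 182, block S1: eigen-series of a finite-index subgroup. -/

set_option autoImplicit false
set_option linter.dupNamespace false

namespace Crest.Agent.R182

variable {G : Type*} [Group G]

/-- `B.subgroupOf A` is normal in `↥A` (it contains the commutators) and
`M = Additive (↥A ⧸ B.subgroupOf A)` is an `AddCommGroup`; the class `m` of `x` has infinite order,
so `zmultiplesHom M m : ℤ →+ M` is injective; extend `Int.castAddHom QB` along it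
(`Module.Baer.of_divisible`, `Module.Baer.extension_property_addMonoidHom`;
`DivisibleBy QB ℤ` from `divisibleByIntOfCharZero` or `AddGroup.divisibleByIntOfSMulTopEqTop`),
and extend by `0` outside `A`. -/
theorem exists_fun {A B : Subgroup G} (hBA : B ≤ A)
    (comm : ∀ x ∈ A, ∀ y ∈ A, x * y * x⁻¹ * y⁻¹ ∈ B) {x : G} (hx : x ∈ A)
    (hn : ∀ n : ℕ, 0 < n → x ^ n ∉ B) :
    ∃ f : G → QB, (∀ a ∈ A, ∀ b ∈ A, f (a * b) = f a + f b) ∧ (∀ b ∈ B, f b = 0) ∧
      (∀ z, z ∉ A → f z = 0) ∧ f x ≠ 0 := by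
  classical
  have hN : (B.subgroupOf A).Normal := ⟨fun b hb g => by
    rw [Subgroup.mem_subgroupOf] at hb ⊢
    have h := B.mul_mem (comm g g.2 b b.2) hb
    simpa using h⟩
  letI : CommGroup (A ⧸ B.subgroupOf A) :=
    { (inferInstance : Group (A ⧸ B.subgroupOf A)) with
      mul_comm := fun a b => by
        obtain ⟨a, rfl⟩ := QuotientGroup.mk_surjective a
        obtain ⟨b, rfl⟩ := QuotientGroup.mk_surjective b
        rw [← QuotientGroup.mk_mul, ← QuotientGroup.mk_mul, QuotientGroup.eq,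
          Subgroup.mem_subgroupOf]
        have h := comm _ (A.inv_mem b.2) _ (A.inv_mem a.2)
        simpa [mul_assoc] using h }
  let m : Additive (A ⧸ B.subgroupOf A) := Additive.ofMul (QuotientGroup.mk ⟨x, hx⟩)
  have hinj : Function.Injective (zmultiplesHom _ m) := by
    rw [injective_iff_map_eq_zero]
    intro n h
    have h1 : x ^ n ∈ B := by
      have h2 : ((QuotientGroup.mk ⟨x, hx⟩ : A ⧸ B.subgroupOf A)) ^ n = 1 := h
      rw [← QuotientGroup.mk_zpow, QuotientGroup.eq_one_iff, Subgroup.mem_subgroupOf] at h2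
      simpa using h2
    by_contra h0
    refine hn n.natAbs (Int.natAbs_pos.2 h0) ?_
    rcases Int.natAbs_eq n with e | e
    · rw [← zpow_natCast, ← e]; exact h1
    · rw [← zpow_natCast, ← neg_neg (n.natAbs : ℤ), ← e, zpow_neg]; exact B.inv_mem h1
  obtain ⟨φ, hφ⟩ := (Module.Baer.of_divisible QB).extension_property_addMonoidHom _ hinj
    (Int.castAddHom QB)
  refine ⟨fun z => if hz : z ∈ A then φ (Additive.ofMul (QuotientGroup.mk ⟨z, hz⟩)) else 0,
    fun a ha b hb => ?_, fun b hb => ?_, fun z hz => dif_neg hz, ?_⟩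
  · simp only [dif_pos ha, dif_pos hb, dif_pos (A.mul_mem ha hb)]
    rw [← map_add]
    rfl
  · simp only [dif_pos (hBA hb)]
    rw [(QuotientGroup.eq_one_iff _).2 (Subgroup.mem_subgroupOf.2 hb)]
    exact map_zero φ
  · simp only [dif_pos hx]
    have h := DFunLike.congr_fun hφ 1
    simp only [AddMonoidHom.comp_apply, zmultiplesHom_apply, one_smul, Int.coe_castAddHom,
      Int.cast_one] at h
    exact fun h0 => one_ne_zero (h.symm.trans h0)

/-- the additive functions on `A` vanishing on `B` (and outside `A`) -/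
def homSp (A B : Subgroup G) : Submodule QB (G → QB) where
  carrier := {f | (∀ a ∈ A, ∀ b ∈ A, f (a * b) = f a + f b) ∧ (∀ b ∈ B, f b = 0) ∧
    ∀ z, z ∉ A → f z = 0}
  add_mem' := by
    rintro f f' ⟨h1, h2, h3⟩ ⟨k1, k2, k3⟩
    refine ⟨fun a ha b hb => ?_, fun b hb => ?_, fun z hz => ?_⟩
    · simp only [Pi.add_apply, h1 a ha b hb, k1 a ha b hb]; ring
    · simp [h2 b hb, k2 b hb]
    · simp [h3 z hz, k3 z hz]
  zero_mem' := ⟨fun _ _ _ _ => by simp, fun _ _ => rfl, fun _ _ => rfl⟩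
  smul_mem' := by
    rintro c f ⟨h1, h2, h3⟩
    refine ⟨fun a ha b hb => ?_, fun b hb => ?_, fun z hz => ?_⟩
    · simp only [Pi.smul_apply, h1 a ha b hb, smul_add]
    · simp [h2 b hb]
    · simp [h3 z hz]

/-- restriction to a finite generating set `s` of `A` is an injective linear map to `s → QB`
(`Subgroup.closure_induction`, `FiniteDimensional.of_injective`) -/
theorem homSp_fd {A B : Subgroup G} (hA : A.FG) : FiniteDimensional QB (homSp A B) := by
  obtain ⟨s, hs⟩ := hA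
  refine FiniteDimensional.of_injective
    ((LinearMap.funLeft QB QB (fun a : s => (a : G))).comp (homSp A B).subtype) ?_
  rw [injective_iff_map_eq_zero]
  rintro ⟨f, h1, h2, h3⟩ h
  have hs0 : ∀ a ∈ s, f a = 0 := fun a ha => congrFun h ⟨a, ha⟩
  ext z
  change f z = 0
  by_cases hz : z ∈ A
  · subst hs
    induction hz using Subgroup.closure_induction with
    | mem a ha => exact hs0 a ha
    | one => exact h2 1 B.one_mem
    | mul a b ha hb iha ihb => rw [h1 a ha b hb, iha, ihb, add_zero]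
    | inv a ha iha =>
      have := h1 a ha a⁻¹ (Subgroup.inv_mem _ ha)
      rwa [mul_inv_cancel, h2 1 B.one_mem, iha, zero_add, eq_comm] at this
  · exact h3 z hz

/-- the conjugation action on functions -/
noncomputable def conjRep (G : Type*) [Group G] : G →* Module.End QB (G → QB) where
  toFun g := LinearMap.funLeft QB QB fun x => g⁻¹ * x * g
  map_one' := by ext f x; simp
  map_mul' g h := by ext f x; simp [mul_assoc]

theorem conjRep_apply (g : G) (f : G → QB) (x : G) : conjRep G g f x = f (g⁻¹ * x * g) := rfl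

/-- the common kernel in `A` of a space `U` of additive functions -/
def kerSp (A B : Subgroup G) (U : Submodule QB (G → QB)) (hU : U ≤ homSp A B) : Subgroup G where
  carrier := {x | x ∈ A ∧ ∀ f ∈ U, f x = 0}
  mul_mem' := by
    rintro a b ⟨ha, h1⟩ ⟨hb, h2⟩
    exact ⟨A.mul_mem ha hb, fun f hf => by rw [(hU hf).1 a ha b hb, h1 f hf, h2 f hf, add_zero]⟩
  one_mem' := ⟨A.one_mem, fun f hf => (hU hf).2.1 1 B.one_mem⟩
  inv_mem' := by
    rintro a ⟨ha, h1⟩
    refine ⟨A.inv_mem ha, fun f hf => ?_⟩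
    have := (hU hf).1 a ha a⁻¹ (A.inv_mem ha)
    rwa [mul_inv_cancel, (hU hf).2.1 1 B.one_mem, h1 f hf, zero_add, eq_comm] at this

/-- Let `W = homSp A B`, invariant under `conjRep` of `g ∈ P`.  Prove by induction on `n`: for all
`U ≤ W` with `finrank W ≤ finrank U + n` and all `P₁ ≤ P` leaving `U` invariant there is `P' ≤ P₁` of finite
relative index with `ES P' (kerSp A B U _)`; then take `U = ⊥`, `P₁ = P` (`kerSp A B ⊥ _ = A`).
If `U = W`: `P' = P₁` and one step `EStep P₁ (kerSp W) B 0 0` (`tors` is `exists_fun`).  Otherwise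
`lk_rel (conjRep G)` gives `P₂ ≤ P₁` and `w ∈ W \ U`; `U' = U ⊔ span {w}` is `P₂`-invariant and has larger
`finrank` (`Submodule.finrank_lt_finrank_of_lt`); the induction hypothesis gives `P' ≤ P₂` with
`ES P' (kerSp U')`, and `EStep P' (kerSp U) (kerSp U') w χ` where `χ g` is the constant `c` chosen for
`g⁻¹` (`w (g * x * g⁻¹) = conjRep G g⁻¹ w x = c * w x + u x`, `u ∈ U`); `tors` holds with `n = 1`.
Indices multiply: `Subgroup.relIndex_mul_relIndex` / `Subgroup.relIndex_ne_zero_trans`. -/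
theorem es_step {P A B : Subgroup G} (hP : PC P) (hA : A.FG) (hBA : B ≤ A)
    (nA : ∀ g ∈ P, ∀ x ∈ A, g * x * g⁻¹ ∈ A) (nB : ∀ g ∈ P, ∀ x ∈ B, g * x * g⁻¹ ∈ B)
    (comm : ∀ x ∈ A, ∀ y ∈ A, x * y * x⁻¹ * y⁻¹ ∈ B) (hB : ES P B) :
    ∃ P' : Subgroup G, P' ≤ P ∧ P'.relIndex P ≠ 0 ∧ ES P' A := by
  have hfd : FiniteDimensional QB (homSp A B) := homSp_fd hA
  have hconj : ∀ g ∈ P, ∀ x ∈ A, g⁻¹ * x * g ∈ A := fun g hg x hx => by
    simpa using nA g⁻¹ (P.inv_mem hg) x hx
  have hW : ∀ g ∈ P, ∀ u ∈ homSp A B, conjRep G g u ∈ homSp A B := by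
    rintro g hg u ⟨h1, h2, h3⟩
    refine ⟨fun a ha b hb => ?_, fun b hb => ?_, fun z hz => ?_⟩
    · rw [conjRep_apply, conjRep_apply, conjRep_apply,
        ← h1 _ (hconj g hg a ha) _ (hconj g hg b hb)]
      congr 1
      group
    · exact h2 _ (by simpa using nB g⁻¹ (P.inv_mem hg) b hb)
    · refine h3 _ fun h => hz ?_
      simpa [mul_assoc] using nA g hg _ h
  have hnorm : ∀ (U : Submodule QB (G → QB)) (hU : U ≤ homSp A B), ∀ P₁ ≤ P,
      (∀ g ∈ P₁, ∀ u ∈ U, conjRep G g u ∈ U) →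
      ∀ g ∈ P₁, ∀ x ∈ kerSp A B U hU, g * x * g⁻¹ ∈ kerSp A B U hU := by
    intro U hU P₁ h1 hinv g hg x hx
    refine ⟨nA g (h1 hg) x hx.1, fun f hf => ?_⟩
    have := hx.2 _ (hinv g⁻¹ (P₁.inv_mem hg) f hf)
    rwa [conjRep_apply, inv_inv] at this
  have hBk : ∀ (U : Submodule QB (G → QB)) (hU : U ≤ homSp A B), B ≤ kerSp A B U hU :=
    fun U hU b hb => ⟨hBA hb, fun f hf => (hU hf).2.1 b hb⟩
  have htop : ES P (kerSp A B (homSp A B) le_rfl) := by
    refine ES.step _ B (fun _ => 0) (fun _ => 0) hB ⟨hBk _ _, hnorm _ _ P le_rfl hW,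
      fun x hx y hy => comm x hx.1 y hy.1, fun _ _ _ _ => (add_zero _).symm, fun _ _ => rfl,
      fun _ _ _ _ => (mul_zero _).symm, fun x hx _ => ?_⟩
    by_contra hc
    obtain ⟨f, f1, f2, f3, f4⟩ := exists_fun hBA comm hx.1 fun n hn h => hc ⟨n, hn, h⟩
    exact f4 (hx.2 f ⟨f1, f2, f3⟩)
  have key : ∀ (n : ℕ) (U : Submodule QB (G → QB)) (hU : U ≤ homSp A B),
      Module.finrank QB (homSp A B) ≤ Module.finrank QB U + n → ∀ P₁ ≤ P,
      (∀ g ∈ P₁, ∀ u ∈ U, conjRep G g u ∈ U) →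
      ∃ P' : Subgroup G, P' ≤ P₁ ∧ P'.relIndex P₁ ≠ 0 ∧ ES P' (kerSp A B U hU) := by
    intro n
    induction n with
    | zero =>
      intro U hU hn P₁ h1 _
      obtain rfl := Submodule.eq_of_le_of_finrank_le hU hn
      exact ⟨P₁, le_rfl, by simp, htop.mono h1⟩
    | succ n ih =>
      intro U hU hn P₁ h1 hinv
      rcases hU.eq_or_lt with rfl | hlt
      · exact ⟨P₁, le_rfl, by simp, htop.mono h1⟩
      obtain ⟨P₂, h2, i2, w, hw, hwU, hc⟩ := lk_rel (conjRep G) (hP.of_le h1) hlt hinv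
        fun g hg => hW g (h1 hg)
      have hU' : U ⊔ Submodule.span QB {w} ≤ homSp A B :=
        sup_le hU ((Submodule.span_singleton_le_iff_mem _ _).2 hw)
      have hwU' : w ∈ U ⊔ Submodule.span QB {w} :=
        Submodule.mem_sup_right (Submodule.mem_span_singleton_self w)
      have : FiniteDimensional QB ↥(U ⊔ Submodule.span QB {w}) :=
        Submodule.finiteDimensional_of_le hU'
      have hrk : Module.finrank QB U < Module.finrank QB ↥(U ⊔ Submodule.span QB {w}) :=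
        Submodule.finrank_lt_finrank_of_lt
          (lt_of_le_of_ne le_sup_left fun h => hwU (h ▸ hwU'))
      have hinv' : ∀ g ∈ P₂, ∀ u ∈ U ⊔ Submodule.span QB {w},
          conjRep G g u ∈ U ⊔ Submodule.span QB {w} := by
        intro g hg u hu
        obtain ⟨a, ha, b, hb, rfl⟩ := Submodule.mem_sup.1 hu
        obtain ⟨r, rfl⟩ := Submodule.mem_span_singleton.1 hb
        obtain ⟨c, hc'⟩ := hc g hg
        rw [map_add, map_smul, ← sub_add_cancel (conjRep G g w) (c • w)]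
        exact Submodule.add_mem _ (Submodule.mem_sup_left (hinv g (h2 hg) a ha))
          (Submodule.smul_mem _ _ (Submodule.add_mem _ (Submodule.mem_sup_left hc')
            (Submodule.smul_mem _ _ hwU')))
      obtain ⟨P', h3, i3, hes⟩ := ih _ hU' (by omega) P₂ (h2.trans h1) hinv'
      choose! χ hχ using hc
      refine ⟨P', h3.trans h2, Subgroup.relIndex_ne_zero_trans i3 i2,
        ES.step _ _ w (fun g => χ g⁻¹) hes ⟨fun x hx => ⟨hx.1, fun f hf =>
          hx.2 f (Submodule.mem_sup_left hf)⟩,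
        fun g hg => hnorm U hU P₁ h1 hinv g (h2 (h3 hg)),
        fun x hx y hy => hBk _ hU' (comm x hx.1 y hy.1), fun x hx y hy => hw.1 x hx.1 y hy.1,
        fun x hx => hx.2 w hwU', fun g hg x hx => ?_, fun x hx h0 => ⟨1, one_pos, ?_⟩⟩⟩
      · have h4 := hx.2 _ (hχ g⁻¹ (P₂.inv_mem (h3 hg)))
        rwa [Pi.sub_apply, conjRep_apply, inv_inv, Pi.smul_apply, smul_eq_mul, sub_eq_zero] at h4
      · rw [pow_one]
        refine ⟨hx.1, fun f hf => ?_⟩
        obtain ⟨a, ha, b, hb, rfl⟩ := Submodule.mem_sup.1 hf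
        obtain ⟨r, rfl⟩ := Submodule.mem_span_singleton.1 hb
        rw [Pi.add_apply, Pi.smul_apply, hx.2 a ha, h0, smul_zero, add_zero]
  obtain ⟨P', h1, h2, h3⟩ := key _ ⊥ bot_le (Nat.le_add_left _ _) P le_rfl fun g _ u hu => by
    rw [(Submodule.mem_bot QB).1 hu, map_zero]
    exact Submodule.zero_mem _
  refine ⟨P', h1, h2, ?_⟩
  have e : kerSp A B ⊥ bot_le = A := by
    ext x
    exact ⟨fun h => h.1, fun h => ⟨h, fun f hf => by rw [(Submodule.mem_bot QB).1 hf]; rfl⟩⟩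
  rwa [e] at h3

/-- polycyclic subgroups are solvable: induction on `PC`; `⁅H ⊔ ⟨g⟩, H ⊔ ⟨g⟩⁆ ≤ H` by
`Subgroup.commutator_le` and `mem_sup_zpowers`, and `K ↦ ⁅K, K⁆` is monotone
(`Monotone.iterate`, `Function.iterate_succ_apply`) -/
theorem PC.exists_iterate {H : Subgroup G} (h : PC H) :
    ∃ n : ℕ, (fun K : Subgroup G => ⁅K, K⁆)^[n] H = ⊥ := by
  induction h with
  | bot => exact ⟨0, rfl⟩
  | step H g _ h1 h2 ih =>
    obtain ⟨n, hn⟩ := ih
    refine ⟨n + 1, ?_⟩
    have hm : Monotone fun K : Subgroup G => ⁅K, K⁆ :=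
      fun _ _ hab => Subgroup.commutator_mono hab hab
    have hle : ⁅H ⊔ Subgroup.zpowers g, H ⊔ Subgroup.zpowers g⁆ ≤ H := by
      rw [Subgroup.commutator_le]
      intro a ha b hb
      obtain ⟨x, hx, k, rfl⟩ := (mem_sup_zpowers h1 h2).1 ha
      obtain ⟨y, hy, l, rfl⟩ := (mem_sup_zpowers h1 h2).1 hb
      have hz : ∀ m : ℤ, g ^ m ∈ H ⊔ Subgroup.zpowers g := fun m =>
        Subgroup.mem_sup_right (Subgroup.zpow_mem_zpowers g m)
      have e : x * g ^ k * (y * g ^ l) * (x * g ^ k)⁻¹ * (y * g ^ l)⁻¹ =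
          x * (g ^ k * y * (g ^ k)⁻¹) * (g ^ l * x⁻¹ * (g ^ l)⁻¹) * y⁻¹ := by
        group
      rw [commutatorElement_def, e]
      exact H.mul_mem (H.mul_mem (H.mul_mem hx (conj_mem_of_mem_sup h1 h2 (hz k) y hy))
        (conj_mem_of_mem_sup h1 h2 (hz l) _ (H.inv_mem hx))) (H.inv_mem hy)
    rw [Function.iterate_succ_apply, eq_bot_iff, ← hn]
    exact hm.iterate n hle

theorem h49_comm_norm {P A : Subgroup G} (nA : ∀ g ∈ P, ∀ x ∈ A, g * x * g⁻¹ ∈ A) :
    ∀ g ∈ P, ∀ x ∈ ⁅A, A⁆, g * x * g⁻¹ ∈ ⁅A, A⁆ := by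
  intro g hg
  have h : ⁅A, A⁆ ≤ (⁅A, A⁆ : Subgroup G).comap (MulAut.conj g).toMonoidHom := by
    rw [Subgroup.commutator_le]
    intro a ha b hb
    rw [Subgroup.mem_comap, map_commutatorElement]
    exact Subgroup.commutator_mem_commutator (nA g hg a ha) (nA g hg b hb)
  exact fun x hx => h hx

theorem h49_exists_es {P : Subgroup G} (hP : PC P) (n : ℕ) : ∀ A : Subgroup G, A ≤ P →
    (∀ g ∈ P, ∀ x ∈ A, g * x * g⁻¹ ∈ A) → (fun K : Subgroup G => ⁅K, K⁆)^[n] A = ⊥ →
    ∃ P' : Subgroup G, P' ≤ P ∧ P'.relIndex P ≠ 0 ∧ ES P' A := by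
  induction n with
  | zero =>
    intro A _ _ h
    have hA : A = ⊥ := h
    exact ⟨P, le_rfl, by simp, hA ▸ ES.bot⟩
  | succ n ih =>
    intro A hAP nA h
    rw [Function.iterate_succ_apply] at h
    have hBA : ⁅A, A⁆ ≤ A := by
      rw [Subgroup.commutator_le]
      intro a ha b hb
      exact A.mul_mem (A.mul_mem (A.mul_mem ha hb) (A.inv_mem ha)) (A.inv_mem hb)
    obtain ⟨P₁, h1, h2, h3⟩ := ih ⁅A, A⁆ (hBA.trans hAP) (h49_comm_norm nA) h
    obtain ⟨P', k1, k2, k3⟩ := es_step (hP.of_le h1) (hP.of_le hAP).fg hBA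
      (fun g hg => nA g (h1 hg)) (fun g hg => h49_comm_norm nA g (h1 hg))
      (fun x hx y hy => Subgroup.commutator_mem_commutator hx hy) h3
    exact ⟨P', k1.trans h1, Subgroup.relIndex_ne_zero_trans k2 h2, k3⟩

/-- Induction on `n` for all `A ≤ P` normalised by `P` with `(K ↦ ⁅K, K⁆)^[n] A = ⊥`: there is
`P' ≤ P` of finite relative index with `ES P' A` (`Function.iterate_succ_apply`; `B = ⁅A, A⁆` is
normalised by `P`: `Subgroup.closure_induction` on `Subgroup.commutator_def`, or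
`Subgroup.map_commutator` for `MulAut.conj g`; then `es_step` for the subgroup found for `B`, which is
`PC` by `PC.of_le`). -/
theorem exists_es {P : Subgroup G} (hP : PC P) :
    ∃ P' : Subgroup G, P' ≤ P ∧ P'.relIndex P ≠ 0 ∧ ES P' P := by
  obtain ⟨n, hn⟩ := hP.exists_iterate
  exact h49_exists_es hP n P le_rfl
    (fun g hg x hx => P.mul_mem (P.mul_mem hg hx) (P.inv_mem hg)) hn

end Crest.Agent.R182
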