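import Crest.Agent.R182.SBasic

/-! Row 182, block S: construction of chains (lower bounds). -/

set_option autoImplicit false
set_option linter.dupNamespace false

namespace Crest.Agent.R182

namespace Tower

variable {P : Type*} [Group P] (W : Tower P)

/-- Real version.  For each `j` let `τ j < L` be the time at which `wt j (ht (g a))`, `a < L`, is
largest, chosen as a function of `wt j` only (so it is constant on blocks);
`w a j = if τ j < a then y j else 0`.  `ρ_le` applied to `w (a+1) - w a` (it is supported on whole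
blocks); the time `a = L` costs one jump (`Gam.ht_le`, `exists_wt_le`). -/
theorem fill_real : ∃ C : ℝ, 1 ≤ C ∧ ∀ (R : ℝ) (L : ℕ) (g : ℕ → P) (y : Fin W.m → ℝ), 0 ≤ R →
    1 ≤ L → W.Chain R L g → (∀ j, ∃ a ≤ L, |y j| ≤ Real.exp (W.wt j (W.ht (g a)) + R)) →
    ∃ w : ℕ → Fin W.m → ℝ, w 0 = 0 ∧ w L = y ∧ (∀ a j, w a j = 0 ∨ w a j = y j) ∧
      ∀ a < L, ‖W.ρ (g a)⁻¹ (w (a + 1) - w a)‖ ≤ Real.exp (C * (R + 1)) := by
  classical
  obtain ⟨Cw, hCw1, hCw⟩ := W.exists_wt_le
  have hC := W.one_le_C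
  refine ⟨1 + Cw + W.C, by linarith, fun R L g y hR hL hg hy => ?_⟩
  have hτ : ∀ φ : (Fin W.k → ℝ) →ₗ[ℝ] ℝ, ∃ t < L, ∀ a < L, φ (W.ht (g a)) ≤ φ (W.ht (g t)) := by
    intro φ
    obtain ⟨t, ht, h⟩ := Finset.exists_max_image (Finset.range L) (fun a => φ (W.ht (g a)))
      ⟨0, Finset.mem_range.2 hL⟩
    exact ⟨t, Finset.mem_range.1 ht, fun a ha => h a (Finset.mem_range.2 ha)⟩
  choose τ hτL hτ using hτ
  refine ⟨fun a j => if τ (W.wt j) < a then y j else 0, ?_, ?_, fun a j => ?_, fun a ha => ?_⟩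
  · funext j
    simp
  · funext j
    simp [hτL]
  · by_cases h : τ (W.wt j) < a
    · exact Or.inr (if_pos h)
    · exact Or.inl (if_neg h)
  · refine (pi_norm_le_iff_of_nonneg (Real.exp_pos _).le).2 fun j => ?_
    have hRw : 0 ≤ Cw * R := by positivity
    have h1 := W.ρ_le (g a)⁻¹ ((fun j => if τ (W.wt j) < a + 1 then y j else 0) -
        fun j => if τ (W.wt j) < a then y j else 0) j
      (Real.exp (W.wt j (W.ht (g a)) + (R + Cw * R))) fun j' _ hj' => by
        simp only [Pi.sub_apply]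
        by_cases h : τ (W.wt j') = a
        · rw [if_pos (by omega), if_neg (by omega), sub_zero]
          obtain ⟨b, hb, hyb⟩ := hy j'
          refine hyb.trans (Real.exp_le_exp.2 ?_)
          rw [← hj']
          rcases hb.lt_or_eq with hb | rfl
          · have := hτ (W.wt j') b hb
            rw [h] at this
            linarith
          · have h2 := hτ (W.wt j') (b - 1) (by omega)
            rw [h] at h2
            have h3 := Gam.ht_le (hg (b - 1) (by omega))
            rw [show b - 1 + 1 = b by omega, ht_inv_mul] at h3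
            have h4 := (le_abs_self _).trans (hCw j' (W.ht (g b) - W.ht (g (b - 1))))
            rw [map_sub] at h4
            have h5 := mul_le_mul_of_nonneg_left h3 (by linarith : 0 ≤ Cw)
            linarith
        · have : (τ (W.wt j') < a + 1) ↔ τ (W.wt j') < a := by omega
          simp only [this, sub_self, abs_zero]
          exact (Real.exp_pos _).le
    refine le_trans h1 ?_
    rw [ht_inv, map_neg, mul_assoc, ← Real.exp_add]
    have h6 : W.C ≤ Real.exp W.C := by linarith [Real.add_one_le_exp W.C]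
    refine (mul_le_mul_of_nonneg_right h6 (Real.exp_pos _).le).trans ?_
    rw [← Real.exp_add]
    refine Real.exp_le_exp.2 ?_
    nlinarith

/-- **filling a layer.**  `w` from `fill_real` for `y = ι x`; `n' a = g a * m a * (g a)⁻¹` with
`‖ι (m a) - ρ (g a)⁻¹ (w a)‖ ≤ C` (`dense`, `ρ_supp`), `n' 0 = 1`, `n' L = x`;
`e a = (g a)⁻¹ * (n' a)⁻¹ * n' (a+1) * g a ∈ Q i` has small coordinates, `lift` gives a small `e' a`;
`n (a+1) = n a * g a * e' a * (g a)⁻¹` is congruent to `n' (a+1)` modulo `Q (i+1)`. -/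
theorem fill (i : ℕ) : ∃ C : ℝ, 1 ≤ C ∧ ∀ (R : ℝ) (L : ℕ) (g : ℕ → P) (x : P), 0 ≤ R → 1 ≤ L →
    W.Chain R L g → x ∈ W.Q i →
    (∀ j, W.lay j = i → ∃ a ≤ L, |W.ι i x j| ≤ Real.exp (W.wt j (W.ht (g a)) + R)) →
    ∃ n : ℕ → P, n 0 = 1 ∧ (∀ a, n a ∈ W.Q i) ∧ (n L)⁻¹ * x ∈ W.Q (i + 1) ∧
      W.Chain (C * (R + 1)) L fun a => n a * g a := by
  obtain ⟨C1, hC1, hreal⟩ := W.fill_real
  obtain ⟨Cw, hCw, hwt⟩ := W.exists_wt_le
  obtain ⟨Cl, hCl, hlift⟩ := W.lift i
  have hWC := W.one_le_C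
  set K : ℝ := W.C + W.C ^ 2 with hK
  have hK0 : 0 ≤ K := by positivity
  refine ⟨Cw + C1 + K + Cl + 1, by linarith, ?_⟩
  intro R L g x hR hL hg hx hy
  have hNi := W.normal i
  have hNi1 := W.normal (i + 1)
  obtain ⟨w, hw0, hwL, hwy, hw⟩ := hreal R L g (W.ι i x) hR hL hg (fun j => by
    by_cases hj : W.lay j = i
    · exact hy j hj
    · refine ⟨0, Nat.zero_le _, ?_⟩
      rw [W.ι_supp i x hx j hj, abs_zero]
      exact (Real.exp_pos _).le)
  have hsupp : ∀ a j, W.lay j ≠ i → w a j = 0 := fun a j hj => by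
    rcases hwy a j with h | h
    · exact h
    · rw [h, W.ι_supp i x hx j hj]
  have hm : ∀ a, ∃ m ∈ W.Q i, ‖W.ι i m - W.ρ (g a)⁻¹ (w a)‖ ≤ W.C ∧ (a = 0 → m = 1) ∧
      (a = L → m = (g L)⁻¹ * x * g L) := by
    intro a
    by_cases h0 : a = 0
    · subst h0
      refine ⟨1, (W.Q i).one_mem, ?_, fun _ => rfl, fun h => absurd h (by omega)⟩
      rw [W.ι_one, hw0, map_zero, sub_zero, norm_zero]
      linarith
    by_cases hl : a = L
    · subst hl
      have e : (g a)⁻¹ * x * g a = (g a)⁻¹ * x * (g a)⁻¹⁻¹ := by rw [inv_inv]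
      refine ⟨(g a)⁻¹ * x * g a, e ▸ hNi.conj_mem x hx _, ?_, fun h => absurd h h0, fun _ => rfl⟩
      rw [e, W.ι_conj i x hx, hwL, sub_self, norm_zero]
      linarith
    · obtain ⟨m, hm, hd⟩ := W.dense i (W.ρ (g a)⁻¹ (w a)) fun j hj =>
        W.ρ_supp _ (hsupp a) j hj
      exact ⟨m, hm, hd, fun h => absurd h h0, fun h => absurd h hl⟩
  choose m hmQ hmd hm0 hmL using hm
  set R' : ℝ := (Cw + C1) * (R + 1) + K with hR'
  have hR'0 : 0 ≤ R' := by positivity
  let e : ℕ → P := fun a =>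
    (m a)⁻¹ * (((g a)⁻¹ * g (a + 1)) * m (a + 1) * ((g a)⁻¹ * g (a + 1))⁻¹)
  have heQ : ∀ a, e a ∈ W.Q i := fun a =>
    (W.Q i).mul_mem ((W.Q i).inv_mem (hmQ a)) (hNi.conj_mem _ (hmQ (a + 1)) _)
  have he : ∀ a < L, ‖W.ι i (e a)‖ ≤ Real.exp R' := by
    intro a ha
    set s : P := (g a)⁻¹ * g (a + 1) with hs
    have h1 : W.ι i (e a) = -(W.ι i (m a) - W.ρ (g a)⁻¹ (w a)) +
        W.ρ s (W.ι i (m (a + 1)) - W.ρ (g (a + 1))⁻¹ (w (a + 1))) +
        W.ρ (g a)⁻¹ (w (a + 1) - w a) := by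
      have h2 : W.ρ s (W.ρ (g (a + 1))⁻¹ (w (a + 1))) = W.ρ (g a)⁻¹ (w (a + 1)) := by
        rw [← Module.End.mul_apply, ← map_mul, hs, mul_inv_cancel_right]
      simp only [e]
      rw [W.ι_mul i _ ((W.Q i).inv_mem (hmQ a)) _ (hNi.conj_mem _ (hmQ (a + 1)) _),
        W.ι_inv (hmQ a), W.ι_conj i _ (hmQ (a + 1)), map_sub, map_sub, h2]
      abel
    set X : ℝ := Real.exp ((Cw + C1) * (R + 1)) with hX
    have hX1 : 1 ≤ X := Real.one_le_exp (by positivity)
    have h3 : ‖W.ρ s (W.ι i (m (a + 1)) - W.ρ (g (a + 1))⁻¹ (w (a + 1)))‖ ≤ W.C ^ 2 * X := by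
      refine (pi_norm_le_iff_of_nonneg (by positivity)).2 fun j => ?_
      rw [Real.norm_eq_abs]
      refine (W.ρ_le_norm s _ j).trans ?_
      have h4 : W.wt j (W.ht s) ≤ (Cw + C1) * (R + 1) := by
        have h5 := (le_abs_self _).trans (hwt j (W.ht s))
        have h6 : ‖W.ht s‖ ≤ R := Gam.ht_le (hg a ha)
        have h7 : Cw * ‖W.ht s‖ ≤ Cw * R := mul_le_mul_of_nonneg_left h6 (by linarith)
        nlinarith
      calc W.C * Real.exp (W.wt j (W.ht s)) * _ ≤ W.C * X * W.C :=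
            mul_le_mul (mul_le_mul_of_nonneg_left (Real.exp_le_exp.2 h4) (by linarith))
              (hmd (a + 1)) (norm_nonneg _) (by positivity)
        _ = W.C ^ 2 * X := by ring
    have h4 : ‖W.ρ (g a)⁻¹ (w (a + 1) - w a)‖ ≤ X :=
      (hw a ha).trans (Real.exp_le_exp.2 (by nlinarith))
    have h5 : ‖-(W.ι i (m a) - W.ρ (g a)⁻¹ (w a))‖ ≤ W.C * X := by
      rw [norm_neg]
      exact (hmd a).trans (le_mul_of_one_le_right (by linarith) hX1)
    have h6 : K + 1 ≤ Real.exp K := Real.add_one_le_exp K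
    rw [h1, hR', Real.exp_add, ← hX]
    calc _ ≤ W.C * X + W.C ^ 2 * X + X :=
          (norm_add_le _ _).trans (add_le_add ((norm_add_le _ _).trans (add_le_add h5 h3)) h4)
      _ = X * (K + 1) := by rw [hK]; ring
      _ ≤ X * Real.exp K := mul_le_mul_of_nonneg_left h6 (by linarith)
  have he' : ∀ a, ∃ e' ∈ W.Q i, a < L → e' ∈ W.Gam (R' + Cl) ∧ e'⁻¹ * e a ∈ W.Q (i + 1) := by
    intro a
    by_cases ha : a < L
    · obtain ⟨y, hyQ, hy1, hy2⟩ := hlift (e a) (heQ a) R' hR'0 (he a ha)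
      exact ⟨y, hyQ, fun _ => ⟨hy1, hy2⟩⟩
    · exact ⟨1, (W.Q i).one_mem, fun h => absurd h ha⟩
  choose e' he'Q he' using he'
  let n : ℕ → P := fun a => Nat.rec 1 (fun a p => p * (g a * e' a * (g a)⁻¹)) a
  have hn0 : n 0 = 1 := rfl
  have hns : ∀ a, n (a + 1) = n a * (g a * e' a * (g a)⁻¹) := fun a => rfl
  have hcong : ∀ a ≤ L, (n a)⁻¹ * (g a * m a * (g a)⁻¹) ∈ W.Q (i + 1) := by
    intro a
    induction a with
    | zero =>
      intro _
      rw [hn0, hm0 0 rfl]
      simp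
    | succ a ih =>
      intro ha
      have h1 := hNi1.conj_mem _ (ih (by omega)) (g a * (e' a)⁻¹ * (g a)⁻¹)
      have h2 := hNi1.conj_mem _ (he' a (by omega)).2 (g a)
      have h3 := (W.Q (i + 1)).mul_mem h1 h2
      rw [hns]
      convert h3 using 1
      simp only [e]
      group
  refine ⟨n, hn0, fun a => ?_, ?_, fun a ha => ?_⟩
  · induction a with
    | zero => exact (W.Q i).one_mem
    | succ a ih => exact hns a ▸ (W.Q i).mul_mem ih (hNi.conj_mem _ (he'Q a) _)
  · have := hcong L le_rfl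
    rw [hmL L rfl] at this
    convert this using 1
    group
  · have h1 := Gam.mul_mem (he' a ha).1 (hg a ha)
    have h2 : (n a * g a)⁻¹ * (n (a + 1) * g (a + 1)) = e' a * ((g a)⁻¹ * g (a + 1)) := by
      rw [hns]; group
    show (n a * g a)⁻¹ * (n (a + 1) * g (a + 1)) ∈ _
    rw [h2]
    refine Gam.mono ?_ h1
    rw [hR']
    nlinarith [mul_nonneg hK0 hR, mul_nonneg hCl hR]

/-- induction on `i`: `many_box i` with `B j = exp (M j)`, `fill i` applied to every chain of the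
previous stage; separated coordinates give different cosets of `Q (i+1)` (`ι_congr`). -/
theorem many_ends (i : ℕ) : ∃ C : ℝ, 1 ≤ C ∧ ∀ (R : ℝ) (L : ℕ) (g : ℕ → P) (M : Fin W.m → ℝ),
    0 ≤ R → 1 ≤ L → g 0 = 1 → W.Chain R L g → (∀ j, ∃ a ≤ L, M j ≤ W.wt j (W.ht (g a))) →
    ∃ T : Finset P, Real.exp (∑ j with W.lay j < i, M j) ≤ T.card ∧
      (∀ x ∈ T, ∀ x' ∈ T, x⁻¹ * x' ∈ W.Q i → x = x') ∧
      ∀ x ∈ T, ∃ g' : ℕ → P, g' 0 = 1 ∧ g' L = x ∧ W.Chain (C * (R + 1)) L g' ∧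
        ∀ a, W.ht (g' a) = W.ht (g a) := by
  classical
  induction i with
  | zero =>
    refine ⟨1, le_rfl, fun R L g M hR _ g0 hg _ => ⟨{g L}, by simp, ?_, ?_⟩⟩
    · intro x hx x' hx' _
      rw [Finset.mem_singleton.1 hx, Finset.mem_singleton.1 hx']
    · intro x hx
      exact ⟨g, g0, (Finset.mem_singleton.1 hx).symm, hg.mono (by linarith), fun _ => rfl⟩
  | succ i ih =>
    obtain ⟨C1, hC1, ih⟩ := ih
    obtain ⟨C2, hC2, hfill⟩ := W.fill i
    obtain ⟨C3, hC3, hbox⟩ := W.many_box i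
    have hlog : 0 ≤ Real.log (2 * C3) := Real.log_nonneg (by linarith)
    refine ⟨C2 * (C1 + Real.log (2 * C3) + 1), by nlinarith, fun R L g M hR hL g0 hg hM => ?_⟩
    obtain ⟨T, hT1, hT2, hT3⟩ := ih R L g M hR hL g0 hg hM
    choose! G hG0 hGL hGc hGh using hT3
    obtain ⟨T', hT'1, hT'2, hT'3⟩ := hbox (fun j => Real.exp (M j)) fun j => (Real.exp_pos _).le
    have hR1 : 0 ≤ C1 * (R + 1) := by positivity
    have key : ∀ q : P × P, q ∈ T ×ˢ T' → ∃ n : ℕ → P, n 0 = 1 ∧ (∀ a, n a ∈ W.Q i) ∧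
        (n L)⁻¹ * q.2 ∈ W.Q (i + 1) ∧
        W.Chain (C2 * (C1 * (R + 1) + Real.log (2 * C3) + 1)) L fun a => n a * G q.1 a := by
      intro q hq
      obtain ⟨hx, ht⟩ := Finset.mem_product.1 hq
      refine hfill _ L (G q.1) q.2 (by linarith) hL ((hGc _ hx).mono (by linarith)) (hT'1 _ ht).1
        fun j _ => ?_
      have h1 : ∃ a ≤ L, M j ≤ W.wt j (W.ht (g a)) ∧ 0 ≤ W.wt j (W.ht (g a)) := by
        rcases le_total (M j) 0 with h | h
        · refine ⟨0, Nat.zero_le _, ?_⟩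
          rw [g0, W.ht_one, map_zero]
          exact ⟨h, le_rfl⟩
        · obtain ⟨a, ha, h2⟩ := hM j
          exact ⟨a, ha, h2, h.trans h2⟩
      obtain ⟨a, ha, h2, h3⟩ := h1
      refine ⟨a, ha, ((hT'1 _ ht).2 j).trans ?_⟩
      rw [hGh _ hx, Real.exp_add, Real.exp_add, Real.exp_log (by linarith)]
      have h4 := Real.exp_le_exp.2 h2
      have h5 := Real.one_le_exp h3
      have h6 := Real.one_le_exp hR1
      have h7 : C3 * (1 + Real.exp (M j)) ≤ C3 * (2 * Real.exp (W.wt j (W.ht (g a)))) :=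
        mul_le_mul_of_nonneg_left (by linarith) (by linarith)
      have h8 : 0 ≤ C3 * (2 * Real.exp (W.wt j (W.ht (g a)))) := by positivity
      nlinarith
    choose! n hn0 hnQ hnL hnc using key
    have hsep : ∀ q ∈ T ×ˢ T', ∀ q' ∈ T ×ˢ T',
        (n q L * q.1)⁻¹ * (n q' L * q'.1) ∈ W.Q (i + 1) → q = q' := by
      intro q hq q' hq' h
      obtain ⟨hx, ht⟩ := Finset.mem_product.1 hq
      obtain ⟨hx', ht'⟩ := Finset.mem_product.1 hq'
      have h1 : q.1 = q'.1 := by
        refine hT2 _ hx _ hx' ?_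
        have h2 := (W.normal i).conj_mem _
          ((W.Q i).mul_mem ((W.Q i).inv_mem (hnQ q' hq' L)) (hnQ q hq L)) q'.1⁻¹
        have h3 := (W.Q i).mul_mem (W.anti i h) h2
        convert h3 using 1
        group
      have h2 : (n q L)⁻¹ * n q' L ∈ W.Q (i + 1) := by
        have h3 := (W.normal (i + 1)).conj_mem _ h q.1
        rw [← h1] at h3
        convert h3 using 1
        group
      refine Prod.ext h1 ?_
      by_contra hne
      have h3 := hT'2 _ ht _ ht' hne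
      rw [W.ι_congr (hnQ q hq L) (hnL q hq), W.ι_congr (hnQ q' hq' L) (hnL q' hq'),
        W.ι_congr (hnQ q hq L) h2, sub_self, norm_zero] at h3
      linarith
    refine ⟨(T ×ˢ T').image fun q => n q L * q.1, ?_, ?_, ?_⟩
    · rw [Finset.card_image_of_injOn fun q hq q' hq' h => hsep q hq q' hq' (by
        rw [show n q L * q.1 = n q' L * q'.1 from h, inv_mul_cancel]; exact one_mem _),
        Finset.card_product, Nat.cast_mul]
      have h1 : ∑ j with W.lay j < i + 1, M j =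
          ∑ j with W.lay j < i, M j + ∑ j with W.lay j = i, M j := by
        simp only [Finset.sum_filter, ← Finset.sum_add_distrib]
        refine Finset.sum_congr rfl fun j _ => ?_
        rcases lt_trichotomy (W.lay j) i with h | h | h
        · rw [if_pos (by omega), if_pos h, if_neg h.ne, add_zero]
        · rw [if_pos (by omega), if_neg (by omega), if_pos h, zero_add]
        · rw [if_neg (by omega), if_neg (by omega), if_neg (by omega), add_zero]
      rw [h1, Real.exp_add]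
      refine mul_le_mul hT1 (le_trans ?_ hT'3) (Real.exp_pos _).le (Nat.cast_nonneg _)
      rw [Real.exp_sum]
      exact Finset.prod_le_prod (fun j _ => (Real.exp_pos _).le) fun j _ => le_max_right _ _
    · intro x hx x' hx' h
      obtain ⟨q, hq, rfl⟩ := Finset.mem_image.1 hx
      obtain ⟨q', hq', rfl⟩ := Finset.mem_image.1 hx'
      rw [hsep q hq q' hq' h]
    · intro x hx
      obtain ⟨q, hq, rfl⟩ := Finset.mem_image.1 hx
      have hx := (Finset.mem_product.1 hq).1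
      refine ⟨fun a => n q a * G q.1 a, ?_, ?_, (hnc q hq).mono ?_, fun a => ?_⟩
      · simp only [hn0 q hq, hG0 _ hx, mul_one]
      · simp only [hGL _ hx]
      · rw [mul_assoc]
        exact mul_le_mul_of_nonneg_left (by nlinarith) (by linarith)
      · rw [W.ht_mul, W.ht_eq_zero (hnQ q hq a), zero_add, hGh _ hx]

/-- **lower count** (`many_ends r`, translate by `g 0`) -/
theorem count_low : ∃ C : ℝ, 1 ≤ C ∧ ∀ (R : ℝ) (L : ℕ) (g : ℕ → P) (M : Fin W.m → ℝ),
    0 ≤ R → 1 ≤ L → W.Chain R L g → (∀ j, ∃ a ≤ L, M j ≤ W.wt j (W.ht (g a) - W.ht (g 0))) →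
    ∃ T : Finset P, Real.exp (∑ j, M j) ≤ T.card ∧
      ∀ x ∈ T, x ∈ W.Ends (C * (R + 1)) L (g 0) fun a => W.ht (g a) := by
  classical
  obtain ⟨C, hC, h⟩ := W.many_ends W.r
  refine ⟨C, hC, fun R L g M hR hL hg hM => ?_⟩
  obtain ⟨T, hT1, -, hT3⟩ := h R L (fun a => (g 0)⁻¹ * g a) M hR hL (inv_mul_cancel _)
    (hg.mul_left _) fun j => by simpa only [W.ht_inv_mul] using hM j
  refine ⟨T.image fun x => g 0 * x, ?_, fun x hx => ?_⟩
  · rw [Finset.card_image_of_injective _ (mul_right_injective _)]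
    rwa [Finset.filter_true_of_mem fun j _ => W.lay_lt j] at hT1
  · obtain ⟨y, hy, rfl⟩ := Finset.mem_image.1 hx
    obtain ⟨G, h0, h1, h2, h3⟩ := hT3 y hy
    refine ⟨fun a => g 0 * G a, by simp only [h0, mul_one], by simp only [h1], h2.mul_left _,
      fun a _ => ?_⟩
    simp only [W.ht_mul, h3, W.ht_inv, add_neg_cancel_left, sub_self, norm_zero]
    positivity

/-- every profile with steps `≤ R` is followed by a chain from any point of the right height
(round, `ht_surj`, `lift_top`) -/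
theorem exists_chain : ∃ C : ℝ, 1 ≤ C ∧ ∀ (R : ℝ) (L : ℕ) (p : P) (v : ℕ → Fin W.k → ℝ), 0 ≤ R →
    ‖W.ht p - v 0‖ ≤ R → (∀ a < L, ‖v (a + 1) - v a‖ ≤ R) →
    ∃ g : ℕ → P, g 0 = p ∧ W.Chain (C * (R + 1)) L g ∧ W.Trk (C * (R + 1)) L g v := by
  obtain ⟨C, hC1, hC⟩ := W.lift_top
  refine ⟨3 * C, by linarith, fun R L p v hR h0 hv => ?_⟩
  choose zp hzp using W.ht_int p
  set z : ℕ → Fin W.k → ℤ := fun a => if a = 0 then zp else fun i => round (v a i) with hz
  set H : ℕ → Fin W.k → ℝ := fun a i => z a i with hH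
  have hH0 : H 0 = W.ht p := funext fun i => by simp [hH, hz, hzp]
  have hHv : ∀ a, ‖H a - v a‖ ≤ R + 1 := by
    intro a
    rcases Nat.eq_zero_or_pos a with rfl | ha
    · rw [hH0]; linarith
    · refine (pi_norm_le_iff_of_nonneg (by linarith)).2 fun i => ?_
      have h1 := abs_sub_round (v a i)
      simp only [hH, hz, Pi.sub_apply, if_neg ha.ne', Real.norm_eq_abs]
      rw [abs_sub_comm]
      linarith
  have hstep : ∀ a, ∃ y ∈ W.Gam (C * (‖H (a + 1) - H a‖ + 1)), W.ht y = H (a + 1) - H a := by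
    intro a
    obtain ⟨e, he⟩ := W.ht_surj (z (a + 1) - z a)
    have he' : W.ht e = H (a + 1) - H a := funext fun i => by simp [hH, he i]
    obtain ⟨y, hy, hy'⟩ := hC e
    exact ⟨y, he' ▸ hy, hy'.trans he'⟩
  choose y hy hy' using hstep
  let g : ℕ → P := fun a => Nat.rec p (fun b x => x * y b) a
  have hg : ∀ a, g (a + 1) = g a * y a := fun _ => rfl
  have hgH : ∀ a, W.ht (g a) = H a := by
    intro a
    induction a with
    | zero => exact hH0.symm
    | succ a ih => rw [hg, W.ht_mul, ih, hy', add_sub_cancel]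
  refine ⟨g, rfl, fun a ha => ?_, fun a _ => ?_⟩
  · rw [hg, inv_mul_cancel_left]
    refine Gam.mono ?_ (hy a)
    have h1 : H (a + 1) - H a = (H (a + 1) - v (a + 1)) + (v (a + 1) - v a) - (H a - v a) := by abel
    have h2 : ‖H (a + 1) - H a‖ ≤ (R + 1) + R + (R + 1) := by
      rw [h1]
      exact (norm_sub_le _ _).trans (add_le_add ((norm_add_le _ _).trans
        (add_le_add (hHv _) (hv a ha))) (hHv a))
    nlinarith
  · rw [hgH]
    refine (hHv a).trans ?_
    nlinarith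

end Tower

end Crest.Agent.R182
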