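import Crest.Agent.R182.SBasic
import Crest.Agent.R182.SDehn

/-! Row 182, block S: coordinates of elements of small log-size. -/

set_option autoImplicit false
set_option linter.dupNamespace false

namespace Crest.Agent.R182

namespace Tower

variable {P : Type*} [Group P] (W : Tower P)

/-- elements of `Gam R ∩ Q i` have fillings of log-size `O(R)` -/
def Fil (i : ℕ) : Prop := ∃ (T : Finset P) (C : ℝ), 1 ≤ C ∧ (∀ t ∈ T, t ∈ W.Q i) ∧
  ∀ (R : ℝ), ∀ x ∈ W.Gam R, x ∈ W.Q i →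
    x ∈ CP (W.Gam (C * (R + 1))) T ⌊Real.exp (C * (R + 1))⌋₊

theorem h74_le_exp {c R : ℝ} (hc : 0 ≤ c) (hR : 0 ≤ R) : c ≤ Real.exp (c * (R + 1)) := by
  have := Real.add_one_le_exp (c * (R + 1))
  nlinarith [mul_nonneg hc hR]

/-- Path `g a` of `x`; `σ a ∈ Ball S (C ⌈R⌉)` with `ht (σ a) = ht (g a)` (`lift_top_ball`), `σ 0 = σ n = 1`;
`x = ∏ σ a * step a * (σ (a+1))⁻¹`, every factor lies in `Q 0 ∩ Ball S (2 C ⌈R⌉ + 1)`; `dehn_ab` with
`K = Q 0`, `U = S`, `exists_ball_subset_gam`. -/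
theorem fil_zero : W.Fil 0 := by
  classical
  haveI := W.normal 0
  obtain ⟨T, D, hT, hD⟩ := dehn_ab (W.Q 0) W.S fun u _ u' _ => by
    rw [W.mem_zero, W.ht_mul, W.ht_mul, W.ht_mul, W.ht_inv, W.ht_inv]
    abel
  obtain ⟨C₁, hC₁⟩ := W.lift_top_ball
  obtain ⟨C₂, hC₂, hgam⟩ := W.exists_ball_subset_gam
  have hD0 : (0 : ℝ) ≤ D := Nat.cast_nonneg _
  have hC₁0 : (0 : ℝ) ≤ C₁ := Nat.cast_nonneg _
  refine ⟨T, C₂ * D * (2 * C₁ + 2) + 3 * D * (2 * C₁ + 2) ^ 3 + 4, ?_, hT, ?_⟩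
  · have h1 : 0 ≤ C₂ * D * (2 * C₁ + 2) := by positivity
    have h2 : (0 : ℝ) ≤ 3 * D * (2 * C₁ + 2) ^ 3 := by positivity
    linarith
  intro R x hx hx0
  have hR : 0 ≤ R := Gam.nonneg hx
  obtain ⟨n, g, hn, hg0, hgn, hstep, hht⟩ := hx
  set N : ℕ := ⌈R⌉₊ with hN
  have hNR : (N : ℝ) ≤ R + 1 := (Nat.ceil_lt_add_one hR).le
  have hσ : ∀ a, ∃ y, a ≤ n → y ∈ Ball (W.S : Set P) (C₁ * N) ∧ W.ht y = W.ht (g a) := fun a => by
    by_cases ha : a ≤ n
    · obtain ⟨y, hy, e⟩ := hC₁ (g a) N ((hht a ha).trans (Nat.le_ceil R))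
      exact ⟨y, fun _ => ⟨hy, e⟩⟩
    · exact ⟨1, fun h => absurd h ha⟩
  choose σ hσ using hσ
  set M : ℕ := C₁ * N + 1 + C₁ * N with hM
  have key : ∀ a ≤ n, g a * (σ a)⁻¹ ∈
      CP (Ball (W.S : Set P) (D * (M + 1))) T (D * (M + 1) ^ 3 * (a + 1)) := by
    intro a
    induction a with
    | zero =>
      intro ha
      rw [zero_add, mul_one]
      refine hD M _ ?_ ?_
      · rw [hg0, one_mul]
        exact Ball.mono le_rfl (by omega) (Ball.inv_mem (hσ 0 ha).1)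
      · rw [W.mem_zero, W.ht_mul, W.ht_inv, (hσ 0 ha).2, add_neg_cancel]
    | succ a ih =>
      intro ha
      have ha' : a ≤ n := Nat.le_of_succ_le ha
      have e : g (a + 1) * (σ (a + 1))⁻¹ =
          g a * (σ a)⁻¹ * (σ a * ((g a)⁻¹ * g (a + 1)) * (σ (a + 1))⁻¹) := by group
      rw [e, mul_add (D * (M + 1) ^ 3) (a + 1) 1, mul_one]
      refine CP.mul_mem (ih ha') (hD M _ ?_ ?_)
      · exact Ball.mul_mem (Ball.mul_mem (hσ a ha').1 (hstep a ha)) (Ball.inv_mem (hσ _ ha).1)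
      · rw [W.mem_zero, W.ht_mul, W.ht_mul, W.ht_inv_mul, W.ht_inv, (hσ a ha').2, (hσ _ ha).2]
        abel
  have hx' : x ∈ CP (Ball (W.S : Set P) (D * (M + 1))) T (D * (M + 1) ^ 3 * (n + 2)) := by
    have e : x = g n * (σ n)⁻¹ * σ n := by rw [inv_mul_cancel_right, hgn]
    rw [e, show n + 2 = n + 1 + 1 from rfl, mul_add (D * (M + 1) ^ 3) (n + 1) 1, mul_one]
    refine CP.mul_mem (key n le_rfl) (hD M _ (Ball.mono le_rfl (by omega) (hσ n le_rfl).1) ?_)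
    rw [W.mem_zero, (hσ n le_rfl).2, hgn, ← W.mem_zero]
    exact hx0
  have hM1 : ((M : ℝ) + 1) ≤ (2 * C₁ + 2) * (R + 1) := by
    rw [hM]
    push_cast
    nlinarith [mul_le_mul_of_nonneg_left hNR hC₁0]
  have hM0 : (0 : ℝ) ≤ (M : ℝ) + 1 := by positivity
  have hc0 : (0 : ℝ) ≤ 3 * D * (2 * C₁ + 2) ^ 3 := by positivity
  have hc1 : 0 ≤ C₂ * D * (2 * C₁ + 2) := by positivity
  refine CP.mono ((hgam _).trans (Gam.mono ?_)) le_rfl (Nat.le_floor ?_) hx'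
  · push_cast
    have h1 : C₂ * (D * ((M : ℝ) + 1)) ≤ C₂ * (D * ((2 * C₁ + 2) * (R + 1))) := by gcongr
    nlinarith [mul_nonneg hc0 hR]
  · push_cast
    have he1 : 1 ≤ Real.exp R := Real.one_le_exp hR
    have h1 : (n : ℝ) + 2 ≤ 3 * Real.exp (R + 1) := by
      have := Real.exp_le_exp.2 (show R ≤ R + 1 by linarith)
      linarith
    have h2 : R + 1 ≤ Real.exp (R + 1) := by linarith [Real.add_one_le_exp (R + 1)]
    have h3 := h74_le_exp hc0 hR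
    calc (D : ℝ) * ((M : ℝ) + 1) ^ 3 * (n + 2)
        ≤ D * ((2 * C₁ + 2) * Real.exp (R + 1)) ^ 3 * (3 * Real.exp (R + 1)) := by
          gcongr
          exact hM1.trans (by gcongr)
      _ = 3 * D * (2 * C₁ + 2) ^ 3 * Real.exp (R + 1) ^ 4 := by ring
      _ ≤ Real.exp (3 * D * (2 * C₁ + 2) ^ 3 * (R + 1)) * Real.exp (R + 1) ^ 4 := by gcongr
      _ = Real.exp ((3 * D * (2 * C₁ + 2) ^ 3 + 4) * (R + 1)) := by
          rw [← Real.exp_nat_mul, ← Real.exp_add]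
          congr 1
          push_cast
          ring
      _ ≤ _ := by
          refine Real.exp_le_exp.2 ?_
          nlinarith [mul_nonneg hc1 hR]

theorem ι_le_of_cp (i : ℕ) (T : Finset P) (hT : ∀ t ∈ T, t ∈ W.Q i) : ∃ C : ℝ, 1 ≤ C ∧
    ∀ (R : ℝ) (n : ℕ), 0 ≤ R → ∀ x ∈ CP (W.Gam R) T n,
      x ∈ W.Q i ∧ ‖W.ι i x‖ ≤ n * Real.exp (C * (R + 1)) := by
  obtain ⟨K, hK, hwt⟩ := W.exists_wt_le
  have hC0 : 0 ≤ W.C := zero_le_one.trans W.one_le_C
  set B : ℝ := ∑ t ∈ T, ‖W.ι i t‖ with hB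
  have hB0 : 0 ≤ B := Finset.sum_nonneg fun _ _ => norm_nonneg _
  have hBt : ∀ t ∈ T, ‖W.ι i t‖ ≤ B := fun t ht =>
    Finset.single_le_sum (f := fun t => ‖W.ι i t‖) (fun _ _ => norm_nonneg _) ht
  have hCB : 0 ≤ W.C * B := mul_nonneg hC0 hB0
  refine ⟨W.C * B + K, by linarith, fun R n hR => ?_⟩
  have h1 : ∀ a ∈ W.Gam R, ∀ t ∈ T, a * t * a⁻¹ ∈ W.Q i ∧
      ‖W.ι i (a * t * a⁻¹)‖ ≤ Real.exp ((W.C * B + K) * (R + 1)) := by
    intro a ha t ht
    refine ⟨(W.normal i).conj_mem t (hT t ht) a, ?_⟩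
    rw [W.ι_conj i t (hT t ht), pi_norm_le_iff_of_nonneg (Real.exp_pos _).le]
    intro j
    have h2 : W.wt j (W.ht a) ≤ K * (R + 1) := by
      have h3 := (le_abs_self _).trans (hwt j (W.ht a))
      have h4 := Gam.ht_le ha
      nlinarith
    calc ‖W.ρ a (W.ι i t) j‖ ≤ W.C * Real.exp (W.wt j (W.ht a)) * ‖W.ι i t‖ := W.ρ_le_norm a _ j
      _ ≤ W.C * Real.exp (K * (R + 1)) * B := by
          gcongr
          exact hBt t ht
      _ = W.C * B * Real.exp (K * (R + 1)) := by ring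
      _ ≤ Real.exp (W.C * B * (R + 1)) * Real.exp (K * (R + 1)) := by
          gcongr
          exact h74_le_exp hCB hR
      _ = _ := by rw [← Real.exp_add, add_mul]
  induction n with
  | zero =>
    intro x hx
    rw [CP, h31_ball_zero, Set.mem_singleton_iff] at hx
    rw [hx, W.ι_one, norm_zero, Nat.cast_zero, zero_mul]
    exact ⟨one_mem _, le_rfl⟩
  | succ n ih =>
    intro x hx
    rcases h31_ball_succ hx with rfl | ⟨y, hy, b, hb, rfl⟩
    · rw [W.ι_one, norm_zero]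
      exact ⟨one_mem _, by positivity⟩
    · have h2 : y ∈ W.Q i ∧ ‖W.ι i y‖ ≤ Real.exp ((W.C * B + K) * (R + 1)) := by
        rcases hy with ⟨a, ha, t, ht, rfl⟩ | ⟨a, ha, t, ht, e⟩
        · exact h1 a ha t ht
        · have h3 := h1 a ha t ht
          rw [← e] at h3
          have h4 : y ∈ W.Q i := (Subgroup.inv_mem_iff _).1 h3.1
          rw [W.ι_inv h4, norm_neg] at h3
          exact ⟨h4, h3.2⟩
      obtain ⟨h3, h4⟩ := ih b hb
      refine ⟨mul_mem h2.1 h3, ?_⟩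
      rw [W.ι_mul i y h2.1 b h3]
      refine (norm_add_le _ _).trans ?_
      push_cast
      linarith [h2.2]

private theorem h14_mem_normal {K : Subgroup P} [hK : K.Normal] {s x' y' y : P}
    (h1 : y'⁻¹ * x' ∈ K) (h2 : y⁻¹ * (s * x' * s⁻¹) ∈ K) : s * y' * s⁻¹ * y⁻¹ ∈ K := by
  have := hK.conj_mem _ (K.mul_mem (hK.conj_mem _ (K.inv_mem h1) s) h2) (s * x' * s⁻¹)
  convert this using 1
  group

private theorem h14_exp {K c C R : ℝ} (hK : K ≤ C) (hc : c ≤ C) (hR : 0 ≤ R) :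
    K * Real.exp (c * R) ≤ Real.exp (C * (R + 1)) := by
  rw [mul_add, mul_one, add_comm, Real.exp_add]
  have h1 : K ≤ Real.exp C := by linarith [Real.add_one_le_exp C]
  gcongr

/-- `U` from `lift_ball`.  `a = s 0 ⋯ s (n-1)` a path with heights `≤ R`, `c l = s l ⋯ s (n-1)` the
suffixes (heights `≤ 2 R`), `y l ∈ Ball U (e^{CR})` a lift of `c l * t * (c l)⁻¹` with `y 0 = y`.
`a t a⁻¹ y⁻¹ = ∏_l` conjugates by prefixes of `s l * y (l+1) * (s l)⁻¹ * (y l)⁻¹` and of `t * (y n)⁻¹`,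
which lie in `Q (i+1) ∩ Ball U' (e^{CR})`, `U' = U ∪ T ∪ {s u s⁻¹}`; `dehn_ab` with `K = Q (i+1)`,
`exists_ball_zero`. -/
theorem conj_lift (i : ℕ) (T : Finset P) (hT : ∀ t ∈ T, t ∈ W.Q i) :
    ∃ (U T' : Finset P) (C : ℝ), 1 ≤ C ∧ (∀ u ∈ U, u ∈ W.Q i) ∧ (∀ t ∈ T', t ∈ W.Q (i + 1)) ∧
      ∀ (R : ℝ), ∀ a ∈ W.Gam R, ∀ t ∈ T, ∃ y ∈ Ball (U : Set P) ⌊Real.exp (C * (R + 1))⌋₊,
        a * t * a⁻¹ * y⁻¹ ∈ CP (W.Gam (C * (R + 1))) T' ⌊Real.exp (C * (R + 1))⌋₊ := by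
  classical
  obtain ⟨U, CU, hU, hlift⟩ := W.lift_ball i
  obtain ⟨Cw, hCw, hwt⟩ := W.exists_wt_le
  obtain ⟨B, hB0, hB⟩ : ∃ B : ℝ, 0 ≤ B ∧ ∀ t ∈ T, ‖W.ι i t‖ ≤ B :=
    ⟨∑ t ∈ T, ‖W.ι i t‖, Finset.sum_nonneg fun _ _ => norm_nonneg _, fun t ht =>
      Finset.single_le_sum (f := fun t => ‖W.ι i t‖) (fun _ _ => norm_nonneg _) ht⟩
  obtain ⟨U', hUU', hTU', hSU', hU'⟩ : ∃ U' : Finset P, (U : Set P) ⊆ U' ∧ (T : Set P) ⊆ U' ∧
      (∀ s ∈ Ball (W.S : Set P) 1, ∀ u ∈ U, s * u * s⁻¹ ∈ U') ∧ ∀ u ∈ U', u ∈ W.Q i := by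
    refine ⟨U ∪ T ∪ Finset.image₂ (fun s u => s * u * s⁻¹)
      (Ball.finite W.S.finite_toSet 1).toFinset U, fun u hu => ?_, fun u hu => ?_,
      fun s hs u hu => ?_, fun u hu => ?_⟩
    · exact Finset.mem_coe.2 (Finset.mem_union_left _ (Finset.mem_union_left _ hu))
    · exact Finset.mem_coe.2 (Finset.mem_union_left _ (Finset.mem_union_right _ hu))
    · exact Finset.mem_union_right _
        (Finset.mem_image₂_of_mem ((Set.Finite.mem_toFinset _).2 hs) hu)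
    · rcases Finset.mem_union.1 hu with h | h
      · rcases Finset.mem_union.1 h with h | h
        · exact hU u h
        · exact hT u h
      · obtain ⟨s, -, v, hv, rfl⟩ := Finset.mem_image₂.1 h
        exact (W.normal i).conj_mem v (hU v hv) s
  have hN := W.normal (i + 1)
  obtain ⟨T', Cd, hT', hdehn⟩ := dehn_ab (W.Q (i + 1)) U'
    fun u hu u' hu' => W.comm i u (hU' u hu) u' (hU' u' hu')
  obtain ⟨Cz, hCz, hz⟩ := W.exists_ball_zero U' fun u hu => W.Q_le (Nat.zero_le i) (hU' u hu)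
  have hC1 := W.one_le_C
  obtain ⟨K, hK⟩ : ∃ K : ℝ, K = (2 * CU + 2) * (W.C * B + 2) := ⟨_, rfl⟩
  have hK1 : 1 ≤ K := by
    rw [hK]
    have : (0 : ℝ) ≤ W.C * B := by positivity
    have : (0 : ℝ) ≤ CU := by positivity
    nlinarith
  obtain ⟨C, hC⟩ : ∃ C : ℝ, C = 2 * (Cd + 1) * K ^ 3 + (6 * Cw + 2) + Cz + (Cd + 1) * K :=
    ⟨_, rfl⟩
  have p1 : (0 : ℝ) ≤ 2 * (Cd + 1) * K ^ 3 := by positivity
  have p2 : (0 : ℝ) ≤ Cd * K := by positivity
  refine ⟨U, T', C, by rw [hC]; nlinarith, hU, hT', fun R a ha t ht => ?_⟩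
  have hR : 0 ≤ R := Gam.nonneg ha
  obtain ⟨n, g, hn, hg0, hgn, hstep, hht⟩ := ha
  obtain ⟨E, hE⟩ : ∃ E : ℝ, E = Real.exp (2 * Cw * R) := ⟨_, rfl⟩
  have hE1 : 1 ≤ E := by rw [hE]; exact Real.one_le_exp (by positivity)
  obtain ⟨N, hNN⟩ : ∃ N : ℕ, N = ⌈W.C * E * B⌉₊ := ⟨_, rfl⟩
  have hN1 : (N : ℝ) ≤ W.C * E * B + 1 := by
    rw [hNN]; exact (Nat.ceil_lt_add_one (by positivity)).le
  obtain ⟨M, hM⟩ : ∃ M : ℕ, M = CU * (N + 1) := ⟨_, rfl⟩
  have hMK : ((2 * M + 1 + 1 : ℕ) : ℝ) ≤ K * E := by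
    have h1 : (N : ℝ) + 1 ≤ (W.C * B + 2) * E := by nlinarith
    have h2 : (0 : ℝ) ≤ N := by positivity
    have h3 : (0 : ℝ) ≤ CU := by positivity
    calc ((2 * M + 1 + 1 : ℕ) : ℝ) = 2 * CU * (N + 1) + 2 := by rw [hM]; push_cast; ring
      _ ≤ (2 * CU + 2) * (N + 1) := by nlinarith
      _ ≤ (2 * CU + 2) * ((W.C * B + 2) * E) := by gcongr
      _ = K * E := by rw [hK]; ring
  -- the lifts
  have hy : ∀ l : ℕ, ∃ y : P, l ≤ n → y ∈ Ball (U : Set P) M ∧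
      y⁻¹ * ((g l)⁻¹ * a * t * ((g l)⁻¹ * a)⁻¹) ∈ W.Q (i + 1) := by
    intro l
    by_cases hl : l ≤ n
    · have h1 : ‖W.ht ((g l)⁻¹ * a)‖ ≤ 2 * R := by
        rw [W.ht_inv_mul, ← hgn]
        have := norm_sub_le (W.ht (g n)) (W.ht (g l))
        linarith [hht n le_rfl, hht l hl]
      have h2 : ‖W.ι i ((g l)⁻¹ * a * t * ((g l)⁻¹ * a)⁻¹)‖ ≤ N := by
        rw [W.ι_conj i t (hT t ht), hNN]
        refine le_trans ?_ (Nat.le_ceil _)
        refine (pi_norm_le_iff_of_nonneg (by positivity)).2 fun j => ?_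
        rw [Real.norm_eq_abs]
        refine (W.ρ_le_norm _ _ j).trans ?_
        have h3 : W.wt j (W.ht ((g l)⁻¹ * a)) ≤ 2 * Cw * R := by
          have := (le_abs_self _).trans (hwt j (W.ht ((g l)⁻¹ * a)))
          nlinarith
        have h4 := hB t ht
        rw [hE]
        gcongr
      obtain ⟨y, hy1, hy2⟩ := hlift _ ((W.normal i).conj_mem t (hT t ht) _) N h2
      exact ⟨y, fun _ => ⟨hM ▸ hy1, hy2⟩⟩
    · exact ⟨1, fun h => absurd h hl⟩
  choose y hy using hy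
  -- fillings
  obtain ⟨R', hR'⟩ : ∃ R' : ℝ, R' = C * (R + 1) := ⟨_, rfl⟩
  obtain ⟨k, hk⟩ : ∃ k : ℕ, k = Cd * (2 * M + 1 + 1) ^ 3 := ⟨_, rfl⟩
  have hfill : ∀ l ≤ n, ∀ w ∈ Ball (U' : Set P) (2 * M + 1), w ∈ W.Q (i + 1) →
      g l * w * (g l)⁻¹ ∈ CP (W.Gam R') T' k := by
    intro l hl w hw hwQ
    rw [hk]
    refine CP.conj_mem (g l) (fun b hb => ?_) (hdehn _ w hw hwQ)
    have h1 : g l ∈ W.Gam R := ⟨l, g, le_trans (by exact_mod_cast hl) hn, hg0, rfl,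
      fun a ha => hstep a (by omega), fun a ha => hht a (by omega)⟩
    refine Gam.mono ?_ (Gam.mul_mem h1 (hz _ hb))
    have h2 : ((Cd * (2 * M + 1 + 1) : ℕ) : ℝ) + 1 ≤ (Cd + 1) * K * E := by
      rw [Nat.cast_mul]
      have h3 : (0 : ℝ) ≤ Cd := by positivity
      have h4 : 1 ≤ K * E := one_le_mul_of_one_le_of_one_le hK1 hE1
      nlinarith
    have h3 : Real.log (((Cd * (2 * M + 1 + 1) : ℕ) : ℝ) + 1) ≤ (Cd + 1) * K + 2 * Cw * R := by
      refine (Real.log_le_log (by positivity) h2).trans ?_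
      rw [Real.log_mul (by positivity) (by positivity), hE, Real.log_exp]
      have := Real.log_le_sub_one_of_pos (x := (Cd + 1) * K) (by positivity)
      linarith
    have h4 : (2 * Cw + 1) * R ≤ C * R :=
      mul_le_mul_of_nonneg_right (by rw [hC]; nlinarith) hR
    have h5 : (Cd + 1) * K + Cz + 1 ≤ C := by rw [hC]; nlinarith
    rw [hR']
    nlinarith
  have htel : ∀ l ≤ n, g l * y l * (g l)⁻¹ * (y 0)⁻¹ ∈ CP (W.Gam R') T' (l * k) := by
    intro l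
    induction l with
    | zero =>
      intro _
      rw [hg0, one_mul, inv_one, mul_one, mul_inv_cancel]
      exact Ball.one_mem _ _
    | succ l ih =>
      intro hl
      obtain ⟨s, hs⟩ : ∃ s, s = (g l)⁻¹ * g (l + 1) := ⟨_, rfl⟩
      have hs1 : s ∈ Ball (W.S : Set P) 1 := hs ▸ hstep l (by omega)
      obtain ⟨a1, a2⟩ := hy (l + 1) hl
      obtain ⟨b1, b2⟩ := hy l (by omega)
      have h1 : s * y (l + 1) * s⁻¹ ∈ Ball (U' : Set P) M := by
        have := Set.mem_image_of_mem (MulAut.conj s).toMonoidHom a1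
        rw [Ball.image] at this
        refine Ball.mono ?_ le_rfl this
        rintro _ ⟨u, hu, rfl⟩
        exact hSU' s hs1 u hu
      have h2 : s * y (l + 1) * s⁻¹ * (y l)⁻¹ ∈ Ball (U' : Set P) (2 * M + 1) :=
        Ball.mono subset_rfl (by omega)
          (Ball.mul_mem h1 (Ball.mono hUU' le_rfl (Ball.inv_mem b1)))
      have h3 : s * y (l + 1) * s⁻¹ * (y l)⁻¹ ∈ W.Q (i + 1) := by
        refine h14_mem_normal a2 ?_
        convert b2 using 2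
        rw [hs]; group
      have h4 := CP.mul_mem (hfill l (by omega) _ h2 h3) (ih (by omega))
      rw [Nat.succ_mul, add_comm]
      convert h4 using 1
      rw [hs]; group
  obtain ⟨a1, a2⟩ := hy n le_rfl
  have h1 : t * (y n)⁻¹ ∈ Ball (U' : Set P) (2 * M + 1) :=
    Ball.mono subset_rfl (by omega)
      (Ball.mul_mem (Ball.mem_of_mem (hTU' ht)) (Ball.mono hUU' le_rfl (Ball.inv_mem a1)))
  have h2 : t * (y n)⁻¹ ∈ W.Q (i + 1) := by
    rw [hgn] at a2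
    have := hN.conj_mem _ a2 (y n)
    convert this using 1
    group
  have h3 := CP.mul_mem (hfill n le_rfl _ h1 h2) (htel n le_rfl)
  refine ⟨y 0, Ball.mono subset_rfl (Nat.le_floor ?_) (hy 0 (Nat.zero_le _)).1, ?_⟩
  · refine le_trans ?_ (h14_exp (K := K) (c := 2 * Cw) (by rw [hC]; nlinarith)
      (by rw [hC]; nlinarith) hR)
    rw [← hE]
    refine le_trans ?_ hMK
    exact_mod_cast (by omega : M ≤ 2 * M + 1 + 1)
  · rw [← hR']
    refine CP.mono subset_rfl subset_rfl (Nat.le_floor ?_) (by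
      convert h3 using 1
      rw [hgn]; group)
    rw [hR']
    refine le_trans ?_ (h14_exp (K := 2 * (Cd + 1) * K ^ 3) (c := 6 * Cw + 1)
      (by rw [hC]; nlinarith) (by rw [hC]; nlinarith) hR)
    have e : Real.exp ((6 * Cw + 1) * R) = Real.exp R * E ^ 3 := by
      rw [hE, ← Real.exp_nat_mul, ← Real.exp_add]
      congr 1
      push_cast; ring
    have h4 : 1 ≤ Real.exp R := Real.one_le_exp hR
    have h5 : (k : ℝ) ≤ (Cd + 1) * (K * E) ^ 3 := by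
      rw [hk, Nat.cast_mul, Nat.cast_pow]
      gcongr
      linarith
    have h6 : (0 : ℝ) ≤ k := by positivity
    rw [e]
    calc ((k + n * k : ℕ) : ℝ) = (1 + n) * k := by push_cast; ring
      _ ≤ (2 * Real.exp R) * ((Cd + 1) * (K * E) ^ 3) := by
          gcongr
          linarith
      _ = _ := by ring

theorem h95_cp_mem {G : Type*} [Group G] (K : Subgroup G) [hK : K.Normal] {A T : Set G} {n : ℕ}
    (hT : ∀ t ∈ T, t ∈ K) {x : G} (hx : x ∈ CP A T n) : x ∈ K := by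
  refine (Subgroup.closure_le K).2 ?_ (Ball.mem_closure hx)
  rintro _ ⟨a, -, t, ht, rfl⟩
  exact hK.conj_mem t (hT t ht) a

theorem h95_collect {G : Type*} [Group G] {A B T T' U : Set G} {N : ℕ}
    (h : ∀ a ∈ A, ∀ t ∈ T, ∃ y ∈ Ball U N, a * t * a⁻¹ * y⁻¹ ∈ CP B T' N) (n : ℕ) :
    ∀ x ∈ CP A T n, ∃ y ∈ Ball U (n * N),
      x * y⁻¹ ∈ CP {g | ∃ z ∈ Ball U (n * N), ∃ b ∈ B, g = z * b} T' (n * N) := by
  induction n with
  | zero =>
    intro x hx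
    unfold CP at hx
    rw [h31_ball_zero, Set.mem_singleton_iff] at hx
    subst hx
    exact ⟨1, Ball.one_mem _ _, by rw [inv_one, mul_one]; exact Ball.one_mem _ _⟩
  | succ n ih =>
    intro x hx
    rcases h31_ball_succ hx with rfl | ⟨s, hs, b, hb, rfl⟩
    · exact ⟨1, Ball.one_mem _ _, by rw [inv_one, mul_one]; exact Ball.one_mem _ _⟩
    obtain ⟨y, hy, hc⟩ := ih b hb
    have hN : N ≤ (n + 1) * N := by rw [Nat.succ_mul]; omega
    have hs' : ∃ y' ∈ Ball U N,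
        s * y'⁻¹ ∈ CP {g | ∃ z ∈ Ball U ((n + 1) * N), ∃ b ∈ B, g = z * b} T' N := by
      rcases hs with ⟨a, ha, t, ht, rfl⟩ | ⟨a, ha, t, ht, e⟩
      · obtain ⟨y0, hy0, hf⟩ := h a ha t ht
        refine ⟨y0, hy0, CP.mono ?_ subset_rfl le_rfl hf⟩
        intro b hb
        exact ⟨1, Ball.one_mem _ _, b, hb, (one_mul b).symm⟩
      · obtain ⟨y0, hy0, hf⟩ := h a ha t ht
        refine ⟨y0⁻¹, Ball.inv_mem hy0, ?_⟩
        have := CP.conj_mem (A' := {g | ∃ z ∈ Ball U ((n + 1) * N), ∃ b ∈ B, g = z * b}) y0⁻¹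
          (fun b hb => ⟨y0⁻¹, Ball.mono subset_rfl hN (Ball.inv_mem hy0), b, hb, rfl⟩)
          (CP.inv_mem hf)
        rw [← e] at this
        convert this using 1
        group
    obtain ⟨y', hy', hf⟩ := hs'
    have e : (n + 1) * N = N + n * N := by ring
    refine ⟨y' * y, by rw [e]; exact Ball.mul_mem hy' hy, ?_⟩
    have h2 := CP.conj_mem (A' := {g | ∃ z ∈ Ball U ((n + 1) * N), ∃ b ∈ B, g = z * b}) y'
      (by
        rintro _ ⟨z, hz, b', hb', rfl⟩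
        exact ⟨y' * z, by rw [e]; exact Ball.mul_mem hy' hz, b', hb', (mul_assoc _ _ _).symm⟩) hc
    have h3 := CP.mul_mem hf h2
    rw [← e] at h3
    convert h3 using 1
    group

/-- `x = ∏ f l * y l` (or the inverse of such a factor) `= (∏ conjugates of the f l) * ∏ y l`, and
`∏ y l ∈ Q (i+1) ∩ Ball U (e^{CR})`: `dehn_ab`, `exists_ball_zero`. -/
theorem fil_succ {i : ℕ} (h : W.Fil i) : W.Fil (i + 1) := by
  classical
  obtain ⟨T, C0, hC0, hT, h⟩ := h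
  obtain ⟨U, T', C1, hC1, hU, hT', hlift⟩ := W.conj_lift i T hT
  obtain ⟨C2, hC2, hball⟩ := W.exists_ball_zero U fun u hu => W.Q_le (Nat.zero_le i) (hU u hu)
  have := W.normal (i + 1)
  obtain ⟨T'', C3, hT'', hdehn⟩ := dehn_ab (W.Q (i + 1)) U
    fun u hu u' hu' => W.comm i u (hU u hu) u' (hU u' hu')
  have hC3 : (0 : ℝ) ≤ C3 := Nat.cast_nonneg _
  refine ⟨T' ∪ T'', 3 * (C0 + C1 * (C0 + 1)) + C2 + C3 + 3, by nlinarith, ?_, ?_⟩
  · intro t ht
    rcases Finset.mem_union.1 ht with ht | ht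
    · exact hT' t ht
    · exact hT'' t ht
  intro R x hx hxQ
  have hR : 0 ≤ R := Gam.nonneg hx
  set R1 : ℝ := C0 * (R + 1) with hR1
  set R2 : ℝ := C1 * (R1 + 1) with hR2
  set N0 : ℕ := ⌊Real.exp R1⌋₊ with hN0
  set N : ℕ := ⌊Real.exp R2⌋₊ with hN
  have hR10 : 0 ≤ R1 := by positivity
  have hR20 : 0 ≤ R2 := by positivity
  obtain ⟨y, hy, hc⟩ := h95_collect (hlift R1) N0 x (h R x hx (W.anti i hxQ))
  have hcQ : x * y⁻¹ ∈ W.Q (i + 1) := h95_cp_mem _ (fun t ht => hT' t ht) hc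
  have hyQ : y ∈ W.Q (i + 1) := by
    have := (W.Q (i + 1)).mul_mem ((W.Q (i + 1)).inv_mem hcQ) hxQ
    convert this using 1
    group
  have hy2 := hdehn (N0 * N) y hy hyQ
  set M : ℕ := N0 * N with hM
  set E : ℝ := R1 + R2 with hE
  have hE0 : 0 ≤ E := by positivity
  have hME : (M : ℝ) ≤ Real.exp E := by
    rw [hM, hE, Real.exp_add, Nat.cast_mul]
    exact mul_le_mul (Nat.floor_le (Real.exp_pos _).le) (Nat.floor_le (Real.exp_pos _).le)
      (Nat.cast_nonneg _) (Real.exp_pos _).le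
  have hM1 : (M : ℝ) + 1 ≤ Real.exp (E + 1) := by
    have h1 : 1 ≤ Real.exp E := Real.one_le_exp hE0
    have h2 : 1 + 1 ≤ Real.exp 1 := Real.add_one_le_exp 1
    rw [Real.exp_add]
    nlinarith
  have hM0 : (0 : ℝ) ≤ M := Nat.cast_nonneg _
  have hC3e : (C3 : ℝ) + 1 ≤ Real.exp C3 := Real.add_one_le_exp _
  set R' : ℝ := (3 * (C0 + C1 * (C0 + 1)) + C2 + C3 + 3) * (R + 1) with hR'
  have hbig : 3 * E + C2 + C3 + 3 ≤ R' := by
    have h1 : R2 ≤ C1 * (C0 + 1) * (R + 1) := by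
      rw [hR2, hR1, mul_assoc]
      exact mul_le_mul_of_nonneg_left (by nlinarith) (by linarith)
    have h2 : (C2 + C3 + 3 : ℝ) ≤ (C2 + C3 + 3) * (R + 1) :=
      le_mul_of_one_le_right (by positivity) (by linarith)
    have h3 : R' = 3 * (C0 * (R + 1) + C1 * (C0 + 1) * (R + 1)) + (C2 + C3 + 3) * (R + 1) := by
      rw [hR']; ring
    rw [h3, hE, hR1]
    linarith
  have hlog1 : Real.log (M + 1) ≤ E + 1 := by
    rw [Real.log_le_iff_le_exp (by positivity)]; exact hM1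
  have hlog2 : Real.log ((C3 * (M + 1) : ℕ) + 1) ≤ C3 + (E + 1) := by
    rw [Real.log_le_iff_le_exp (by positivity), Real.exp_add]
    push_cast
    calc (C3 : ℝ) * (M + 1) + 1 ≤ (C3 + 1) * (M + 1) := by nlinarith
      _ ≤ _ := mul_le_mul hC3e hM1 (by positivity) (Real.exp_pos _).le
  have hcnt : M + C3 * (M + 1) ^ 3 ≤ ⌊Real.exp R'⌋₊ := by
    refine Nat.le_floor ?_
    push_cast
    have h1 : (M : ℝ) ≤ (M + 1) ^ 3 := by nlinarith [sq_nonneg (M : ℝ), mul_nonneg hM0 (sq_nonneg (M : ℝ))]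
    have h2 : ((M : ℝ) + 1) ^ 3 ≤ Real.exp (E + 1) ^ 3 := pow_le_pow_left₀ (by positivity) hM1 3
    calc (M : ℝ) + C3 * (M + 1) ^ 3 ≤ (C3 + 1) * (M + 1) ^ 3 := by linarith
      _ ≤ Real.exp C3 * Real.exp (E + 1) ^ 3 :=
          mul_le_mul hC3e h2 (by positivity) (Real.exp_pos _).le
      _ = Real.exp (C3 + 3 * (E + 1)) := by
          rw [Real.exp_add C3, ← Real.exp_nat_mul]; norm_num
      _ ≤ Real.exp R' := Real.exp_le_exp.2 (by linarith)
  have hc' : x * y⁻¹ ∈ CP (W.Gam R') ((T' ∪ T'' : Finset P) : Set P) M := by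
    refine CP.mono ?_ (Finset.coe_subset.2 Finset.subset_union_left) le_rfl hc
    rintro _ ⟨z, hz, b, hb, rfl⟩
    refine Gam.mono ?_ (Gam.mul_mem (hball M hz) hb)
    linarith
  have hy' : y ∈ CP (W.Gam R') ((T' ∪ T'' : Finset P) : Set P) (C3 * (M + 1) ^ 3) := by
    refine CP.mono ?_ (Finset.coe_subset.2 Finset.subset_union_right) le_rfl hy2
    refine (hball _).trans (Gam.mono ?_)
    linarith
  have := CP.mul_mem hc' hy'
  rw [inv_mul_cancel_right] at this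
  exact CP.mono subset_rfl subset_rfl hcnt this

theorem fil (i : ℕ) : W.Fil i := by
  induction i with
  | zero => exact W.fil_zero
  | succ i ih => exact W.fil_succ ih

/-- **coordinates of small elements** -/
theorem ι_le (i : ℕ) : ∃ C : ℝ, 1 ≤ C ∧ ∀ (R : ℝ), ∀ x ∈ W.Gam R, x ∈ W.Q i →
    ‖W.ι i x‖ ≤ Real.exp (C * (R + 1)) := by
  obtain ⟨T, C, hC, hT, hfil⟩ := W.fil i
  obtain ⟨D, hD, hcp⟩ := W.ι_le_of_cp i T hT
  refine ⟨C + D * (C + 1), by nlinarith, fun R x hx hxi => ?_⟩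
  have hR : 0 ≤ R := Gam.nonneg hx
  have h0 : 0 ≤ C * (R + 1) := by positivity
  refine (hcp _ _ h0 x (hfil R x hx hxi)).2.trans ?_
  calc (⌊Real.exp (C * (R + 1))⌋₊ : ℝ) * Real.exp (D * (C * (R + 1) + 1))
      ≤ Real.exp (C * (R + 1)) * Real.exp (D * (C * (R + 1) + 1)) := by
        gcongr
        exact Nat.floor_le (Real.exp_pos _).le
    _ ≤ _ := by
        rw [← Real.exp_add]
        refine Real.exp_le_exp.2 ?_
        nlinarith

end Tower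

end Crest.Agent.R182
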