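import Crest.Agent.R182.SGam

/-! Row 182, block S: fellow travelling and counting of chains (upper bounds). -/

set_option autoImplicit false
set_option linter.dupNamespace false

namespace Crest.Agent.R182

namespace Tower

variable {P : Type*} [Group P] {W : Tower P}

theorem GamQ.mono {i : ℕ} {R R' : ℝ} (h : R ≤ R') : W.GamQ i R ⊆ W.GamQ i R' := by
  rintro x ⟨y, hy, hx⟩
  exact ⟨y, Gam.mono h hy, hx⟩

theorem GamQ.anti {i i' : ℕ} {R : ℝ} (h : i ≤ i') : W.GamQ i' R ⊆ W.GamQ i R := by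
  rintro x ⟨y, hy, hx⟩
  exact ⟨y, hy, W.Q_le h hx⟩

theorem GamQ.of_gam (i : ℕ) {R : ℝ} {x : P} (hx : x ∈ W.Gam R) : x ∈ W.GamQ i R := by
  exact ⟨x, hx, by rw [inv_mul_cancel]; exact (W.Q i).one_mem⟩

theorem GamQ.of_Q {i : ℕ} {R : ℝ} {x : P} (hR : 0 ≤ R) (hx : x ∈ W.Q i) : x ∈ W.GamQ i R := by
  exact ⟨1, Gam.one_mem hR, by rwa [inv_one, one_mul]⟩

theorem GamQ.mul_mem {i : ℕ} {R R' : ℝ} {x y : P} (hx : x ∈ W.GamQ i R) (hy : y ∈ W.GamQ i R') :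
    x * y ∈ W.GamQ i (R + R' + 1) := by
  obtain ⟨a, ha, hx⟩ := hx
  obtain ⟨b, hb, hy⟩ := hy
  refine ⟨a * b, Gam.mul_mem ha hb, ?_⟩
  have e : (a * b)⁻¹ * (x * y) = b⁻¹ * (a⁻¹ * x) * b * (b⁻¹ * y) := by group
  rw [e]
  exact (W.Q i).mul_mem ((W.normal i).conj_mem' _ hx b) hy

theorem GamQ.inv_mem {i : ℕ} {R : ℝ} {x : P} (hx : x ∈ W.GamQ i R) : x⁻¹ ∈ W.GamQ i (2 * R) := by
  obtain ⟨a, ha, hx⟩ := hx
  refine ⟨a⁻¹, Gam.inv_mem ha, ?_⟩
  have e : a⁻¹⁻¹ * x⁻¹ = a * (a⁻¹ * x)⁻¹ * a⁻¹ := by group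
  rw [e]
  exact (W.normal i).conj_mem _ ((W.Q i).inv_mem hx) a

theorem GamQ.top {R : ℝ} : W.GamQ W.r R = W.Gam R := by
  refine Set.Subset.antisymm ?_ fun x hx => GamQ.of_gam _ hx
  rintro x ⟨y, hy, hx⟩
  rw [W.bot, Subgroup.mem_bot, inv_mul_eq_one] at hx
  exact hx ▸ hy

variable (W)

/-- `lift_top` -/
theorem gamQ_zero : ∃ C : ℝ, 1 ≤ C ∧ ∀ x : P, x ∈ W.GamQ 0 (C * (‖W.ht x‖ + 1)) := by
  obtain ⟨C, hC, h⟩ := W.lift_top
  refine ⟨C, hC, fun x => ?_⟩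
  obtain ⟨y, hy, e⟩ := h x
  exact ⟨y, hy, (W.mem_zero _).2 (by rw [W.ht_inv_mul, e, sub_self])⟩

/-- `lift` -/
theorem gamQ_succ (i : ℕ) : ∃ C : ℝ, 0 ≤ C ∧ ∀ (R R' : ℝ) (y q : P), 0 ≤ R' → y ∈ W.Gam R →
    q ∈ W.Q i → ‖W.ι i q‖ ≤ Real.exp R' → y * q ∈ W.GamQ (i + 1) (R + R' + C) := by
  obtain ⟨C, hC, h⟩ := W.lift i
  refine ⟨C + 1, by linarith, fun R R' y q hR' hy hq hι => ?_⟩
  obtain ⟨z, -, hz, hzq⟩ := h q hq R' hR' hι
  refine ⟨y * z, Gam.mono (le_of_eq (by ring)) (Gam.mul_mem hy hz), ?_⟩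
  rwa [mul_inv_rev, mul_assoc, inv_mul_cancel_left]

/-! ### covering numbers -/

/-! ### covering numbers -/

/-- `A` meets at most `N` cosets of `Q i` -/
def Cov (i : ℕ) (A : Set P) (N : ℝ) : Prop :=
  ∃ T : Finset P, (T.card : ℝ) ≤ N ∧ ∀ x ∈ A, ∃ t ∈ T, t⁻¹ * x ∈ W.Q i

/-- integer points of a cube (`ht_int`, `mem_zero`) -/
theorem cov_zero {A : Set P} {R : ℝ} (hR : 0 ≤ R) (v : Fin W.k → ℝ)
    (hA : ∀ x ∈ A, ‖W.ht x - v‖ ≤ R) : W.Cov 0 A ((2 * R + 1) ^ W.k) := by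
  classical
  choose σ hσ using W.ht_surj
  refine ⟨(Fintype.piFinset fun a => Finset.Icc ⌈v a - R⌉ ⌊v a + R⌋).image σ, ?_, fun x hx => ?_⟩
  · refine le_trans (Nat.cast_le.2 Finset.card_image_le) ?_
    rw [Fintype.card_piFinset, Nat.cast_prod]
    refine (Finset.prod_le_prod (fun a _ => Nat.cast_nonneg _) (g := fun _ => 2 * R + 1)
      fun a _ => ?_).trans (by simp)
    rw [Int.card_Icc]
    rcases le_total 0 (⌊v a + R⌋ + 1 - ⌈v a - R⌉) with h | h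
    · rw [← Int.cast_natCast, Int.toNat_of_nonneg h]
      push_cast
      linarith [Int.floor_le (v a + R), Int.le_ceil (v a - R)]
    · rw [Int.toNat_eq_zero.2 h, Nat.cast_zero]
      linarith
  · choose z hz using W.ht_int x
    refine ⟨σ z, Finset.mem_image_of_mem σ (Fintype.mem_piFinset.2 fun a => ?_),
      (W.mem_zero _).2 ?_⟩
    · have h1 := (norm_le_pi_norm _ a).trans (hA x hx)
      rw [Pi.sub_apply, Real.norm_eq_abs, abs_le, hz] at h1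
      rw [Finset.mem_Icc, Int.ceil_le, Int.le_floor]
      constructor <;> linarith [h1.1, h1.2]
    · rw [W.ht_inv_mul]
      funext a
      rw [Pi.sub_apply, hσ, hz, sub_self, Pi.zero_apply]

/-- replace each `t` whose coset meets `A` by a point of `A`, then `card_box` -/
theorem cov_succ (i : ℕ) : ∃ C : ℝ, 1 ≤ C ∧ ∀ (A : Set P) (N : ℝ) (B : Fin W.m → ℝ),
    (∀ j, 0 ≤ B j) → W.Cov i A N →
    (∀ x ∈ A, ∀ y ∈ A, y⁻¹ * x ∈ W.Q i → ∀ j, W.lay j = i → |W.ι i (y⁻¹ * x) j| ≤ B j) →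
    W.Cov (i + 1) A (N * (C * ∏ j with W.lay j = i, (1 + B j))) := by
  classical
  obtain ⟨C, hC, h⟩ := W.card_box i
  refine ⟨C, hC, fun A N B hB ⟨T, hT, hc⟩ hA => ?_⟩
  obtain ⟨U, -, hU, hUc⟩ := h B hB
  have hrep : ∀ t : P, ∃ s : P, (∃ x ∈ A, t⁻¹ * x ∈ W.Q i) → s ∈ A ∧ t⁻¹ * s ∈ W.Q i := by
    intro t
    by_cases ht : ∃ x ∈ A, t⁻¹ * x ∈ W.Q i
    · obtain ⟨x, hx⟩ := ht
      exact ⟨x, fun _ => hx⟩
    · exact ⟨1, fun h => (ht h).elim⟩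
  choose s hs using hrep
  refine ⟨(T ×ˢ U).image fun p => s p.1 * p.2, ?_, fun x hx => ?_⟩
  · refine le_trans (Nat.cast_le.2 Finset.card_image_le) ?_
    rw [Finset.card_product, Nat.cast_mul]
    exact mul_le_mul hT hU (Nat.cast_nonneg _) ((Nat.cast_nonneg _).trans hT)
  · obtain ⟨t, ht, htx⟩ := hc x hx
    obtain ⟨h1, h2⟩ := hs t ⟨x, hx, htx⟩
    have h3 : (s t)⁻¹ * x ∈ W.Q i := by
      have e : (s t)⁻¹ * x = (t⁻¹ * s t)⁻¹ * (t⁻¹ * x) := by group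
      rw [e]
      exact (W.Q i).mul_mem ((W.Q i).inv_mem h2) htx
    obtain ⟨u, hu, hux⟩ := hUc _ h3 (hA x hx _ h1 h3)
    refine ⟨s t * u, Finset.mem_image.2 ⟨(t, u), Finset.mem_product.2 ⟨ht, hu⟩, rfl⟩, ?_⟩
    rwa [mul_inv_rev, mul_assoc]

theorem cov_top {A : Set P} {N : ℝ} (h : W.Cov W.r A N) : A.Finite ∧ (A.ncard : ℝ) ≤ N := by
  obtain ⟨T, hT, hc⟩ := h
  have hs : A ⊆ T := fun x hx => by
    obtain ⟨t, ht, htx⟩ := hc x hx
    rw [W.bot, Subgroup.mem_bot, inv_mul_eq_one] at htx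
    exact htx ▸ ht
  refine ⟨T.finite_toSet.subset hs, le_trans ?_ hT⟩
  exact_mod_cast (Set.ncard_le_ncard hs T.finite_toSet).trans_eq (Set.ncard_coe_finset T)

private theorem h50_cov_mono {i : ℕ} {A : Set P} {N N' : ℝ} (h : W.Cov i A N) (hN : N ≤ N') :
    W.Cov i A N' :=
  let ⟨T, h1, h2⟩ := h; ⟨T, h1.trans hN, h2⟩

private theorem h50_one_add_exp {E : ℝ} (hE : 0 ≤ E) : 1 + Real.exp E ≤ Real.exp (E + 1) := by
  have h1 := Real.add_one_le_exp E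
  have h2 := Real.add_one_le_exp 1
  rw [Real.exp_add]
  nlinarith [Real.exp_pos E]

private theorem h50_pow_le {R Λ : ℝ} (hR : 0 ≤ R) (hΛ : R ≤ Λ) (k : ℕ) :
    (2 * R + 1) ^ k ≤ Real.exp ((2 * k + 1) * Λ) := by
  refine (pow_le_pow_left₀ (by positivity) (Real.add_one_le_exp (2 * R)) k).trans ?_
  rw [← Real.exp_nat_mul, Real.exp_le_exp]
  have hk : (0 : ℝ) ≤ k := Nat.cast_nonneg k
  nlinarith [mul_le_mul_of_nonneg_left hΛ hk]

/-- one layer: boxes with sides `exp (D j + E)` -/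
private theorem h50_step {m : ℕ} (F : Finset (Fin m)) (D : Fin m → ℝ) (hD : ∀ j, 0 ≤ D j)
    {X C C₁ C₂ Λ : ℝ} (hC₁ : 0 ≤ C₁) (hC₂ : 0 ≤ C₂) (hΛ : 1 ≤ Λ) :
    Real.exp (X + C * Λ) * (C₂ * ∏ j ∈ F, (1 + Real.exp (D j + C₁ * Λ))) ≤
      Real.exp (X + ∑ j ∈ F, D j + (C + C₂ + m * (C₁ + 1)) * Λ) := by
  have hE : 0 ≤ C₁ * Λ := mul_nonneg hC₁ (by linarith)
  have h1 : ∏ j ∈ F, (1 + Real.exp (D j + C₁ * Λ)) ≤ ∏ j ∈ F, Real.exp (D j + C₁ * Λ + 1) :=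
    Finset.prod_le_prod (fun j _ => by positivity)
      fun j _ => h50_one_add_exp (add_nonneg (hD j) hE)
  have h2 : C₂ ≤ Real.exp C₂ := by linarith [Real.add_one_le_exp C₂]
  have h3 : (F.card : ℝ) ≤ m := by exact_mod_cast (Finset.card_le_univ F).trans_eq (by simp)
  rw [← Real.exp_sum] at h1
  refine (mul_le_mul_of_nonneg_left (mul_le_mul h2 h1
    (Finset.prod_nonneg fun j _ => by positivity) (Real.exp_pos _).le) (Real.exp_pos _).le).trans ?_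
  rw [← Real.exp_add, ← Real.exp_add, Real.exp_le_exp]
  simp only [add_assoc, Finset.sum_add_distrib, Finset.sum_const, nsmul_eq_mul]
  have hm : (0 : ℝ) ≤ m := Nat.cast_nonneg m
  have h4 := mul_le_mul_of_nonneg_right h3 hE
  have h5 := mul_le_mul_of_nonneg_left hΛ hm
  have h6 := mul_le_mul_of_nonneg_left hΛ hC₂
  nlinarith

private theorem h50_cov_gam (i : ℕ) : ∃ C : ℝ, 1 ≤ C ∧ ∀ R : ℝ, 0 ≤ R →
    W.Cov i (W.Gam R) (Real.exp (C * (R + 1))) := by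
  induction i with
  | zero =>
    refine ⟨2 * W.k + 1, by linarith [Nat.cast_nonneg (α := ℝ) W.k], fun R hR => ?_⟩
    exact h50_cov_mono W (W.cov_zero hR 0 fun x hx => by rw [sub_zero]; exact Gam.ht_le hx)
      (h50_pow_le hR (by linarith) _)
  | succ i ih =>
    obtain ⟨C, hC, H⟩ := ih
    obtain ⟨C₁, hC₁, H₁⟩ := W.ι_le i
    obtain ⟨C₂, hC₂, H₂⟩ := W.cov_succ i
    have hm : (0 : ℝ) ≤ W.m := Nat.cast_nonneg _
    refine ⟨C + C₂ + W.m * (3 * C₁ + 1), by nlinarith, fun R hR => ?_⟩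
    have h1 := H₂ (W.Gam R) _ (fun _ => Real.exp (0 + 3 * C₁ * (R + 1)))
      (fun _ => (Real.exp_pos _).le) (H R hR) (fun x hx y hy hQ j _ => by
        refine ((norm_le_pi_norm _ j).trans
          (H₁ _ _ (Gam.mul_mem (Gam.inv_mem hy) hx) hQ)).trans (Real.exp_le_exp.2 ?_)
        nlinarith)
    refine h50_cov_mono W h1 ?_
    have h2 := h50_step (Finset.univ.filter fun j => W.lay j = i) (fun _ => 0) (fun _ => le_rfl)
      (X := 0) (C := C) (C₁ := 3 * C₁) (C₂ := C₂) (Λ := R + 1) (by linarith) (by linarith)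
      (by linarith)
    simpa only [zero_add, Finset.sum_const_zero] using h2

/-- **size of `Gam`**: induction `Cov i (Gam R) (exp (C (R + 1)))` with `ι_le` -/
theorem card_gam : ∃ C : ℝ, 1 ≤ C ∧ ∀ R : ℝ, ((W.Gam R).ncard : ℝ) ≤ Real.exp (C * (|R| + 1)) := by
  obtain ⟨C, hC, H⟩ := h50_cov_gam W W.r
  refine ⟨C, hC, fun R => ?_⟩
  rcases le_or_gt 0 R with hR | hR
  · rw [abs_of_nonneg hR]
    exact (W.cov_top (H R hR)).2
  · have : W.Gam R = ∅ := Set.eq_empty_of_forall_notMem fun x hx => (Gam.nonneg hx).not_gt hR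
    rw [this, Set.ncard_empty, Nat.cast_zero]
    exact (Real.exp_pos _).le

/-! ### pseudo-orbits -/

private theorem h88_tele (w : ℕ → ℝ) (K : ℝ) {m n : ℕ} (hmn : m ≤ n)
    (h : ∀ b, m ≤ b → b < n → |w (b + 1) - w b| ≤ K) : |w n - w m| ≤ ((n : ℝ) - m) * K := by
  induction n, hmn using Nat.le_induction with
  | base => simp
  | succ n hn ih =>
    have h1 := ih fun b hb hb' => h b hb (by omega)
    have h2 := h n hn (by omega)
    have h3 := abs_sub_le (w (n + 1)) (w n) (w m)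
    push_cast
    linarith

/-- `e b = (y (b+1))⁻¹ * ((g b)⁻¹ * g (b+1))⁻¹ * y b * ((g' b)⁻¹ * g' (b+1))` lies in
`Gam (C (R+1)) ∩ Q i` and `q (b+1) = e b * ((g' b)⁻¹ * g' (b+1))⁻¹ * q b * ((g' b)⁻¹ * g' (b+1))`, so
`z b = ρ (g' b) (ι (q b))` has increments `ρ (g' (b+1)) (ι (e b))`; apply `ρ (g' a)⁻¹` to the
telescoping sum between `a` and `c`; `ι_le`, `ρ_le_norm`. -/
theorem coord_bound (i : ℕ) : ∃ C : ℝ, 1 ≤ C ∧ ∀ (R D : ℝ) (L : ℕ) (g g' y q : ℕ → P), 0 ≤ R →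
    W.Chain R L g → W.Chain R L g' →
    (∀ b ≤ L, y b ∈ W.Gam R ∧ q b ∈ W.Q i ∧ (g b)⁻¹ * g' b = y b * q b) →
    ∀ a ≤ L, ∀ c ≤ L, ∀ j, (∀ b, min a c ≤ b → b ≤ max a c →
        W.wt j (W.ht (g' b)) ≤ W.wt j (W.ht (g' a)) + D) →
      |W.ι i (q a) j - W.ρ ((g' a)⁻¹ * g' c) (W.ι i (q c)) j| ≤
        L * Real.exp (D + C * (R + 1)) := by
  obtain ⟨C0, hC0, hι⟩ := W.ι_le i
  have hWC := W.one_le_C
  refine ⟨6 * C0 + W.C, by linarith, fun R D L g g' y q hR hg hg' hyq a ha c hc j hD => ?_⟩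
  obtain ⟨w, hw⟩ : ∃ w : ℕ → ℝ, ∀ b, w b = W.ρ ((g' a)⁻¹ * g' b) (W.ι i (q b)) j :=
    ⟨_, fun _ => rfl⟩
  obtain ⟨K, hK⟩ : ∃ K : ℝ, K = Real.exp (D + (6 * C0 + W.C) * (R + 1)) := ⟨_, rfl⟩
  have hK0 : 0 ≤ K := by rw [hK]; positivity
  have step : ∀ b, min a c ≤ b → b < max a c → |w (b + 1) - w b| ≤ K := by
    intro b hb hb'
    have hbL : b < L := lt_of_lt_of_le hb' (max_le ha hc)
    obtain ⟨hy0, hq0, e0⟩ := hyq b hbL.le
    obtain ⟨hy1, hq1, e1⟩ := hyq (b + 1) hbL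
    have hs := hg b hbL
    have hs' := hg' b hbL
    obtain ⟨s', hs'e⟩ : ∃ s', s' = (g' b)⁻¹ * g' (b + 1) := ⟨_, rfl⟩
    obtain ⟨e, he⟩ : ∃ e, e = (y (b + 1))⁻¹ * ((g b)⁻¹ * g (b + 1))⁻¹ * y b * s' := ⟨_, rfl⟩
    have hqc : s'⁻¹ * q b * s'⁻¹⁻¹ ∈ W.Q i := (W.normal i).conj_mem _ hq0 _
    have hqe : q (b + 1) = e * (s'⁻¹ * q b * s'⁻¹⁻¹) := by
      have e2 : q (b + 1) = (y (b + 1))⁻¹ * ((g (b + 1))⁻¹ * g' (b + 1)) := by
        rw [e1, inv_mul_cancel_left]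
      have e3 : q b = (y b)⁻¹ * ((g b)⁻¹ * g' b) := by rw [e0, inv_mul_cancel_left]
      rw [e2, e3, he, hs'e]
      group
    have heQ : e ∈ W.Q i := by
      have : e = q (b + 1) * (s'⁻¹ * q b * s'⁻¹⁻¹)⁻¹ := by rw [hqe, mul_inv_cancel_right]
      rw [this]
      exact (W.Q i).mul_mem hq1 ((W.Q i).inv_mem hqc)
    have heG : e ∈ W.Gam (2 * R + 2 * R + 1 + R + 1 + R + 1) := by
      rw [he, hs'e]
      exact Gam.mul_mem (Gam.mul_mem (Gam.mul_mem (Gam.inv_mem hy1) (Gam.inv_mem hs)) hy0) hs'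
    have hιe := hι _ e heG heQ
    have hinc : w (b + 1) - w b = W.ρ ((g' a)⁻¹ * g' (b + 1)) (W.ι i e) j := by
      have e4 : (g' a)⁻¹ * g' b = (g' a)⁻¹ * g' (b + 1) * s'⁻¹ := by
        rw [hs'e]
        group
      rw [hw, hw, hqe, W.ι_mul i e heQ _ hqc, W.ι_conj i _ hq0, map_add, e4, map_mul W.ρ _ s'⁻¹,
        Module.End.mul_apply, Pi.add_apply, add_sub_cancel_right]
    have h1 := W.ρ_le_norm ((g' a)⁻¹ * g' (b + 1)) (W.ι i e) j
    have h2 : W.wt j (W.ht ((g' a)⁻¹ * g' (b + 1))) ≤ D := by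
      rw [W.ht_inv_mul, map_sub]
      linarith [hD (b + 1) (by omega) hb']
    have h3 : W.C ≤ Real.exp (W.C * (R + 1)) := h74_le_exp (by linarith) hR
    have h4 : ‖W.ι i e‖ ≤ Real.exp (6 * C0 * (R + 1)) :=
      hιe.trans (Real.exp_le_exp.2 (by nlinarith))
    rw [hinc]
    refine h1.trans ?_
    calc W.C * Real.exp (W.wt j (W.ht ((g' a)⁻¹ * g' (b + 1)))) * ‖W.ι i e‖
        ≤ Real.exp (W.C * (R + 1)) * Real.exp D * Real.exp (6 * C0 * (R + 1)) := by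
          gcongr
      _ = K := by
          rw [hK, ← Real.exp_add, ← Real.exp_add]
          congr 1
          ring
  have hwa : w a = W.ι i (q a) j := by rw [hw, inv_mul_cancel, map_one, Module.End.one_apply]
  have ht := h88_tele w K (min_le_max (a := a) (b := c)) step
  have hlen : ((max a c : ℕ) : ℝ) - (min a c : ℕ) ≤ L := by
    have h1 : ((max a c : ℕ) : ℝ) ≤ L := by exact_mod_cast max_le ha hc
    have h2 : (0 : ℝ) ≤ (min a c : ℕ) := Nat.cast_nonneg _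
    linarith
  rw [← hwa, ← hw c, ← hK]
  refine le_trans ?_ (ht.trans (mul_le_mul_of_nonneg_right hlen hK0))
  rcases le_total a c with h | h
  · rw [min_eq_left h, max_eq_right h, abs_sub_comm]
  · rw [min_eq_right h, max_eq_left h]

private theorem h40_wt {K R D : ℝ} {L : ℕ} {g : ℕ → P} {v : ℕ → Fin W.k → ℝ} {j : Fin W.m}
    (hK : 1 ≤ K) (hwt : ∀ j v, |W.wt j v| ≤ K * ‖v‖) (ht : W.Trk R L g v) {a b : ℕ} (ha : a ≤ L)
    (hb : b ≤ L) (h : W.wt j (v b) ≤ W.wt j (v a) + D) :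
    W.wt j (W.ht (g b)) ≤ W.wt j (W.ht (g a)) + (D + 2 * K * R) := by
  have h1 := (abs_le.1 ((hwt j (W.ht (g a) - v a)).trans
    (mul_le_mul_of_nonneg_left (ht a ha) (by linarith)))).1
  have h2 := (abs_le.1 ((hwt j (W.ht (g b) - v b)).trans
    (mul_le_mul_of_nonneg_left (ht b hb) (by linarith)))).2
  rw [map_sub] at h1 h2
  linarith

private theorem h40_mul_exp (L : ℕ) (x : ℝ) :
    L * Real.exp x ≤ Real.exp (Real.log (L + 1) + x) := by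
  rw [Real.exp_add, Real.exp_log (by positivity)]
  gcongr
  linarith

/-- **fellow travelling**: induction on `i`; `gamQ_zero`; `coord_bound` with `c = 0` or `c = L`
(the end coordinates `ι (q 0)`, `ι (q L)` are bounded by `ι_congr`, `ι_le`), `gamQ_succ`. -/
theorem fellow (i : ℕ) : ∃ C : ℝ, 1 ≤ C ∧
    ∀ (R : ℝ) (L : ℕ) (g g' : ℕ → P) (v : ℕ → Fin W.k → ℝ), 0 ≤ R →
      W.Chain R L g → W.Chain R L g' → W.Trk R L g v → W.Trk R L g' v →
      (∀ j, W.lay j < i → W.NoVal R L v j) →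
      (g 0)⁻¹ * g' 0 ∈ W.GamQ i R → (g L)⁻¹ * g' L ∈ W.GamQ i R →
      ∀ a ≤ L, (g a)⁻¹ * g' a ∈ W.GamQ i (C * (R + Real.log (L + 1) + 1)) := by
  induction i with
  | zero =>
    obtain ⟨C, hC, h⟩ := W.gamQ_zero
    refine ⟨2 * C, by linarith, fun R L g g' v hR _ _ ht ht' _ _ _ a ha => GamQ.mono ?_ (h _)⟩
    have hl : 0 ≤ Real.log (L + 1) := Real.log_nonneg (by linarith [Nat.cast_nonneg (α := ℝ) L])
    have h1 : ‖W.ht ((g a)⁻¹ * g' a)‖ ≤ 2 * R := by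
      rw [W.ht_inv_mul, ← sub_sub_sub_cancel_right _ _ (v a)]
      linarith [norm_sub_le (W.ht (g' a) - v a) (W.ht (g a) - v a), ht a ha, ht' a ha]
    nlinarith
  | succ i ih =>
    obtain ⟨C₀, hC₀, h₀⟩ := ih
    obtain ⟨C₁, hC₁, h₁⟩ := W.coord_bound i
    obtain ⟨C₂, hC₂, h₂⟩ := W.gamQ_succ i
    obtain ⟨K, hK, hwt⟩ := W.exists_wt_le
    refine ⟨C₀ + 1 + 2 * K + C₁ * C₀ + C₁ + C₂, by nlinarith,
      fun R L g g' v hR hg hg' ht ht' hv e0 eL a ha => ?_⟩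
    have hl : 0 ≤ Real.log (L + 1) := Real.log_nonneg (by linarith [Nat.cast_nonneg (α := ℝ) L])
    obtain ⟨T, hT⟩ : ∃ T, T = R + Real.log (L + 1) + 1 := ⟨_, rfl⟩
    have hT1 : 1 ≤ T := by linarith
    have hRT : R ≤ C₀ * T := by nlinarith
    have hf := h₀ R L g g' v hR hg hg' ht ht' (fun j hj => hv j (Nat.lt_succ_of_lt hj))
      (GamQ.anti (Nat.le_succ i) e0) (GamQ.anti (Nat.le_succ i) eL)
    rw [← hT] at hf ⊢
    have hy : ∀ b, ∃ y : P, b ≤ L → y ∈ W.Gam (C₀ * T) ∧ y⁻¹ * ((g b)⁻¹ * g' b) ∈ W.Q i ∧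
        (b = 0 ∨ b = L → y⁻¹ * ((g b)⁻¹ * g' b) ∈ W.Q (i + 1)) := by
      intro b
      by_cases hb : b = 0 ∨ b = L
      · obtain ⟨y, hy1, hy2⟩ : (g b)⁻¹ * g' b ∈ W.GamQ (i + 1) R := by
          rcases hb with rfl | rfl
          · exact e0
          · exact eL
        exact ⟨y, fun _ => ⟨Gam.mono hRT hy1, W.anti i hy2, fun _ => hy2⟩⟩
      · by_cases hbL : b ≤ L
        · obtain ⟨y, hy1, hy2⟩ := hf b hbL
          exact ⟨y, fun _ => ⟨hy1, hy2, fun h => absurd h hb⟩⟩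
        · exact ⟨1, fun h => absurd h hbL⟩
    choose y hy using hy
    have hc := h₁ (C₀ * T) (R + 2 * K * R) L g g' y (fun b => (y b)⁻¹ * ((g b)⁻¹ * g' b))
      (hR.trans hRT) (hg.mono hRT) (hg'.mono hRT)
      (fun b hb => ⟨(hy b hb).1, (hy b hb).2.1, (mul_inv_cancel_left _ _).symm⟩) a ha
    have hq : ‖W.ι i ((y a)⁻¹ * ((g a)⁻¹ * g' a))‖ ≤
        Real.exp (Real.log (L + 1) + (R + 2 * K * R + C₁ * (C₀ * T + 1))) := by
      refine (pi_norm_le_iff_of_nonneg (Real.exp_pos _).le).2 fun j => ?_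
      rw [Real.norm_eq_abs]
      by_cases hj : W.lay j = i
      · refine le_trans ?_ (h40_mul_exp L _)
        rcases hv j (hj ▸ Nat.lt_succ_self _) a ha with h | h
        · have := hc 0 (Nat.zero_le _) j fun b _ hb => by
            rw [max_eq_left (Nat.zero_le a)] at hb
            exact h40_wt W hK hwt ht' ha (hb.trans ha) (h b hb)
          rwa [W.ι_zero i _ ((hy 0 (Nat.zero_le _)).2.2 (Or.inl rfl)), map_zero, Pi.zero_apply,
            sub_zero] at this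
        · have := hc L le_rfl j fun b hb hb' => by
            rw [min_eq_left ha] at hb
            rw [max_eq_right ha] at hb'
            exact h40_wt W hK hwt ht' ha hb' (h b hb hb')
          rwa [W.ι_zero i _ ((hy L le_rfl).2.2 (Or.inr rfl)), map_zero, Pi.zero_apply,
            sub_zero] at this
      · rw [W.ι_supp i _ (hy a ha).2.1 j hj, abs_zero]
        exact (Real.exp_pos _).le
    have h3 := h₂ _ _ _ _ (by positivity) (hy a ha).1 (hy a ha).2.1 hq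
    rw [mul_inv_cancel_left] at h3
    refine GamQ.mono ?_ h3
    have h4 : K * R ≤ K * T := mul_le_mul_of_nonneg_left (by linarith) (by linarith)
    have h5 : C₁ ≤ C₁ * T := le_mul_of_one_le_right (by linarith) hT1
    have h6 : C₂ ≤ C₂ * T := le_mul_of_one_le_right hC₂ hT1
    nlinarith

/-- `fellow i`, then `coord_bound` with `a = L`, `c = 0`, `y 0 = q 0 = 1`, `y L = 1` -/
theorem end_bound (i : ℕ) : ∃ C : ℝ, 1 ≤ C ∧
    ∀ (R : ℝ) (L : ℕ) (g g' : ℕ → P) (v : ℕ → Fin W.k → ℝ), 0 ≤ R →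
      W.Chain R L g → W.Chain R L g' → W.Trk R L g v → W.Trk R L g' v →
      (∀ j, W.lay j < i → W.NoVal R L v j) → g 0 = g' 0 → (g L)⁻¹ * g' L ∈ W.Q i →
      ∀ (j : Fin W.m) (D : ℝ), (∀ b ≤ L, W.wt j (v b) ≤ W.wt j (v L) + D) →
        |W.ι i ((g L)⁻¹ * g' L) j| ≤ Real.exp (D + C * (R + Real.log (L + 1) + 1)) := by
  obtain ⟨C₀, hC₀, h₀⟩ := W.fellow i
  obtain ⟨C₁, hC₁, h₁⟩ := W.coord_bound i
  obtain ⟨K, hK, hwt⟩ := W.exists_wt_le
  refine ⟨1 + 2 * K + C₁ * C₀ + C₁, by nlinarith,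
    fun R L g g' v hR hg hg' ht ht' hv e0 eL j D hD => ?_⟩
  have hl : 0 ≤ Real.log (L + 1) := Real.log_nonneg (by linarith [Nat.cast_nonneg (α := ℝ) L])
  obtain ⟨T, hT⟩ : ∃ T, T = R + Real.log (L + 1) + 1 := ⟨_, rfl⟩
  have hT1 : 1 ≤ T := by linarith
  have hRT : R ≤ C₀ * T := by nlinarith
  have e1 : (g 0)⁻¹ * g' 0 = 1 := by rw [e0, inv_mul_cancel]
  have hf := h₀ R L g g' v hR hg hg' ht ht' hv (GamQ.of_Q hR (e1 ▸ one_mem _)) (GamQ.of_Q hR eL)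
  rw [← hT] at hf ⊢
  have hy : ∀ b, ∃ y : P, b ≤ L → y ∈ W.Gam (C₀ * T) ∧ y⁻¹ * ((g b)⁻¹ * g' b) ∈ W.Q i ∧
      (b = 0 ∨ b = L → y = 1) := by
    intro b
    by_cases hb : b = 0 ∨ b = L
    · refine ⟨1, fun _ => ⟨Gam.one_mem (hR.trans hRT), ?_, fun _ => rfl⟩⟩
      rw [inv_one, one_mul]
      rcases hb with rfl | rfl
      · exact e1 ▸ one_mem _
      · exact eL
    · by_cases hbL : b ≤ L
      · obtain ⟨y, hy1, hy2⟩ := hf b hbL
        exact ⟨y, fun _ => ⟨hy1, hy2, fun h => absurd h hb⟩⟩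
      · exact ⟨1, fun h => absurd h hbL⟩
  choose y hy using hy
  have hc := h₁ (C₀ * T) (D + 2 * K * R) L g g' y (fun b => (y b)⁻¹ * ((g b)⁻¹ * g' b))
    (hR.trans hRT) (hg.mono hRT) (hg'.mono hRT)
    (fun b hb => ⟨(hy b hb).1, (hy b hb).2.1, (mul_inv_cancel_left _ _).symm⟩) L le_rfl
    0 (Nat.zero_le _) j fun b _ hb => by
      rw [max_eq_left (Nat.zero_le L)] at hb
      exact h40_wt W hK hwt ht' le_rfl hb (hD b hb)
  rw [(hy 0 (Nat.zero_le _)).2.2 (Or.inl rfl), (hy L le_rfl).2.2 (Or.inr rfl), e1, inv_one,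
    one_mul, one_mul, W.ι_one, map_zero, Pi.zero_apply, sub_zero] at hc
  refine hc.trans ((h40_mul_exp L _).trans (Real.exp_le_exp.2 ?_))
  have h4 : K * R ≤ K * T := mul_le_mul_of_nonneg_left (by linarith) (by linarith)
  have h5 : C₁ ≤ C₁ * T := le_mul_of_one_le_right (by linarith) hT1
  nlinarith

/-- **upper count**: induction on `i` with `cov_succ`, `end_bound` for `D = M j - wt j (v L - v 0) ≥ 0`;
the sum of the `wt j (v L - v 0)` over a layer vanishes (`unimod`). -/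
theorem cov_ends (i : ℕ) : ∃ C : ℝ, 1 ≤ C ∧
    ∀ (R : ℝ) (L : ℕ) (p : P) (v : ℕ → Fin W.k → ℝ) (M : Fin W.m → ℝ), 0 ≤ R →
      (∀ j, W.lay j + 1 < i → W.NoVal R L v j) → (∀ j, ∀ a ≤ L, W.wt j (v a - v 0) ≤ M j) →
      W.Cov i (W.Ends R L p v)
        (Real.exp (∑ j with W.lay j < i, M j + C * (R + Real.log (L + 1) + 1))) := by
  have hlog : ∀ L : ℕ, 0 ≤ Real.log (L + 1) := fun L =>
    Real.log_nonneg (by linarith [Nat.cast_nonneg (α := ℝ) L])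
  induction i with
  | zero =>
    refine ⟨2 * W.k + 1, by linarith [Nat.cast_nonneg (α := ℝ) W.k],
      fun R L p v M hR _ _ => ?_⟩
    refine h50_cov_mono W (W.cov_zero hR (v L) ?_) ?_
    · rintro x ⟨g, -, rfl, -, hg⟩
      exact hg L le_rfl
    · simp only [Nat.not_lt_zero, Finset.filter_false, Finset.sum_empty, zero_add]
      exact h50_pow_le hR (by linarith [hlog L]) _
  | succ i ih =>
    obtain ⟨C, hC, H⟩ := ih
    obtain ⟨C₁, hC₁, H₁⟩ := W.end_bound i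
    obtain ⟨C₂, hC₂, H₂⟩ := W.cov_succ i
    have hm : (0 : ℝ) ≤ W.m := Nat.cast_nonneg _
    refine ⟨C + C₂ + W.m * (C₁ + 1), by nlinarith, fun R L p v M hR hN hM => ?_⟩
    have h1 := H₂ (W.Ends R L p v) _
      (fun j => Real.exp (M j - W.wt j (v L - v 0) + C₁ * (R + Real.log (L + 1) + 1)))
      (fun _ => (Real.exp_pos _).le) (H R L p v M hR (fun j hj => hN j (by omega)) hM) (by
        rintro x ⟨g', h0', rfl, hc', ht'⟩ y ⟨g, h0, rfl, hc, ht⟩ hQ j _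
        refine H₁ R L g g' v hR hc hc' ht ht' (fun j hj => hN j (by omega)) (h0.trans h0'.symm) hQ
          j _ fun b hb => ?_
        have := hM j b hb
        rw [map_sub] at this ⊢
        linarith)
    refine h50_cov_mono W h1 ((h50_step _ (fun j => M j - W.wt j (v L - v 0))
      (fun j => sub_nonneg.2 (hM j L le_rfl)) (by linarith) (by linarith)
      (by linarith [hlog L])).trans (le_of_eq ?_))
    have e : ∑ j with W.lay j < i + 1, M j =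
        ∑ j with W.lay j < i, M j + ∑ j with W.lay j = i, M j := by
      simp only [Finset.sum_filter]
      rw [← Finset.sum_add_distrib]
      refine Finset.sum_congr rfl fun j _ => ?_
      split_ifs <;> first | omega | simp
    rw [Finset.sum_sub_distrib, W.unimod, sub_zero, e]

theorem count_up : ∃ C : ℝ, 1 ≤ C ∧
    ∀ (R : ℝ) (L : ℕ) (p : P) (v : ℕ → Fin W.k → ℝ) (M : Fin W.m → ℝ), 0 ≤ R →
      (∀ j, W.NoVal R L v j) → (∀ j, ∀ a ≤ L, W.wt j (v a - v 0) ≤ M j) →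
      (W.Ends R L p v).Finite ∧ ((W.Ends R L p v).ncard : ℝ) ≤
        Real.exp (∑ j, M j + C * (R + Real.log (L + 1) + 1)) := by
  obtain ⟨C, hC, H⟩ := W.cov_ends W.r
  refine ⟨C, hC, fun R L p v M hR hN hM => ?_⟩
  have h := W.cov_top (H R L p v M hR (fun j _ => hN j) hM)
  rwa [Finset.filter_true_of_mem fun j _ => W.lay_lt j] at h

end Tower

end Crest.Agent.R182
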